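import Vale.Agent.P151.MathlibUsed
import Vale.Agent.P151.KN.HandDefs
import Vale.Agent.P151.Defs

set_option linter.all false

section

section

/-! # Basic properties of `Ex` and the Markov property -/

set_option autoImplicit false

namespace Vale.Agent.P151.KN

variable {V E : Type} [Fintype E] [DecidableEq E]

theorem wt_nonneg (p : E → ℝ) (h0 : ∀ e, 0 ≤ p e) (h1 : ∀ e, p e ≤ 1) (ω : Finset E) :
    0 ≤ wt p ω := by
  unfold wt
  refine Finset.prod_nonneg fun e _ => ?_
  split_ifs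
  · exact h0 e
  · linarith [h1 e]

omit [Fintype E] in
/-- The sum over the subsets of `B` of the weights of the edges of `B` is `1`. -/
theorem sum_powerset_one (p : E → ℝ) (B : Finset E) :
    ∑ t ∈ B.powerset, ∏ e ∈ B, (if e ∈ t then p e else 1 - p e) = 1 := by
  have h := Finset.prod_add p (fun e => 1 - p e) B
  simp only [add_sub_cancel, Finset.prod_const_one] at h
  refine Eq.trans (Finset.sum_congr rfl fun t ht => ?_) h.symm
  rw [Finset.prod_ite, Finset.filter_mem_eq_inter, Finset.filter_notMem_eq_sdiff,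
    Finset.inter_eq_right.2 (Finset.mem_powerset.1 ht)]

theorem Ex_one (p : E → ℝ) : Ex p (fun _ => 1) = 1 := by
  have h := sum_powerset_one p Finset.univ
  rw [Finset.powerset_univ] at h
  simpa only [Ex, wt, mul_one] using h

/-- The sum over all configurations is the product of the sums over the configurations on two
complementary sets. -/
theorem sum_split (B : Finset E) (F G : Finset E → ℝ) :
    ∑ ω : Finset E, F (ω ∩ B) * G (ω \ B) =
      (∑ s ∈ B.powerset, F s) * ∑ t ∈ Bᶜ.powerset, G t := by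
  rw [Finset.sum_mul_sum, ← Finset.sum_product']
  symm
  refine Finset.sum_bij' (fun st _ => st.1 ∪ st.2) (fun ω _ => (ω ∩ B, ω \ B)) ?_ ?_ ?_ ?_ ?_
  · intro st _
    exact Finset.mem_univ _
  · intro ω _
    rw [Finset.mem_product, Finset.mem_powerset, Finset.mem_powerset]
    refine ⟨Finset.inter_subset_right, fun e he => ?_⟩
    rw [Finset.mem_compl]
    exact (Finset.mem_sdiff.1 he).2
  · rintro ⟨s, t⟩ h
    rw [Finset.mem_product, Finset.mem_powerset, Finset.mem_powerset] at h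
    obtain ⟨hs, ht⟩ := h
    have ht' : ∀ e ∈ t, e ∉ B := fun e he => Finset.mem_compl.1 (ht he)
    refine Prod.ext ?_ ?_
    · ext e
      simp only [Finset.mem_inter, Finset.mem_union]
      constructor
      · rintro ⟨h | h, hB⟩
        · exact h
        · exact absurd hB (ht' e h)
      · exact fun h => ⟨Or.inl h, hs h⟩
    · ext e
      simp only [Finset.mem_sdiff, Finset.mem_union]
      constructor
      · rintro ⟨h | h, hB⟩
        · exact absurd (hs h) hB
        · exact h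
      · exact fun h => ⟨Or.inr h, ht' e h⟩
  · intro ω _
    ext e
    simp only [Finset.mem_inter, Finset.mem_union, Finset.mem_sdiff]
    (clear * -; tauto)
  · rintro ⟨s, t⟩ h
    rw [Finset.mem_product, Finset.mem_powerset, Finset.mem_powerset] at h
    obtain ⟨hs, ht⟩ := h
    have ht' : ∀ e ∈ t, e ∉ B := fun e he => Finset.mem_compl.1 (ht he)
    have h1 : (s ∪ t) ∩ B = s := by
      ext e
      simp only [Finset.mem_inter, Finset.mem_union]
      constructor
      · rintro ⟨h | h, hB⟩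
        · exact h
        · exact absurd hB (ht' e h)
      · exact fun h => ⟨Or.inl h, hs h⟩
    have h2 : (s ∪ t) \ B = t := by
      ext e
      simp only [Finset.mem_sdiff, Finset.mem_union]
      constructor
      · rintro ⟨h | h, hB⟩
        · exact absurd (hs h) hB
        · exact h
      · exact fun h => ⟨Or.inr h, ht' e h⟩
    simp only [h1, h2]

open Classical in
/-- Independence of functions of disjoint sets of edges. -/
theorem Ex_mul_of_indep (p : E → ℝ) (A : Set E) (f g : Finset E → ℝ)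
    (hf : ∀ ω ω' : Finset E, (∀ e ∈ A, (e ∈ ω ↔ e ∈ ω')) → f ω = f ω')
    (hg : ∀ ω ω' : Finset E, (∀ e ∉ A, (e ∈ ω ↔ e ∈ ω')) → g ω = g ω') :
    Ex p (fun ω => f ω * g ω) = Ex p f * Ex p g := by
  obtain ⟨B, hB⟩ : ∃ B : Finset E, ∀ e, e ∈ B ↔ e ∈ A :=
    ⟨Finset.univ.filter (fun e => e ∈ A), fun e => by simp only [Finset.mem_filter, Finset.mem_univ, true_and]⟩
  -- the two partial weights
  obtain ⟨wA, hwA⟩ : ∃ wA : Finset E → ℝ,
      wA = fun s => ∏ e ∈ B, if e ∈ s then p e else 1 - p e := ⟨_, rfl⟩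
  obtain ⟨wB, hwB⟩ : ∃ wB : Finset E → ℝ,
      wB = fun s => ∏ e ∈ Bᶜ, if e ∈ s then p e else 1 - p e := ⟨_, rfl⟩
  have hw : ∀ ω : Finset E, wt p ω = wA (ω ∩ B) * wB (ω \ B) := by
    intro ω
    rw [hwA, hwB]
    unfold wt
    rw [← Finset.prod_mul_prod_compl B]
    congr 1
    · refine Finset.prod_congr rfl fun e he => ?_
      simp only [Finset.mem_inter, he, and_true]
    · refine Finset.prod_congr rfl fun e he => ?_
      simp only [Finset.mem_sdiff, Finset.mem_compl.1 he, not_false_eq_true, and_true]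
  have hf' : ∀ ω : Finset E, f ω = f (ω ∩ B) := fun ω => hf _ _ fun e he => by
    simp only [Finset.mem_inter, (hB e).2 he, and_true]
  have hg' : ∀ ω : Finset E, g ω = g (ω \ B) := fun ω => hg _ _ fun e he => by
    have he' : e ∉ B := fun h => he ((hB e).1 h)
    simp only [Finset.mem_sdiff, he', not_false_eq_true, and_true]
  have hA1 : ∑ s ∈ B.powerset, wA s = 1 := by
    rw [hwA]; exact sum_powerset_one p B
  have hB1 : ∑ s ∈ Bᶜ.powerset, wB s = 1 := by
    rw [hwB]; exact sum_powerset_one p Bᶜ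
  have e1 : Ex p (fun ω => f ω * g ω) =
      (∑ s ∈ B.powerset, wA s * f s) * ∑ t ∈ Bᶜ.powerset, wB t * g t := by
    rw [← sum_split B (fun s => wA s * f s) (fun t => wB t * g t)]
    unfold Ex
    refine Finset.sum_congr rfl fun ω _ => ?_
    show wt p ω * (f ω * g ω) = _
    rw [hw ω, hf' ω, hg' ω]
    ring
  have e2 : Ex p f = ∑ s ∈ B.powerset, wA s * f s := by
    have := sum_split B (fun s => wA s * f s) wB
    rw [hB1, mul_one] at this
    rw [← this]
    unfold Ex
    refine Finset.sum_congr rfl fun ω _ => ?_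
    rw [hw ω, hf' ω]
    ring
  have e3 : Ex p g = ∑ t ∈ Bᶜ.powerset, wB t * g t := by
    have := sum_split B wA (fun t => wB t * g t)
    rw [hA1, one_mul] at this
    rw [← this]
    unfold Ex
    refine Finset.sum_congr rfl fun ω _ => ?_
    rw [hw ω, hg' ω]
    ring
  rw [e1, e2, e3]

omit [Fintype E] [DecidableEq E] in
/-- If two configurations agree on the edges meeting `M`, and the cluster of `S` is `M` in the
first, then it is `M` in the second. -/
theorem cl_eq_of_agree (inc : E → Set V) (K S M : Set V) (ω ω' : Finset E)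
    (h : ∀ e, ¬ Disjoint (inc e) M → (e ∈ ω ↔ e ∈ ω')) (hM : cl inc ω K S = M) :
    cl inc ω' K S = M := by
  have hstart : ∀ s ∈ S, s ∉ K → s ∈ M := by
    intro s hs hK
    rw [← hM]
    exact ⟨s, hs, hK, Relation.ReflTransGen.refl⟩
  refine Set.Subset.antisymm ?_ ?_
  · rintro v ⟨s, hs, hK, hv⟩
    induction hv with
    | refl => exact hstart s hs hK
    | @tail b c _ hbc ih =>
      obtain ⟨e, he, hd, hb, hc⟩ := hbc
      have hb' := ih
      rw [← hM] at hb'
      obtain ⟨s', hs', hK', hpath⟩ := hb'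
      have heM : ¬ Disjoint (inc e) M := fun hdis => Set.disjoint_left.1 hdis hb ih
      rw [← hM]
      exact ⟨s', hs', hK', hpath.tail ⟨e, (h e heM).2 he, hd, hb, hc⟩⟩
  · intro v hv
    rw [← hM] at hv
    obtain ⟨s, hs, hK, hv⟩ := hv
    refine ⟨s, hs, hK, ?_⟩
    induction hv with
    | refl => exact Relation.ReflTransGen.refl
    | @tail b c hsb hbc ih =>
      obtain ⟨e, he, hd, hb, hc⟩ := hbc
      have hbM : b ∈ M := by
        rw [← hM]
        exact ⟨s, hs, hK, hsb⟩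
      have heM : ¬ Disjoint (inc e) M := fun hdis => Set.disjoint_left.1 hdis hb hbM
      exact ih.tail ⟨e, (h e heM).1 he, hd, hb, hc⟩

open Classical in
/-- Markov property: given that the cluster of `S` in the complement of `K` is `M`, the edges which
do not meet `M` are fresh. -/
theorem markov (p : E → ℝ) (inc : E → Set V) (K S M : Set V) (h : Finset E → ℝ)
    (hh : ∀ ω ω' : Finset E, (∀ e, Disjoint (inc e) M → (e ∈ ω ↔ e ∈ ω')) → h ω = h ω') :
    Ex p (fun ω => (if cl inc ω K S = M then 1 else 0) * h ω) =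
      Ex p (fun ω => if cl inc ω K S = M then 1 else 0) * Ex p h := by
  refine Ex_mul_of_indep p {e | ¬ Disjoint (inc e) M} _ _ ?_ ?_
  · intro ω ω' hag
    have hiff : cl inc ω K S = M ↔ cl inc ω' K S = M :=
      ⟨cl_eq_of_agree inc K S M ω ω' (fun e he => hag e he),
        cl_eq_of_agree inc K S M ω' ω (fun e he => (hag e he).symm)⟩
    simp only [hiff]
  · intro ω ω' hag
    refine hh ω ω' fun e he => hag e ?_
    simpa using he

/-- The probability that all edges are closed. -/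
theorem wt_empty (p : E → ℝ) : wt p ∅ = ∏ e, (1 - p e) := by
  unfold wt
  simp only [Finset.notMem_empty, ↓reduceIte]

end Vale.Agent.P151.KN
end

section

/-! # Harris inequality (module H, helper938) -/

set_option autoImplicit false

namespace Vale.Agent.P151.KN

variable {E : Type} [Fintype E] [DecidableEq E]

private theorem harris_wt_nonneg (p : E → ℝ) (h0 : ∀ e, 0 ≤ p e) (h1 : ∀ e, p e ≤ 1)
    (ω : Finset E) : 0 ≤ wt p ω := by
  unfold wt
  refine Finset.prod_nonneg fun e _ => ?_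
  split_ifs
  · exact h0 e
  · linarith [h1 e]

private theorem harris_wt_mul (p : E → ℝ) (a b : Finset E) :
    wt p a * wt p b = wt p (a ⊓ b) * wt p (a ⊔ b) := by
  unfold wt
  rw [← Finset.prod_mul_distrib, ← Finset.prod_mul_distrib]
  refine Finset.prod_congr rfl fun e _ => ?_
  have hinf : a ⊓ b = a ∩ b := rfl
  have hsup : a ⊔ b = a ∪ b := rfl
  rw [hinf, hsup]
  by_cases ha : e ∈ a <;> by_cases hb : e ∈ b <;> simp [ha, hb, mul_comm]

private theorem harris_sum_wt (p : E → ℝ) : ∑ ω : Finset E, wt p ω = 1 := by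
  have h := Finset.prod_add p (fun e => 1 - p e) (Finset.univ : Finset E)
  have h2 : (∏ i : E, (p i + (1 - p i))) = 1 := by
    simp only [add_sub_cancel, Finset.prod_const_one]
  rw [h2] at h
  rw [h, Finset.powerset_univ]
  refine Finset.sum_congr rfl fun ω _ => ?_
  unfold wt
  rw [Finset.prod_ite]
  congr 1
  · refine Finset.prod_congr ?_ fun _ _ => rfl
    ext e; simp only [Finset.subset_univ, Finset.filter_mem_eq_of_subset]
  · refine Finset.prod_congr ?_ fun _ _ => rfl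
    ext e; simp only [Finset.mem_filter, Finset.mem_univ, true_and, Finset.mem_sdiff]

theorem harris (p : E → ℝ) (h0 : ∀ e, 0 ≤ p e) (h1 : ∀ e, p e ≤ 1) (f g : Finset E → ℝ)
    (hf : Monotone f) (hg : Monotone g) :
    Ex p f * Ex p g ≤ Ex p (fun ω => f ω * g ω) := by
  have key := fkg (α := Finset E) (μ := wt p) (f := fun ω => f ω - f ∅)
    (g := fun ω => g ω - g ∅)
    (fun ω => harris_wt_nonneg p h0 h1 ω)
    (fun ω => sub_nonneg.mpr (hf (Finset.empty_subset ω)))
    (fun ω => sub_nonneg.mpr (hg (Finset.empty_subset ω)))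
    (fun a b hab => sub_le_sub_right (hf hab) _)
    (fun a b hab => sub_le_sub_right (hg hab) _)
    (fun a b => le_of_eq (harris_wt_mul p a b))
  have hs := harris_sum_wt p
  have e1 : ∑ a : Finset E, wt p a * (f a - f ∅) = Ex p f - f ∅ := by
    unfold Ex
    simp only [mul_sub, Finset.sum_sub_distrib, ← Finset.sum_mul]
    rw [hs, one_mul]
  have e2 : ∑ a : Finset E, wt p a * (g a - g ∅) = Ex p g - g ∅ := by
    unfold Ex
    simp only [mul_sub, Finset.sum_sub_distrib, ← Finset.sum_mul]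
    rw [hs, one_mul]
  have e3 : ∑ a : Finset E, wt p a * ((f a - f ∅) * (g a - g ∅))
      = Ex p (fun ω => f ω * g ω) - g ∅ * Ex p f - f ∅ * Ex p g + f ∅ * g ∅ := by
    have : ∀ a : Finset E, wt p a * ((f a - f ∅) * (g a - g ∅))
        = wt p a * (f a * g a) - g ∅ * (wt p a * f a) - f ∅ * (wt p a * g a)
          + wt p a * (f ∅ * g ∅) := by
      intro a; ring
    simp only [this, Finset.sum_add_distrib, Finset.sum_sub_distrib, ← Finset.mul_sum,
      ← Finset.sum_mul]
    rw [hs]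
    unfold Ex
    ring
  rw [hs, one_mul] at key
  have key2 : (Ex p f - f ∅) * (Ex p g - g ∅)
      ≤ Ex p (fun ω => f ω * g ω) - g ∅ * Ex p f - f ∅ * Ex p g + f ∅ * g ∅ := by
    rw [← e1, ← e2, ← e3]
    exact key
  nlinarith only [key2]

end Vale.Agent.P151.KN
end

section

/-! # Combinatorics of clusters (module C, helper606) -/

set_option autoImplicit false

namespace Vale.Agent.P151.KN

variable {V E : Type} (inc : E → Set V)

theorem cl_anti (ω : Finset E) {K K' : Set V} (h : K ⊆ K') (S : Set V) :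
    cl inc ω K' S ⊆ cl inc ω K S := by
  rintro v ⟨s, hs, hsK, hp⟩
  refine ⟨s, hs, fun hk => hsK (h hk), ?_⟩
  induction hp with
  | refl => exact Relation.ReflTransGen.refl
  | tail _ hstep ih =>
    obtain ⟨e, he, hd, ha, hb⟩ := hstep
    exact ih.tail ⟨e, he, hd.mono_right h, ha, hb⟩

theorem cl_mono_config {ω ω' : Finset E} (h : ω ⊆ ω') (K S : Set V) :
    cl inc ω K S ⊆ cl inc ω' K S := by
  rintro v ⟨s, hs, hsK, hp⟩
  refine ⟨s, hs, hsK, ?_⟩
  induction hp with
  | refl => exact Relation.ReflTransGen.refl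
  | tail _ hstep ih =>
    obtain ⟨e, he, hd, ha, hb⟩ := hstep
    exact ih.tail ⟨e, h he, hd, ha, hb⟩

theorem cl_union (ω : Finset E) (K S T : Set V) :
    cl inc ω K (S ∪ T) = cl inc ω K S ∪ cl inc ω K T := by
  ext v
  constructor
  · rintro ⟨s, hs | hs, hsK, hp⟩
    · exact Or.inl ⟨s, hs, hsK, hp⟩
    · exact Or.inr ⟨s, hs, hsK, hp⟩
  · rintro (⟨s, hs, hsK, hp⟩ | ⟨s, hs, hsK, hp⟩)
    · exact ⟨s, Or.inl hs, hsK, hp⟩
    · exact ⟨s, Or.inr hs, hsK, hp⟩

theorem subset_cl (ω : Finset E) (K S : Set V) : S \ K ⊆ cl inc ω K S :=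
  fun s hs => ⟨s, hs.1, hs.2, Relation.ReflTransGen.refl⟩

theorem disjoint_cl (ω : Finset E) (K S : Set V) : Disjoint (cl inc ω K S) K := by
  rw [Set.disjoint_left]
  rintro v ⟨s, _, hsK, hp⟩
  rcases Relation.ReflTransGen.cases_tail hp with h | ⟨a, _, e, _, hd, _, hb⟩
  · rw [h]; exact hsK
  · exact Set.disjoint_left.mp hd hb

/-- A step from a point of a cluster stays in the cluster. -/
theorem cl_step {ω : Finset E} {K S : Set V} {a b : V} (ha : a ∈ cl inc ω K S) {e : E}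
    (he : e ∈ ω) (hd : Disjoint (inc e) K) (h1 : a ∈ inc e) (h2 : b ∈ inc e) :
    b ∈ cl inc ω K S := by
  obtain ⟨s, hs, hsK, hp⟩ := ha
  exact ⟨s, hs, hsK, hp.tail ⟨e, he, hd, h1, h2⟩⟩

theorem path_symm (ω : Finset E) (K : Set V) {s v : V}
    (hp : Relation.ReflTransGen
      (fun a b => ∃ e ∈ ω, Disjoint (inc e) K ∧ a ∈ inc e ∧ b ∈ inc e) s v) :
    Relation.ReflTransGen
      (fun a b => ∃ e ∈ ω, Disjoint (inc e) K ∧ a ∈ inc e ∧ b ∈ inc e) v s := by
  induction hp with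
  | refl => exact Relation.ReflTransGen.refl
  | tail _ hstep ih =>
    obtain ⟨e, he, hd, ha, hb⟩ := hstep
    exact Relation.ReflTransGen.head ⟨e, he, hd, hb, ha⟩ ih

/-- A point of a cluster has the same cluster. -/
theorem cl_eq_of_mem (ω : Finset E) {K : Set V} {s v : V} (h : v ∈ cl inc ω K {s}) :
    cl inc ω K {v} = cl inc ω K {s} := by
  have hvK : v ∉ K := Set.disjoint_left.mp (disjoint_cl inc ω K {s}) h
  obtain ⟨s', hs', hsK, hp⟩ := h
  rw [Set.mem_singleton_iff] at hs'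
  subst hs'
  have hq := path_symm inc ω K hp
  ext w
  constructor
  · rintro ⟨v', hv', _, hw⟩
    rw [Set.mem_singleton_iff] at hv'
    subst hv'
    exact ⟨s', rfl, hsK, hp.trans hw⟩
  · rintro ⟨s'', hs'', _, hw⟩
    rw [Set.mem_singleton_iff] at hs''
    subst hs''
    exact ⟨v, rfl, hvK, hq.trans hw⟩

/-- The cluster of `T` does not change if we delete the cluster of `S`, disjoint from `T`. -/
theorem cl_delete (ω : Finset E) (K S T : Set V) (h : Disjoint T (cl inc ω K S)) :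
    cl inc ω (K ∪ cl inc ω K S) T = cl inc ω K T := by
  apply Set.Subset.antisymm
  · exact cl_anti inc ω Set.subset_union_left T
  · rintro v ⟨t, ht, htK, hp⟩
    have htS : t ∉ cl inc ω K S := Set.disjoint_left.mp h ht
    have key : Relation.ReflTransGen (fun a b => ∃ e ∈ ω,
        Disjoint (inc e) (K ∪ cl inc ω K S) ∧ a ∈ inc e ∧ b ∈ inc e) t v ∧
        v ∉ cl inc ω K S := by
      induction hp with
      | refl => exact ⟨Relation.ReflTransGen.refl, htS⟩
      | tail _ hstep ih =>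
        obtain ⟨ih1, ih2⟩ := ih
        obtain ⟨e, he, hd, ha, hb⟩ := hstep
        have hd' : Disjoint (inc e) (cl inc ω K S) := by
          rw [Set.disjoint_left]
          intro c hc hcS
          exact ih2 (cl_step inc hcS he hd hc ha)
        refine ⟨ih1.tail ⟨e, he, ?_, ha, hb⟩, Set.disjoint_left.mp hd' hb⟩
        rw [Set.disjoint_union_right]
        exact ⟨hd, hd'⟩
    refine ⟨t, ht, ?_, key.1⟩
    rintro (h1 | h1)
    · exact htK h1
    · exact htS h1

theorem cl_disjoint (ω : Finset E) (K S T : Set V) (h : Disjoint T (cl inc ω K S)) :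
    Disjoint (cl inc ω K T) (cl inc ω K S) := by
  rw [← cl_delete inc ω K S T h]
  exact (disjoint_cl inc ω (K ∪ cl inc ω K S) T).mono_right Set.subset_union_right

/-- `cl inc ω K S` only depends on the edges which do not meet `K`. -/
theorem cl_congr {ω ω' : Finset E} {K : Set V} (S : Set V)
    (h : ∀ e, Disjoint (inc e) K → (e ∈ ω ↔ e ∈ ω')) : cl inc ω K S = cl inc ω' K S := by
  have hrel : (fun a b => ∃ e ∈ ω, Disjoint (inc e) K ∧ a ∈ inc e ∧ b ∈ inc e) =
      (fun a b => ∃ e ∈ ω', Disjoint (inc e) K ∧ a ∈ inc e ∧ b ∈ inc e) := by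
    funext a b
    apply propext
    constructor
    · rintro ⟨e, he, hd, ha, hb⟩
      exact ⟨e, (h e hd).mp he, hd, ha, hb⟩
    · rintro ⟨e, he, hd, ha, hb⟩
      exact ⟨e, (h e hd).mpr he, hd, ha, hb⟩
  unfold cl
  rw [hrel]

theorem cl_empty_config (K S : Set V) : cl inc (∅ : Finset E) K S = S \ K := by
  apply Set.Subset.antisymm
  · rintro v ⟨s, hs, hsK, hp⟩
    rcases Relation.ReflTransGen.cases_tail hp with h | ⟨a, _, e, he, _⟩
    · rw [h]; exact ⟨hs, hsK⟩
    · exact absurd he (Finset.notMem_empty e)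
  · exact subset_cl inc ∅ K S

end Vale.Agent.P151.KN
end

section

/-! # The core induction (module D, helper509) -/

set_option autoImplicit false
set_option linter.unusedSectionVars false

namespace Vale.Agent.P151.KN

namespace Core

open Classical in
/-- The indicator of a proposition. -/
noncomputable def ind (P : Prop) : ℝ := if P then 1 else 0

theorem ind_true {P : Prop} (h : P) : ind P = 1 := if_pos h
theorem ind_false {P : Prop} (h : ¬ P) : ind P = 0 := if_neg h
theorem ind_nonneg (P : Prop) : 0 ≤ ind P := by unfold ind; split_ifs <;> norm_num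
theorem ind_mono {P Q : Prop} (h : P → Q) : ind P ≤ ind Q := by
  by_cases hP : P
  · rw [ind_true hP, ind_true (h hP)]
  · rw [ind_false hP]; exact ind_nonneg Q

section ExLemmas

variable {E : Type} [Fintype E] [DecidableEq E] (p : E → ℝ)

theorem Ex_add (f g : Finset E → ℝ) : Ex p (fun ω => f ω + g ω) = Ex p f + Ex p g := by
  unfold Ex; rw [← Finset.sum_add_distrib]; exact Finset.sum_congr rfl fun ω _ => by ring

theorem Ex_sub (f g : Finset E → ℝ) : Ex p (fun ω => f ω - g ω) = Ex p f - Ex p g := by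
  unfold Ex; rw [← Finset.sum_sub_distrib]; exact Finset.sum_congr rfl fun ω _ => by ring

theorem Ex_smul (c : ℝ) (f : Finset E → ℝ) : Ex p (fun ω => c * f ω) = c * Ex p f := by
  unfold Ex; rw [Finset.mul_sum]; exact Finset.sum_congr rfl fun ω _ => by ring

theorem Ex_const (c : ℝ) : Ex p (fun _ => c) = c := by
  have := Ex_smul p c (fun _ => 1)
  rw [Ex_one] at this
  simpa using this

theorem Ex_sum {ι : Type} (s : Finset ι) (f : ι → Finset E → ℝ) :
    Ex p (fun ω => ∑ i ∈ s, f i ω) = ∑ i ∈ s, Ex p (f i) := by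
  unfold Ex
  simp_rw [Finset.mul_sum]
  exact Finset.sum_comm

theorem Ex_mono (h0 : ∀ e, 0 ≤ p e) (h1 : ∀ e, p e ≤ 1) {f g : Finset E → ℝ}
    (h : ∀ ω, f ω ≤ g ω) : Ex p f ≤ Ex p g :=
  Finset.sum_le_sum fun ω _ => mul_le_mul_of_nonneg_left (h ω) (wt_nonneg p h0 h1 ω)

end ExLemmas

section Main

variable {V E : Type} [Fintype V] [Fintype E] [DecidableEq E] (inc : E → Set V) (p : E → ℝ)

theorem markov' (K S M : Set V) (h : Finset E → ℝ)
    (hh : ∀ ω ω' : Finset E, (∀ e, Disjoint (inc e) M → (e ∈ ω ↔ e ∈ ω')) → h ω = h ω') :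
    Ex p (fun ω => ind (cl inc ω K S = M) * h ω) =
      Ex p (fun ω => ind (cl inc ω K S = M)) * Ex p h :=
  markov p inc K S M h hh

/-- Decomposition according to the value of a cluster. -/
theorem Ex_cl (K S : Set V) (f : Finset E → ℝ) :
    Ex p f = ∑ M : Set V, Ex p (fun ω => ind (cl inc ω K S = M) * f ω) := by
  classical
  rw [← Ex_sum]
  congr 1
  funext ω
  rw [← Finset.sum_mul, Finset.sum_eq_single (cl inc ω K S)]
  · rw [ind_true rfl, one_mul]
  · intro M _ hM
    exact ind_false (fun h => hM h.symm)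
  · intro h; exact absurd (Finset.mem_univ _) h

/-- Averaging over the fresh edges given a cluster. -/
theorem Ex_fresh (K S : Set V) (g : Set V → ℝ) (h : Set V → Finset E → ℝ)
    (hh : ∀ M, ∀ ω ω' : Finset E, (∀ e, Disjoint (inc e) M → (e ∈ ω ↔ e ∈ ω')) →
      h M ω = h M ω') :
    Ex p (fun ω => g (cl inc ω K S) * h (cl inc ω K S) ω) =
      Ex p (fun ω => g (cl inc ω K S) * Ex p (h (cl inc ω K S))) := by
  rw [Ex_cl inc p K S, Ex_cl inc p K S (fun ω => g (cl inc ω K S) * Ex p (h (cl inc ω K S)))]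
  refine Finset.sum_congr rfl fun M _ => ?_
  have e1 : (fun ω => ind (cl inc ω K S = M) * (g (cl inc ω K S) * h (cl inc ω K S) ω)) =
      fun ω => g M * (ind (cl inc ω K S = M) * h M ω) := by
    funext ω
    by_cases hM : cl inc ω K S = M
    · rw [hM]; ring
    · rw [ind_false hM]; ring
  have e2 : (fun ω => ind (cl inc ω K S = M) * (g (cl inc ω K S) * Ex p (h (cl inc ω K S)))) =
      fun ω => (g M * Ex p (h M)) * ind (cl inc ω K S = M) := by
    funext ω
    by_cases hM : cl inc ω K S = M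
    · rw [hM]; ring
    · rw [ind_false hM]; ring
  rw [e1, e2, Ex_smul, Ex_smul, markov' inc p K S M (h M) (hh M)]
  ring

/-! ### Clusters -/

theorem mem_cl_iff (ω : Finset E) (K T : Set V) (v : V) :
    v ∈ cl inc ω K T ↔ ∃ t ∈ T, v ∈ cl inc ω K {t} := by
  constructor
  · rintro ⟨t, ht, htK, h⟩
    exact ⟨t, ht, t, rfl, htK, h⟩
  · rintro ⟨t, ht, s, hs, hsK, h⟩
    rw [Set.mem_singleton_iff] at hs
    subst hs
    exact ⟨s, ht, hsK, h⟩

theorem cl_mono_set (ω : Finset E) (K : Set V) {S T : Set V} (h : S ⊆ T) :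
    cl inc ω K S ⊆ cl inc ω K T := by
  rintro v ⟨t, ht, htK, h'⟩
  exact ⟨t, h ht, htK, h'⟩

theorem mem_cl_self (ω : Finset E) {K : Set V} {x : V} (h : x ∉ K) : x ∈ cl inc ω K {x} :=
  ⟨x, rfl, h, Relation.ReflTransGen.refl⟩

/-- If `t` belongs to the cluster of `S`, so does its cluster. -/
theorem cl_subset_of_mem (ω : Finset E) (K S : Set V) {t : V} (h : t ∈ cl inc ω K S) :
    cl inc ω K {t} ⊆ cl inc ω K S := by
  obtain ⟨s, hs, h⟩ := (mem_cl_iff inc ω K S t).1 h
  rw [cl_eq_of_mem inc ω h]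
  exact cl_mono_set inc ω K (Set.singleton_subset_iff.2 hs)

theorem cl_delete_one (ω : Finset E) (K S : Set V) {t : V} (h : t ∉ cl inc ω K S) :
    cl inc ω (K ∪ cl inc ω K S) {t} = cl inc ω K {t} :=
  cl_delete inc ω K S {t} (Set.disjoint_singleton_left.2 h)

/-- For `K = ∅`. -/
theorem cl_delete_one' (ω : Finset E) (S : Set V) {t : V} (h : t ∉ cl inc ω ∅ S) :
    cl inc ω (cl inc ω ∅ S) {t} = cl inc ω ∅ {t} := by
  have := cl_delete_one inc ω ∅ S h
  rwa [Set.empty_union] at this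

theorem cl_delete' (ω : Finset E) (S T : Set V) (h : Disjoint T (cl inc ω ∅ S)) :
    cl inc ω (cl inc ω ∅ S) T = cl inc ω ∅ T := by
  have := cl_delete inc ω ∅ S T h
  rwa [Set.empty_union] at this

theorem not_mem_of_not_mem (ω : Finset E) (K S : Set V) {t v : V} (h : t ∉ cl inc ω K S)
    (hv : v ∈ cl inc ω K {t}) : v ∉ cl inc ω K S := fun hv' =>
  Set.disjoint_left.1 (cl_disjoint inc ω K S {t} (Set.disjoint_singleton_left.2 h)) hv hv'

/-- Symmetry. -/
theorem not_mem_cl_iff (ω : Finset E) (S : Set V) (x : V) :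
    x ∉ cl inc ω ∅ S ↔ Disjoint S (cl inc ω ∅ {x}) := by
  constructor
  · intro h
    rw [Set.disjoint_left]
    intro s hs hsx
    have : cl inc ω ∅ {s} = cl inc ω ∅ {x} := cl_eq_of_mem inc ω hsx
    apply h
    rw [mem_cl_iff]
    exact ⟨s, hs, by rw [this]; exact mem_cl_self inc ω (by simp)⟩
  · intro h hx
    obtain ⟨s, hs, hx⟩ := (mem_cl_iff inc ω ∅ S x).1 hx
    have : cl inc ω ∅ {x} = cl inc ω ∅ {s} := cl_eq_of_mem inc ω hx
    apply Set.disjoint_left.1 h hs
    rw [this]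
    exact mem_cl_self inc ω (by simp)

theorem cl_insert (ω : Finset E) (K S : Set V) (x : V) :
    cl inc ω K (insert x S) = cl inc ω K {x} ∪ cl inc ω K S := by
  rw [Set.insert_eq, cl_union]

/-- The part of the cluster of `T` outside the cluster of `S`. -/
theorem mem_cl_delete (ω : Finset E) (S T : Set V) (v : V) :
    v ∈ cl inc ω (cl inc ω ∅ S) T ↔ v ∈ cl inc ω ∅ T ∧ v ∉ cl inc ω ∅ S := by
  constructor
  · intro h
    refine ⟨cl_anti inc ω (Set.empty_subset _) T h, ?_⟩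
    exact fun h' => Set.disjoint_left.1 (disjoint_cl inc ω _ T) h h'
  · rintro ⟨h1, h2⟩
    obtain ⟨t, ht, h⟩ := (mem_cl_iff inc ω ∅ T v).1 h1
    have htS : t ∉ cl inc ω ∅ S := fun h' => h2 (cl_subset_of_mem inc ω ∅ S h' h)
    rw [mem_cl_iff]
    refine ⟨t, ht, ?_⟩
    rw [cl_delete_one' inc ω S htS]
    exact h

/-! ### The weights -/

section Weights

variable (o : V)

/-- The functions `rho` of the proof. -/
noncomputable def rho : List V → Set V → Set V → ℝ
  | [], _, M => ind (o ∈ M)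
  | x :: L, S, M => rho L (insert x S) M - ind (x ∈ M) *
      (Ex p (fun ω => ind (Disjoint S (cl inc ω ∅ {x})) * rho L (insert x S) (cl inc ω ∅ {x})) /
        Ex p (fun ω => ind (Disjoint S (cl inc ω ∅ {x}))))

/-- The weight of `x`. -/
noncomputable def wgt (L : List V) (S : Set V) (x : V) : ℝ :=
  Ex p (fun ω => ind (Disjoint S (cl inc ω ∅ {x})) *
    rho inc p o L (insert x S) (cl inc ω ∅ {x})) /
        Ex p (fun ω => ind (Disjoint S (cl inc ω ∅ {x})))

/-- The weights. -/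
noncomputable def coef : List V → Set V → V → ℝ
  | [], _, _ => 0
  | x :: L, S, v => coef L (insert x S) v + ind (v = x) * wgt inc p o L S x

theorem rho_cons (x : V) (L : List V) (S M : Set V) :
    rho inc p o (x :: L) S M = rho inc p o L (insert x S) M - ind (x ∈ M) * wgt inc p o L S x :=
  rfl

theorem coef_cons (x : V) (L : List V) (S : Set V) (v : V) :
    coef inc p o (x :: L) S v = coef inc p o L (insert x S) v + ind (v = x) * wgt inc p o L S x :=
  rfl

theorem rho_eq (L : List V) (S M : Set V) :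
    rho inc p o L S M = ind (o ∈ M) - ∑ v, coef inc p o L S v * ind (v ∈ M) := by
  induction L generalizing S with
  | nil => simp only [rho, coef, zero_mul, Finset.sum_const_zero, sub_zero]
  | cons x L ih =>
    rw [rho_cons, ih (insert x S)]
    simp only [coef_cons, add_mul, Finset.sum_add_distrib]
    have : ∑ v, ind (v = x) * wgt inc p o L S x * ind (v ∈ M) =
        ind (x ∈ M) * wgt inc p o L S x := by
      rw [Finset.sum_eq_single x]
      · rw [ind_true rfl]; ring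
      · intro v _ hv
        rw [ind_false hv]; ring
      · intro h; exact absurd (Finset.mem_univ _) h
    rw [this]
    ring

/-- The sum over the suffixes. -/
noncomputable def tot (F : Set V → ℝ) (ω : Finset E) : List V → Set V → ℝ
  | [], _ => 0
  | x :: L, S => ind (Disjoint S (cl inc ω ∅ {x})) * rho inc p o (x :: L) S (cl inc ω ∅ {x}) *
      F (cl inc ω ∅ {x}) + tot F ω L (insert x S)

theorem tot_cons (F : Set V → ℝ) (ω : Finset E) (x : V) (L : List V) (S : Set V) :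
    tot inc p o F ω (x :: L) S = ind (Disjoint S (cl inc ω ∅ {x})) *
      rho inc p o (x :: L) S (cl inc ω ∅ {x}) * F (cl inc ω ∅ {x}) +
        tot inc p o F ω L (insert x S) := rfl

theorem tot_eq (F : Set V → ℝ) (ω : Finset E) (L : List V) (S : Set V) :
    tot inc p o F ω L S =
      ind (o ∈ cl inc ω ∅ {v | v ∈ L} ∧ o ∉ cl inc ω ∅ S) * F (cl inc ω ∅ {o}) -
        ∑ v, coef inc p o L S v * (ind (v ∉ cl inc ω ∅ S) * F (cl inc ω ∅ {v})) := by
  induction L generalizing S with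
  | nil =>
    have : o ∉ cl inc ω ∅ {v : V | v ∈ ([] : List V)} := by
      rintro ⟨s, hs, -⟩
      simp at hs
    rw [ind_false (fun h => this h.1)]
    simp only [tot, zero_mul, coef, Finset.sum_const_zero, sub_self]
  | cons x L ih =>
    rw [tot_cons, ih (insert x S)]
    have hins : {v : V | v ∈ x :: L} = insert x {v : V | v ∈ L} := by
      ext v; simp
    rw [hins, cl_insert, cl_insert, rho_eq]
    by_cases hx : x ∈ cl inc ω ∅ S
    · have hsub := cl_subset_of_mem inc ω ∅ S hx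
      have hd : ¬ Disjoint S (cl inc ω ∅ {x}) := fun h =>
        (not_mem_cl_iff inc ω S x).2 h hx
      rw [ind_false hd, Set.union_eq_right.2 hsub]
      have e1 : ind (o ∈ cl inc ω ∅ {x} ∪ cl inc ω ∅ {v | v ∈ L} ∧ o ∉ cl inc ω ∅ S) =
          ind (o ∈ cl inc ω ∅ {v | v ∈ L} ∧ o ∉ cl inc ω ∅ S) := by
        congr 1
        apply propext
        constructor
        · rintro ⟨h1 | h1, h2⟩
          · exact absurd (hsub h1) h2
          · exact ⟨h1, h2⟩
        · rintro ⟨h1, h2⟩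
          exact ⟨Or.inr h1, h2⟩
      rw [e1]
      have e2 : ∑ v, coef inc p o (x :: L) S v *
          (ind (v ∉ cl inc ω ∅ S) * F (cl inc ω ∅ {v})) =
          ∑ v, coef inc p o L (insert x S) v *
            (ind (v ∉ cl inc ω ∅ S) * F (cl inc ω ∅ {v})) := by
        refine Finset.sum_congr rfl fun v _ => ?_
        rw [coef_cons]
        by_cases hv : v = x
        · subst hv
          rw [ind_false (P := v ∉ cl inc ω ∅ S) (fun h => h hx)]
          ring
        · rw [ind_false hv]; ring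
      rw [e2]
      ring
    · have hd : Disjoint S (cl inc ω ∅ {x}) := (not_mem_cl_iff inc ω S x).1 hx
      have hdis : ∀ v, v ∈ cl inc ω ∅ {x} → v ∉ cl inc ω ∅ S := fun v hv =>
        not_mem_of_not_mem inc ω ∅ S hx hv
      have heq : ∀ v, v ∈ cl inc ω ∅ {x} → cl inc ω ∅ {v} = cl inc ω ∅ {x} := fun v hv =>
        cl_eq_of_mem inc ω hv
      rw [ind_true hd]
      have e1 : ind (o ∈ cl inc ω ∅ {x} ∪ cl inc ω ∅ {v | v ∈ L} ∧ o ∉ cl inc ω ∅ S) *
          F (cl inc ω ∅ {o}) = ind (o ∈ cl inc ω ∅ {x}) * F (cl inc ω ∅ {x}) +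
          ind (o ∈ cl inc ω ∅ {v | v ∈ L} ∧ o ∉ cl inc ω ∅ {x} ∪ cl inc ω ∅ S) *
            F (cl inc ω ∅ {o}) := by
        by_cases ho : o ∈ cl inc ω ∅ {x}
        · rw [ind_true ho, ind_true ⟨Or.inl ho, hdis o ho⟩, ind_false, heq o ho]
          · ring
          · rintro ⟨-, h⟩
            exact h (Or.inl ho)
        · rw [ind_false ho]
          have : (o ∈ cl inc ω ∅ {x} ∪ cl inc ω ∅ {v | v ∈ L} ∧ o ∉ cl inc ω ∅ S) =
              (o ∈ cl inc ω ∅ {v | v ∈ L} ∧ o ∉ cl inc ω ∅ {x} ∪ cl inc ω ∅ S) := by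
            apply propext
            simp only [Set.mem_union]
            (clear * - ho; tauto)
          rw [this]
          ring
      have e2 : ∑ v, coef inc p o (x :: L) S v *
          (ind (v ∉ cl inc ω ∅ S) * F (cl inc ω ∅ {v})) =
          (∑ v, coef inc p o (x :: L) S v * ind (v ∈ cl inc ω ∅ {x})) * F (cl inc ω ∅ {x}) +
          ∑ v, coef inc p o L (insert x S) v *
            (ind (v ∉ cl inc ω ∅ {x} ∪ cl inc ω ∅ S) * F (cl inc ω ∅ {v})) := by
        rw [Finset.sum_mul, ← Finset.sum_add_distrib]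
        refine Finset.sum_congr rfl fun v _ => ?_
        by_cases hv : v ∈ cl inc ω ∅ {x}
        · rw [ind_true hv, ind_true (hdis v hv), ind_false, heq v hv]
          · ring
          · exact fun h => h (Or.inl hv)
        · have hvx : v ≠ x := by
            rintro rfl
            exact hv (mem_cl_self inc ω (by simp))
          have : (v ∉ cl inc ω ∅ {x} ∪ cl inc ω ∅ S) = (v ∉ cl inc ω ∅ S) := by
            apply propext
            simp only [Set.mem_union]
            (clear * - hv; tauto)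
          rw [ind_false hv, this, coef_cons, ind_false hvx]
          ring
      rw [e1, e2]
      ring

/-- The functional of the main claim. -/
noncomputable def TT (x : V) (L : List V) (S : Set V) (φ : Set V → ℝ) : ℝ :=
  Ex p (fun ω => ind (Disjoint S (cl inc ω ∅ {x})) * rho inc p o (x :: L) S (cl inc ω ∅ {x}) *
    φ (cl inc ω ∅ {x}))

/-- The main claim for all the suffixes. -/
def QQ : List V → Set V → Prop
  | [], _ => True
  | x :: L, S => (∀ φ : Set V → ℝ, Monotone φ → 0 ≤ TT inc p o x L S φ) ∧ QQ L (insert x S)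

/-- The average of `φ` of the cluster of `x` after deletion of `M`. -/
noncomputable def psi (x : V) (φ : Set V → ℝ) (M : Set V) : ℝ :=
  Ex p (fun ω => φ (cl inc ω M {x}))

theorem psi_anti (h0 : ∀ e, 0 ≤ p e) (h1 : ∀ e, p e ≤ 1) (x : V) {φ : Set V → ℝ}
    (hφ : Monotone φ) : Antitone (psi inc p x φ) := fun _ _ h =>
  Ex_mono p h0 h1 fun ω => hφ (cl_anti inc ω h {x})

/-- The function `D` of the proof. -/
noncomputable def DD (x : V) (S : Set V) (φ : Set V → ℝ) (Z : Set V) : ℝ :=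
  Ex p (fun ω => ind (x ∉ cl inc ω Z S) *
    (psi inc p x φ (cl inc ω Z S) - φ (cl inc ω Z {x})))

theorem DD_eq (x : V) (S : Set V) (φ : Set V → ℝ) (Z : Set V) :
    DD inc p x S φ Z = Ex p (fun ω => ind (x ∉ cl inc ω Z S) *
      (φ (cl inc ω (cl inc ω Z S) {x}) - φ (cl inc ω Z {x}))) := by
  have h := Ex_fresh inc p Z S (fun M => ind (x ∉ M)) (fun M ω => φ (cl inc ω M {x}))
    (fun M ω ω' h => by rw [cl_congr inc {x} h])
  unfold DD
  simp only [mul_sub]
  rw [Ex_sub, Ex_sub]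
  congr 1
  exact h.symm

theorem DD_mono (h0 : ∀ e, 0 ≤ p e) (h1 : ∀ e, p e ≤ 1) (x : V) (S : Set V) {φ : Set V → ℝ}
    (hφ : Monotone φ) : Monotone (DD inc p x S φ) := by
  intro Z Z' hZ
  rw [DD_eq, DD_eq]
  refine Ex_mono p h0 h1 fun ω => ?_
  have hsub : cl inc ω Z' S ⊆ cl inc ω Z S := cl_anti inc ω hZ S
  by_cases hx : x ∈ cl inc ω Z S
  · rw [ind_false (fun h => h hx), zero_mul]
    by_cases hx' : x ∈ cl inc ω Z' S
    · rw [ind_false (fun h => h hx'), zero_mul]
    · rw [ind_true hx', one_mul, sub_nonneg]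
      apply hφ
      rw [← cl_delete_one inc ω Z' S hx']
      exact cl_anti inc ω Set.subset_union_right {x}
  · have hx' : x ∉ cl inc ω Z' S := fun h => hx (hsub h)
    rw [ind_true hx, ind_true hx', one_mul, one_mul]
    have e1 := hφ (cl_anti inc ω hsub {x})
    have e2 := hφ (cl_anti inc ω hZ {x})
    linarith only [e1, e2]

/-- Step (c). -/
theorem step_c (x : V) (S : Set V) (h0 : ∀ e, 0 ≤ p e) (h1 : ∀ e, p e ≤ 1) {φ : Set V → ℝ}
    (hφ : Monotone φ) (L : List V) (P : Set V) (hP : insert x S ⊆ P) (hQ : QQ inc p o L P) :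
    0 ≤ Ex p (fun ω => tot inc p o (fun _ => 1) ω L P * (ind (Disjoint S (cl inc ω ∅ {x})) *
      (psi inc p x φ (cl inc ω ∅ S) - φ (cl inc ω ∅ {x})))) := by
  induction L generalizing P with
  | nil =>
    have : (fun ω => tot inc p o (fun _ => 1) ω [] P * (ind (Disjoint S (cl inc ω ∅ {x})) *
      (psi inc p x φ (cl inc ω ∅ S) - φ (cl inc ω ∅ {x})))) = fun _ => 0 := by
      funext ω
      change (0 : ℝ) * _ = 0
      rw [zero_mul]
    rw [this, Ex_const]
  | cons m L ih =>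
    obtain ⟨hT, hQ⟩ := hQ
    have e1 : (fun ω => tot inc p o (fun _ => 1) ω (m :: L) P *
        (ind (Disjoint S (cl inc ω ∅ {x})) *
        (psi inc p x φ (cl inc ω ∅ S) - φ (cl inc ω ∅ {x})))) = fun ω =>
        (ind (Disjoint P (cl inc ω ∅ {m})) * rho inc p o (m :: L) P (cl inc ω ∅ {m})) *
          (ind (x ∉ cl inc ω (cl inc ω ∅ {m}) S) *
          (psi inc p x φ (cl inc ω (cl inc ω ∅ {m}) S) - φ (cl inc ω (cl inc ω ∅ {m}) {x}))) +
        tot inc p o (fun _ => 1) ω L (insert m P) * (ind (Disjoint S (cl inc ω ∅ {x})) *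
      (psi inc p x φ (cl inc ω ∅ S) - φ (cl inc ω ∅ {x}))) := by
      funext ω
      rw [tot_cons]
      by_cases hd : Disjoint P (cl inc ω ∅ {m})
      · have hS : Disjoint S (cl inc ω ∅ {m}) :=
          hd.mono_left ((Set.subset_insert x S).trans hP)
        have hx : x ∉ cl inc ω ∅ {m} :=
          Set.disjoint_left.1 hd (hP (Set.mem_insert x S))
        rw [cl_delete' inc ω {m} S hS, cl_delete_one' inc ω {m} hx,
          show (x ∉ cl inc ω ∅ S) = Disjoint S (cl inc ω ∅ {x}) from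
            propext (not_mem_cl_iff inc ω S x)]
        ring
      · rw [ind_false hd]
        ring
    rw [e1, Ex_add]
    have e2 := Ex_fresh inc p ∅ {m} (fun M => ind (Disjoint P M) * rho inc p o (m :: L) P M)
      (fun M ω => ind (x ∉ cl inc ω M S) *
          (psi inc p x φ (cl inc ω M S) - φ (cl inc ω M {x})))
      (fun M ω ω' h => by rw [cl_congr inc {x} h, cl_congr inc S h])
    rw [e2]
    have h2 := hT _ (DD_mono inc p h0 h1 x S hφ)
    exact add_nonneg h2 (ih (insert m P) (hP.trans (Set.subset_insert m P)) hQ)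

/-- Step (b): Harris. -/
theorem step_b (x : V) (S : Set V) (h0 : ∀ e, 0 ≤ p e) (h1 : ∀ e, p e ≤ 1) {φ : Set V → ℝ}
    (hφ : Monotone φ) (L : List V) :
    Ex p (fun ω => ind (Disjoint S (cl inc ω ∅ {x})) *
      (tot inc p o (fun _ => 1) ω (x :: L) S * psi inc p x φ (cl inc ω ∅ S))) ≤
    Ex p (fun ω => ind (Disjoint S (cl inc ω ∅ {x})) *
      (tot inc p o (fun _ => 1) ω (x :: L) S * φ (cl inc ω ∅ {x}))) := by
  let U : Set V → Finset E → ℝ := fun M ω =>
    ind (o ∈ cl inc ω M {v | v ∈ x :: L}) - ∑ v, coef inc p o (x :: L) S v * ind (v ∉ M)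
  have hU : ∀ ω, tot inc p o (fun _ => 1) ω (x :: L) S = U (cl inc ω ∅ S) ω := by
    intro ω
    rw [tot_eq]
    simp only [mul_one]
    have : (o ∈ cl inc ω ∅ {v | v ∈ x :: L} ∧ o ∉ cl inc ω ∅ S) =
        (o ∈ cl inc ω (cl inc ω ∅ S) {v | v ∈ x :: L}) :=
      propext (mem_cl_delete inc ω S _ o).symm
    rw [this]
  have hUc : ∀ M, ∀ ω ω' : Finset E, (∀ e, Disjoint (inc e) M → (e ∈ ω ↔ e ∈ ω')) →
      U M ω = U M ω' := by
    intro M ω ω' h
    change ind _ - _ = ind _ - _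
    rw [cl_congr inc _ h]
  have hUm : ∀ M, Monotone (U M) := by
    intro M ω ω' h
    exact sub_le_sub_right (ind_mono fun ho => cl_mono_config inc h M _ ho) _
  have e1 := Ex_fresh inc p ∅ S (fun M => ind (x ∉ M))
    (fun M ω => U M ω * psi inc p x φ M) (fun M ω ω' h => by rw [hUc M ω ω' h])
  have e2 := Ex_fresh inc p ∅ S (fun M => ind (x ∉ M))
    (fun M ω => U M ω * φ (cl inc ω M {x}))
    (fun M ω ω' h => by rw [hUc M ω ω' h, cl_congr inc {x} h])
  have f1 : (fun ω => ind (Disjoint S (cl inc ω ∅ {x})) *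
      (tot inc p o (fun _ => 1) ω (x :: L) S * psi inc p x φ (cl inc ω ∅ S))) = fun ω =>
      ind (x ∉ cl inc ω ∅ S) * (U (cl inc ω ∅ S) ω * psi inc p x φ (cl inc ω ∅ S)) := by
    funext ω
    rw [hU, show (x ∉ cl inc ω ∅ S) = Disjoint S (cl inc ω ∅ {x}) from
            propext (not_mem_cl_iff inc ω S x)]
  have f2 : (fun ω => ind (Disjoint S (cl inc ω ∅ {x})) *
      (tot inc p o (fun _ => 1) ω (x :: L) S * φ (cl inc ω ∅ {x}))) = fun ω =>
      ind (x ∉ cl inc ω ∅ S) * (U (cl inc ω ∅ S) ω * φ (cl inc ω (cl inc ω ∅ S) {x})) := by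
    funext ω
    by_cases hx : x ∈ cl inc ω ∅ S
    · rw [ind_false (P := x ∉ cl inc ω ∅ S) (fun h => h hx),
        ind_false (fun h => (not_mem_cl_iff inc ω S x).2 h hx)]
      ring
    · rw [ind_true hx, ind_true ((not_mem_cl_iff inc ω S x).1 hx), hU,
        cl_delete_one' inc ω S hx]
  rw [f1, f2, e1, e2]
  refine Ex_mono p h0 h1 fun ω => mul_le_mul_of_nonneg_left ?_ (ind_nonneg _)
  have h := harris p h0 h1 (U (cl inc ω ∅ S)) (fun ω' => φ (cl inc ω' (cl inc ω ∅ S) {x}))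
    (hUm _) (fun ω1 ω2 h => hφ (cl_mono_config inc h _ _))
  refine le_trans (le_of_eq ?_) h
  have : (fun ω' => U (cl inc ω ∅ S) ω' * psi inc p x φ (cl inc ω ∅ S)) = fun ω' =>
      psi inc p x φ (cl inc ω ∅ S) * U (cl inc ω ∅ S) ω' := by
    funext ω'; ring
  rw [this, Ex_smul, mul_comm]
  rfl

/-- The two-step kernel. -/
noncomputable def ker (x : V) (S : Set V) (φ : Set V → ℝ) (Y : Set V) : ℝ :=
  Ex p (fun ω => psi inc p x φ (cl inc ω Y S))

theorem ker_mono (h0 : ∀ e, 0 ≤ p e) (h1 : ∀ e, p e ≤ 1) (x : V) (S : Set V) {φ : Set V → ℝ}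
    (hφ : Monotone φ) : Monotone (ker inc p x S φ) := fun _ _ h =>
  Ex_mono p h0 h1 fun ω => psi_anti inc p h0 h1 x hφ (cl_anti inc ω h S)

/-- Step (d). -/
theorem step_d (x : V) (S : Set V) (φ : Set V → ℝ) (L : List V) :
    TT inc p o x L S (ker inc p x S φ) = Ex p (fun ω => ind (Disjoint S (cl inc ω ∅ {x})) *
      rho inc p o (x :: L) S (cl inc ω ∅ {x}) * psi inc p x φ (cl inc ω ∅ S)) := by
  have e := Ex_fresh inc p ∅ {x} (fun M => ind (Disjoint S M) * rho inc p o (x :: L) S M)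
    (fun M ω => psi inc p x φ (cl inc ω M S)) (fun M ω ω' h => by rw [cl_congr inc S h])
  refine e.symm.trans ?_
  congr 1
  funext ω
  by_cases hd : Disjoint S (cl inc ω ∅ {x})
  · rw [cl_delete' inc ω {x} S hd]
  · rw [ind_false hd]; ring

/-- One step of the iteration. -/
theorem TT_ker_le (x : V) (S : Set V) (h0 : ∀ e, 0 ≤ p e) (h1 : ∀ e, p e ≤ 1) {φ : Set V → ℝ}
    (hφ : Monotone φ) (L : List V) (hQ : QQ inc p o L (insert x S)) :
    TT inc p o x L S (ker inc p x S φ) ≤ TT inc p o x L S φ := by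
  have hb := step_b inc p o x S h0 h1 hφ L
  have hc := step_c inc p o x S h0 h1 hφ L (insert x S) subset_rfl hQ
  rw [step_d]
  rw [← sub_nonneg] at hb ⊢
  rw [← Ex_sub] at hb
  unfold TT
  rw [← Ex_sub]
  have hs := add_nonneg hb hc
  rw [← Ex_add] at hs
  refine le_of_le_of_eq hs ?_
  congr 1
  funext ω
  rw [tot_cons]
  by_cases hd : Disjoint S (cl inc ω ∅ {x})
  · rw [ind_true hd]; ring
  · rw [ind_false hd]; ring

/-! ### The iteration -/

theorem ker_iter_mono (h0 : ∀ e, 0 ≤ p e) (h1 : ∀ e, p e ≤ 1) (x : V) (S : Set V)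
    {φ : Set V → ℝ} (hφ : Monotone φ) (n : ℕ) : Monotone ((ker inc p x S)^[n] φ) := by
  induction n with
  | zero => exact hφ
  | succ n ih =>
    rw [Function.iterate_succ_apply']
    exact ker_mono inc p h0 h1 x S ih

theorem TT_iter_le (x : V) (S : Set V) (h0 : ∀ e, 0 ≤ p e) (h1 : ∀ e, p e ≤ 1) {φ : Set V → ℝ}
    (hφ : Monotone φ) (L : List V) (hQ : QQ inc p o L (insert x S)) (n : ℕ) :
    TT inc p o x L S ((ker inc p x S)^[n] φ) ≤ TT inc p o x L S φ := by
  induction n with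
  | zero => exact le_rfl
  | succ n ih =>
    rw [Function.iterate_succ_apply']
    exact (TT_ker_le inc p o x S h0 h1 (ker_iter_mono inc p h0 h1 x S hφ n) L hQ).trans ih

theorem Ex_ge_empty (h0 : ∀ e, 0 ≤ p e) (h1 : ∀ e, p e ≤ 1) (f : Finset E → ℝ) (a : ℝ)
    (hf : ∀ ω, a ≤ f ω) : a + wt p ∅ * (f ∅ - a) ≤ Ex p f := by
  have h : wt p ∅ * (f ∅ - a) ≤ Ex p (fun ω => f ω - a) := by
    unfold Ex
    exact Finset.single_le_sum (f := fun ω => wt p ω * (f ω - a))
      (fun ω _ => mul_nonneg (wt_nonneg p h0 h1 ω) (sub_nonneg.2 (hf ω))) (Finset.mem_univ ∅)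
  rw [Ex_sub, Ex_const] at h
  linarith

theorem Ex_le_empty (h0 : ∀ e, 0 ≤ p e) (h1 : ∀ e, p e ≤ 1) (f : Finset E → ℝ) (b : ℝ)
    (hf : ∀ ω, f ω ≤ b) : Ex p f ≤ b - wt p ∅ * (b - f ∅) := by
  have h : wt p ∅ * (b - f ∅) ≤ Ex p (fun ω => b - f ω) := by
    unfold Ex
    exact Finset.single_le_sum (f := fun ω => wt p ω * (b - f ω))
      (fun ω _ => mul_nonneg (wt_nonneg p h0 h1 ω) (sub_nonneg.2 (hf ω))) (Finset.mem_univ ∅)
  rw [Ex_sub, Ex_const] at h
  linarith

theorem ker_bounds (h0 : ∀ e, 0 ≤ p e) (h1 : ∀ e, p e ≤ 1) (x : V) (S : Set V)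
    (φ : Set V → ℝ) (a b : ℝ) (hφ : ∀ Y, Disjoint S Y → a ≤ φ Y ∧ φ Y ≤ b) :
    ∃ a' b', b' - a' = (1 - wt p ∅) * (b - a) ∧
      ∀ Y, Disjoint S Y → a' ≤ ker inc p x S φ Y ∧ ker inc p x S φ Y ≤ b' := by
  have hpsi : ∀ M, S ⊆ M → a ≤ psi inc p x φ M ∧ psi inc p x φ M ≤ b := by
    intro M hM
    have hd : ∀ ω, Disjoint S (cl inc ω M {x}) := fun ω =>
      ((disjoint_cl inc ω M {x}).mono_right hM).symm
    constructor
    · rw [← Ex_const p a]
      exact Ex_mono p h0 h1 fun ω => (hφ _ (hd ω)).1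
    · rw [← Ex_const p b]
      exact Ex_mono p h0 h1 fun ω => (hφ _ (hd ω)).2
  refine ⟨a + wt p ∅ * (psi inc p x φ S - a), b - wt p ∅ * (b - psi inc p x φ S), by ring, ?_⟩
  intro Y hY
  have hS : ∀ ω, S ⊆ cl inc ω Y S := fun ω s hs =>
    subset_cl inc ω Y S ⟨hs, Set.disjoint_left.1 hY hs⟩
  have he : cl inc ∅ Y S = S := by
    rw [cl_empty_config]
    exact hY.sdiff_eq_left
  constructor
  · have := Ex_ge_empty p h0 h1 (fun ω => psi inc p x φ (cl inc ω Y S)) a
      (fun ω => (hpsi _ (hS ω)).1)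
    simp only [he] at this
    exact this
  · have := Ex_le_empty p h0 h1 (fun ω => psi inc p x φ (cl inc ω Y S)) b
      (fun ω => (hpsi _ (hS ω)).2)
    simp only [he] at this
    exact this

theorem iter_bounds (h0 : ∀ e, 0 ≤ p e) (h1 : ∀ e, p e ≤ 1) (x : V) (S : Set V)
    (φ : Set V → ℝ) (a b : ℝ) (hφ : ∀ Y, Disjoint S Y → a ≤ φ Y ∧ φ Y ≤ b) (n : ℕ) :
    ∃ a' b', b' - a' = (1 - wt p ∅) ^ n * (b - a) ∧
      ∀ Y, Disjoint S Y → a' ≤ (ker inc p x S)^[n] φ Y ∧ (ker inc p x S)^[n] φ Y ≤ b' := by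
  induction n with
  | zero => exact ⟨a, b, by simp, hφ⟩
  | succ n ih =>
    obtain ⟨a', b', hab, h⟩ := ih
    obtain ⟨a'', b'', hab', h'⟩ := ker_bounds inc p h0 h1 x S _ a' b' h
    refine ⟨a'', b'', by rw [hab', hab]; ring, ?_⟩
    rw [Function.iterate_succ_apply']
    exact h'

theorem wt_empty_pos (h1 : ∀ e, p e < 1) : 0 < wt p ∅ := by
  rw [wt_empty]
  exact Finset.prod_pos fun e _ => by linarith [h1 e]

theorem wt_empty_le (h0 : ∀ e, 0 ≤ p e) (h1 : ∀ e, p e ≤ 1) : wt p ∅ ≤ 1 := by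
  rw [wt_empty]
  exact Finset.prod_le_one (fun e _ => by linarith only [h1 e]) fun e _ => by linarith only [h0 e]

theorem den_pos (h0 : ∀ e, 0 ≤ p e) (h1 : ∀ e, p e < 1) {x : V} {S : Set V} (hx : x ∉ S) :
    0 < Ex p (fun ω => ind (Disjoint S (cl inc ω ∅ {x}))) := by
  have h := Ex_ge_empty p h0 (fun e => (h1 e).le)
    (fun ω => ind (Disjoint S (cl inc ω ∅ {x}))) 0 (fun ω => ind_nonneg _)
  have he : Disjoint S (cl inc ∅ ∅ {x}) := by
    rw [cl_empty_config, Set.sdiff_empty]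
    exact Set.disjoint_singleton_right.2 hx
  rw [ind_true he] at h
  have := wt_empty_pos p h1
  linarith only [h, this]

theorem TT_const (h0 : ∀ e, 0 ≤ p e) (h1 : ∀ e, p e < 1) {x : V} {S : Set V} (hx : x ∉ S)
    (L : List V) (c : ℝ) : TT inc p o x L S (fun _ => c) = 0 := by
  have hd := (den_pos inc p h0 h1 hx).ne'
  unfold TT
  have : (fun ω => ind (Disjoint S (cl inc ω ∅ {x})) *
      rho inc p o (x :: L) S (cl inc ω ∅ {x}) * c) = fun ω =>
      c * (ind (Disjoint S (cl inc ω ∅ {x})) * rho inc p o L (insert x S) (cl inc ω ∅ {x})) -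
      (c * wgt inc p o L S x) * ind (Disjoint S (cl inc ω ∅ {x})) := by
    funext ω
    rw [rho_cons, ind_true (mem_cl_self inc ω (by simp : x ∉ (∅ : Set V)))]
    ring
  rw [this, Ex_sub, Ex_smul, Ex_smul]
  unfold wgt
  field_simp
  ring

theorem TT_lower (h0 : ∀ e, 0 ≤ p e) (h1 : ∀ e, p e < 1) {x : V} {S : Set V} (hx : x ∉ S)
    (L : List V) (φ : Set V → ℝ) (a b : ℝ) (hφ : ∀ Y, Disjoint S Y → a ≤ φ Y ∧ φ Y ≤ b) :
    -(Ex p (fun ω => |ind (Disjoint S (cl inc ω ∅ {x})) *
      rho inc p o (x :: L) S (cl inc ω ∅ {x})|) * (b - a)) ≤ TT inc p o x L S φ := by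
  have h := TT_const inc p o h0 h1 hx L a
  have e : TT inc p o x L S φ = TT inc p o x L S φ - TT inc p o x L S (fun _ => a) := by
    rw [h, sub_zero]
  rw [e]
  unfold TT
  rw [← Ex_sub, mul_comm, ← neg_mul, ← Ex_smul]
  refine Ex_mono p h0 (fun e => (h1 e).le) fun ω => ?_
  by_cases hd : Disjoint S (cl inc ω ∅ {x})
  · obtain ⟨h2, h3⟩ := hφ _ hd
    rw [← mul_sub]
    have h4 := neg_abs_le (ind (Disjoint S (cl inc ω ∅ {x})) *
      rho inc p o (x :: L) S (cl inc ω ∅ {x}))
    have h5 := abs_nonneg (ind (Disjoint S (cl inc ω ∅ {x})) *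
      rho inc p o (x :: L) S (cl inc ω ∅ {x}))
    nlinarith only [h2, h4, h3, h5]
  · rw [ind_false hd]
    simp

theorem TT_nonneg (h0 : ∀ e, 0 ≤ p e) (h1 : ∀ e, p e < 1) {x : V} {S : Set V} (hx : x ∉ S)
    (L : List V) (hQ : QQ inc p o L (insert x S)) {φ : Set V → ℝ} (hφ : Monotone φ) :
    0 ≤ TT inc p o x L S φ := by
  have h1' : ∀ e, p e ≤ 1 := fun e => (h1 e).le
  set B := Ex p (fun ω => |ind (Disjoint S (cl inc ω ∅ {x})) *
      rho inc p o (x :: L) S (cl inc ω ∅ {x})|) with hB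
  have hb : ∀ Y, Disjoint S Y → φ ∅ ≤ φ Y ∧ φ Y ≤ φ Set.univ := fun Y _ =>
    ⟨hφ (Set.empty_subset Y), hφ (Set.subset_univ Y)⟩
  have key : ∀ n : ℕ, -(B * ((1 - wt p ∅) ^ n * (φ Set.univ - φ ∅))) ≤
      TT inc p o x L S φ := by
    intro n
    obtain ⟨a', b', hab, h⟩ := iter_bounds inc p h0 h1' x S φ _ _ hb n
    have h2 := TT_lower inc p o h0 h1 hx L _ a' b' h
    rw [hab] at h2
    exact h2.trans (TT_iter_le inc p o x S h0 h1' hφ L hQ n)
  have hlim : Filter.Tendsto (fun n : ℕ => -(B * ((1 - wt p ∅) ^ n * (φ Set.univ - φ ∅))))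
      Filter.atTop (nhds (-(B * (0 * (φ Set.univ - φ ∅))))) := by
    have h3 : Filter.Tendsto (fun n : ℕ => (1 - wt p ∅) ^ n) Filter.atTop (nhds 0) := by
      apply tendsto_pow_atTop_nhds_zero_of_lt_one
      · linarith only [wt_empty_le p h0 h1']
      · linarith only [wt_empty_pos p h1]
    exact ((h3.mul_const _).const_mul B).neg
  rw [zero_mul, mul_zero, neg_zero] at hlim
  exact le_of_tendsto' hlim key

theorem QQ_all (h0 : ∀ e, 0 ≤ p e) (h1 : ∀ e, p e < 1) (L : List V) (S : Set V)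
    (hL : L.Nodup) (hS : ∀ x ∈ L, x ∉ S) : QQ inc p o L S := by
  induction L generalizing S with
  | nil => trivial
  | cons x L ih =>
    have hL' := List.nodup_cons.1 hL
    have hQ : QQ inc p o L (insert x S) := by
      apply ih _ hL'.2
      intro y hy hyS
      rcases hyS with rfl | hyS
      · exact hL'.1 hy
      · exact hS y (List.mem_cons_of_mem _ hy) hyS
    exact ⟨fun φ hφ => TT_nonneg inc p o h0 h1 (hS x List.mem_cons_self) L hQ hφ, hQ⟩

theorem coef_eq_zero (L : List V) (S : Set V) (v : V) (hv : v ∉ L) :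
    coef inc p o L S v = 0 := by
  induction L generalizing S with
  | nil => rfl
  | cons x L ih =>
    rw [coef_cons, ih _ (fun h => hv (List.mem_cons_of_mem _ h)), ind_false]
    · ring
    · rintro rfl
      exact hv List.mem_cons_self

theorem wgt_nonneg (h0 : ∀ e, 0 ≤ p e) (h1 : ∀ e, p e < 1) {x : V} {S : Set V} (hx : x ∉ S)
    (L : List V) (hxL : x ∉ L) (hxo : x ≠ o) (hQ : QQ inc p o L (insert x S)) :
    0 ≤ wgt inc p o L S x := by
  have h1' : ∀ e, p e ≤ 1 := fun e => (h1 e).le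
  have hmono : Monotone (fun M : Set V => ind (∃ y ∈ M, y ≠ x)) := fun M M' h =>
    ind_mono fun ⟨y, hy, hyx⟩ => ⟨y, h hy, hyx⟩
  have hT := TT_nonneg inc p o h0 h1 hx L hQ hmono
  have hc := TT_const inc p o h0 h1 hx L 1
  have e : TT inc p o x L S (fun _ => 1) - TT inc p o x L S (fun M => ind (∃ y ∈ M, y ≠ x)) =
      -wgt inc p o L S x * Ex p (fun ω => ind (Disjoint S (cl inc ω ∅ {x})) *
        (1 - ind (∃ y ∈ cl inc ω ∅ {x}, y ≠ x))) := by
    unfold TT
    rw [← Ex_sub, ← Ex_smul]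
    congr 1
    funext ω
    beta_reduce
    by_cases h : ∃ y ∈ cl inc ω ∅ {x}, y ≠ x
    · rw [ind_true h]; ring
    · have hC : cl inc ω ∅ {x} = {x} := by
        push Not at h
        apply Set.Subset.antisymm
        · intro y hy; exact h y hy
        · rintro y rfl
          exact mem_cl_self inc ω (by simp)
      rw [ind_false h, rho_cons, rho_eq, hC, ind_false (fun h => hxo (Set.mem_singleton_iff.1 h).symm),
        ind_true (Set.mem_singleton x)]
      have : ∑ v, coef inc p o L (insert x S) v * ind (v ∈ ({x} : Set V)) = 0 := by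
        apply Finset.sum_eq_zero
        intro v _
        by_cases hv : v = x
        · subst hv
          rw [coef_eq_zero inc p o L _ v hxL, zero_mul]
        · rw [ind_false (P := v ∈ ({x} : Set V)) (fun h => hv h), mul_zero]
      rw [this]
      ring
  have hpos : 0 < Ex p (fun ω => ind (Disjoint S (cl inc ω ∅ {x})) *
        (1 - ind (∃ y ∈ cl inc ω ∅ {x}, y ≠ x))) := by
    have h := Ex_ge_empty p h0 h1' (fun ω => ind (Disjoint S (cl inc ω ∅ {x})) *
        (1 - ind (∃ y ∈ cl inc ω ∅ {x}, y ≠ x))) 0 (fun ω => mul_nonneg (ind_nonneg _) (by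
          by_cases h : ∃ y ∈ cl inc ω ∅ {x}, y ≠ x
          · rw [ind_true h]; norm_num
          · rw [ind_false h]; norm_num))
    have he : cl inc ∅ ∅ {x} = {x} := by rw [cl_empty_config, Set.sdiff_empty]
    have h2 : ¬ ∃ y ∈ ({x} : Set V), y ≠ x := by
      rintro ⟨y, hy, hyx⟩
      exact hyx hy
    simp only [he] at h
    rw [ind_true (Set.disjoint_singleton_right.2 hx), ind_false h2] at h
    have := wt_empty_pos p h1
    linarith only [h, this]
  rw [hc] at e
  nlinarith only [hT, e, hpos]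

theorem coef_nonneg (h0 : ∀ e, 0 ≤ p e) (h1 : ∀ e, p e < 1) (L : List V) (S : Set V)
    (hL : L.Nodup) (hS : ∀ x ∈ L, x ∉ S) (ho : o ∉ L) (v : V) : 0 ≤ coef inc p o L S v := by
  induction L generalizing S with
  | nil => exact le_rfl
  | cons x L ih =>
    have hL' := List.nodup_cons.1 hL
    have hS' : ∀ y ∈ L, y ∉ insert x S := by
      intro y hy hyS
      rcases hyS with rfl | hyS
      · exact hL'.1 hy
      · exact hS y (List.mem_cons_of_mem _ hy) hyS
    rw [coef_cons]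
    refine add_nonneg (ih _ hL'.2 hS' (fun h => ho (List.mem_cons_of_mem _ h))) ?_
    refine mul_nonneg (ind_nonneg _) (wgt_nonneg inc p o h0 h1 (hS x List.mem_cons_self) L
      hL'.1 ?_ (QQ_all inc p o h0 h1 L _ hL'.2 hS'))
    rintro rfl
    exact ho List.mem_cons_self

theorem Ex_tot_nonneg (L : List V) (S : Set V) (hQ : QQ inc p o L S) {F : Set V → ℝ}
    (hF : Monotone F) : 0 ≤ Ex p (fun ω => tot inc p o F ω L S) := by
  induction L generalizing S with
  | nil => exact le_of_eq (Ex_const p 0).symm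
  | cons x L ih =>
    obtain ⟨hT, hQ⟩ := hQ
    have : (fun ω => tot inc p o F ω (x :: L) S) = fun ω =>
        ind (Disjoint S (cl inc ω ∅ {x})) * rho inc p o (x :: L) S (cl inc ω ∅ {x}) *
      F (cl inc ω ∅ {x}) + tot inc p o F ω L (insert x S) := by
      funext ω; rfl
    rw [this, Ex_add]
    exact add_nonneg (hT F hF) (ih _ hQ)

theorem Ex_tot_one (h0 : ∀ e, 0 ≤ p e) (h1 : ∀ e, p e < 1) (L : List V) (S : Set V)
    (hL : L.Nodup) (hS : ∀ x ∈ L, x ∉ S) : Ex p (fun ω => tot inc p o (fun _ => 1) ω L S) = 0 := by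
  induction L generalizing S with
  | nil => exact Ex_const p 0
  | cons x L ih =>
    have hL' := List.nodup_cons.1 hL
    have hS' : ∀ y ∈ L, y ∉ insert x S := by
      intro y hy hyS
      rcases hyS with rfl | hyS
      · exact hL'.1 hy
      · exact hS y (List.mem_cons_of_mem _ hy) hyS
    have : (fun ω => tot inc p o (fun _ => 1) ω (x :: L) S) = fun ω =>
        ind (Disjoint S (cl inc ω ∅ {x})) * rho inc p o (x :: L) S (cl inc ω ∅ {x}) *
      1 + tot inc p o (fun _ => 1) ω L (insert x S) := by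
      funext ω; rfl
    rw [this, Ex_add, ih _ hL'.2 hS', add_zero]
    exact TT_const inc p o h0 h1 (hS x List.mem_cons_self) L 1

end Weights

end Main

end Core

end Vale.Agent.P151.KN
end

section

/-! # The domination theorem and the Kozma-Nitzan inequality -/

set_option autoImplicit false

namespace Vale.Agent.P151.KN

open Vale.Agent.P151.KN.Core

namespace MainAux

theorem mem_cl_comm {V E : Type} [Fintype V] [Fintype E] [DecidableEq E] (inc : E → Set V) (ω : Finset E) (a o : V) :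
    o ∈ cl inc ω ∅ {a} ↔ a ∈ cl inc ω ∅ {o} := by
  constructor
  · intro h
    have := cl_eq_of_mem inc ω h
    rw [this]
    exact mem_cl_self inc ω (by simp)
  · intro h
    have := cl_eq_of_mem inc ω h
    rw [this]
    exact mem_cl_self inc ω (by simp)

theorem mem_cl_finset {V E : Type} [Fintype V] [Fintype E] [DecidableEq E] (inc : E → Set V) (ω : Finset E) (A : Finset V) (o : V) :
    (o ∈ cl inc ω ∅ {v | v ∈ A.toList} ∧ o ∉ cl inc ω ∅ ∅) ↔ ∃ a ∈ A, a ∈ cl inc ω ∅ {o} := by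
  constructor
  · rintro ⟨h, -⟩
    obtain ⟨a, ha, h⟩ := (mem_cl_iff inc ω ∅ _ o).1 h
    exact ⟨a, Finset.mem_toList.1 ha, (mem_cl_comm inc ω a o).1 h⟩
  · rintro ⟨a, ha, h⟩
    refine ⟨(mem_cl_iff inc ω ∅ _ o).2 ⟨a, Finset.mem_toList.2 ha, (mem_cl_comm inc ω a o).2 h⟩, ?_⟩
    rintro ⟨s, hs, -⟩
    exact hs

theorem ind_mul {P : Prop} [Decidable P] (x : ℝ) : ind P * x = if P then x else 0 := by
  by_cases h : P
  · rw [ind_true h, if_pos h, one_mul]
  · rw [ind_false h, if_neg h, zero_mul]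

end MainAux

open MainAux

open Classical in
/-- The cluster of `o`, on the event that it meets `A`, dominates a mixture of the clusters of the
points of `A`. -/
theorem domination {V E : Type} [Finite V] [Fintype E] [DecidableEq E] (inc : E → Set V)
    (p : E → ℝ) (h0 : ∀ e, 0 ≤ p e) (h1 : ∀ e, p e < 1) (A : Finset V) (o : V) :
    ∃ w : V → ℝ, (∀ a, 0 ≤ w a) ∧
      (∑ a ∈ A, w a = Ex p (fun ω => if ∃ a ∈ A, a ∈ cl inc ω ∅ {o} then 1 else 0)) ∧
      ∀ F : Set V → ℝ, Monotone F →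
        ∑ a ∈ A, w a * Ex p (fun ω => F (cl inc ω ∅ {a})) ≤
          Ex p (fun ω => if ∃ a ∈ A, a ∈ cl inc ω ∅ {o} then F (cl inc ω ∅ {o}) else 0) := by
  have : Fintype V := Fintype.ofFinite V
  by_cases ho : o ∈ A
  · refine ⟨fun a => if a = o then 1 else 0, fun a => by positivity, ?_, ?_⟩
    · have : (fun ω : Finset E => if ∃ a ∈ A, a ∈ cl inc ω ∅ {o} then (1 : ℝ) else 0) =
          fun _ => 1 := by
        funext ω
        rw [if_pos ⟨o, ho, mem_cl_self inc ω (by simp)⟩]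
      rw [this, Ex_const, Finset.sum_ite_eq' A o, if_pos ho]
    · intro F _
      have : (fun ω : Finset E => if ∃ a ∈ A, a ∈ cl inc ω ∅ {o} then F (cl inc ω ∅ {o}) else 0) =
          fun ω => F (cl inc ω ∅ {o}) := by
        funext ω
        rw [if_pos ⟨o, ho, mem_cl_self inc ω (by simp)⟩]
      rw [this]
      simp only [ite_mul, one_mul, zero_mul]
      rw [Finset.sum_ite_eq' A o, if_pos ho]
  · have hnd := A.nodup_toList
    have hQ := QQ_all inc p o h0 h1 A.toList ∅ hnd (fun x _ => Set.notMem_empty x)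
    have hsum : ∀ (F : Set V → ℝ), Ex p (fun ω => tot inc p o F ω A.toList ∅) =
        Ex p (fun ω => if ∃ a ∈ A, a ∈ cl inc ω ∅ {o} then F (cl inc ω ∅ {o}) else 0) -
          ∑ a ∈ A, coef inc p o A.toList ∅ a * Ex p (fun ω => F (cl inc ω ∅ {a})) := by
      intro F
      have e1 : (fun ω => tot inc p o F ω A.toList ∅) = fun ω =>
          (if ∃ a ∈ A, a ∈ cl inc ω ∅ {o} then F (cl inc ω ∅ {o}) else 0) -
            ∑ a ∈ A, coef inc p o A.toList ∅ a * F (cl inc ω ∅ {a}) := by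
        funext ω
        rw [tot_eq, ind_mul]
        congr 1
        · simp only [mem_cl_finset]
        · symm
          refine Finset.sum_subset_zero_on_sdiff (Finset.subset_univ A) ?_ ?_
          · intro v hv
            rw [Finset.mem_sdiff] at hv
            rw [coef_eq_zero inc p o _ _ v (fun h => hv.2 (Finset.mem_toList.1 h)), zero_mul]
          · intro v _
            rw [ind_true (P := v ∉ cl inc ω ∅ ∅) (by rintro ⟨s, hs, -⟩; exact hs), one_mul]
      rw [e1, Ex_sub, Ex_sum]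
      congr 1
      refine Finset.sum_congr rfl fun a _ => ?_
      exact Ex_smul p _ _
    refine ⟨coef inc p o A.toList ∅, fun a => ?_, ?_, fun F hF => ?_⟩
    · exact coef_nonneg inc p o h0 h1 _ _ hnd (fun x _ => Set.notMem_empty x)
        (fun h => ho (Finset.mem_toList.1 h)) a
    · have h := hsum (fun _ => 1)
      rw [Ex_tot_one inc p o h0 h1 _ _ hnd (fun x _ => Set.notMem_empty x), Ex_const] at h
      simp only [mul_one] at h
      linarith only [h]
    · have h := Ex_tot_nonneg inc p o _ _ hQ hF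
      rw [hsum] at h
      linarith

open Classical in
/-- The Kozma-Nitzan inequality. -/
theorem kozma_nitzan {V E : Type} [Finite V] [Fintype E] [DecidableEq E] (inc : E → Set V)
    (p : E → ℝ) (h0 : ∀ e, 0 ≤ p e) (h1 : ∀ e, p e ≤ 1) (A : Finset V) (o : V)
    (F : Set V → ℝ) (hF : Monotone F) (m : ℝ)
    (hm : ∀ a ∈ A, m ≤ Ex p (fun ω => F (cl inc ω ∅ {a}))) :
    m * Ex p (fun ω => if ∃ a ∈ A, a ∈ cl inc ω ∅ {o} then 1 else 0) ≤
      Ex p (fun ω => if ∃ a ∈ A, a ∈ cl inc ω ∅ {o} then F (cl inc ω ∅ {o}) else 0) := by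
  -- approximation by `t * p`, `t < 1`
  have hcont : ∀ f : Finset E → ℝ, Continuous (fun t : ℝ => Ex (fun e => t * p e) f) := by
    intro f
    unfold Ex wt
    refine continuous_finsetSum _ fun ω _ => Continuous.mul ?_ continuous_const
    refine continuous_finsetProd _ fun e _ => ?_
    split_ifs
    · exact continuous_id.mul continuous_const
    · exact continuous_const.sub (continuous_id.mul continuous_const)
  have h1p : (fun e => (1 : ℝ) * p e) = p := by funext e; ring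
  have key : ∀ δ : ℝ, 0 < δ →
      (m - δ) * Ex p (fun ω => if ∃ a ∈ A, a ∈ cl inc ω ∅ {o} then 1 else 0) ≤
      Ex p (fun ω => if ∃ a ∈ A, a ∈ cl inc ω ∅ {o} then F (cl inc ω ∅ {o}) else 0) := by
    intro δ hδ
    have hev : ∀ᶠ t in nhdsWithin (1 : ℝ) (Set.Iio 1), (m - δ) *
        Ex (fun e => t * p e) (fun ω => if ∃ a ∈ A, a ∈ cl inc ω ∅ {o} then 1 else 0) ≤
        Ex (fun e => t * p e)
          (fun ω => if ∃ a ∈ A, a ∈ cl inc ω ∅ {o} then F (cl inc ω ∅ {o}) else 0) := by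
      have hA : ∀ᶠ t in nhdsWithin (1 : ℝ) (Set.Iio 1), ∀ a ∈ A,
          m - δ < Ex (fun e => t * p e) (fun ω => F (cl inc ω ∅ {a})) := by
        rw [Filter.eventually_all_finset]
        intro a ha
        have hc := (hcont (fun ω => F (cl inc ω ∅ {a}))).continuousAt (x := 1)
        have : m - δ < (fun t : ℝ => Ex (fun e => t * p e) (fun ω => F (cl inc ω ∅ {a}))) 1 := by
          beta_reduce
          rw [h1p]
          linarith [hm a ha]
        exact (hc.tendsto.mono_left nhdsWithin_le_nhds).eventually_const_lt this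
      have h01 : ∀ᶠ t in nhdsWithin (1 : ℝ) (Set.Iio 1), 0 < t :=
        nhdsWithin_le_nhds (lt_mem_nhds one_pos)
      filter_upwards [hA, h01, self_mem_nhdsWithin] with t ht ht0 ht1
      have ht1' : t < 1 := ht1
      obtain ⟨w, hw0, hw1, hw⟩ := domination inc (fun e => t * p e)
        (fun e => mul_nonneg ht0.le (h0 e))
        (fun e => by nlinarith only [ht1', ht0, h1 e]) A o
      refine le_trans ?_ (hw F hF)
      rw [← hw1, Finset.mul_sum]
      refine Finset.sum_le_sum fun a ha => ?_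
      rw [mul_comm]
      exact mul_le_mul_of_nonneg_left (ht a ha).le (hw0 a)
    have l1 := ((hcont (fun ω => if ∃ a ∈ A, a ∈ cl inc ω ∅ {o} then 1 else 0)).continuousAt
      (x := 1)).tendsto.mono_left (nhdsWithin_le_nhds (s := Set.Iio 1))
    have l2 := ((hcont (fun ω => if ∃ a ∈ A, a ∈ cl inc ω ∅ {o} then F (cl inc ω ∅ {o})
      else 0)).continuousAt (x := 1)).tendsto.mono_left (nhdsWithin_le_nhds (s := Set.Iio 1))
    rw [h1p] at l1 l2
    exact le_of_tendsto_of_tendsto (l1.const_mul (m - δ)) l2 hev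
  have hP : 0 ≤ Ex p (fun ω => if ∃ a ∈ A, a ∈ cl inc ω ∅ {o} then (1 : ℝ) else 0) := by
    refine le_of_eq_of_le (Ex_const p 0).symm (Ex_mono p h0 h1 fun ω => ?_)
    split_ifs <;> norm_num
  have hlim : Filter.Tendsto (fun δ : ℝ => (m - δ) *
      Ex p (fun ω => if ∃ a ∈ A, a ∈ cl inc ω ∅ {o} then (1 : ℝ) else 0))
      (nhdsWithin 0 (Set.Ioi 0)) (nhds ((m - 0) *
      Ex p (fun ω => if ∃ a ∈ A, a ∈ cl inc ω ∅ {o} then (1 : ℝ) else 0))) := by
    refine Filter.Tendsto.mul_const _ ?_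
    exact (tendsto_const_nhds.sub Filter.tendsto_id).mono_left nhdsWithin_le_nhds
  rw [sub_zero] at hlim
  exact le_of_tendsto hlim (by
    filter_upwards [self_mem_nhdsWithin] with δ hδ
    exact key δ hδ)

end Vale.Agent.P151.KN
end

section

/-! # The domination theorem for probabilities in `[0, 1]` -/

set_option autoImplicit false

namespace Vale.Agent.P151.KN

open Vale.Agent.P151.KN.Core Vale.Agent.P151.KN.MainAux

theorem continuous_Ex_mul {E : Type} [Fintype E] [DecidableEq E] (p : E → ℝ)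
    (f : Finset E → ℝ) : Continuous (fun t : ℝ => Ex (fun e => t * p e) f) := by
  unfold Ex wt
  refine continuous_finsetSum _ fun ω _ => Continuous.mul ?_ continuous_const
  refine continuous_finsetProd _ fun e _ => ?_
  split_ifs
  · exact continuous_id.mul continuous_const
  · exact continuous_const.sub (continuous_id.mul continuous_const)

open Classical in
/-- The cluster of `o`, on the event that it meets `A`, dominates a mixture of the clusters of the
points of `A`. -/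
theorem domination_le_one {V E : Type} [Finite V] [Fintype E] [DecidableEq E] (inc : E → Set V)
    (p : E → ℝ) (h0 : ∀ e, 0 ≤ p e) (h1 : ∀ e, p e ≤ 1) (A : Finset V) (o : V) :
    ∃ w : V → ℝ, (∀ a, 0 ≤ w a) ∧
      (∑ a ∈ A, w a = Ex p (fun ω => if ∃ a ∈ A, a ∈ cl inc ω ∅ {o} then 1 else 0)) ∧
      ∀ F : Set V → ℝ, Monotone F →
        ∑ a ∈ A, w a * Ex p (fun ω => F (cl inc ω ∅ {a})) ≤
          Ex p (fun ω => if ∃ a ∈ A, a ∈ cl inc ω ∅ {o} then F (cl inc ω ∅ {o}) else 0) := by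
  have h1p : (fun e => (1 : ℝ) * p e) = p := by funext e; ring
  let t : ℕ → ℝ := fun n => 1 - 1 / ((n : ℝ) + 2)
  have ht0 : ∀ n, 0 ≤ t n := by
    intro n
    have h2 : (0 : ℝ) < (n : ℝ) + 2 := by positivity
    have h3 : 1 / ((n : ℝ) + 2) ≤ 1 := by
      rw [div_le_one h2]; linarith [(Nat.cast_nonneg n : (0 : ℝ) ≤ n)]
    exact sub_nonneg.2 h3
  have ht1 : ∀ n, t n < 1 := by
    intro n
    have h2 : (0 : ℝ) < 1 / ((n : ℝ) + 2) := by positivity
    exact sub_lt_self _ h2
  have htlim : Filter.Tendsto t Filter.atTop (nhds 1) := by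
    have h : Filter.Tendsto (fun n : ℕ => 1 / ((n : ℝ) + 2)) Filter.atTop (nhds 0) := by
      have := tendsto_one_div_add_atTop_nhds_zero_nat (𝕜 := ℝ)
      have h2 := (Filter.tendsto_add_atTop_iff_nat 1).2 this
      refine h2.congr fun n => ?_
      push_cast
      ring
    have h3 := (tendsto_const_nhds (x := (1 : ℝ))).sub h
    rw [sub_zero] at h3
    exact h3
  have hdom := fun n => domination inc (fun e => t n * p e)
    (fun e => mul_nonneg (ht0 n) (h0 e)) (fun e => by nlinarith only [h1 e, ht0 n, ht1 n]) A o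
  choose w hw0 hw1 hw using hdom
  -- truncate outside `A`
  let v : ℕ → V → ℝ := fun n a => if a ∈ A then w n a else 0
  have hprob : ∀ n, Ex (fun e => t n * p e)
      (fun ω => if ∃ a ∈ A, a ∈ cl inc ω ∅ {o} then 1 else 0) ≤ 1 := by
    intro n
    refine le_of_le_of_eq (Ex_mono _ (fun e => mul_nonneg (ht0 n) (h0 e))
      (fun e => by nlinarith only [h1 e, ht0 n, ht1 n]) (g := fun _ => 1) fun ω => ?_)
      (Ex_const _ 1)
    split_ifs <;> norm_num
  have hvK : ∀ n, v n ∈ Set.pi Set.univ (fun _ : V => Set.Icc (0 : ℝ) 1) := by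
    intro n a _
    by_cases ha : a ∈ A
    · simp only [v, if_pos ha]
      refine ⟨hw0 n a, ?_⟩
      refine le_trans ?_ (hprob n)
      rw [← hw1 n]
      exact Finset.single_le_sum (fun b _ => hw0 n b) ha
    · simp only [v, if_neg ha]
      exact ⟨le_rfl, zero_le_one⟩
  obtain ⟨w', hw', φ, hφ, hlim⟩ :=
    (isCompact_univ_pi (fun _ : V => isCompact_Icc)).tendsto_subseq hvK
  have hlim' : ∀ a, Filter.Tendsto (fun n => v (φ n) a) Filter.atTop (nhds (w' a)) := fun a =>
    (tendsto_pi_nhds.1 hlim) a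
  have hE : ∀ f : Finset E → ℝ, Filter.Tendsto (fun n => Ex (fun e => t (φ n) * p e) f)
      Filter.atTop (nhds (Ex p f)) := by
    intro f
    have h := ((continuous_Ex_mul p f).continuousAt (x := 1)).tendsto.comp
      (htlim.comp hφ.tendsto_atTop)
    rw [h1p] at h
    exact h
  refine ⟨w', fun a => (hw' a (Set.mem_univ a)).1, ?_, fun F hF => ?_⟩
  · refine tendsto_nhds_unique ?_ (hE _)
    have h2 : Filter.Tendsto (fun n => ∑ a ∈ A, v (φ n) a) Filter.atTop
        (nhds (∑ a ∈ A, w' a)) := tendsto_finsetSum _ fun a _ => hlim' a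
    refine h2.congr fun n => ?_
    rw [← hw1 (φ n)]
    exact Finset.sum_congr rfl fun a ha => if_pos ha
  · have h2 : Filter.Tendsto (fun n => ∑ a ∈ A, v (φ n) a *
        Ex (fun e => t (φ n) * p e) (fun ω => F (cl inc ω ∅ {a}))) Filter.atTop
        (nhds (∑ a ∈ A, w' a * Ex p (fun ω => F (cl inc ω ∅ {a})))) :=
      tendsto_finsetSum _ fun a _ => (hlim' a).mul (hE _)
    refine le_of_tendsto_of_tendsto' h2 (hE _) fun n => ?_
    refine le_trans (le_of_eq ?_) (hw (φ n) F hF)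
    refine Finset.sum_congr rfl fun a ha => ?_
    simp only [v, if_pos ha]

end Vale.Agent.P151.KN
end

section

set_option autoImplicit false

namespace Vale.Agent.P151.KN

open Vale.Agent.P151.KN.Core Vale.Agent.P151.KN.MainAux

theorem cluster_eq {V E : Type} (inc : E → Set V) (ω : Finset E) (x : V) :
    cluster inc ω x = cl inc ω ∅ {x} := by
  unfold cluster cl
  simp only [Set.mem_singleton_iff, Set.mem_empty_iff_false, not_false_eq_true, Set.disjoint_empty, true_and, exists_eq_left]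

open Classical in
theorem hand {V E : Type} [Finite V] [Fintype E] [DecidableEq E] (inc : E → Set V)
    (p : E → ℝ) (h0 : ∀ e, 0 ≤ p e) (h1 : ∀ e, p e ≤ 1) (A : Finset V) (o : V) :
    (∃ w : V → ℝ, (∀ a, 0 ≤ w a) ∧
      ∑ a ∈ A, w a = Ex p (fun ω => if Meets inc A o ω then 1 else 0) ∧
      ∀ F : Set V → ℝ, Monotone F →
        ∑ a ∈ A, w a * Ex p (fun ω => F (cluster inc ω a)) ≤
          Ex p (fun ω => if Meets inc A o ω then F (cluster inc ω o) else 0)) ∧
    ∀ (b : V) (m : ℝ),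
      (∀ a ∈ A, m ≤ Ex p (fun ω => if b ∈ cluster inc ω a then 1 else 0)) →
        m * Ex p (fun ω => if Meets inc A o ω then 1 else 0) ≤
          Ex p (fun ω => if Meets inc A o ω ∧ b ∈ cluster inc ω o then 1 else 0) := by
  have : Fintype V := Fintype.ofFinite V
  unfold Meets
  simp only [cluster_eq]
  refine ⟨domination_le_one inc p h0 h1 A o, fun b m hm => ?_⟩
  have hmono : Monotone (fun C : Set V => if b ∈ C then (1 : ℝ) else 0) := by
    intro C C' h
    by_cases hb : b ∈ C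
    · simp only [if_pos hb, if_pos (h hb), le_refl]
    · simp only [if_neg hb]
      split_ifs <;> norm_num
  have h := kozma_nitzan inc p h0 h1 A o _ hmono m hm
  refine h.trans (le_of_eq ?_)
  congr 1
  funext ω
  by_cases h1 : ∃ a ∈ A, a ∈ cl inc ω ∅ {o}
  · rw [if_pos h1]; simp only [h1, true_and]
  · rw [if_neg h1, if_neg (fun h => h1 h.1)]

end Vale.Agent.P151.KN
end
end

section

section
attribute [-instance] ProperSMul.toContinuousSMul IsTopologicalTorsor.toContinuousSMul IdemSemiring.toCanonicallyOrderedAdd IdemSemiring.toMulLeftMono IdemSemiring.toMulRightMono AddQuantale.instAddLeftMono AddQuantale.instAddRightMono Quantale.instMulLeftMono Quantale.instMulRightMono FiniteDimensional.rclike_to_real IsScalarTower.complexToReal FiniteDimensional.complexToReal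

open Finset

set_option linter.unusedSectionVars false

namespace Vale.Agent.P151

section Ex
variable {ι : Type*} [DecidableEq ι]

/-- Expectation of `F` when every element of `Λ` is kept independently with probability `p`. -/
noncomputable def Ex (p : ℝ) (Λ : Finset ι) (F : Finset ι → ℝ) : ℝ :=
  ∑ S ∈ Λ.powerset, p ^ S.card * (1 - p) ^ (Λ.card - S.card) * F S

@[simp] lemma Ex_empty (p : ℝ) (F : Finset ι → ℝ) : Ex p ∅ F = F ∅ := by
  simp only [Ex, powerset_empty, card_empty, zero_tsub, pow_zero, mul_one, sum_singleton, one_mul]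

lemma Ex_insert (p : ℝ) {e : ι} {Λ : Finset ι} (he : e ∉ Λ) (F : Finset ι → ℝ) :
    Ex p (insert e Λ) F = p * Ex p Λ (fun S => F (insert e S)) + (1 - p) * Ex p Λ F := by
  unfold Ex
  rw [Finset.sum_powerset_insert he, Finset.mul_sum, Finset.mul_sum, add_comm]
  congr 1
  · apply Finset.sum_congr rfl
    intro S hS
    have hS' := Finset.mem_powerset.1 hS
    have heS : e ∉ S := fun h => he (hS' h)
    rw [Finset.card_insert_of_notMem heS, Finset.card_insert_of_notMem he]
    have : Λ.card + 1 - (S.card + 1) = Λ.card - S.card := by omega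
    rw [this, pow_succ]
    ring
  · apply Finset.sum_congr rfl
    intro S hS
    have hS' := Finset.mem_powerset.1 hS
    have hle := Finset.card_le_card hS'
    rw [Finset.card_insert_of_notMem he]
    have : Λ.card + 1 - S.card = (Λ.card - S.card) + 1 := by omega
    rw [this, pow_succ]
    ring

lemma Ex_congr (p : ℝ) {Λ : Finset ι} {F G : Finset ι → ℝ} (h : ∀ S ⊆ Λ, F S = G S) :
    Ex p Λ F = Ex p Λ G := by
  unfold Ex
  apply Finset.sum_congr rfl
  intro S hS
  rw [h S (Finset.mem_powerset.1 hS)]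

lemma Ex_add (p : ℝ) (Λ : Finset ι) (F G : Finset ι → ℝ) :
    Ex p Λ (fun S => F S + G S) = Ex p Λ F + Ex p Λ G := by
  unfold Ex
  rw [← Finset.sum_add_distrib]
  apply Finset.sum_congr rfl
  intro S _
  ring

lemma Ex_sub (p : ℝ) (Λ : Finset ι) (F G : Finset ι → ℝ) :
    Ex p Λ (fun S => F S - G S) = Ex p Λ F - Ex p Λ G := by
  unfold Ex
  rw [← Finset.sum_sub_distrib]
  apply Finset.sum_congr rfl
  intro S _
  ring

lemma Ex_const_mul (p : ℝ) (Λ : Finset ι) (c : ℝ) (F : Finset ι → ℝ) :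
    Ex p Λ (fun S => c * F S) = c * Ex p Λ F := by
  unfold Ex
  rw [Finset.mul_sum]
  apply Finset.sum_congr rfl
  intro S _
  ring

lemma Ex_mul_const (p : ℝ) (Λ : Finset ι) (c : ℝ) (F : Finset ι → ℝ) :
    Ex p Λ (fun S => F S * c) = Ex p Λ F * c := by
  rw [mul_comm, ← Ex_const_mul]
  congr 1; funext S; ring

lemma Ex_sum {κ : Type*} (p : ℝ) (Λ : Finset ι) (s : Finset κ) (F : κ → Finset ι → ℝ) :
    Ex p Λ (fun S => ∑ k ∈ s, F k S) = ∑ k ∈ s, Ex p Λ (F k) := by
  unfold Ex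
  rw [Finset.sum_comm]
  apply Finset.sum_congr rfl
  intro S _
  rw [Finset.mul_sum]

@[simp] lemma Ex_const (p : ℝ) (Λ : Finset ι) (c : ℝ) : Ex p Λ (fun _ => c) = c := by
  induction Λ using Finset.induction_on with
  | empty => simp
  | insert e Λ he ih => rw [Ex_insert p he, ih]; ring

lemma Ex_mono {p : ℝ} (h0 : 0 ≤ p) (h1 : p ≤ 1) {Λ : Finset ι} {F G : Finset ι → ℝ}
    (h : ∀ S ⊆ Λ, F S ≤ G S) : Ex p Λ F ≤ Ex p Λ G := by
  unfold Ex
  apply Finset.sum_le_sum
  intro S hS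
  apply mul_le_mul_of_nonneg_left (h S (Finset.mem_powerset.1 hS))
  have : 0 ≤ 1 - p := by linarith
  (clear * - h0 h1; positivity)

lemma Ex_nonneg {p : ℝ} (h0 : 0 ≤ p) (h1 : p ≤ 1) {Λ : Finset ι} {F : Finset ι → ℝ}
    (h : ∀ S ⊆ Λ, 0 ≤ F S) : 0 ≤ Ex p Λ F := by
  have := Ex_mono h0 h1 (F := fun _ => 0) (G := F) h
  simpa only [ge_iff_le, Ex_const] using this

lemma Ex_le_const {p : ℝ} (h0 : 0 ≤ p) (h1 : p ≤ 1) {Λ : Finset ι} {F : Finset ι → ℝ} {c : ℝ}
    (h : ∀ S ⊆ Λ, F S ≤ c) : Ex p Λ F ≤ c := by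
  have := Ex_mono h0 h1 (F := F) (G := fun _ => c) h
  simpa only [ge_iff_le, Ex_const] using this

lemma Ex_comm {κ : Type*} [DecidableEq κ] (p q : ℝ) (Λ : Finset ι) (M : Finset κ)
    (F : Finset ι → Finset κ → ℝ) :
    Ex p Λ (fun S => Ex q M (fun T => F S T)) = Ex q M (fun T => Ex p Λ (fun S => F S T)) := by
  unfold Ex
  simp_rw [Finset.mul_sum]
  rw [Finset.sum_comm]
  apply Finset.sum_congr rfl
  intro T _
  apply Finset.sum_congr rfl
  intro S _
  ring

lemma Ex_union (p : ℝ) {A B : Finset ι} (hAB : Disjoint A B) (F : Finset ι → ℝ) :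
    Ex p (A ∪ B) F = Ex p A (fun S => Ex p B (fun T => F (S ∪ T))) := by
  induction A using Finset.induction_on generalizing F with
  | empty => simp
  | insert e A he ih =>
    have hd : Disjoint A B := Finset.disjoint_of_subset_left (Finset.subset_insert e A) hAB
    have heB : e ∉ B := Finset.disjoint_left.1 hAB (Finset.mem_insert_self e A)
    have he' : e ∉ A ∪ B := by simp [he, heB]
    rw [Finset.insert_union, Ex_insert p he', ih hd, ih hd, Ex_insert p he]
    simp only [Finset.insert_union]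

/-- If `F` only depends on the part in `A`, the expectation can be restricted to `A`. -/
lemma Ex_restrict (p : ℝ) {A Λ : Finset ι} (hA : A ⊆ Λ) {F : Finset ι → ℝ}
    (h : ∀ S ⊆ Λ, F S = F (S ∩ A)) : Ex p Λ F = Ex p A F := by
  have hΛ : Λ = A ∪ (Λ \ A) := by rw [Finset.union_sdiff_of_subset hA]
  have hd : Disjoint A (Λ \ A) := Finset.disjoint_sdiff
  rw [hΛ, Ex_union p hd]
  apply Ex_congr
  intro S hS
  have : ∀ T ⊆ Λ \ A, F (S ∪ T) = F S := by
    intro T hT
    have h1 : S ∪ T ⊆ Λ := Finset.union_subset (hS.trans hA) (hT.trans Finset.sdiff_subset)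
    rw [h _ h1]
    congr 1
    rw [Finset.union_inter_distrib_right, Finset.inter_eq_left.2 hS]
    have : T ∩ A = ∅ := by
      rw [← Finset.disjoint_iff_inter_eq_empty]
      exact Finset.disjoint_of_subset_left hT Finset.sdiff_disjoint
    rw [this, Finset.union_empty]
  rw [Ex_congr p this]
  simp

/-- Harris inequality. -/
lemma harris {p : ℝ} (h0 : 0 ≤ p) (h1 : p ≤ 1) (Λ : Finset ι) {F G : Finset ι → ℝ}
    (hF : Monotone F) (hG : Monotone G) :
    Ex p Λ F * Ex p Λ G ≤ Ex p Λ (fun S => F S * G S) := by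
  induction Λ using Finset.induction_on generalizing F G with
  | empty => simp
  | insert e Λ he ih =>
    rw [Ex_insert p he, Ex_insert p he, Ex_insert p he]
    have hF1 : Monotone (fun S => F (insert e S)) :=
      fun S T h => hF (Finset.insert_subset_insert e h)
    have hG1 : Monotone (fun S => G (insert e S)) :=
      fun S T h => hG (Finset.insert_subset_insert e h)
    have i1 := ih hF1 hG1
    have i0 := ih hF hG
    have a : Ex p Λ F ≤ Ex p Λ (fun S => F (insert e S)) :=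
      Ex_mono h0 h1 (fun S _ => hF (Finset.subset_insert e S))
    have b : Ex p Λ G ≤ Ex p Λ (fun S => G (insert e S)) :=
      Ex_mono h0 h1 (fun S _ => hG (Finset.subset_insert e S))
    set a1 := Ex p Λ (fun S => F (insert e S))
    set b1 := Ex p Λ (fun S => G (insert e S))
    set a0 := Ex p Λ F
    set b0 := Ex p Λ G
    have h2 : 0 ≤ 1 - p := by linarith only [h1]
    have key : 0 ≤ p * (1 - p) * ((a1 - a0) * (b1 - b0)) := by
      have : 0 ≤ (a1 - a0) * (b1 - b0) := mul_nonneg (by linarith only [a]) (by linarith)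
      (clear * - h0 h1 a b; positivity)
    nlinarith only [key, i1, h0, i0, h2]

/-- Monotonicity in the finite set. -/
lemma Ex_mono_set {p : ℝ} (h0 : 0 ≤ p) (h1 : p ≤ 1) {A Λ : Finset ι} (hA : A ⊆ Λ)
    {F : Finset ι → ℝ} (hF : Monotone F) : Ex p A F ≤ Ex p Λ F := by
  have hΛ : Λ = A ∪ (Λ \ A) := by rw [Finset.union_sdiff_of_subset hA]
  have hd : Disjoint A (Λ \ A) := Finset.disjoint_sdiff
  rw [hΛ, Ex_union p hd]
  apply Ex_mono h0 h1
  intro S _
  have := Ex_mono h0 h1 (Λ := Λ \ A) (F := fun _ => F S) (G := fun T => F (S ∪ T))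
    (fun T _ => hF Finset.subset_union_left)
  simpa only [ge_iff_le, Ex_const] using this

/-- Monotonicity in the parameter. -/
lemma Ex_mono_p {p q : ℝ} (h0 : 0 ≤ p) (hpq : p ≤ q) (h1 : q ≤ 1) (Λ : Finset ι)
    {F : Finset ι → ℝ} (hF : Monotone F) : Ex p Λ F ≤ Ex q Λ F := by
  induction Λ using Finset.induction_on generalizing F with
  | empty => simp
  | insert e Λ he ih =>
    rw [Ex_insert p he, Ex_insert q he]
    have hF1 : Monotone (fun S => F (insert e S)) :=
      fun S T h => hF (Finset.insert_subset_insert e h)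
    have i1 := ih hF1
    have i0 := ih hF
    have a : Ex q Λ F ≤ Ex q Λ (fun S => F (insert e S)) :=
      Ex_mono (h0.trans hpq) h1 (fun S _ => hF (Finset.subset_insert e S))
    have h2 : 0 ≤ 1 - p := by linarith only [hpq, h1]
    nlinarith only [i1, h0, i0, h2, hpq, a]

/-- Superposition of two independent percolations. -/
lemma Ex_superpose {p p' q : ℝ} (h : 1 - p = (1 - p') * (1 - q)) (Λ : Finset ι)
    (F : Finset ι → ℝ) :
    Ex p Λ F = Ex p' Λ (fun S => Ex q Λ (fun T => F (S ∪ T))) := by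
  induction Λ using Finset.induction_on generalizing F with
  | empty => simp
  | insert e Λ he ih =>
    rw [Ex_insert p he, Ex_insert p' he, ih, ih]
    simp_rw [Ex_insert q he]
    simp only [Finset.insert_union, Finset.union_insert, Finset.insert_idem]
    rw [Ex_add, Ex_add, Ex_const_mul, Ex_const_mul, Ex_const_mul]
    have hp : p = p' + q - p' * q := by linarith only [h]
    rw [hp]
    ring

/-- Russo's formula (for arbitrary functions). -/
lemma hasDerivAt_Ex (p : ℝ) (Λ : Finset ι) (F : Finset ι → ℝ) :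
    HasDerivAt (fun p => Ex p Λ F)
      (∑ e ∈ Λ, Ex p (Λ.erase e) (fun S => F (insert e S) - F S)) p := by
  induction Λ using Finset.induction_on generalizing F with
  | empty => simpa only [Ex_empty, notMem_empty, not_false_eq_true, erase_eq_of_notMem, insert_empty_eq, sum_sub_distrib,     sum_empty, sum_const, card_empty, zero_nsmul, sub_self] using hasDerivAt_const p (F ∅)
  | insert e Λ he ih =>
    have h1 := ih (fun S => F (insert e S))
    have h0 := ih F
    have hd : HasDerivAt (fun p => p * Ex p Λ (fun S => F (insert e S)) + (1 - p) * Ex p Λ F)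
        ((1 * Ex p Λ (fun S => F (insert e S)) +
          p * ∑ e' ∈ Λ, Ex p (Λ.erase e') (fun S => F (insert e (insert e' S)) - F (insert e S))) +
        ((-1) * Ex p Λ F + (1 - p) * ∑ e' ∈ Λ, Ex p (Λ.erase e') (fun S => F (insert e' S) - F S)))
        p := by
      refine HasDerivAt.add ?_ ?_
      · exact (hasDerivAt_id p).mul h1
      · refine HasDerivAt.mul ?_ h0
        simpa only [id_eq] using (hasDerivAt_id p).const_sub 1
    have hfun : (fun p => Ex p (insert e Λ) F) =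
        (fun p => p * Ex p Λ (fun S => F (insert e S)) + (1 - p) * Ex p Λ F) := by
      funext q; exact Ex_insert q he F
    rw [hfun]
    convert hd using 1
    rw [Finset.sum_insert he, Finset.erase_insert he]
    have hsum : ∑ e' ∈ Λ, Ex p ((insert e Λ).erase e') (fun S => F (insert e' S) - F S) =
        p * ∑ e' ∈ Λ, Ex p (Λ.erase e') (fun S => F (insert e (insert e' S)) - F (insert e S)) +
        (1 - p) * ∑ e' ∈ Λ, Ex p (Λ.erase e') (fun S => F (insert e' S) - F S) := by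
      rw [Finset.mul_sum, Finset.mul_sum, ← Finset.sum_add_distrib]
      apply Finset.sum_congr rfl
      intro e' he'
      have hne : e ≠ e' := fun h => he (h ▸ he')
      have h3 : (insert e Λ).erase e' = insert e (Λ.erase e') := by
        rw [Finset.erase_insert_of_ne hne]
      have h4 : e ∉ Λ.erase e' := fun h => he (Finset.mem_of_mem_erase h)
      rw [h3, Ex_insert p h4]
      congr 2
      · congr 1; funext S; rw [Finset.insert_comm]
    rw [hsum, Ex_sub]
    ring

end Ex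

end Vale.Agent.P151
end

section

open Finset

set_option linter.unusedSectionVars false

namespace Vale.Agent.P151

section Explore
variable {ι : Type*} [DecidableEq ι]

lemma Ex_indep (p : ℝ) {e : ι} {Λ : Finset ι} (he : e ∈ Λ) (F : Finset ι → ℝ)
    (hF : ∀ S, F (insert e S) = F S) : Ex p Λ F = Ex p (Λ.erase e) F := by
  conv_lhs => rw [← Finset.insert_erase he]
  rw [Ex_insert p (Finset.notMem_erase e Λ)]
  simp only [hF]
  ring

lemma sdiff_step1 {e : ι} {O D S : Finset ι} (heD : e ∉ D) (heS : e ∉ S) :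
    O ∪ (insert e S \ D) = insert e O ∪ (S \ insert e D) := by
  ext a
  simp only [mem_union, mem_sdiff, mem_insert]
  by_cases h : a = e
  · subst h; simp [heD]
  · simp [h]

lemma sdiff_step0 {e : ι} {O D S : Finset ι} (heS : e ∉ S) :
    O ∪ (S \ D) = O ∪ (S \ insert e D) := by
  ext a
  simp only [mem_union, mem_sdiff, mem_insert]
  by_cases h : a = e
  · subst h; simp [heS]
  · simp [h]

lemma sdiff_indep {e : ι} {O D S : Finset ι} :
    O ∪ (insert e S \ insert e D) = O ∪ (S \ insert e D) := by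
  ext a
  simp only [mem_union, mem_sdiff, mem_insert]
  by_cases h : a = e
  · subst h; simp
  · simp [h]

lemma Ex_split (p : ℝ) {e : ι} {Λ O D : Finset ι} (heΛ : e ∈ Λ) (heD : e ∉ D)
    (Φ : Finset ι → ℝ) :
    Ex p Λ (fun S => Φ (O ∪ (S \ D))) =
      p * Ex p Λ (fun S => Φ (insert e O ∪ (S \ insert e D))) +
      (1 - p) * Ex p Λ (fun S => Φ (O ∪ (S \ insert e D))) := by
  rw [Ex_indep p heΛ (fun S => Φ (insert e O ∪ (S \ insert e D))) (fun S => by rw [sdiff_indep]),
    Ex_indep p heΛ (fun S => Φ (O ∪ (S \ insert e D))) (fun S => by rw [sdiff_indep])]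
  conv_lhs => rw [← Finset.insert_erase heΛ]
  rw [Ex_insert p (Finset.notMem_erase e Λ)]
  congr 2
  · apply Ex_congr
    intro S hS
    have heS : e ∉ S := fun h => Finset.notMem_erase e Λ (hS h)
    rw [sdiff_step1 heD heS]
  · apply Ex_congr
    intro S hS
    have heS : e ∉ S := fun h => Finset.notMem_erase e Λ (hS h)
    rw [sdiff_step0 heS]

/-- OSSS inequality for an exploration process. -/
theorem osss {p : ℝ} (h0 : 0 ≤ p) (h1 : p ≤ 1) (Λ : Finset ι) (R : Finset ι → Finset ι)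
    (hR : Monotone R) (hRΛ : ∀ S, R S ⊆ Λ)
    (g : Finset ι → ℝ) (hg0 : ∀ S, 0 ≤ g S) (hg1 : ∀ S, g S ≤ 1)
    (hg : ∀ S T, S ⊆ Λ → T ⊆ Λ → Disjoint T (R S) → g (S ∪ T) = g S)
    (f : Finset ι → ℝ) :
    Ex p Λ (fun S => f S * g S) ≤ Ex p Λ f * Ex p Λ g +
      ∑ e ∈ Λ, Ex p Λ (fun S => if e ∈ R S then 1 else 0) *
        (p * (1 - p) * Ex p (Λ.erase e) (fun S => |f (insert e S) - f S|)) := by
  have h2 : 0 ≤ 1 - p := by linarith only [h1]
  set I : ι → ℝ := fun e => p * (1 - p) * Ex p (Λ.erase e) (fun S => |f (insert e S) - f S|)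
    with hI
  have hI0 : ∀ e, 0 ≤ I e := fun e =>
    mul_nonneg (mul_nonneg h0 h2) (Ex_nonneg h0 h1 (fun S _ => abs_nonneg _))
  have claim : ∀ (m : ℕ) (D O : Finset ι), O ⊆ D → D ⊆ Λ → (Λ \ D).card = m →
      Ex p Λ (fun S => f S * g (O ∪ (S \ D))) ≤ Ex p Λ f * Ex p Λ (fun S => g (O ∪ (S \ D))) +
        ∑ e ∈ Λ \ D, Ex p Λ (fun S => if e ∈ R (O ∪ (S \ D)) then 1 else 0) * I e := by
    intro m
    induction m with
    | zero =>
      intro D O hOD hDΛ hcard
      have hD : D = Λ := by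
        apply Finset.Subset.antisymm hDΛ
        rw [Finset.card_eq_zero, Finset.sdiff_eq_empty_iff_subset] at hcard
        exact hcard
      subst hD
      have hc : ∀ S ⊆ D, g (O ∪ (S \ D)) = g O := by
        intro S hS
        rw [Finset.sdiff_eq_empty_iff_subset.2 hS, Finset.union_empty]
      rw [Ex_congr p (G := fun S => f S * g O) (fun S hS => by rw [hc S hS]),
        Ex_congr p (F := fun S => g (O ∪ (S \ D))) (G := fun _ => g O) hc]
      simp only [Ex_mul_const, Ex_const, sdiff_self, bot_eq_empty, sum_empty, add_zero, Std.le_refl]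
    | succ m ih =>
      intro D O hOD hDΛ hcard
      by_cases hne : (R O \ D).Nonempty
      · obtain ⟨e, he⟩ := hne
        rw [Finset.mem_sdiff] at he
        obtain ⟨heR, heD⟩ := he
        have heΛ : e ∈ Λ := hRΛ _ heR
        have hcard' : (Λ \ insert e D).card = m := by
          have : Λ \ D = insert e (Λ \ insert e D) := by
            ext a
            simp only [mem_sdiff, mem_insert]
            by_cases h : a = e
            · subst h; simp [heΛ, heD]
            · simp [h]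
          rw [this, Finset.card_insert_of_notMem (by simp)] at hcard
          omega
        have hDΛ' : insert e D ⊆ Λ := Finset.insert_subset heΛ hDΛ
        have ih1 := ih (insert e D) (insert e O) (Finset.insert_subset_insert e hOD) hDΛ' hcard'
        have ih0 := ih (insert e D) O (hOD.trans (Finset.subset_insert e D)) hDΛ' hcard'
        -- abbreviations
        set G1 : Finset ι → ℝ := fun S => g (insert e O ∪ (S \ insert e D)) with hG1
        set G0 : Finset ι → ℝ := fun S => g (O ∪ (S \ insert e D)) with hG0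
        have hG1i : ∀ S, G1 (insert e S) = G1 S := fun S => by
          simp only [hG1]; rw [sdiff_indep]
        have hG0i : ∀ S, G0 (insert e S) = G0 S := fun S => by
          simp only [hG0]; rw [sdiff_indep]
        have eA : Ex p Λ (fun S => f S * g (O ∪ (S \ D))) =
            p * Ex p (Λ.erase e) (fun S => f (insert e S) * G1 S) +
            (1 - p) * Ex p (Λ.erase e) (fun S => f S * G0 S) := by
          conv_lhs => rw [← Finset.insert_erase heΛ]
          rw [Ex_insert p (Finset.notMem_erase e Λ)]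
          congr 2
          · apply Ex_congr
            intro S hS
            have heS : e ∉ S := fun h => Finset.notMem_erase e Λ (hS h)
            simp only [hG1]
            rw [sdiff_step1 heD heS]
          · apply Ex_congr
            intro S hS
            have heS : e ∉ S := fun h => Finset.notMem_erase e Λ (hS h)
            simp only [hG0]
            rw [sdiff_step0 (e := e) heS]
        have eB : ∀ G : Finset ι → ℝ, (∀ S, G (insert e S) = G S) →
            Ex p Λ (fun S => f S * G S) =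
            p * Ex p (Λ.erase e) (fun S => f (insert e S) * G S) +
            (1 - p) * Ex p (Λ.erase e) (fun S => f S * G S) := by
          intro G hG
          conv_lhs => rw [← Finset.insert_erase heΛ]
          rw [Ex_insert p (Finset.notMem_erase e Λ)]
          simp only [hG]
        have eC : Ex p (Λ.erase e) (fun S => (f (insert e S) - f S) * (G1 S - G0 S)) ≤
            Ex p (Λ.erase e) (fun S => |f (insert e S) - f S|) := by
          apply Ex_mono h0 h1
          intro S _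
          have hb : |G1 S - G0 S| ≤ 1 := by
            rw [abs_le]
            have a1 := hg0 (insert e O ∪ (S \ insert e D))
            have a2 := hg1 (insert e O ∪ (S \ insert e D))
            have a3 := hg0 (O ∪ (S \ insert e D))
            have a4 := hg1 (O ∪ (S \ insert e D))
            constructor <;> simp only [hG1, hG0] <;> linarith only [a1, a4, a2, a3]
          calc (f (insert e S) - f S) * (G1 S - G0 S)
              ≤ |(f (insert e S) - f S) * (G1 S - G0 S)| := le_abs_self _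
            _ = |f (insert e S) - f S| * |G1 S - G0 S| := abs_mul _ _
            _ ≤ |f (insert e S) - f S| * 1 := by
                apply mul_le_mul_of_nonneg_left hb (abs_nonneg _)
            _ = _ := mul_one _
        have eC' : Ex p (Λ.erase e) (fun S => (f (insert e S) - f S) * (G1 S - G0 S)) =
            Ex p (Λ.erase e) (fun S => f (insert e S) * G1 S)
            - Ex p (Λ.erase e) (fun S => f (insert e S) * G0 S)
            - Ex p (Λ.erase e) (fun S => f S * G1 S)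
            + Ex p (Λ.erase e) (fun S => f S * G0 S) := by
          rw [← Ex_sub, ← Ex_sub, ← Ex_add]
          congr 1; funext S; ring
        have eD1 := eB G1 hG1i
        have eD0 := eB G0 hG0i
        have key : Ex p Λ (fun S => f S * g (O ∪ (S \ D))) ≤
            p * Ex p Λ (fun S => f S * G1 S) + (1 - p) * Ex p Λ (fun S => f S * G0 S) + I e := by
          rw [eA, eD1, eD0]
          have : p * (1 - p) * Ex p (Λ.erase e) (fun S => (f (insert e S) - f S) * (G1 S - G0 S))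
              ≤ I e := by
            simp only [hI]
            exact mul_le_mul_of_nonneg_left eC (mul_nonneg h0 h2)
          rw [eC'] at this
          linarith only [this]
        have eG : Ex p Λ (fun S => g (O ∪ (S \ D))) = p * Ex p Λ G1 + (1 - p) * Ex p Λ G0 :=
          Ex_split p heΛ heD g
        have hΛD : Λ \ D = insert e (Λ \ insert e D) := by
          ext a
          simp only [mem_sdiff, mem_insert]
          by_cases h : a = e
          · subst h; simp [heΛ, heD]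
          · simp [h]
        have hone : Ex p Λ (fun S => if e ∈ R (O ∪ (S \ D)) then (1:ℝ) else 0) = 1 := by
          rw [Ex_congr p (G := fun _ => (1:ℝ))]
          · simp
          · intro S _
            rw [if_pos (hR Finset.subset_union_left heR)]
        have hsum : ∑ e' ∈ Λ \ D, Ex p Λ (fun S => if e' ∈ R (O ∪ (S \ D)) then 1 else 0) * I e' =
            I e + (p * ∑ e' ∈ Λ \ insert e D, Ex p Λ (fun S => if e' ∈ R (insert e O ∪
              (S \ insert e D)) then 1 else 0) * I e' + (1 - p) * ∑ e' ∈ Λ \ insert e D,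
              Ex p Λ (fun S => if e' ∈ R (O ∪ (S \ insert e D)) then 1 else 0) * I e') := by
          rw [hΛD, Finset.sum_insert (by simp), hone, one_mul, Finset.mul_sum, Finset.mul_sum,
            ← Finset.sum_add_distrib]
          congr 1
          apply Finset.sum_congr rfl
          intro e' _
          rw [Ex_split p heΛ heD (fun W => if e' ∈ R W then (1:ℝ) else 0)]
          ring
        rw [hsum, eG]
        nlinarith only [ih1, h0, ih0, h2, key]
      · rw [Finset.not_nonempty_iff_eq_empty, Finset.sdiff_eq_empty_iff_subset] at hne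
        have hOΛ : O ⊆ Λ := hOD.trans hDΛ
        have hc : ∀ S ⊆ Λ, g (O ∪ (S \ D)) = g O := by
          intro S hS
          apply hg O (S \ D) hOΛ (Finset.sdiff_subset.trans hS)
          exact Finset.disjoint_of_subset_right hne Finset.sdiff_disjoint
        rw [Ex_congr p (G := fun S => f S * g O) (fun S hS => by rw [hc S hS]),
          Ex_congr p (F := fun S => g (O ∪ (S \ D))) (G := fun _ => g O) hc]
        rw [Ex_mul_const, Ex_const]
        have : 0 ≤ ∑ e ∈ Λ \ D, Ex p Λ (fun S => if e ∈ R (O ∪ (S \ D)) then 1 else 0) * I e := by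
          apply Finset.sum_nonneg
          intro e _
          apply mul_nonneg _ (hI0 e)
          apply Ex_nonneg h0 h1
          intro S _
          split_ifs <;> norm_num
        linarith only [this]
  have := claim _ ∅ ∅ (Finset.Subset.refl _) (Finset.empty_subset _) rfl
  simpa only [ge_iff_le, sdiff_empty, empty_union] using this

/-- Second moment of the exploration martingale with a decreasing weight. -/
theorem explore_sq {p : ℝ} (h0 : 0 ≤ p) (h1 : p ≤ 1) (Λ : Finset ι) (R : Finset ι → Finset ι)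
    (hR : Monotone R) (hRΛ : ∀ S, R S ⊆ Λ)
    (hRR : ∀ S T, S ⊆ Λ → T ⊆ Λ → Disjoint T (R S) → R (S ∪ T) = R S)
    (Ψ : Finset ι → ℝ) (hΨ : Antitone Ψ)
    (ψ : ℕ → ℝ) (hψ0 : ∀ k, 0 ≤ ψ k) (hψ : ∀ S k, S ⊆ Λ → k < (R S).card → Ψ S ≤ ψ k) :
    Ex p Λ (fun S => (∑ e ∈ R S, (p - if e ∈ S then 1 else 0)) ^ 2 * Ψ S) ≤
      p * (1 - p) * ∑ i ∈ Finset.range Λ.card, ψ i := by
  have h2 : 0 ≤ 1 - p := by linarith only [h1]
  have claim : ∀ (m : ℕ) (D O : Finset ι) (z : ℝ), O ⊆ D → D ⊆ Λ → D ⊆ R O → (Λ \ D).card = m →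
      Ex p Λ (fun S => (z + ∑ e ∈ R (O ∪ (S \ D)) \ D, (p - if e ∈ S then 1 else 0)) ^ 2 *
        Ψ (O ∪ (S \ D))) ≤ z ^ 2 * Ψ O + p * (1 - p) * ∑ i ∈ Finset.Ico D.card Λ.card, ψ i := by
    intro m
    induction m with
    | zero =>
      intro D O z hOD hDΛ hDR hcard
      have hD : D = Λ := by
        apply Finset.Subset.antisymm hDΛ
        rw [Finset.card_eq_zero, Finset.sdiff_eq_empty_iff_subset] at hcard
        exact hcard
      subst hD
      have hc : ∀ S ⊆ D, (z + ∑ e ∈ R (O ∪ (S \ D)) \ D, (p - if e ∈ S then 1 else 0)) ^ 2 *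
        Ψ (O ∪ (S \ D)) = z ^ 2 * Ψ O := by
        intro S hS
        rw [Finset.sdiff_eq_empty_iff_subset.2 hS, Finset.union_empty,
          Finset.sdiff_eq_empty_iff_subset.2 (hRΛ O)]
        simp
      rw [Ex_congr p hc]
      simp
    | succ m ih =>
      intro D O z hOD hDΛ hDR hcard
      by_cases hne : (R O \ D).Nonempty
      · obtain ⟨e, he⟩ := hne
        rw [Finset.mem_sdiff] at he
        obtain ⟨heR, heD⟩ := he
        have heΛ : e ∈ Λ := hRΛ _ heR
        have hΛD : Λ \ D = insert e (Λ \ insert e D) := by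
          ext a
          simp only [mem_sdiff, mem_insert]
          by_cases h : a = e
          · subst h; simp [heΛ, heD]
          · simp [h]
        have hcard' : (Λ \ insert e D).card = m := by
          rw [hΛD, Finset.card_insert_of_notMem (by simp)] at hcard
          omega
        have hDΛ' : insert e D ⊆ Λ := Finset.insert_subset heΛ hDΛ
        have hDR1 : insert e D ⊆ R (insert e O) :=
          (Finset.insert_subset heR hDR).trans (hR (Finset.subset_insert e O))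
        have hDR0 : insert e D ⊆ R O := Finset.insert_subset heR hDR
        have ih1 := ih (insert e D) (insert e O) (z + p - 1) (Finset.insert_subset_insert e hOD)
          hDΛ' hDR1 hcard'
        have ih0 := ih (insert e D) O (z + p) (hOD.trans (Finset.subset_insert e D)) hDΛ' hDR0
          hcard'
        have indep : ∀ (z : ℝ) (O : Finset ι) (S : Finset ι),
            (z + ∑ e' ∈ R (O ∪ (insert e S \ insert e D)) \ insert e D,
              (p - if e' ∈ insert e S then 1 else 0)) ^ 2 * Ψ (O ∪ (insert e S \ insert e D)) =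
            (z + ∑ e' ∈ R (O ∪ (S \ insert e D)) \ insert e D,
              (p - if e' ∈ S then 1 else 0)) ^ 2 * Ψ (O ∪ (S \ insert e D)) := by
          intro z O S
          rw [sdiff_indep]
          congr 3
          apply Finset.sum_congr rfl
          intro e' he'
          have : e' ≠ e := by
            rintro rfl
            simp at he'
          simp [this]
        have eI1 := Ex_indep p heΛ (fun S => (z + p - 1 + ∑ e' ∈ R (insert e O ∪
            (S \ insert e D)) \ insert e D, (p - if e' ∈ S then 1 else 0)) ^ 2 *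
            Ψ (insert e O ∪ (S \ insert e D))) (fun S => indep _ _ _)
        have eI0 := Ex_indep p heΛ (fun S => (z + p + ∑ e' ∈ R (O ∪
            (S \ insert e D)) \ insert e D, (p - if e' ∈ S then 1 else 0)) ^ 2 *
            Ψ (O ∪ (S \ insert e D))) (fun S => indep _ _ _)
        rw [eI1] at ih1
        rw [eI0] at ih0
        have eA : Ex p Λ (fun S => (z + ∑ e ∈ R (O ∪ (S \ D)) \ D,
            (p - if e ∈ S then 1 else 0)) ^ 2 * Ψ (O ∪ (S \ D))) =
            p * Ex p (Λ.erase e) (fun S => (z + p - 1 + ∑ e' ∈ R (insert e O ∪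
              (S \ insert e D)) \ insert e D, (p - if e' ∈ S then 1 else 0)) ^ 2 *
              Ψ (insert e O ∪ (S \ insert e D))) +
            (1 - p) * Ex p (Λ.erase e) (fun S => (z + p + ∑ e' ∈ R (O ∪
              (S \ insert e D)) \ insert e D, (p - if e' ∈ S then 1 else 0)) ^ 2 *
              Ψ (O ∪ (S \ insert e D))) := by
          conv_lhs => rw [← Finset.insert_erase heΛ]
          rw [Ex_insert p (Finset.notMem_erase e Λ)]
          congr 2
          · apply Ex_congr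
            intro S hS
            have heS : e ∉ S := fun h => Finset.notMem_erase e Λ (hS h)
            rw [sdiff_step1 heD heS]
            have heR' : e ∈ R (insert e O ∪ S \ insert e D) :=
              hR ((Finset.subset_insert e O).trans Finset.subset_union_left) heR
            have hdec : R (insert e O ∪ S \ insert e D) \ D =
                insert e (R (insert e O ∪ S \ insert e D) \ insert e D) := by
              ext a
              simp only [mem_sdiff, mem_insert]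
              by_cases h : a = e
              · subst h; exact ⟨fun _ => Or.inl rfl, fun _ => ⟨heR', heD⟩⟩
              · simp [h]
            rw [hdec, Finset.sum_insert (by simp)]
            congr 2
            have : ∑ e' ∈ R (insert e O ∪ S \ insert e D) \ insert e D,
                (p - if e' ∈ insert e S then (1:ℝ) else 0) =
                ∑ e' ∈ R (insert e O ∪ S \ insert e D) \ insert e D,
                (p - if e' ∈ S then (1:ℝ) else 0) := by
              apply Finset.sum_congr rfl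
              intro e' he'
              have : e' ≠ e := by
                rintro rfl
                simp at he'
              simp [this]
            rw [this]
            simp only [mem_insert, true_or, ↓reduceIte, insert_union, sum_sub_distrib, sum_const, nsmul_eq_mul, sum_ite_mem, mul_one]
            ring
          · apply Ex_congr
            intro S hS
            have heS : e ∉ S := fun h => Finset.notMem_erase e Λ (hS h)
            rw [sdiff_step0 (e := e) heS]
            have heR' : e ∈ R (O ∪ S \ insert e D) := hR Finset.subset_union_left heR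
            have hdec : R (O ∪ S \ insert e D) \ D =
                insert e (R (O ∪ S \ insert e D) \ insert e D) := by
              ext a
              simp only [mem_sdiff, mem_insert]
              by_cases h : a = e
              · subst h; simp [heR', heD]
              · simp [h]
            rw [hdec, Finset.sum_insert (by simp)]
            congr 2
            simp only [heS, ↓reduceIte, sub_zero, sum_sub_distrib, sum_const, nsmul_eq_mul, sum_ite_mem, mul_one]
            ring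
        rw [eA]
        have hcD : (insert e D).card = D.card + 1 := Finset.card_insert_of_notMem heD
        rw [hcD] at ih1 ih0
        have hlt : D.card < Λ.card := by
          have : (Λ \ D).card = Λ.card - D.card := Finset.card_sdiff_of_subset hDΛ
          omega
        have hIco : ∑ i ∈ Finset.Ico D.card Λ.card, ψ i =
            ψ D.card + ∑ i ∈ Finset.Ico (D.card + 1) Λ.card, ψ i := by
          rw [Finset.sum_eq_sum_Ico_succ_bot hlt]
        rw [hIco]
        have hOΛ : O ⊆ Λ := hOD.trans hDΛ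
        have hcardR : D.card < (R O).card := by
          have := Finset.card_le_card hDR0
          omega
        have hΨO : Ψ O ≤ ψ D.card := hψ O _ hOΛ hcardR
        have hΨ1 : Ψ (insert e O) ≤ Ψ O := hΨ (Finset.subset_insert e O)
        have hz1 : (z + p - 1) ^ 2 * Ψ (insert e O) ≤ (z + p - 1) ^ 2 * Ψ O :=
          mul_le_mul_of_nonneg_left hΨ1 (sq_nonneg _)
        have hmul1 := mul_le_mul_of_nonneg_left ih1 h0
        have hmul0 := mul_le_mul_of_nonneg_left ih0 h2
        have hpp : 0 ≤ p * (1 - p) := mul_nonneg h0 h2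
        have hmul2 := mul_le_mul_of_nonneg_left hΨO hpp
        have hmul3 := mul_le_mul_of_nonneg_left hz1 h0
        set T := ∑ i ∈ Finset.Ico (D.card + 1) Λ.card, ψ i
        linarith only [hmul2, hmul3, hmul1, hmul0]
      · rw [Finset.not_nonempty_iff_eq_empty, Finset.sdiff_eq_empty_iff_subset] at hne
        have hOΛ : O ⊆ Λ := hOD.trans hDΛ
        have hbd : ∀ S ⊆ Λ, (z + ∑ e ∈ R (O ∪ (S \ D)) \ D, (p - if e ∈ S then 1 else 0)) ^ 2 *
          Ψ (O ∪ (S \ D)) ≤ z ^ 2 * Ψ O := by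
          intro S hS
          have h3 : R (O ∪ (S \ D)) = R O := by
            apply hRR O (S \ D) hOΛ (Finset.sdiff_subset.trans hS)
            exact Finset.disjoint_of_subset_right hne Finset.sdiff_disjoint
          rw [h3, Finset.sdiff_eq_empty_iff_subset.2 hne]
          simp only [Finset.sum_empty, add_zero]
          exact mul_le_mul_of_nonneg_left (hΨ Finset.subset_union_left) (sq_nonneg _)
        have h4 := Ex_le_const h0 h1 hbd
        have h5 : 0 ≤ p * (1 - p) * ∑ i ∈ Finset.Ico D.card Λ.card, ψ i :=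
          mul_nonneg (mul_nonneg h0 h2) (Finset.sum_nonneg (fun i _ => hψ0 i))
        linarith only [h4, h5]
  have := claim _ ∅ ∅ 0 (Finset.Subset.refl _) (Finset.empty_subset _) (Finset.empty_subset _) rfl
  simpa only [sum_sub_distrib, sum_const, nsmul_eq_mul, sum_ite_mem, mul_one, ge_iff_le, sdiff_empty,     empty_union, zero_add, ne_eq, OfNat.ofNat_ne_zero, not_false_eq_true, zero_pow, zero_mul, card_empty,     Nat.Ico_zero_eq_range] using this

end Explore

end Vale.Agent.P151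
end

section

open Finset

set_option linter.unusedSectionVars false

namespace Vale.Agent.P151

section Conn
variable {V : Type*}

/-- The graph of open edges of a finite configuration. -/
def gr (S : Finset (Sym2 V)) : SimpleGraph V := SimpleGraph.fromEdgeSet (S : Set (Sym2 V))

/-- `x` and `y` are connected by open edges of `S`. -/
def Cn (S : Finset (Sym2 V)) (x y : V) : Prop := (gr S).Reachable x y

lemma gr_adj {S : Finset (Sym2 V)} {a b : V} : (gr S).Adj a b ↔ s(a, b) ∈ S ∧ a ≠ b := by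
  simp [gr]

lemma gr_mono {S T : Finset (Sym2 V)} (h : S ⊆ T) : gr S ≤ gr T := by
  intro a b hab
  rw [gr_adj] at hab ⊢
  exact ⟨h hab.1, hab.2⟩

lemma Cn.refl (S : Finset (Sym2 V)) (x : V) : Cn S x x := SimpleGraph.Reachable.refl x

lemma Cn.symm {S : Finset (Sym2 V)} {x y : V} (h : Cn S x y) : Cn S y x :=
  SimpleGraph.Reachable.symm h

lemma Cn.trans {S : Finset (Sym2 V)} {x y z : V} (h : Cn S x y) (h' : Cn S y z) : Cn S x z :=
  SimpleGraph.Reachable.trans h h'

lemma Cn.mono {S T : Finset (Sym2 V)} (hST : S ⊆ T) {x y : V} (h : Cn S x y) : Cn T x y :=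
  SimpleGraph.Reachable.mono (gr_mono hST) h

lemma Cn_of_mem {S : Finset (Sym2 V)} {a b : V} (h : s(a, b) ∈ S) : Cn S a b := by
  by_cases hab : a = b
  · subst hab; exact Cn.refl S a
  · exact SimpleGraph.Adj.reachable (gr_adj.2 ⟨h, hab⟩)

lemma Cn_closed {S : Finset (Sym2 V)} {A : Set V}
    (hA : ∀ u ∈ A, ∀ v, s(u, v) ∈ S → v ∈ A) {x y : V} (hx : x ∈ A) (h : Cn S x y) : y ∈ A := by
  obtain ⟨w⟩ := h
  induction w with
  | nil => exact hx
  | cons hadj _ ih => exact ih (hA _ hx _ (gr_adj.1 hadj).1)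

lemma Cn_finite (S : Finset (Sym2 V)) (x : V) : {y | Cn S x y}.Finite := by
  classical
  have hfin : ({x} ∪ ⋃ e ∈ S, {v : V | v ∈ e}).Finite := by
    apply Set.Finite.union (Set.finite_singleton x)
    apply Set.Finite.biUnion (Finset.finite_toSet S)
    intro e _
    induction e with
    | _ a b =>
      apply Set.Finite.subset (Set.toFinite {a, b})
      intro v hv
      simpa [Sym2.mem_iff] using hv
  apply hfin.subset
  intro y hy
  refine Cn_closed (A := {x} ∪ ⋃ e ∈ S, {v : V | v ∈ e}) ?_ (Or.inl rfl) hy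
  intro u _ v hv
  right
  simp only [Set.mem_iUnion, Set.mem_setOf_eq]
  exact ⟨s(u, v), hv, by simp⟩

/-- The cluster of `x`, as a finite set. -/
noncomputable def cl (S : Finset (Sym2 V)) (x : V) : Finset V := (Cn_finite S x).toFinset

@[simp] lemma mem_cl {S : Finset (Sym2 V)} {x y : V} : y ∈ cl S x ↔ Cn S x y := by
  simp [cl]

/-- Size of the cluster. -/
noncomputable def csz (S : Finset (Sym2 V)) (x : V) : ℕ := (cl S x).card

lemma cl_mono {S T : Finset (Sym2 V)} (h : S ⊆ T) (x : V) : cl S x ⊆ cl T x := by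
  intro y hy
  rw [mem_cl] at hy ⊢
  exact hy.mono h

lemma csz_mono {S T : Finset (Sym2 V)} (h : S ⊆ T) (x : V) : csz S x ≤ csz T x :=
  Finset.card_le_card (cl_mono h x)

lemma cl_eq {S : Finset (Sym2 V)} {x y : V} (h : Cn S x y) : cl S x = cl S y := by
  ext z
  rw [mem_cl, mem_cl]
  exact ⟨fun h' => h.symm.trans h', fun h' => h.trans h'⟩

lemma csz_eq {S : Finset (Sym2 V)} {x y : V} (h : Cn S x y) : csz S x = csz S y := by
  unfold csz; rw [cl_eq h]

lemma self_mem_cl (S : Finset (Sym2 V)) (x : V) : x ∈ cl S x := mem_cl.2 (Cn.refl S x)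

lemma csz_pos (S : Finset (Sym2 V)) (x : V) : 1 ≤ csz S x :=
  Finset.card_pos.2 ⟨x, self_mem_cl S x⟩

variable [DecidableEq V]

lemma Cn_insert {S : Finset (Sym2 V)} {a b x y : V} :
    Cn (insert s(a, b) S) x y ↔ Cn S x y ∨ (Cn S x a ∧ Cn S b y) ∨ (Cn S x b ∧ Cn S a y) := by
  constructor
  · intro h
    refine Cn_closed (S := insert s(a, b) S)
      (A := {y | Cn S x y ∨ (Cn S x a ∧ Cn S b y) ∨ (Cn S x b ∧ Cn S a y)}) ?_
      (Or.inl (Cn.refl S x)) h
    intro u hu v huv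
    simp only [Set.mem_setOf_eq] at hu ⊢
    rw [Finset.mem_insert] at huv
    rcases huv with huv | huv
    · rw [Sym2.eq_iff] at huv
      rcases huv with ⟨rfl, rfl⟩ | ⟨rfl, rfl⟩
      · rcases hu with hu | ⟨h1, _⟩ | ⟨h1, _⟩
        · exact Or.inr (Or.inl ⟨hu, Cn.refl S _⟩)
        · exact Or.inr (Or.inl ⟨h1, Cn.refl S _⟩)
        · exact Or.inl h1
      · rcases hu with hu | ⟨h1, _⟩ | ⟨h1, _⟩
        · exact Or.inr (Or.inr ⟨hu, Cn.refl S _⟩)
        · exact Or.inl h1
        · exact Or.inr (Or.inr ⟨h1, Cn.refl S _⟩)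
    · have huv' := Cn_of_mem huv
      rcases hu with hu | ⟨h1, h2⟩ | ⟨h1, h2⟩
      · exact Or.inl (hu.trans huv')
      · exact Or.inr (Or.inl ⟨h1, h2.trans huv'⟩)
      · exact Or.inr (Or.inr ⟨h1, h2.trans huv'⟩)
  · have hsub : S ⊆ insert s(a, b) S := Finset.subset_insert _ _
    have hab : Cn (insert s(a, b) S) a b := Cn_of_mem (Finset.mem_insert_self _ _)
    rintro (h | ⟨h1, h2⟩ | ⟨h1, h2⟩)
    · exact h.mono hsub
    · exact (h1.mono hsub).trans (hab.trans (h2.mono hsub))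
    · exact (h1.mono hsub).trans (hab.symm.trans (h2.mono hsub))

lemma cl_insert_left {S : Finset (Sym2 V)} {a b : V} :
    cl (insert s(a, b) S) a = cl S a ∪ cl S b := by
  ext y
  rw [Finset.mem_union, mem_cl, mem_cl, mem_cl, Cn_insert]
  constructor
  · rintro (h | ⟨_, h⟩ | ⟨_, h⟩)
    · exact Or.inl h
    · exact Or.inr h
    · exact Or.inl h
  · rintro (h | h)
    · exact Or.inl h
    · exact Or.inr (Or.inl ⟨Cn.refl S a, h⟩)

lemma cl_disjoint {S : Finset (Sym2 V)} {a b : V} (h : ¬ Cn S a b) : Disjoint (cl S a) (cl S b) := by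
  rw [Finset.disjoint_left]
  intro y hy hy'
  rw [mem_cl] at hy hy'
  exact h (hy.trans hy'.symm)

open Classical in
/-- Edges of `Λ` touching the clusters of `Q`. -/
noncomputable def tch (Λ : Finset (Sym2 V)) (Q : Finset V) (S : Finset (Sym2 V)) :
    Finset (Sym2 V) :=
  Λ.filter (fun e => ∃ v ∈ e, ∃ z ∈ Q, Cn S z v)

lemma mem_tch {Λ : Finset (Sym2 V)} {Q : Finset V} {S : Finset (Sym2 V)} {e : Sym2 V} :
    e ∈ tch Λ Q S ↔ e ∈ Λ ∧ ∃ v ∈ e, ∃ z ∈ Q, Cn S z v := by
  classical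
  simp only [tch, mem_filter]

lemma tch_mono (Λ : Finset (Sym2 V)) (Q : Finset V) : Monotone (tch Λ Q) := by
  intro S T h e he
  rw [mem_tch] at he ⊢
  obtain ⟨h1, v, hv, z, hz, hc⟩ := he
  exact ⟨h1, v, hv, z, hz, hc.mono h⟩

lemma tch_subset (Λ : Finset (Sym2 V)) (Q : Finset V) (S : Finset (Sym2 V)) : tch Λ Q S ⊆ Λ := by
  intro e he
  exact (mem_tch.1 he).1

lemma Cn_union_of_disjoint {Λ : Finset (Sym2 V)} {Q : Finset V} {S T : Finset (Sym2 V)}
    (hT : T ⊆ Λ) (hd : Disjoint T (tch Λ Q S)) {z y : V} (hz : z ∈ Q) :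
    Cn (S ∪ T) z y ↔ Cn S z y := by
  constructor
  · intro h
    refine Cn_closed (S := S ∪ T) (A := {y | Cn S z y}) ?_ (Cn.refl S z) h
    intro u hu v huv
    rw [Finset.mem_union] at huv
    rcases huv with huv | huv
    · exact Cn.trans hu (Cn_of_mem huv)
    · exfalso
      apply Finset.disjoint_left.1 hd huv
      rw [mem_tch]
      exact ⟨hT huv, u, by simp, z, hz, hu⟩
  · intro h
    exact h.mono Finset.subset_union_left

lemma tch_union_of_disjoint {Λ : Finset (Sym2 V)} {Q : Finset V} {S T : Finset (Sym2 V)}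
    (hT : T ⊆ Λ) (hd : Disjoint T (tch Λ Q S)) : tch Λ Q (S ∪ T) = tch Λ Q S := by
  ext e
  rw [mem_tch, mem_tch]
  constructor
  · rintro ⟨h1, v, hv, z, hz, hc⟩
    exact ⟨h1, v, hv, z, hz, (Cn_union_of_disjoint hT hd hz).1 hc⟩
  · rintro ⟨h1, v, hv, z, hz, hc⟩
    exact ⟨h1, v, hv, z, hz, (Cn_union_of_disjoint hT hd hz).2 hc⟩

/-- Edges of `G` with both endpoints in `F`. -/
noncomputable def edgesIn (G : SimpleGraph V) (F : Finset V) : Finset (Sym2 V) := by
  classical
  exact ((F ×ˢ F).image (fun q => s(q.1, q.2))).filter (fun e => e ∈ G.edgeSet)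

lemma mem_edgesIn {G : SimpleGraph V} {F : Finset V} {e : Sym2 V} :
    e ∈ edgesIn G F ↔ e ∈ G.edgeSet ∧ ∀ v ∈ e, v ∈ F := by
  classical
  unfold edgesIn
  rw [Finset.mem_filter, Finset.mem_image]
  constructor
  · rintro ⟨⟨⟨a, b⟩, hab, rfl⟩, hG⟩
    rw [Finset.mem_product] at hab
    refine ⟨hG, ?_⟩
    intro v hv
    rw [Sym2.mem_iff] at hv
    rcases hv with rfl | rfl
    · exact hab.1
    · exact hab.2
  · rintro ⟨hG, h⟩
    refine ⟨?_, hG⟩
    induction e with
    | _ a b =>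
      exact ⟨(a, b), Finset.mem_product.2 ⟨h a (by simp), h b (by simp)⟩, rfl⟩

lemma mk_mem_edgesIn {G : SimpleGraph V} {F : Finset V} {a b : V} :
    s(a, b) ∈ edgesIn G F ↔ G.Adj a b ∧ a ∈ F ∧ b ∈ F := by
  rw [mem_edgesIn]
  simp

lemma edgesIn_mono (G : SimpleGraph V) {F F' : Finset V} (h : F ⊆ F') :
    edgesIn G F ⊆ edgesIn G F' := by
  intro e he
  rw [mem_edgesIn] at he ⊢
  exact ⟨he.1, fun v hv => h (he.2 v hv)⟩

lemma dist_lt_csz {G : SimpleGraph V} {S : Finset (Sym2 V)} (hS : ∀ e ∈ S, e ∈ G.edgeSet)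
    {x y : V} (h : Cn S x y) : G.dist x y < csz S x := by
  classical
  obtain ⟨w⟩ := h
  set w' := w.toPath with hw'
  have hle : gr S ≤ G := by
    intro a b hab
    have := hS _ (gr_adj.1 hab).1
    simpa using this
  have h1 : G.dist x y ≤ (w' : (gr S).Walk x y).length := by
    have := SimpleGraph.dist_le ((w' : (gr S).Walk x y).mapLe hle)
    simpa using this
  have h2 : (w' : (gr S).Walk x y).length + 1 = (w' : (gr S).Walk x y).support.length := by
    rw [SimpleGraph.Walk.length_support]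
  have h3 : (w' : (gr S).Walk x y).support.length ≤ csz S x := by
    have hnd := w'.2.support_nodup
    rw [← List.toFinset_card_of_nodup hnd]
    apply Finset.card_le_card
    intro z hz
    rw [List.mem_toFinset] at hz
    rw [mem_cl]
    exact ⟨(w' : (gr S).Walk x y).takeUntil z hz⟩
  omega

lemma csz_local {G : SimpleGraph V} {S : Finset (Sym2 V)} (hS : ∀ e ∈ S, e ∈ G.edgeSet)
    (hG : G.Connected) {x : V} {n : ℕ} {F : Finset V} (hF : ∀ y, G.dist x y < n → y ∈ F)
    (hn : n ≤ csz S x) : n ≤ csz (S ∩ edgesIn G F) x := by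
  by_contra hcon
  push_neg at hcon
  have hsub : cl S x ⊆ cl (S ∩ edgesIn G F) x := by
    intro y hy
    rw [mem_cl] at hy
    have : y ∈ {y | Cn (S ∩ edgesIn G F) x y} := by
      refine Cn_closed (S := S) ?_ (Cn.refl _ x) hy
      intro u hu v huv
      have hd : G.dist x u < csz (S ∩ edgesIn G F) x :=
        dist_lt_csz (fun e he => hS e (Finset.mem_of_mem_inter_left he)) hu
      have hadj : G.Adj u v := by simpa using hS _ huv
      have hd2 : G.dist x v ≤ G.dist x u + 1 := by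
        have h1 := hG.dist_triangle (u := x) (v := u) (w := v)
        have h2 : G.dist u v = 1 := SimpleGraph.dist_eq_one_iff_adj.2 hadj
        omega
      have hu' : u ∈ F := hF u (by omega)
      have hv' : v ∈ F := hF v (by omega)
      exact Cn.trans hu (Cn_of_mem (Finset.mem_inter.2 ⟨huv, mk_mem_edgesIn.2 ⟨hadj, hu', hv'⟩⟩))
    rw [mem_cl]
    exact this
  have := Finset.card_le_card hsub
  unfold csz at *
  omega

end Conn

end Vale.Agent.P151
end

section

open Finset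

set_option linter.unusedSectionVars false

namespace Vale.Agent.P151

section Ghost
variable {V : Type*} [DecidableEq V]

/-- ghost weight -/
noncomputable def gw (n : ℕ) (k : ℕ) : ℝ := 1 - (1 - 1 / (n : ℝ)) ^ k

lemma one_sub_inv_nonneg {n : ℕ} (hn : 1 ≤ n) : (0 : ℝ) ≤ 1 - 1 / (n : ℝ) := by
  have : (1 : ℝ) ≤ n := by exact_mod_cast hn
  have h2 : 1 / (n : ℝ) ≤ 1 := by
    rw [div_le_one (by linarith only [this])]; exact this
  linarith only [h2]

lemma one_sub_inv_le_one (n : ℕ) : 1 - 1 / (n : ℝ) ≤ 1 := by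
  have : (0 : ℝ) ≤ 1 / n := by positivity
  linarith only [this]

lemma gw_nonneg {n : ℕ} (hn : 1 ≤ n) (k : ℕ) : 0 ≤ gw n k := by
  unfold gw
  have := pow_le_one₀ (n := k) (one_sub_inv_nonneg hn) (one_sub_inv_le_one n)
  linarith only [this]

lemma gw_le_one {n : ℕ} (hn : 1 ≤ n) (k : ℕ) : gw n k ≤ 1 := by
  unfold gw
  have := pow_nonneg (one_sub_inv_nonneg hn) k
  (clear * - this; linarith only [this])

lemma gw_le_div {n : ℕ} (hn : 1 ≤ n) (k : ℕ) : gw n k ≤ k / n := by
  unfold gw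
  have h1 : (-2 : ℝ) ≤ -(1 / (n : ℝ)) := by
    have := one_sub_inv_nonneg hn
    linarith only [this]
  have := one_add_mul_le_pow h1 k
  have h2 : (1 - 1 / (n : ℝ)) = 1 + -(1 / (n : ℝ)) := by ring
  rw [h2]
  have h3 : (k : ℝ) * -(1 / n) = -(k / n) := by ring
  rw [h3] at this
  linarith only [this]

lemma gw_ge_half {n : ℕ} (hn : 1 ≤ n) {k : ℕ} (hk : n ≤ k) : 1 / 2 ≤ gw n k := by
  unfold gw
  have h1 : (1 - 1 / (n : ℝ)) ^ k ≤ (1 - 1 / (n : ℝ)) ^ n :=
    pow_le_pow_of_le_one (one_sub_inv_nonneg hn) (one_sub_inv_le_one n) hk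
  have hn' : (0 : ℝ) < n := by exact_mod_cast hn
  have h2 : (1 - 1 / (n : ℝ)) ^ n ≤ Real.exp (-1) := by
    have h3 : 1 - 1 / (n : ℝ) ≤ Real.exp (-(1 / (n : ℝ))) := by
      have := Real.add_one_le_exp (-(1 / (n : ℝ)))
      linarith only [this]
    calc (1 - 1 / (n : ℝ)) ^ n ≤ (Real.exp (-(1 / (n : ℝ)))) ^ n :=
          pow_le_pow_left₀ (one_sub_inv_nonneg hn) h3 n
      _ = Real.exp (-1) := by
          rw [← Real.exp_nat_mul]
          congr 1
          (clear * - hn; field_simp)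
  have h4 : Real.exp (-1) ≤ 1 / 2 := by
    rw [Real.exp_neg, ← one_div]
    apply one_div_le_one_div_of_le (by norm_num)
    have := Real.add_one_le_exp (1 : ℝ)
    linarith only [this]
  linarith only [h1, h2, h4]

lemma gw_add (n a b : ℕ) : gw n a + gw n b = gw n (a + b) + gw n a * gw n b := by
  unfold gw
  rw [pow_add]
  ring

/-- the two-cluster event at an edge -/
def Sg (n : ℕ) (S : Finset (Sym2 V)) (e : Sym2 V) : Prop :=
  ∃ a b, e = s(a, b) ∧ ¬ Cn S a b ∧ n ≤ csz S a ∧ n ≤ csz S b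

lemma cl_subset_of {Λ : Finset (Sym2 V)} {F : Finset V} (hΛF : ∀ e ∈ Λ, ∀ v ∈ e, v ∈ F)
    {S : Finset (Sym2 V)} (hS : S ⊆ Λ) {a : V} (ha : a ∈ F) : cl S a ⊆ F := by
  intro y hy
  rw [mem_cl] at hy
  refine Cn_closed (S := S) (A := (F : Set V)) ?_ ha hy
  intro u _ v huv
  exact hΛF _ (hS huv) v (by simp)

open Classical in
/-- `u_S(e)` -/
noncomputable def uu (n : ℕ) (F : Finset V) (S : Finset (Sym2 V)) (e : Sym2 V) : ℝ :=
  ∑ v ∈ F, if (∃ u ∈ e, Cn S v u) then gw n (csz S v) / csz S v else 0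

lemma sum_cl {n : ℕ} (S : Finset (Sym2 V)) (a : V) :
    ∑ v ∈ cl S a, gw n (csz S v) / csz S v = gw n (csz S a) := by
  have : ∀ v ∈ cl S a, gw n (csz S v) / csz S v = gw n (csz S a) / csz S a := by
    intro v hv
    rw [mem_cl] at hv
    rw [csz_eq hv]
  rw [Finset.sum_congr rfl this, Finset.sum_const, nsmul_eq_mul]
  have hpos : (0 : ℝ) < csz S a := by exact_mod_cast csz_pos S a
  change (csz S a : ℝ) * _ = _
  (clear * - hpos; field_simp)

lemma uu_eq {n : ℕ} {Λ : Finset (Sym2 V)} {F : Finset V} (hΛF : ∀ e ∈ Λ, ∀ v ∈ e, v ∈ F)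
    {S : Finset (Sym2 V)} (hS : S ⊆ Λ) {a b : V} (ha : a ∈ F) (hb : b ∈ F) :
    uu n F S s(a, b) = ∑ v ∈ cl S a ∪ cl S b, gw n (csz S v) / csz S v := by
  classical
  unfold uu
  rw [← Finset.sum_filter]
  apply Finset.sum_congr _ (fun _ _ => rfl)
  ext v
  rw [Finset.mem_filter, Finset.mem_union, mem_cl, mem_cl]
  constructor
  · rintro ⟨_, u, hu, hc⟩
    rw [Sym2.mem_iff] at hu
    rcases hu with rfl | rfl
    · exact Or.inl hc.symm
    · exact Or.inr hc.symm
  · rintro (h | h)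
    · exact ⟨cl_subset_of hΛF hS ha (mem_cl.2 h), a, by simp, h.symm⟩
    · exact ⟨cl_subset_of hΛF hS hb (mem_cl.2 h), b, by simp, h.symm⟩

open Classical in
lemma uu_decomp {n : ℕ} {Λ : Finset (Sym2 V)} {F : Finset V} (p : ℝ)
    (hΛF : ∀ e ∈ Λ, ∀ v ∈ e, v ∈ F)
    {S : Finset (Sym2 V)} (hS : S ⊆ Λ) {a b : V} (ha : a ∈ F) (hb : b ∈ F) :
    (p - if s(a, b) ∈ S then 1 else 0) * uu n F S s(a, b) =
      (p - if s(a, b) ∈ S then 1 else 0) * gw n (csz (insert s(a, b) S) a) +
      p * (if ¬ Cn S a b then gw n (csz S a) * gw n (csz S b) else 0) := by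
  rw [uu_eq hΛF hS ha hb]
  by_cases hc : Cn S a b
  · have h1 : cl S a ∪ cl S b = cl S a := by rw [cl_eq hc, Finset.union_self]
    have h2 : csz (insert s(a, b) S) a = csz S a := by
      unfold csz
      rw [cl_insert_left, h1]
    rw [h1, sum_cl, h2]
    simp [hc]
  · have hnot : s(a, b) ∉ S := fun h => hc (Cn_of_mem h)
    have h2 : csz (insert s(a, b) S) a = csz S a + csz S b := by
      unfold csz
      rw [cl_insert_left, Finset.card_union_of_disjoint (cl_disjoint hc)]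
    rw [Finset.sum_union (cl_disjoint hc), sum_cl, sum_cl, h2, gw_add]
    simp only [hnot, ↓reduceIte, sub_zero, hc, not_false_eq_true]
    ring

open Classical in
/-- the deficit of the cluster of `v` -/
noncomputable def HH (p : ℝ) (Λ : Finset (Sym2 V)) (S : Finset (Sym2 V)) (v : V) : ℝ :=
  ∑ e ∈ tch Λ {v} S, (p - if e ∈ S then 1 else 0)

open Classical in
lemma sum_HH (p : ℝ) (n : ℕ) (Λ : Finset (Sym2 V)) (F : Finset V) (S : Finset (Sym2 V)) :
    ∑ v ∈ F, HH p Λ S v * (gw n (csz S v) / csz S v) =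
      ∑ e ∈ Λ, (p - if e ∈ S then 1 else 0) * uu n F S e := by
  unfold HH uu
  simp_rw [Finset.sum_mul, Finset.mul_sum]
  have : ∀ v ∈ F, ∑ e ∈ tch Λ {v} S, (p - if e ∈ S then (1:ℝ) else 0) * (gw n (csz S v) / csz S v)
      = ∑ e ∈ Λ, (p - if e ∈ S then (1:ℝ) else 0) *
        (if (∃ u ∈ e, Cn S v u) then gw n (csz S v) / csz S v else 0) := by
    intro v _
    unfold tch
    rw [Finset.sum_filter]
    apply Finset.sum_congr rfl
    intro e _
    have hiff : (∃ u ∈ e, ∃ z ∈ ({v} : Finset V), Cn S z u) ↔ (∃ u ∈ e, Cn S v u) := by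
      simp only [mem_singleton, exists_eq_left]
    by_cases h : ∃ u ∈ e, Cn S v u
    · rw [if_pos (hiff.2 h), if_pos h]
    · rw [if_neg (fun h' => h (hiff.1 h')), if_neg h, mul_zero]
  rw [Finset.sum_congr rfl this, Finset.sum_comm]

lemma Ex_flip (p : ℝ) {Λ : Finset (Sym2 V)} {e : Sym2 V} (he : e ∈ Λ)
    (ψ : Finset (Sym2 V) → ℝ) (hψ : ∀ S, ψ (insert e S) = ψ S) :
    Ex p Λ (fun S => (p - if e ∈ S then 1 else 0) * ψ S) = 0 := by
  conv_lhs => rw [← Finset.insert_erase he]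
  rw [Ex_insert p (Finset.notMem_erase e Λ)]
  have h1 : Ex p (Λ.erase e) (fun S => (p - if e ∈ insert e S then 1 else 0) * ψ (insert e S)) =
      (p - 1) * Ex p (Λ.erase e) ψ := by
    rw [← Ex_const_mul]
    apply Ex_congr
    intro S _
    rw [if_pos (Finset.mem_insert_self e S), hψ]
  have h2 : Ex p (Λ.erase e) (fun S => (p - if e ∈ S then 1 else 0) * ψ S) =
      p * Ex p (Λ.erase e) ψ := by
    rw [← Ex_const_mul]
    apply Ex_congr
    intro S hS
    rw [if_neg (fun h => Finset.notMem_erase e Λ (hS h)), sub_zero]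
  rw [h1, h2]
  ring

lemma card_tch_le {Λ : Finset (Sym2 V)} {d : ℕ} (hd : ∀ v, (Λ.filter (fun e => v ∈ e)).card ≤ d)
    (S : Finset (Sym2 V)) (v : V) : (tch Λ {v} S).card ≤ csz S v * d := by
  classical
  have hsub : tch Λ {v} S ⊆ (cl S v).biUnion (fun u => Λ.filter (fun e => u ∈ e)) := by
    intro e he
    rw [mem_tch] at he
    obtain ⟨h1, u, hu, z, hz, hc⟩ := he
    rw [Finset.mem_singleton] at hz
    subst hz
    rw [Finset.mem_biUnion]
    exact ⟨u, mem_cl.2 hc, Finset.mem_filter.2 ⟨h1, hu⟩⟩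
  exact (Finset.card_le_card hsub).trans (Finset.card_biUnion_le_card_mul _ _ _ (fun u _ => hd u))

lemma sum_inv_max_sq {n d : ℕ} (hn : 1 ≤ n) (hd : 1 ≤ d) (N : ℕ) :
    ∑ i ∈ Finset.range N, 1 / (max (n : ℝ) ((i : ℝ) / d)) ^ 2 ≤ 3 * (d : ℝ) / (n : ℝ) := by
  have hn' : (0 : ℝ) < n := by exact_mod_cast hn
  have hd' : (0 : ℝ) < d := by exact_mod_cast hd
  have hdn : 1 ≤ d * n := Nat.one_le_iff_ne_zero.2 (Nat.mul_ne_zero (by omega) (by omega))
  have hsplit : Finset.range N ⊆ Finset.range (d * n) ∪ Finset.Ioo (d * n - 1) N := by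
    intro i hi
    rw [Finset.mem_range] at hi
    rw [Finset.mem_union, Finset.mem_range, Finset.mem_Ioo]
    omega
  have hterm : ∀ i : ℕ, (0 : ℝ) ≤ 1 / (max (n : ℝ) ((i : ℝ) / d)) ^ 2 := fun i => by positivity
  have h1 : ∑ i ∈ Finset.range (d * n), 1 / (max (n : ℝ) ((i : ℝ) / d)) ^ 2 ≤
      (d : ℝ) / (n : ℝ) := by
    calc ∑ i ∈ Finset.range (d * n), 1 / (max (n : ℝ) ((i : ℝ) / d)) ^ 2
        ≤ ∑ i ∈ Finset.range (d * n), (1 : ℝ) / (n : ℝ) ^ 2 := by
          apply Finset.sum_le_sum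
          intro i _
          apply one_div_le_one_div_of_le (by positivity)
          exact pow_le_pow_left₀ hn'.le (le_max_left _ _) 2
      _ = (d : ℝ) / (n : ℝ) := by
          rw [Finset.sum_const, Finset.card_range, nsmul_eq_mul]
          push_cast
          field_simp
  have h2 : ∑ i ∈ Finset.Ioo (d * n - 1) N, 1 / (max (n : ℝ) ((i : ℝ) / d)) ^ 2 ≤
      2 * (d : ℝ) / (n : ℝ) := by
    have hb : ∀ i ∈ Finset.Ioo (d * n - 1) N, 1 / (max (n : ℝ) ((i : ℝ) / d)) ^ 2 ≤
        (d : ℝ) ^ 2 * ((i : ℝ) ^ 2)⁻¹ := by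
      intro i hi
      rw [Finset.mem_Ioo] at hi
      have hi0 : (0 : ℝ) < i := by
        have : 0 < i := by omega
        exact_mod_cast this
      have : 1 / (max (n : ℝ) ((i : ℝ) / d)) ^ 2 ≤ 1 / ((i : ℝ) / d) ^ 2 := by
        apply one_div_le_one_div_of_le (by (clear * - hi0 hd; positivity))
        exact pow_le_pow_left₀ (by positivity) (le_max_right _ _) 2
      refine this.trans (le_of_eq ?_)
      (clear * - hd hi0; field_simp)
    have hs := sum_Ioo_inv_sq_le (α := ℝ) (d * n - 1) N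
    have hcast : ((d * n - 1 : ℕ) : ℝ) + 1 = d * n := by
      have : (d * n - 1 : ℕ) + 1 = d * n := by omega
      exact_mod_cast this
    rw [hcast] at hs
    calc ∑ i ∈ Finset.Ioo (d * n - 1) N, 1 / (max (n : ℝ) ((i : ℝ) / d)) ^ 2
        ≤ ∑ i ∈ Finset.Ioo (d * n - 1) N, (d : ℝ) ^ 2 * ((i : ℝ) ^ 2)⁻¹ := Finset.sum_le_sum hb
      _ = (d : ℝ) ^ 2 * ∑ i ∈ Finset.Ioo (d * n - 1) N, ((i : ℝ) ^ 2)⁻¹ := by
          rw [Finset.mul_sum]
      _ ≤ (d : ℝ) ^ 2 * (2 / (d * n)) := by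
          apply mul_le_mul_of_nonneg_left hs (by positivity)
      _ = 2 * d / n := by field_simp
  calc ∑ i ∈ Finset.range N, 1 / (max (n : ℝ) ((i : ℝ) / d)) ^ 2
      ≤ ∑ i ∈ Finset.range (d * n) ∪ Finset.Ioo (d * n - 1) N,
          1 / (max (n : ℝ) ((i : ℝ) / d)) ^ 2 :=
        Finset.sum_le_sum_of_subset_of_nonneg hsplit (fun i _ _ => hterm i)
    _ ≤ ∑ i ∈ Finset.range (d * n), 1 / (max (n : ℝ) ((i : ℝ) / d)) ^ 2 +
        ∑ i ∈ Finset.Ioo (d * n - 1) N, 1 / (max (n : ℝ) ((i : ℝ) / d)) ^ 2 := by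
        rw [← Finset.sum_union_inter]
        have : 0 ≤ ∑ i ∈ Finset.range (d * n) ∩ Finset.Ioo (d * n - 1) N,
          1 / (max (n : ℝ) ((i : ℝ) / d)) ^ 2 := Finset.sum_nonneg (fun i _ => hterm i)
        linarith only [this]
    _ ≤ d / n + 2 * d / n := add_le_add h1 h2
    _ = 3 * d / n := by ring

lemma Ex_HH_sq {p : ℝ} (h0 : 0 ≤ p) (h1 : p ≤ 1) {Λ : Finset (Sym2 V)} {n d : ℕ} (hn : 1 ≤ n)
    (hd1 : 1 ≤ d) (hd : ∀ v, (Λ.filter (fun e => v ∈ e)).card ≤ d) (v : V) :
    Ex p Λ (fun S => (HH p Λ S v) ^ 2 * (1 / (max (n : ℝ) (csz S v)) ^ 2)) ≤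
      3 * (d : ℝ) / (4 * (n : ℝ)) := by
  classical
  have hn' : (0 : ℝ) < n := by exact_mod_cast hn
  have hd' : (0 : ℝ) < d := by exact_mod_cast hd1
  have key := explore_sq h0 h1 Λ (tch Λ {v}) (tch_mono Λ {v}) (tch_subset Λ {v})
    (fun S T _ hT hdis => tch_union_of_disjoint hT hdis)
    (fun S => 1 / (max (n : ℝ) (csz S v)) ^ 2)
    (by
      intro S T h
      have h1 : (csz S v : ℝ) ≤ csz T v := by exact_mod_cast csz_mono h v
      apply one_div_le_one_div_of_le (by positivity)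
      exact pow_le_pow_left₀ (by positivity) (max_le_max le_rfl h1) 2)
    (fun i => 1 / (max (n : ℝ) ((i : ℝ) / d)) ^ 2) (fun i => by positivity)
    (by
      intro S k _ hk
      have h3 : k ≤ csz S v * d := (hk.le).trans (card_tch_le hd S v)
      have h4 : (k : ℝ) / d ≤ csz S v := by
        rw [div_le_iff₀ hd']
        exact_mod_cast h3
      apply one_div_le_one_div_of_le (by positivity)
      exact pow_le_pow_left₀ (by positivity) (max_le_max le_rfl h4) 2)
  have hfin : p * (1 - p) * ∑ i ∈ Finset.range Λ.card, 1 / (max (n : ℝ) ((i : ℝ) / d)) ^ 2 ≤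
      3 * d / (4 * n) := by
    have h5 := sum_inv_max_sq hn hd1 Λ.card
    have h6 : p * (1 - p) ≤ 1 / 4 := by nlinarith only [sq_nonneg (p - 1 / 2)]
    have h7 : 0 ≤ ∑ i ∈ Finset.range Λ.card, 1 / (max (n : ℝ) ((i : ℝ) / d)) ^ 2 :=
      Finset.sum_nonneg (fun i _ => by positivity)
    calc p * (1 - p) * ∑ i ∈ Finset.range Λ.card, 1 / (max (n : ℝ) ((i : ℝ) / d)) ^ 2
        ≤ 1 / 4 * (3 * d / n) := by
          apply mul_le_mul h6 h5 h7 (by norm_num)
      _ = 3 * d / (4 * n) := by (clear * - hn hd1; field_simp)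
  refine le_trans (le_of_eq ?_) (key.trans hfin)
  congr 1

open Classical in
/-- Two-ghost inequality on a finite graph. -/
theorem two_ghost {p : ℝ} (h0 : 0 < p) (h1 : p ≤ 1) {Λ : Finset (Sym2 V)} {F : Finset V}
    (hΛF : ∀ e ∈ Λ, ∀ v ∈ e, v ∈ F) {n d : ℕ} (hn : 1 ≤ n) (hd1 : 1 ≤ d)
    (hd : ∀ v, (Λ.filter (fun e => v ∈ e)).card ≤ d) :
    ∑ e ∈ Λ, Ex p Λ (fun S => if Sg n S e then 1 else 0) ≤ 4 * d * F.card / (p * Real.sqrt n) := by
  have hn' : (0 : ℝ) < n := by exact_mod_cast hn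
  have hd' : (1 : ℝ) ≤ d := by exact_mod_cast hd1
  have hsq : 0 < Real.sqrt n := Real.sqrt_pos.2 hn'
  have hsq2 : Real.sqrt n * Real.sqrt n = n := Real.mul_self_sqrt hn'.le
  -- the functional
  set Φ : Finset (Sym2 V) → ℝ := fun S => ∑ v ∈ F, HH p Λ S v * (gw n (csz S v) / csz S v) with hΦ
  have lower : p / 4 * ∑ e ∈ Λ, Ex p Λ (fun S => if Sg n S e then 1 else 0) ≤ Ex p Λ Φ := by
    have e1 : Ex p Λ Φ = ∑ e ∈ Λ, Ex p Λ (fun S => (p - if e ∈ S then 1 else 0) * uu n F S e) := by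
      rw [← Ex_sum]
      congr 1
      funext S
      simp only [hΦ]
      rw [sum_HH]
    rw [e1, Finset.mul_sum]
    apply Finset.sum_le_sum
    intro e he
    induction e with
    | _ a b =>
      have ha : a ∈ F := hΛF _ he a (by simp)
      have hb : b ∈ F := hΛF _ he b (by simp)
      have e2 : Ex p Λ (fun S => (p - if s(a, b) ∈ S then 1 else 0) * uu n F S s(a, b)) =
          Ex p Λ (fun S => (p - if s(a, b) ∈ S then 1 else 0) * gw n (csz (insert s(a, b) S) a)) +
          Ex p Λ (fun S => p * (if ¬ Cn S a b then gw n (csz S a) * gw n (csz S b) else 0)) := by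
        rw [← Ex_add]
        apply Ex_congr
        intro S hS
        exact uu_decomp p hΛF hS ha hb
      have e3 : Ex p Λ (fun S => (p - if s(a, b) ∈ S then 1 else 0) *
          gw n (csz (insert s(a, b) S) a)) = 0 :=
        Ex_flip p he (fun S => gw n (csz (insert s(a, b) S) a)) (fun S => by
          rw [Finset.insert_idem])
      rw [e2, e3, zero_add, ← Ex_const_mul]
      apply Ex_mono h0.le h1
      intro S _
      by_cases hSg : Sg n S s(a, b)
      · rw [if_pos hSg]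
        obtain ⟨a', b', hab, hnc, hna, hnb⟩ := hSg
        have hcases : ¬ Cn S a b ∧ n ≤ csz S a ∧ n ≤ csz S b := by
          rw [Sym2.eq_iff] at hab
          rcases hab with ⟨rfl, rfl⟩ | ⟨rfl, rfl⟩
          · exact ⟨hnc, hna, hnb⟩
          · exact ⟨fun h => hnc h.symm, hnb, hna⟩
        rw [if_pos hcases.1]
        have g1 := gw_ge_half hn hcases.2.1
        have g2 := gw_ge_half hn hcases.2.2
        have : (1:ℝ) / 4 ≤ gw n (csz S a) * gw n (csz S b) := by nlinarith only [g1, g2]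
        nlinarith only [h0, this]
      · rw [if_neg hSg]
        have : 0 ≤ (if ¬ Cn S a b then gw n (csz S a) * gw n (csz S b) else 0) := by
          by_cases hc : Cn S a b
          · rw [if_neg (not_not.2 hc)]
          · rw [if_pos hc]
            exact mul_nonneg (gw_nonneg hn _) (gw_nonneg hn _)
        have := mul_nonneg h0.le this
        linarith only [this]
  have upper : Ex p Λ Φ ≤ F.card * (d / Real.sqrt n) := by
    have e1 : Ex p Λ Φ = ∑ v ∈ F, Ex p Λ (fun S => HH p Λ S v * (gw n (csz S v) / csz S v)) := by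
      rw [← Ex_sum]
    rw [e1]
    have : ∀ v ∈ F, Ex p Λ (fun S => HH p Λ S v * (gw n (csz S v) / csz S v)) ≤ d / Real.sqrt n := by
      intro v _
      have hpt : ∀ S ⊆ Λ, HH p Λ S v * (gw n (csz S v) / csz S v) ≤
          Real.sqrt n / 2 * ((HH p Λ S v) ^ 2 * (1 / (max (n : ℝ) (csz S v)) ^ 2)) +
          1 / (2 * Real.sqrt n) := by
        intro S _
        set H := HH p Λ S v
        set c : ℝ := (csz S v : ℝ) with hc
        have hc1 : 0 < c := by
          have := csz_pos S v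
          have : (1 : ℝ) ≤ c := by rw [hc]; exact_mod_cast this
          linarith only [this]
        set M := max (n : ℝ) c
        have hM : 0 < M := lt_max_of_lt_left hn'
        have hw : gw n (csz S v) / c ≤ 1 / M := by
          rw [div_le_div_iff₀ hc1 hM, one_mul]
          rcases max_cases (n : ℝ) c with ⟨h, _⟩ | ⟨h, _⟩
          · rw [show M = n from h]
            have := gw_le_div hn (csz S v)
            rw [le_div_iff₀ hn'] at this
            exact this
          · rw [show M = c from h]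
            have := gw_le_one hn (csz S v)
            nlinarith
        have hw0 : 0 ≤ gw n (csz S v) / c := div_nonneg (gw_nonneg hn _) hc1.le
        have s1 : H * (gw n (csz S v) / c) ≤ |H| * (1 / M) := by
          calc H * (gw n (csz S v) / c) ≤ |H| * (gw n (csz S v) / c) :=
                mul_le_mul_of_nonneg_right (le_abs_self H) hw0
            _ ≤ |H| * (1 / M) := mul_le_mul_of_nonneg_left hw (abs_nonneg H)
        have s2 : |H| * (1 / M) ≤ Real.sqrt n / 2 * (H ^ 2 * (1 / M ^ 2)) +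
            1 / (2 * Real.sqrt n) := by
          have hs : 0 ≤ (Real.sqrt n * (|H| * (1 / M)) - 1) ^ 2 := sq_nonneg _
          have habs : |H| ^ 2 = H ^ 2 := sq_abs H
          have expand : (Real.sqrt n * (|H| * (1 / M)) - 1) ^ 2 =
              2 * Real.sqrt n * (Real.sqrt n / 2 * (H ^ 2 * (1 / M ^ 2)) +
              1 / (2 * Real.sqrt n) - |H| * (1 / M)) := by
            rw [← habs]
            field_simp
            ring
          rw [expand] at hs
          have := nonneg_of_mul_nonneg_right hs (by positivity)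
          linarith only [this]
        exact s1.trans s2
      have h3 := Ex_mono h0.le h1 hpt
      rw [Ex_add, Ex_const_mul, Ex_const] at h3
      have h4 := Ex_HH_sq h0.le h1 hn hd1 hd v
      have h5 : Real.sqrt n / 2 * Ex p Λ (fun S => (HH p Λ S v) ^ 2 *
          (1 / (max (n : ℝ) (csz S v)) ^ 2)) ≤ Real.sqrt n / 2 * (3 * d / (4 * n)) :=
        mul_le_mul_of_nonneg_left h4 (by positivity)
      have h6 : Real.sqrt n / 2 * (3 * d / (4 * n)) + 1 / (2 * Real.sqrt n) ≤ d / Real.sqrt n := by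
        have : Real.sqrt n / 2 * (3 * d / (4 * n)) = 3 * d / 8 * (1 / Real.sqrt n) := by
          have hnn : (3 : ℝ) * d / (4 * n) = 3 * d / (4 * (Real.sqrt n * Real.sqrt n)) := by
            rw [hsq2]
          rw [hnn]
          generalize Real.sqrt n = s at hsq
          field_simp
          ring
        rw [this]
        have h7 : 1 / (2 * Real.sqrt n) = 1 / 2 * (1 / Real.sqrt n) := by field_simp
        have h8 : d / Real.sqrt n = d * (1 / Real.sqrt n) := by ring
        rw [h7, h8]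
        have : 0 < 1 / Real.sqrt n := by positivity
        nlinarith only [this, hd']
      linarith only [h3, h5, h6]
    calc ∑ v ∈ F, Ex p Λ (fun S => HH p Λ S v * (gw n (csz S v) / csz S v))
        ≤ ∑ v ∈ F, (d / Real.sqrt n : ℝ) := Finset.sum_le_sum this
      _ = F.card * (d / Real.sqrt n) := by rw [Finset.sum_const, nsmul_eq_mul]
  rw [le_div_iff₀ (by positivity)]
  have := lower.trans upper
  have h9 : p / 4 * (∑ e ∈ Λ, Ex p Λ (fun S => if Sg n S e then 1 else 0)) * (4 * Real.sqrt n) ≤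
      F.card * (d / Real.sqrt n) * (4 * Real.sqrt n) :=
    mul_le_mul_of_nonneg_right this (by positivity)
  have h10 : (F.card : ℝ) * (d / Real.sqrt n) * (4 * Real.sqrt n) = 4 * d * F.card := by
    (clear * - hn hd1; field_simp)
  rw [h10] at h9
  nlinarith only [h9]

end Ghost

end Vale.Agent.P151
end

section

open Finset

set_option linter.unusedSectionVars false

namespace Vale.Agent.P151

section DiffIneq
variable {V : Type*} [DecidableEq V]

open Classical in
lemma Ex_hit {ι : Type*} [DecidableEq ι] (q : ℝ) (F K : Finset ι) :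
    Ex q F (fun Q => if ∃ z ∈ Q, z ∈ K then 1 else 0) = 1 - (1 - q) ^ (K ∩ F).card := by
  induction F using Finset.induction_on with
  | empty => simp only [Ex_empty, notMem_empty, false_and, exists_false, ↓reduceIte, inter_empty, card_empty, pow_zero, sub_self]
  | insert e F he ih =>
    rw [Ex_insert q he, ih]
    by_cases hK : e ∈ K
    · have h1 : Ex q F (fun Q => if ∃ z ∈ insert e Q, z ∈ K then (1:ℝ) else 0) = 1 := by
        rw [Ex_congr q (G := fun _ => (1:ℝ))]
        · exact Ex_const q F 1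
        · intro S _
          exact if_pos ⟨e, Finset.mem_insert_self e S, hK⟩
      have h2 : (K ∩ insert e F).card = (K ∩ F).card + 1 := by
        rw [Finset.inter_insert_of_mem hK, Finset.card_insert_of_notMem]
        intro h
        exact he (Finset.mem_inter.1 h).2
      rw [h1, h2, pow_succ]
      ring
    · have h1 : Ex q F (fun Q => if ∃ z ∈ insert e Q, z ∈ K then (1:ℝ) else 0) =
          Ex q F (fun Q => if ∃ z ∈ Q, z ∈ K then (1:ℝ) else 0) := by
        apply Ex_congr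
        intro S _
        have hiff : (∃ z ∈ insert e S, z ∈ K) ↔ (∃ z ∈ S, z ∈ K) := by
          constructor
          · rintro ⟨z, hz, hzK⟩
            rw [Finset.mem_insert] at hz
            rcases hz with rfl | hz
            · exact absurd hzK hK
            · exact ⟨z, hz, hzK⟩
          · rintro ⟨z, hz, hzK⟩
            exact ⟨z, Finset.mem_insert_of_mem hz, hzK⟩
        by_cases h : ∃ z ∈ S, z ∈ K
        · rw [if_pos (hiff.2 h), if_pos h]
        · rw [if_neg (fun h' => h (hiff.1 h')), if_neg h]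
      rw [h1, ih, Finset.inter_insert_of_notMem hK]
      ring

lemma gw_mono {n : ℕ} (hn : 1 ≤ n) {a b : ℕ} (h : a ≤ b) : gw n a ≤ gw n b := by
  unfold gw
  have := pow_le_pow_of_le_one (one_sub_inv_nonneg hn) (one_sub_inv_le_one n) h
  linarith only [this]

lemma gw_union {n : ℕ} (hn : 1 ≤ n) (A B : Finset V) :
    gw n (A ∪ B).card ≤ gw n A.card + gw n B.card := by
  have h1 := gw_mono hn (Finset.card_union_le A B)
  have h2 := gw_add n A.card B.card
  have h3 := mul_nonneg (gw_nonneg hn A.card) (gw_nonneg hn B.card)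
  linarith only [h1, h2, h3]

open Classical in
/-- indicator of a large cluster -/
noncomputable def big (n : ℕ) (x : V) (S : Finset (Sym2 V)) : ℝ := if n ≤ csz S x then 1 else 0

lemma big_mono (n : ℕ) (x : V) : Monotone (big (V := V) n x) := by
  intro S T h
  unfold big
  by_cases h1 : n ≤ csz S x
  · rw [if_pos h1, if_pos (h1.trans (csz_mono h x))]
  · rw [if_neg h1]
    split_ifs <;> norm_num

lemma big_nonneg (n : ℕ) (x : V) (S : Finset (Sym2 V)) : 0 ≤ big n x S := by
  unfold big; split_ifs <;> norm_num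

lemma big_le_one (n : ℕ) (x : V) (S : Finset (Sym2 V)) : big n x S ≤ 1 := by
  unfold big; split_ifs <;> norm_num

open Classical in
/-- OSSS with ghost field. -/
theorem diff_ineq {p : ℝ} (h0 : 0 ≤ p) (h1 : p ≤ 1) {Λ : Finset (Sym2 V)} {F : Finset V}
    (hΛF : ∀ e ∈ Λ, ∀ v ∈ e, v ∈ F) {n : ℕ} (hn : 1 ≤ n) {x : V} (hx : x ∈ F) {σ : ℝ}
    (hσ : ∀ v ∈ F, Ex p Λ (fun S => gw n (csz S v)) ≤ σ) :
    Ex p Λ (big n x) * (1 / 2 - σ) ≤
      2 * σ * (p * (1 - p)) * ∑ e ∈ Λ, Ex p (Λ.erase e) (fun S => big n x (insert e S) - big n x S)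
      := by
  have h2 : 0 ≤ 1 - p := by linarith only [h1]
  have hq0 : (0 : ℝ) ≤ 1 / n := by positivity
  have hq1 : (1 : ℝ) / n ≤ 1 := by
    have := one_sub_inv_nonneg hn
    linarith only [this]
  have hq : 1 - (1 : ℝ) / n = 1 - 1 / n := rfl
  set g : Finset V → Finset (Sym2 V) → ℝ := fun Q S => if ∃ z ∈ Q, z ∈ cl S x then 1 else 0 with hg
  have key : ∀ Q ⊆ F, Ex p Λ (fun S => big n x S * g Q S) ≤
      Ex p Λ (big n x) * Ex p Λ (g Q) +
      ∑ e ∈ Λ, Ex p Λ (fun S => if e ∈ tch Λ Q S then 1 else 0) *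
        (p * (1 - p) * Ex p (Λ.erase e) (fun S => big n x (insert e S) - big n x S)) := by
    intro Q _
    have := osss h0 h1 Λ (tch Λ Q) (tch_mono Λ Q) (tch_subset Λ Q) (g Q)
      (fun S => by simp only [hg]; split_ifs <;> norm_num)
      (fun S => by simp only [hg]; split_ifs <;> norm_num)
      (by
        intro S T _ hT hd
        simp only [hg]
        have hiff : (∃ z ∈ Q, z ∈ cl (S ∪ T) x) ↔ (∃ z ∈ Q, z ∈ cl S x) := by
          constructor
          · rintro ⟨z, hz, hzc⟩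
            rw [mem_cl] at hzc
            exact ⟨z, hz, mem_cl.2 ((Cn_union_of_disjoint hT hd hz).1 hzc.symm).symm⟩
          · rintro ⟨z, hz, hzc⟩
            exact ⟨z, hz, cl_mono Finset.subset_union_left x hzc⟩
        by_cases h : ∃ z ∈ Q, z ∈ cl S x
        · rw [if_pos (hiff.2 h), if_pos h]
        · rw [if_neg (fun h' => h (hiff.1 h')), if_neg h])
      (big n x)
    refine this.trans (le_of_eq ?_)
    congr 1
    apply Finset.sum_congr rfl
    intro e _
    congr 2
    apply Ex_congr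
    intro S _
    exact abs_of_nonneg (sub_nonneg.2 (big_mono n x (Finset.subset_insert e S)))
  have hI0 : ∀ e, 0 ≤ p * (1 - p) * Ex p (Λ.erase e)
      (fun S => big n x (insert e S) - big n x S) := fun e =>
    mul_nonneg (mul_nonneg h0 h2) (Ex_nonneg h0 h1
      (fun S _ => sub_nonneg.2 (big_mono n x (Finset.subset_insert e S))))
  -- average over `Q`
  have avg := Ex_mono hq0 hq1 key
  have hgQ : ∀ S ⊆ Λ, Ex (1 / (n:ℝ)) F (fun Q => g Q S) = gw n (csz S x) := by
    intro S hS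
    simp only [hg]
    rw [Ex_hit]
    unfold gw csz
    rw [Finset.inter_eq_left.2 (cl_subset_of hΛF hS hx)]
  have lhs : Ex (1 / (n:ℝ)) F (fun Q => Ex p Λ (fun S => big n x S * g Q S)) =
      Ex p Λ (fun S => big n x S * gw n (csz S x)) := by
    rw [Ex_comm]
    apply Ex_congr
    intro S hS
    rw [Ex_const_mul, hgQ S hS]
  have rhs1 : Ex (1 / (n:ℝ)) F (fun Q => Ex p Λ (big n x) * Ex p Λ (g Q)) =
      Ex p Λ (big n x) * Ex p Λ (fun S => gw n (csz S x)) := by
    rw [Ex_const_mul]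
    congr 1
    rw [show (fun Q => Ex p Λ (g Q)) = (fun Q => Ex p Λ (fun S => g Q S)) from rfl, Ex_comm]
    exact Ex_congr p hgQ
  have rhs2 : Ex (1 / (n:ℝ)) F (fun Q => ∑ e ∈ Λ, Ex p Λ (fun S => if e ∈ tch Λ Q S then 1 else 0) *
        (p * (1 - p) * Ex p (Λ.erase e) (fun S => big n x (insert e S) - big n x S))) ≤
      ∑ e ∈ Λ, (2 * σ) *
        (p * (1 - p) * Ex p (Λ.erase e) (fun S => big n x (insert e S) - big n x S)) := by
    rw [Ex_sum]
    apply Finset.sum_le_sum
    intro e he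
    rw [Ex_mul_const]
    apply mul_le_mul_of_nonneg_right _ (hI0 e)
    rw [Ex_comm]
    induction e with
    | _ a b =>
      have ha : a ∈ F := hΛF _ he a (by simp)
      have hb : b ∈ F := hΛF _ he b (by simp)
      have hpt : ∀ S ⊆ Λ, Ex (1 / (n:ℝ)) F (fun Q => if s(a, b) ∈ tch Λ Q S then 1 else 0) ≤
          gw n (csz S a) + gw n (csz S b) := by
        intro S hS
        have heq : ∀ Q ⊆ F, (if s(a, b) ∈ tch Λ Q S then (1:ℝ) else 0) =
            if ∃ z ∈ Q, z ∈ cl S a ∪ cl S b then 1 else 0 := by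
          intro Q _
          have hiff : s(a, b) ∈ tch Λ Q S ↔ ∃ z ∈ Q, z ∈ cl S a ∪ cl S b := by
            rw [mem_tch]
            constructor
            · rintro ⟨_, v, hv, z, hz, hc⟩
              refine ⟨z, hz, ?_⟩
              rw [Finset.mem_union, mem_cl, mem_cl]
              rw [Sym2.mem_iff] at hv
              rcases hv with rfl | rfl
              · exact Or.inl hc.symm
              · exact Or.inr hc.symm
            · rintro ⟨z, hz, hzc⟩
              rw [Finset.mem_union, mem_cl, mem_cl] at hzc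
              rcases hzc with h | h
              · exact ⟨he, a, by simp, z, hz, h.symm⟩
              · exact ⟨he, b, by simp, z, hz, h.symm⟩
          by_cases h : ∃ z ∈ Q, z ∈ cl S a ∪ cl S b
          · rw [if_pos (hiff.2 h), if_pos h]
          · rw [if_neg (fun h' => h (hiff.1 h')), if_neg h]
        rw [Ex_congr _ heq, Ex_hit]
        have hsub : cl S a ∪ cl S b ⊆ F :=
          Finset.union_subset (cl_subset_of hΛF hS ha) (cl_subset_of hΛF hS hb)
        rw [Finset.inter_eq_left.2 hsub]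
        exact gw_union hn (cl S a) (cl S b)
      refine (Ex_mono h0 h1 hpt).trans ?_
      rw [Ex_add]
      have := hσ a ha
      have := hσ b hb
      (clear h0 h1 hn x hx h2 hq0 hq1 hq g hg key hI0 avg hgQ lhs rhs1 hpt; linarith)
  rw [Ex_add, lhs, rhs1] at avg
  have hlow : 1 / 2 * Ex p Λ (big n x) ≤ Ex p Λ (fun S => big n x S * gw n (csz S x)) := by
    rw [← Ex_const_mul]
    apply Ex_mono h0 h1
    intro S _
    unfold big
    by_cases h : n ≤ csz S x
    · rw [if_pos h]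
      have := gw_ge_half hn h
      linarith only [this]
    · rw [if_neg h]
      simp
  have hb0 : 0 ≤ Ex p Λ (big n x) := Ex_nonneg h0 h1 (fun S _ => big_nonneg n x S)
  have hσx := mul_le_mul_of_nonneg_left (hσ x hx) hb0
  have hsum : ∑ e ∈ Λ, (2 * σ) *
        (p * (1 - p) * Ex p (Λ.erase e) (fun S => big n x (insert e S) - big n x S)) =
      2 * σ * (p * (1 - p)) * ∑ e ∈ Λ, Ex p (Λ.erase e)
        (fun S => big n x (insert e S) - big n x S) := by
    rw [Finset.mul_sum]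
    apply Finset.sum_congr rfl
    intro e _
    ring
  rw [hsum] at rhs2
  linarith only [avg, rhs2, hlow, hσx]

end DiffIneq

end Vale.Agent.P151
end

section

open Finset

set_option linter.unusedSectionVars false

namespace Vale.Agent.P151

section T2
variable {V : Type*} [DecidableEq V]

end T2

end Vale.Agent.P151
end

section

open Finset

set_option linter.unusedSectionVars false

namespace Vale.Agent.P151

section Thin
variable {ι : Type*} [DecidableEq ι]

variable {V : Type*} [DecidableEq V]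

end Thin

end Vale.Agent.P151
end

section

open Finset

set_option linter.unusedSectionVars false

namespace Vale.Agent.P151

section Infinite
variable {V : Type*} [DecidableEq V]

/-- infinite-volume expectation of an increasing function -/
noncomputable def EV (G : SimpleGraph V) (p : ℝ) (A : Finset (Sym2 V) → ℝ) : ℝ :=
  ⨆ F : Finset V, Ex p (edgesIn G F) A

section basic
variable {G : SimpleGraph V} {p : ℝ} {A B : Finset (Sym2 V) → ℝ}

lemma EV_bdd (h0 : 0 ≤ p) (h1 : p ≤ 1) (hA : ∀ S, A S ≤ 1) :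
    BddAbove (Set.range (fun F : Finset V => Ex p (edgesIn G F) A)) := by
  refine ⟨1, ?_⟩
  rintro _ ⟨F, rfl⟩
  exact Ex_le_const h0 h1 (fun S _ => hA S)

lemma le_EV (h0 : 0 ≤ p) (h1 : p ≤ 1) (hA : ∀ S, A S ≤ 1) (F : Finset V) :
    Ex p (edgesIn G F) A ≤ EV G p A := le_ciSup (EV_bdd h0 h1 hA) F

lemma EV_le {c : ℝ} (h : ∀ F : Finset V, Ex p (edgesIn G F) A ≤ c) : EV G p A ≤ c :=
  ciSup_le h

lemma EV_le_one (h0 : 0 ≤ p) (h1 : p ≤ 1) (hA : ∀ S, A S ≤ 1) : EV G p A ≤ 1 :=
  EV_le (fun _ => Ex_le_const h0 h1 (fun S _ => hA S))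

lemma EV_nonneg (h0 : 0 ≤ p) (h1 : p ≤ 1) (hA0 : ∀ S, 0 ≤ A S) (hA : ∀ S, A S ≤ 1) :
    0 ≤ EV G p A :=
  (Ex_nonneg h0 h1 (fun S _ => hA0 S)).trans (le_EV h0 h1 hA ∅)

lemma EV_mono (h0 : 0 ≤ p) (h1 : p ≤ 1) (hAB : ∀ S, A S ≤ B S)
    (hB : ∀ S, B S ≤ 1) : EV G p A ≤ EV G p B :=
  EV_le (fun F => (Ex_mono h0 h1 (fun S _ => hAB S)).trans (le_EV h0 h1 hB F))

lemma exists_lt_Ex {c : ℝ} (h : c < EV G p A) : ∃ F : Finset V, c < Ex p (edgesIn G F) A :=
  exists_lt_of_lt_ciSup h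

lemma Ex_edgesIn_mono (h0 : 0 ≤ p) (h1 : p ≤ 1) (hAm : Monotone A) {F F' : Finset V}
    (h : F ⊆ F') : Ex p (edgesIn G F) A ≤ Ex p (edgesIn G F') A :=
  Ex_mono_set h0 h1 (edgesIn_mono G h) hAm

lemma EV_mul_le (h0 : 0 ≤ p) (h1 : p ≤ 1) (hAm : Monotone A) (hBm : Monotone B)
    (hA0 : ∀ S, 0 ≤ A S) (hB0 : ∀ S, 0 ≤ B S) (hA : ∀ S, A S ≤ 1) (hB : ∀ S, B S ≤ 1) :
    EV G p A * EV G p B ≤ EV G p (fun S => A S * B S) := by
  have hAB : ∀ S, A S * B S ≤ 1 := fun S => mul_le_one₀ (hA S) (hB0 S) (hB S)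
  have key : ∀ F F' : Finset V, Ex p (edgesIn G F) A * Ex p (edgesIn G F') B ≤
      EV G p (fun S => A S * B S) := by
    intro F F'
    have a1 := Ex_edgesIn_mono (G := G) h0 h1 hAm (Finset.subset_union_left (s₁ := F) (s₂ := F'))
    have b1 := Ex_edgesIn_mono (G := G) h0 h1 hBm (Finset.subset_union_right (s₁ := F) (s₂ := F'))
    have b0 : 0 ≤ Ex p (edgesIn G F') B := Ex_nonneg h0 h1 (fun S _ => hB0 S)
    have a0 : 0 ≤ Ex p (edgesIn G (F ∪ F')) A := Ex_nonneg h0 h1 (fun S _ => hA0 S)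
    calc Ex p (edgesIn G F) A * Ex p (edgesIn G F') B
        ≤ Ex p (edgesIn G (F ∪ F')) A * Ex p (edgesIn G (F ∪ F')) B := mul_le_mul a1 b1 b0 a0
      _ ≤ Ex p (edgesIn G (F ∪ F')) (fun S => A S * B S) := harris h0 h1 _ hAm hBm
      _ ≤ _ := le_EV h0 h1 hAB _
  have hBpos : 0 ≤ EV G p B := EV_nonneg h0 h1 hB0 hB
  rw [show EV G p A = ⨆ F : Finset V, Ex p (edgesIn G F) A from rfl,
    Real.iSup_mul_of_nonneg hBpos]
  apply ciSup_le
  intro F
  have hF0 : 0 ≤ Ex p (edgesIn G F) A := Ex_nonneg h0 h1 (fun S _ => hA0 S)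
  rw [show EV G p B = ⨆ F : Finset V, Ex p (edgesIn G F) B from rfl,
    Real.mul_iSup_of_nonneg hF0]
  apply ciSup_le
  intro F'
  exact key F F'

end basic

/-- transport along an injection -/
lemma Ex_image {ι κ : Type*} [DecidableEq ι] [DecidableEq κ] (p : ℝ) (φ : ι → κ)
    (hφ : Function.Injective φ) (Λ : Finset ι) (A : Finset κ → ℝ) :
    Ex p (Λ.image φ) A = Ex p Λ (fun S => A (S.image φ)) := by
  induction Λ using Finset.induction_on generalizing A with
  | empty => simp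
  | insert e Λ he ih =>
    have he' : φ e ∉ Λ.image φ := by
      rw [Finset.mem_image]
      rintro ⟨a, ha, hae⟩
      exact he (hφ hae ▸ ha)
    rw [Finset.image_insert, Ex_insert p he', Ex_insert p he, ih, ih]
    simp only [Finset.image_insert]

lemma Sym2_map_inj {W : Type*} {g : V → W} (hg : Function.Injective g) :
    Function.Injective (Sym2.map g) := Sym2.map.injective hg

lemma edgesIn_image (G : SimpleGraph V) (g : G ≃g G) (F : Finset V) :
    edgesIn G (F.image g) = (edgesIn G F).image (Sym2.map g) := by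
  ext e
  rw [Finset.mem_image]
  induction e with
  | _ a b =>
    rw [mk_mem_edgesIn, Finset.mem_image, Finset.mem_image]
    constructor
    · rintro ⟨hadj, ⟨a', ha', rfl⟩, ⟨b', hb', rfl⟩⟩
      refine ⟨s(a', b'), mk_mem_edgesIn.2 ⟨?_, ha', hb'⟩, rfl⟩
      exact g.map_adj_iff.1 hadj
    · rintro ⟨e', he', heq⟩
      induction e' with
      | _ a' b' =>
        rw [mk_mem_edgesIn] at he'
        obtain ⟨h1, h2, h3⟩ := he'
        rw [Sym2.map_mk, Sym2.eq_iff] at heq
        rcases heq with ⟨rfl, rfl⟩ | ⟨rfl, rfl⟩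
        · exact ⟨g.map_adj_iff.2 h1, ⟨a', h2, rfl⟩, ⟨b', h3, rfl⟩⟩
        · exact ⟨g.map_adj_iff.2 h1.symm, ⟨b', h3, rfl⟩, ⟨a', h2, rfl⟩⟩

lemma Cn_image {g : V → V} (hg : Function.Injective g) (S : Finset (Sym2 V)) (x y : V) :
    Cn (S.image (Sym2.map g)) (g x) (g y) ↔ Cn S x y := by
  constructor
  · intro h
    have : g y ∈ g '' {z | Cn S x z} := by
      refine Cn_closed (S := S.image (Sym2.map g)) (A := g '' {z | Cn S x z}) ?_
        ⟨x, Cn.refl S x, rfl⟩ h
      rintro _ ⟨u, hu, rfl⟩ v huv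
      rw [Finset.mem_image] at huv
      obtain ⟨e, he, heq⟩ := huv
      induction e with
      | _ a b =>
        rw [Sym2.map_mk, Sym2.eq_iff] at heq
        rcases heq with ⟨h1, rfl⟩ | ⟨rfl, h1⟩
        · have := hg h1
          subst this
          exact ⟨b, Cn.trans hu (Cn_of_mem he), rfl⟩
        · have := hg h1
          subst this
          exact ⟨a, Cn.trans hu (Cn_of_mem he).symm, rfl⟩
    obtain ⟨z, hz, hzy⟩ := this
    rw [← hg hzy]
    exact hz
  · intro h
    have : y ∈ {z | Cn (S.image (Sym2.map g)) (g x) (g z)} := by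
      refine Cn_closed (S := S) ?_ (Cn.refl _ _) h
      intro u hu v huv
      refine Cn.trans hu (Cn_of_mem ?_)
      rw [Finset.mem_image]
      exact ⟨s(u, v), huv, rfl⟩
    exact this

lemma cl_image {g : V → V} (hg : Function.Injective g) (S : Finset (Sym2 V)) (x : V) :
    cl (S.image (Sym2.map g)) (g x) = (cl S x).image g := by
  ext y
  rw [mem_cl, Finset.mem_image]
  constructor
  · intro h
    have : y ∈ g '' {z | Cn S x z} := by
      refine Cn_closed (S := S.image (Sym2.map g)) (A := g '' {z | Cn S x z}) ?_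
        ⟨x, Cn.refl S x, rfl⟩ h
      rintro _ ⟨u, hu, rfl⟩ v huv
      rw [Finset.mem_image] at huv
      obtain ⟨e, he, heq⟩ := huv
      induction e with
      | _ a b =>
        rw [Sym2.map_mk, Sym2.eq_iff] at heq
        rcases heq with ⟨h1, rfl⟩ | ⟨rfl, h1⟩
        · have := hg h1
          subst this
          exact ⟨b, Cn.trans hu (Cn_of_mem he), rfl⟩
        · have := hg h1
          subst this
          exact ⟨a, Cn.trans hu (Cn_of_mem he).symm, rfl⟩
    obtain ⟨z, hz, hzy⟩ := this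
    exact ⟨z, mem_cl.2 hz, hzy⟩
  · rintro ⟨z, hz, rfl⟩
    exact (Cn_image hg S x z).2 (mem_cl.1 hz)

lemma csz_image {g : V → V} (hg : Function.Injective g) (S : Finset (Sym2 V)) (x : V) :
    csz (S.image (Sym2.map g)) (g x) = csz S x := by
  unfold csz
  rw [cl_image hg, Finset.card_image_of_injective _ hg]

lemma EV_aut (G : SimpleGraph V) (g : G ≃g G) (p : ℝ) (A : Finset (Sym2 V) → ℝ) :
    EV G p (fun S => A (S.image (Sym2.map g))) = EV G p A := by
  unfold EV
  have h1 : ∀ F : Finset V, Ex p (edgesIn G F) (fun S => A (S.image (Sym2.map g))) =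
      Ex p (edgesIn G (F.image g)) A := by
    intro F
    rw [edgesIn_image, Ex_image p _ (Sym2_map_inj g.injective)]
  simp_rw [h1]
  have hsurj : Function.Surjective (fun F : Finset V => F.image g) := by
    intro F
    refine ⟨F.image g.symm, ?_⟩
    simp only [Finset.image_image]
    have : (⇑g ∘ ⇑g.symm) = id := by
      funext v; simp
    rw [this, Finset.image_id]
  exact hsurj.iSup_comp (g := fun F => Ex p (edgesIn G F) A)

open Classical in
/-- two-point indicator -/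
noncomputable def con (x y : V) (S : Finset (Sym2 V)) : ℝ := if Cn S x y then 1 else 0

lemma con_mono (x y : V) : Monotone (con (V := V) x y) := by
  intro S T h
  unfold con
  by_cases h1 : Cn S x y
  · rw [if_pos h1, if_pos (h1.mono h)]
  · rw [if_neg h1]
    split_ifs <;> norm_num

lemma con_nonneg (x y : V) (S : Finset (Sym2 V)) : 0 ≤ con x y S := by
  unfold con; split_ifs <;> norm_num

lemma con_le_one (x y : V) (S : Finset (Sym2 V)) : con x y S ≤ 1 := by
  unfold con; split_ifs <;> norm_num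

/-- two-point function -/
noncomputable def tau (G : SimpleGraph V) (p : ℝ) (x y : V) : ℝ := EV G p (con x y)

/-- tail of the cluster size -/
noncomputable def phi (G : SimpleGraph V) (p : ℝ) (n : ℕ) (x : V) : ℝ := EV G p (big n x)

lemma tau_aut (G : SimpleGraph V) (g : G ≃g G) (p : ℝ) (x y : V) :
    tau G p (g x) (g y) = tau G p x y := by
  unfold tau
  rw [← EV_aut G g p (con (g x) (g y))]
  congr 1
  funext S
  unfold con
  by_cases h : Cn S x y
  · rw [if_pos h, if_pos ((Cn_image g.injective S x y).2 h)]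
  · rw [if_neg h, if_neg (fun h' => h ((Cn_image g.injective S x y).1 h'))]

lemma phi_aut (G : SimpleGraph V) (g : G ≃g G) (p : ℝ) (n : ℕ) (x : V) :
    phi G p n (g x) = phi G p n x := by
  unfold phi
  rw [← EV_aut G g p (big n (g x))]
  congr 1
  funext S
  unfold big
  rw [csz_image g.injective]

end Infinite

end Vale.Agent.P151
end

section

open MeasureTheory ProbabilityTheory Measure unitInterval
open scoped ENNReal Finset

namespace Vale.Agent.P151

variable {ι : Type*}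

theorem setBer_inter_eq (u : Set ι) (p : I) (F η : Finset ι) (hF : (F : Set ι) ⊆ u) (hη : η ⊆ F) :
    setBernoulli u p {ω | ω ∩ (F : Set ι) = (η : Set ι)}
      = ENNReal.ofReal ((p : ℝ) ^ η.card * (1 - (p : ℝ)) ^ (F.card - η.card)) := by
  classical
  rw [setBernoulli_apply']
  have hpre : ((fun q : ι → Prop ↦ {i | q i}) ⁻¹' {ω | ω ∩ (F : Set ι) = (η : Set ι)})
      = (F : Set ι).pi (fun i => {q : Prop | q ↔ i ∈ η}) := by
    ext q
    simp only [Set.mem_preimage, Set.mem_ofPred_eq, Set.mem_pi, Finset.mem_coe]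
    constructor
    · intro h i hi
      have := Set.ext_iff.1 h i
      simp only [Set.mem_inter_iff, Set.mem_ofPred_eq, Finset.mem_coe] at this
      constructor
      · intro hq; exact this.1 ⟨hq, hi⟩
      · intro hq; exact (this.2 hq).1
    · intro h
      ext i
      simp only [Set.mem_inter_iff, Set.mem_ofPred_eq, Finset.mem_coe]
      constructor
      · rintro ⟨h1, h2⟩; exact (h i h2).1 h1
      · intro hi; exact ⟨(h i (hη hi)).2 hi, hη hi⟩
  rw [hpre, infinitePi_pi _ (fun i _ => MeasurableSet.of_discrete)]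
  have hval : ∀ i ∈ F, ((toNNReal p • dirac (i ∈ u) + toNNReal (σ p) • dirac False : Measure Prop)
      {q : Prop | q ↔ i ∈ η}) = ENNReal.ofReal (if i ∈ η then (p : ℝ) else 1 - (p : ℝ)) := by
    intro i hi
    have hiu : i ∈ u := hF hi
    have h1 : (↑(toNNReal p) : ℝ≥0∞) = ENNReal.ofReal (p : ℝ) := by
      rw [ENNReal.ofReal]
      congr 1
      exact (Real.toNNReal_of_nonneg p.2.1).symm
    have h2 : (↑(toNNReal (σ p)) : ℝ≥0∞) = ENNReal.ofReal (1 - (p : ℝ)) := by
      rw [ENNReal.ofReal]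
      congr 1
      exact (Real.toNNReal_of_nonneg (σ p).2.1).symm
    by_cases hη' : i ∈ η
    · simp only [hiu, hη', iff_true, coe_add, coe_smul, Pi.add_apply, Pi.smul_apply, MeasurableSpace.measurableSet_top, dirac_apply', Set.mem_ofPred_eq, Set.indicator_of_mem, Pi.one_apply, ENNReal.smul_one, h1, not_false_eq_true, Set.indicator_of_notMem, smul_zero, add_zero, ↓reduceIte]
    · simp only [hiu, hη', iff_false, coe_add, coe_smul, Pi.add_apply, Pi.smul_apply, MeasurableSpace.measurableSet_top, dirac_apply', Set.mem_ofPred_eq, not_true_eq_false, not_false_eq_true, Set.indicator_of_notMem, smul_zero, Set.indicator_of_mem, Pi.one_apply, ENNReal.smul_one, h2, zero_add, ↓reduceIte]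
  rw [Finset.prod_congr rfl hval, ← ENNReal.ofReal_prod_of_nonneg]
  · congr 1
    rw [Finset.prod_ite, Finset.prod_const, Finset.prod_const]
    have e1 : (F.filter (fun i => i ∈ η)) = η := by
      ext i; simp only [Finset.mem_filter]; exact ⟨fun h => h.2, fun h => ⟨hη h, h⟩⟩
    have e2 : (F.filter (fun i => ¬ i ∈ η)) = F \ η := by
      ext i; simp only [Finset.mem_filter, Finset.mem_sdiff]
    rw [e1, e2, Finset.card_sdiff_of_subset hη]
  · intro i _
    split_ifs
    · exact p.2.1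
    · linarith [p.2.2]


theorem measurableSet_inter_eq (F η : Finset ι) :
    MeasurableSet {ω : Set ι | ω ∩ (F : Set ι) = (η : Set ι)} := by
  classical
  by_cases hη : η ⊆ F
  · have : {ω : Set ι | ω ∩ (F : Set ι) = (η : Set ι)} = ⋂ i ∈ F, {ω : Set ι | i ∈ ω ↔ i ∈ η} := by
      ext ω
      simp only [Set.mem_ofPred_eq, Set.mem_iInter]
      constructor
      · intro h i hi
        have := Set.ext_iff.1 h i
        simp only [Set.mem_inter_iff, Finset.mem_coe] at this
        constructor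
        · intro hq; exact this.1 ⟨hq, hi⟩
        · intro hq; exact (this.2 hq).1
      · intro h
        ext i
        simp only [Set.mem_inter_iff, Finset.mem_coe]
        constructor
        · rintro ⟨h1, h2⟩; exact (h i h2).1 h1
        · intro hi; exact ⟨(h i (hη hi)).2 hi, hη hi⟩
    rw [this]
    refine Finset.measurableSet_biInter _ (fun i _ => ?_)
    by_cases hi : i ∈ η
    · simp only [hi, iff_true]
      exact measurableSet_setOfPred.2 (measurable_set_mem i)
    · simp only [hi, iff_false]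
      exact (measurableSet_setOfPred.2 (measurable_set_mem i)).compl
  · have : {ω : Set ι | ω ∩ (F : Set ι) = (η : Set ι)} = ∅ := by
      ext ω
      simp only [Set.mem_ofPred_eq, Set.mem_empty_iff_false, iff_false]
      intro h
      apply hη
      intro i hi
      have : i ∈ ω ∩ (F : Set ι) := by rw [h]; exact hi
      exact this.2
    rw [this]; exact MeasurableSet.empty

theorem setOf_inter_eq_biUnion (F : Finset ι) (Q : Set ι → Prop) [DecidablePred Q] :
    {ω : Set ι | Q (ω ∩ (F : Set ι))}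
      = ⋃ η ∈ F.powerset.filter (fun η : Finset ι => Q (η : Set ι)), {ω : Set ι | ω ∩ (F : Set ι) = (η : Set ι)} := by
  classical
  ext ω
  simp only [Set.mem_ofPred_eq, Finset.mem_filter, Finset.mem_powerset, Set.mem_iUnion,
    exists_prop]
  constructor
  · intro h
    refine ⟨F.filter (fun i => i ∈ ω), ⟨Finset.filter_subset _ _, ?_⟩, ?_⟩
    · have : ((F.filter (fun i => i ∈ ω) : Finset ι) : Set ι) = ω ∩ (F : Set ι) := by
        ext i; simp [and_comm]
      rw [this]; exact h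
    · ext i; simp [and_comm]
  · rintro ⟨η, ⟨_, h2⟩, h3⟩
    rw [h3]; exact h2

theorem measurableSet_inter_pred (F : Finset ι) (Q : Set ι → Prop) :
    MeasurableSet {ω : Set ι | Q (ω ∩ (F : Set ι))} := by
  classical
  rw [setOf_inter_eq_biUnion]
  exact Finset.measurableSet_biUnion _ (fun η _ => measurableSet_inter_eq F η)

theorem setBer_inter_pred (u : Set ι) (p : I) (F : Finset ι) (hF : (F : Set ι) ⊆ u)
    (Q : Set ι → Prop) [DecidablePred Q] :
    (setBernoulli u p).real {ω | Q (ω ∩ (F : Set ι))}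
      = ∑ η ∈ F.powerset.filter (fun η : Finset ι => Q (η : Set ι)), (p : ℝ) ^ η.card * (1 - (p : ℝ)) ^ (F.card - η.card) := by
  classical
  rw [setOf_inter_eq_biUnion, measureReal_biUnion_finset]
  · refine Finset.sum_congr rfl (fun η hη => ?_)
    rw [Finset.mem_filter, Finset.mem_powerset] at hη
    rw [measureReal_def, setBer_inter_eq u p F η hF hη.1, ENNReal.toReal_ofReal]
    have := p.2.1
    have h2 : (0 : ℝ) ≤ 1 - (p : ℝ) := by linarith [p.2.2]
    (clear * - this h2; positivity)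
  · intro η _ η' _ hne
    rw [Function.onFun, Set.disjoint_left]
    intro ω h1 h2
    apply hne
    have h1' : ω ∩ (F : Set ι) = (η : Set ι) := h1
    have h2' : ω ∩ (F : Set ι) = (η' : Set ι) := h2
    exact_mod_cast h1'.symm.trans h2'
  · exact fun η _ => measurableSet_inter_eq F η

end Vale.Agent.P151
end
end

section

section

namespace Vale.Agent.P151

open SimpleGraph

universe u
variable {V : Type u}

/-- Balls of a locally finite graph, as finsets. -/
noncomputable def ballF (G : SimpleGraph V) [G.LocallyFinite] (o : V) : ℕ → Finset V := by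
  classical
  exact fun n => Nat.rec {o} (fun _ B => B ∪ B.biUnion (fun x => G.neighborFinset x)) n

theorem ballF_zero (G : SimpleGraph V) [G.LocallyFinite] (o : V) : ballF G o 0 = {o} := rfl

theorem mem_ballF_succ (G : SimpleGraph V) [G.LocallyFinite] (o : V) (n : ℕ) (y : V) :
    y ∈ ballF G o (n + 1) ↔ y ∈ ballF G o n ∨ ∃ x ∈ ballF G o n, G.Adj x y := by
  classical
  have : ballF G o (n + 1) = ballF G o n ∪ (ballF G o n).biUnion (fun x => G.neighborFinset x) := by
    unfold ballF; rfl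
  rw [this]
  simp only [Finset.mem_union, Finset.mem_biUnion, mem_neighborFinset]

theorem ballF_mono (G : SimpleGraph V) [G.LocallyFinite] (o : V) : Monotone (ballF G o) := by
  refine monotone_nat_of_le_succ (fun n x hx => ?_)
  rw [mem_ballF_succ]; exact Or.inl hx

theorem mem_ballF_self (G : SimpleGraph V) [G.LocallyFinite] (o : V) (n : ℕ) : o ∈ ballF G o n := by
  have : o ∈ ballF G o 0 := by rw [ballF_zero]; simp
  exact ballF_mono G o (Nat.zero_le n) this

theorem mem_ballF_of_walk (G : SimpleGraph V) [G.LocallyFinite] (o : V) :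
    ∀ (n : ℕ) (x : V) (w : G.Walk x o), w.length ≤ n → x ∈ ballF G o n := by
  intro n
  induction n with
  | zero =>
    intro x w hw
    have : x = o := Walk.eq_of_length_eq_zero (Nat.le_zero.1 hw)
    subst this
    exact mem_ballF_self G x 0
  | succ n ih =>
    intro x w hw
    cases w with
    | nil => exact mem_ballF_self G _ _
    | cons h q =>
      rw [mem_ballF_succ]
      right
      refine ⟨_, ih _ q ?_, h.symm⟩
      simp only [Walk.length_cons, add_le_add_iff_right] at hw; exact hw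

theorem mem_ballF_of_dist_le (G : SimpleGraph V) [G.LocallyFinite] (hG : G.Connected) (o x : V)
    (n : ℕ) (h : G.dist x o ≤ n) : x ∈ ballF G o n := by
  obtain ⟨w, hw⟩ := (hG.preconnected x o).exists_walk_length_eq_dist
  exact mem_ballF_of_walk G o n x w (hw ▸ h)

theorem dist_le_of_mem_ballF (G : SimpleGraph V) [G.LocallyFinite] (o : V) :
    ∀ (n : ℕ) (x : V), x ∈ ballF G o n → ∃ w : G.Walk x o, w.length ≤ n := by
  intro n
  induction n with
  | zero =>
    intro x hx
    rw [ballF_zero, Finset.mem_singleton] at hx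
    subst hx
    exact ⟨Walk.nil, by simp⟩
  | succ n ih =>
    intro x hx
    rw [mem_ballF_succ] at hx
    rcases hx with hx | ⟨y, hy, hyx⟩
    · obtain ⟨w, hw⟩ := ih x hx
      exact ⟨w, by omega⟩
    · obtain ⟨w, hw⟩ := ih y hy
      exact ⟨Walk.cons hyx.symm w, by simp; exact hw⟩

theorem countable_of_connected (G : SimpleGraph V) [G.LocallyFinite] (hG : G.Connected) :
    Countable V := by
  obtain ⟨o⟩ := hG.nonempty
  have h : (Set.univ : Set V) = ⋃ n, (ballF G o n : Set V) := by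
    ext x
    simp only [Set.mem_univ, Set.mem_iUnion, true_iff]
    exact ⟨G.dist x o, mem_ballF_of_dist_le G hG o x _ le_rfl⟩
  have hc : (Set.univ : Set V).Countable := by
    rw [h]
    exact Set.countable_iUnion (fun n => (ballF G o n).countable_toSet)
  exact Set.countable_univ_iff.1 hc

theorem exists_ballF_superset (G : SimpleGraph V) [G.LocallyFinite] (hG : G.Connected) (o : V)
    (F : Finset V) : ∃ n, F ⊆ ballF G o n := by
  classical
  induction F using Finset.induction_on with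
  | empty => exact ⟨0, by simp⟩
  | insert a F _ ih =>
    obtain ⟨n, hn⟩ := ih
    refine ⟨max n (G.dist a o), ?_⟩
    intro x hx
    rw [Finset.mem_insert] at hx
    rcases hx with rfl | hx
    · exact mem_ballF_of_dist_le G hG o _ _ (le_max_right _ _)
    · exact ballF_mono G o (le_max_left _ _) (hn hx)

end Vale.Agent.P151
end

section

open Finset

set_option linter.unusedSectionVars false

namespace Vale.Agent.P151

section Deriv
variable {V : Type*} [DecidableEq V]

open Classical in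
/-- indicator of a small cluster -/
noncomputable def smallI (n : ℕ) (v : V) (S : Finset (Sym2 V)) : ℝ :=
  if csz S v < n then 1 else 0

lemma smallI_add_big (n : ℕ) (v : V) (S : Finset (Sym2 V)) :
    smallI n v S + big n v S = 1 := by
  classical
  unfold smallI big
  by_cases h : csz S v < n
  · simp [h, not_le.2 h]
  · simp [h, not_lt.1 h]

lemma smallI_nonneg (n : ℕ) (v : V) (S : Finset (Sym2 V)) : 0 ≤ smallI n v S := by
  classical
  unfold smallI; split_ifs <;> norm_num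

lemma smallI_le_one (n : ℕ) (v : V) (S : Finset (Sym2 V)) : smallI n v S ≤ 1 := by
  classical
  unfold smallI; split_ifs <;> norm_num

lemma smallI_antitone (n : ℕ) (v : V) : Antitone (smallI n v) := by
  classical
  intro S T h
  have := csz_mono h v
  unfold smallI
  by_cases h1 : csz T v < n
  · simp [h1, lt_of_le_of_lt this h1]
  · simp only [h1, if_false]
    split_ifs <;> norm_num

lemma csz_insert_of_not_tch {Λ : Finset (Sym2 V)} {S : Finset (Sym2 V)} {e : Sym2 V} {v : V}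
    (he : e ∈ Λ) (h : e ∉ tch Λ {v} S) :
    csz (insert e S) v = csz S v ∧ tch Λ {v} (insert e S) = tch Λ {v} S := by
  have hT : ({e} : Finset (Sym2 V)) ⊆ Λ := Finset.singleton_subset_iff.2 he
  have hd : Disjoint ({e} : Finset (Sym2 V)) (tch Λ {v} S) := Finset.disjoint_singleton_left.2 h
  have hins : insert e S = S ∪ {e} := by
    ext a; simp [or_comm]
  constructor
  · unfold csz
    congr 1
    ext y
    rw [mem_cl, mem_cl, hins]
    exact Cn_union_of_disjoint hT hd (Finset.mem_singleton_self v)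
  · rw [hins]
    exact tch_union_of_disjoint hT hd

open Classical in
lemma Ex_small_HH (p : ℝ) (Λ : Finset (Sym2 V)) (n : ℕ) (v : V) :
    ∑ e ∈ Λ, Ex p Λ (fun S => (p - if e ∈ S then 1 else 0) * smallI n v S) =
      Ex p Λ (fun S => smallI n v S * HH p Λ S v) := by
  have h1 : ∀ e ∈ Λ, Ex p Λ (fun S => (p - if e ∈ S then 1 else 0) * smallI n v S) =
      Ex p Λ (fun S => (p - if e ∈ S then 1 else 0) *
        (smallI n v S * if e ∈ tch Λ {v} S then 1 else 0)) := by
    intro e he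
    have h2 : Ex p Λ (fun S => (p - if e ∈ S then 1 else 0) *
        (smallI n v S * if e ∈ tch Λ {v} S then 0 else 1)) = 0 := by
      apply Ex_flip p he
      intro S
      by_cases h : e ∈ tch Λ {v} S
      · have h' : e ∈ tch Λ {v} (insert e S) := tch_mono Λ {v} (Finset.subset_insert e S) h
        simp [h, h']
      · obtain ⟨h3, h4⟩ := csz_insert_of_not_tch he h
        rw [h4]
        unfold smallI
        rw [h3]
    have h3 : Ex p Λ (fun S => (p - if e ∈ S then 1 else 0) * smallI n v S) =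
      Ex p Λ (fun S => (p - if e ∈ S then 1 else 0) *
        (smallI n v S * if e ∈ tch Λ {v} S then 1 else 0)) +
      Ex p Λ (fun S => (p - if e ∈ S then 1 else 0) *
        (smallI n v S * if e ∈ tch Λ {v} S then 0 else 1)) := by
      rw [← Ex_add]
      congr 1; funext S
      by_cases h : e ∈ tch Λ {v} S <;> simp [h]
    rw [h3, h2, add_zero]
  rw [Finset.sum_congr rfl h1, ← Ex_sum]
  congr 1; funext S
  unfold HH
  rw [Finset.mul_sum]
  have : ∑ e ∈ tch Λ {v} S, smallI n v S * (p - if e ∈ S then 1 else 0) =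
      ∑ e ∈ Λ.filter (fun e => e ∈ tch Λ {v} S), smallI n v S * (p - if e ∈ S then 1 else 0) := by
    apply Finset.sum_congr _ (fun _ _ => rfl)
    ext e
    rw [Finset.mem_filter]
    exact ⟨fun h => ⟨tch_subset _ _ _ h, h⟩, fun h => h.2⟩
  rw [this, Finset.sum_filter]
  apply Finset.sum_congr rfl
  intro e _
  by_cases h : e ∈ tch Λ {v} S <;> simp [h, mul_comm]

lemma Ex_small_HH_sq {p : ℝ} (h0 : 0 ≤ p) (h1 : p ≤ 1) {Λ : Finset (Sym2 V)} {n d : ℕ}
    (hd : ∀ v, (Λ.filter (fun e => v ∈ e)).card ≤ d) (v : V) :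
    Ex p Λ (fun S => (HH p Λ S v) ^ 2 * smallI n v S) ≤ (n * d : ℝ) / 4 := by
  classical
  have key := explore_sq h0 h1 Λ (tch Λ {v}) (tch_mono Λ {v}) (tch_subset Λ {v})
    (fun S T _ hT hdis => tch_union_of_disjoint hT hdis)
    (smallI n v) (smallI_antitone n v)
    (fun i => if i < n * d then 1 else 0) (fun i => by split_ifs <;> norm_num)
    (by
      intro S k _ hk
      by_cases hs : csz S v < n
      · have h3 : k < csz S v * d := hk.trans_le (card_tch_le hd S v)
        have h4 : csz S v * d ≤ n * d := Nat.mul_le_mul_right _ hs.le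
        rw [if_pos (by omega)]
        exact smallI_le_one n v S
      · unfold smallI
        rw [if_neg hs]
        split_ifs <;> norm_num)
  have hsum : ∑ i ∈ Finset.range Λ.card, (if i < n * d then (1 : ℝ) else 0) ≤ n * d := by
    rw [← Finset.sum_filter, Finset.sum_const, nsmul_eq_mul, mul_one]
    have : ((Finset.range Λ.card).filter (fun i => i < n * d)).card ≤ n * d := by
      calc _ ≤ (Finset.range (n * d)).card := by
            apply Finset.card_le_card
            intro i hi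
            rw [Finset.mem_filter] at hi
            exact Finset.mem_range.2 hi.2
        _ = n * d := Finset.card_range _
    exact_mod_cast this
  have h6 : p * (1 - p) ≤ 1 / 4 := by nlinarith only [sq_nonneg (p - 1 / 2)]
  have h7 : (0 : ℝ) ≤ ∑ i ∈ Finset.range Λ.card, (if i < n * d then (1 : ℝ) else 0) :=
    Finset.sum_nonneg (fun i _ => by split_ifs <;> norm_num)
  have h8 : p * (1 - p) * ∑ i ∈ Finset.range Λ.card, (if i < n * d then (1 : ℝ) else 0) ≤
      1 / 4 * (n * d) := mul_le_mul h6 hsum h7 (by norm_num)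
  refine le_trans (le_of_eq ?_) (key.trans (h8.trans (le_of_eq (by ring))))
  rfl

lemma Ex_small_HH_le {p : ℝ} (h0 : 0 ≤ p) (h1 : p ≤ 1) {Λ : Finset (Sym2 V)} {n d : ℕ}
    (hn : 1 ≤ n) (hd1 : 1 ≤ d)
    (hd : ∀ v, (Λ.filter (fun e => v ∈ e)).card ≤ d) (v : V) :
    Ex p Λ (fun S => smallI n v S * HH p Λ S v) ≤ d * √n := by
  have hn' : (0 : ℝ) < n := by exact_mod_cast hn
  have hd' : (1 : ℝ) ≤ d := by exact_mod_cast hd1
  have hs : 0 < √(n : ℝ) := Real.sqrt_pos.2 hn'
  have hss : √(n : ℝ) * √(n : ℝ) = n := Real.mul_self_sqrt hn'.le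
  have hpt : ∀ S ⊆ Λ, smallI n v S * HH p Λ S v ≤
      1 / (2 * √(n : ℝ)) * ((HH p Λ S v) ^ 2 * smallI n v S) + √(n : ℝ) / 2 := by
    intro S _
    set H := HH p Λ S v
    have hf0 := smallI_nonneg n v S
    have hf1 := smallI_le_one n v S
    set f := smallI n v S
    have h2 : H ≤ 1 / (2 * √(n : ℝ)) * H ^ 2 + √(n : ℝ) / 2 := by
      have h3 : 0 ≤ (H - √(n : ℝ)) ^ 2 / (2 * √(n : ℝ)) := by (clear * - hn; positivity)
      have h4 : (H - √(n : ℝ)) ^ 2 / (2 * √(n : ℝ)) =
          1 / (2 * √(n : ℝ)) * H ^ 2 + √(n : ℝ) / 2 - H := by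
        field_simp
        ring
      linarith only [h3, h4]
    have h5 := mul_le_mul_of_nonneg_left h2 hf0
    have h6 : f * (√(n : ℝ) / 2) ≤ √(n : ℝ) / 2 := by nlinarith only [hs, hf1]
    nlinarith only [h5, h6]
  have h3 := Ex_mono h0 h1 hpt
  rw [Ex_add, Ex_const_mul, Ex_const] at h3
  have h4 := Ex_small_HH_sq h0 h1 (n := n) hd v
  have h5 : 1 / (2 * √(n : ℝ)) * Ex p Λ (fun S => (HH p Λ S v) ^ 2 * smallI n v S) ≤
      1 / (2 * √(n : ℝ)) * ((n * d : ℝ) / 4) := mul_le_mul_of_nonneg_left h4 (by positivity)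
  have h6 : 1 / (2 * √(n : ℝ)) * ((n * d : ℝ) / 4) = √(n : ℝ) * d / 8 := by
    rw [show (n * d : ℝ) = (√(n : ℝ) * √(n : ℝ)) * d by rw [hss]]
    field_simp
    norm_num
  nlinarith only [hs, h3, h5, h6, hd']

lemma deriv_large_eq {p : ℝ} (h0 : 0 < p) (h1 : p < 1) (Λ : Finset (Sym2 V)) (n : ℕ) (v : V) :
    p * (1 - p) * ∑ e ∈ Λ, Ex p (Λ.erase e) (fun S => big n v (insert e S) - big n v S) =
      Ex p Λ (fun S => smallI n v S * HH p Λ S v) := by
  classical
  rw [← Ex_small_HH, Finset.mul_sum]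
  apply Finset.sum_congr rfl
  intro e he
  conv_rhs => rw [← Finset.insert_erase he]
  rw [Ex_insert p (Finset.notMem_erase e Λ)]
  have e1 : Ex p (Λ.erase e) (fun S => (p - if e ∈ insert e S then 1 else 0) *
      smallI n v (insert e S)) = (p - 1) * Ex p (Λ.erase e) (fun S => smallI n v (insert e S)) := by
    rw [← Ex_const_mul]
    apply Ex_congr
    intro S _
    rw [if_pos (Finset.mem_insert_self e S)]
  have e2 : Ex p (Λ.erase e) (fun S => (p - if e ∈ S then 1 else 0) * smallI n v S) =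
      p * Ex p (Λ.erase e) (fun S => smallI n v S) := by
    rw [← Ex_const_mul]
    apply Ex_congr
    intro S hS
    rw [if_neg (fun h => Finset.notMem_erase e Λ (hS h)), sub_zero]
  rw [e1, e2]
  have e3 : Ex p (Λ.erase e) (fun S => big n v (insert e S) - big n v S) =
      Ex p (Λ.erase e) (fun S => smallI n v S) -
      Ex p (Λ.erase e) (fun S => smallI n v (insert e S)) := by
    rw [← Ex_sub]
    congr 1; funext S
    have a1 := smallI_add_big n v S
    have a2 := smallI_add_big n v (insert e S)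
    linarith only [a1, a2]
  rw [e3]
  ring

/-- The derivative of the tail at volume `n` is at most of order `√n`. -/
theorem deriv_large_le {p : ℝ} (h0 : 0 < p) (h1 : p < 1) {Λ : Finset (Sym2 V)} {n d : ℕ}
    (hn : 1 ≤ n) (hd1 : 1 ≤ d)
    (hd : ∀ v, (Λ.filter (fun e => v ∈ e)).card ≤ d) (v : V) :
    ∑ e ∈ Λ, Ex p (Λ.erase e) (fun S => big n v (insert e S) - big n v S) ≤
      d * √n / (p * (1 - p)) := by
  have h2 : 0 < p * (1 - p) := mul_pos h0 (by linarith only [h1])
  rw [le_div_iff₀ h2, mul_comm, deriv_large_eq h0 h1]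
  exact Ex_small_HH_le h0.le h1.le hn hd1 hd v

/-- `T1` in finite volume. -/
theorem large_sub_le {a b : ℝ} (ha : 0 < a) (hb : b < 1) {Λ : Finset (Sym2 V)} {n d : ℕ}
    (hn : 1 ≤ n) (hd1 : 1 ≤ d)
    (hd : ∀ v, (Λ.filter (fun e => v ∈ e)).card ≤ d) (v : V) {p : ℝ} (hap : a ≤ p)
    (hpb : p ≤ b) :
    Ex b Λ (big n v) - Ex p Λ (big n v) ≤ d / (a * (1 - b)) * √n * (b - p) := by
  have hD : ∀ x, HasDerivAt (fun p => Ex p Λ (big n v))
      (∑ e ∈ Λ, Ex x (Λ.erase e) (fun S => big n v (insert e S) - big n v S)) x :=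
    fun x => hasDerivAt_Ex x Λ (big n v)
  have hconv : Convex ℝ (Set.Icc a b) := convex_Icc a b
  have hle : ∀ x ∈ interior (Set.Icc a b), deriv (fun p => Ex p Λ (big n v)) x ≤
      d / (a * (1 - b)) * √n := by
    intro x hx
    rw [interior_Icc] at hx
    rw [(hD x).deriv]
    have hx0 : 0 < x := ha.trans hx.1
    have hx1 : x < 1 := hx.2.trans hb
    refine (deriv_large_le hx0 hx1 hn hd1 hd v).trans ?_
    rw [div_mul_eq_mul_div]
    apply div_le_div_of_nonneg_left (by positivity)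
    · exact mul_pos ha (by linarith only [hb])
    · exact mul_le_mul hx.1.le (by linarith only [hx.2]) (by linarith) hx0.le
  exact hconv.image_sub_le_mul_sub_of_deriv_le
    (fun x _ => (hD x).continuousAt.continuousWithinAt)
    (fun x _ => (hD x).differentiableAt.differentiableWithinAt) hle p ⟨hap, hpb⟩ b
    ⟨hap.trans hpb, le_rfl⟩ hpb

end Deriv

end Vale.Agent.P151
end

section

open Finset

namespace Vale.Agent.P151

/-- partial sums of the tail -/
noncomputable def psum (f : ℕ → ℝ) (n : ℕ) : ℝ := ∑ k ∈ Finset.Icc 1 n, f k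

lemma psum_succ (f : ℕ → ℝ) (n : ℕ) : psum f (n + 1) = psum f n + f (n + 1) := by
  unfold psum
  rw [Finset.sum_Icc_succ_top (by omega)]

lemma psum_nonneg {f : ℕ → ℝ} (h0 : ∀ n, 0 ≤ f n) (n : ℕ) : 0 ≤ psum f n :=
  Finset.sum_nonneg fun k _ => h0 k

lemma psum_ge_one {f : ℕ → ℝ} (h0 : ∀ n, 0 ≤ f n) {n : ℕ} (hn : 1 ≤ n) : f 1 ≤ psum f n :=
  Finset.single_le_sum (f := f) (fun k _ => h0 k) (Finset.mem_Icc.2 ⟨le_rfl, hn⟩)

lemma antitone_le {f : ℕ → ℝ} (ha : ∀ n, f (n + 1) ≤ f n) {m n : ℕ} (h : m ≤ n) : f n ≤ f m :=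
  antitone_nat_of_succ_le ha h

lemma log_sum_le {f : ℕ → ℝ} (h0 : ∀ n, 0 ≤ f n) (ha : ∀ n, f (n + 1) ≤ f n) (h1 : 0 < f 1)
    {m : ℕ} (hm : 1 ≤ m) {N : ℕ} (hN : m ≤ N) :
    1 / 4 * (Real.log (psum f N) - Real.log (psum f m)) ≤
      ∑ n ∈ Finset.Ioc m N, f n / (2 * psum f n) := by
  induction N, hN using Nat.le_induction with
  | base => simp
  | succ N hN ih =>
    rw [Finset.sum_Ioc_succ_top (by omega)]
    have hSN : 0 < psum f N := lt_of_lt_of_le h1 (psum_ge_one h0 (hm.trans hN))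
    have hS : psum f (N + 1) = psum f N + f (N + 1) := psum_succ f N
    have hf0 := h0 (N + 1)
    have hSN1 : 0 < psum f (N + 1) := by rw [hS]; linarith only [hSN, hf0]
    have hle : f (N + 1) ≤ psum f N :=
      (antitone_le ha (by omega : 1 ≤ N + 1)).trans (psum_ge_one h0 (hm.trans hN))
    have hlog : Real.log (psum f (N + 1)) - Real.log (psum f N) ≤ f (N + 1) / psum f N := by
      rw [← Real.log_div hSN1.ne' hSN.ne']
      have := Real.log_le_sub_one_of_pos (div_pos hSN1 hSN)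
      have e : psum f (N + 1) / psum f N - 1 = f (N + 1) / psum f N := by
        rw [hS]; field_simp; ring
      linarith only [this, e]
    have h2 : 1 / 4 * (f (N + 1) / psum f N) ≤ f (N + 1) / (2 * psum f (N + 1)) := by
      rw [div_eq_mul_inv, div_eq_mul_inv (f (N + 1)) (2 * psum f (N + 1))]
      have h3 : 1 / 4 * (psum f N)⁻¹ ≤ (2 * psum f (N + 1))⁻¹ := by
        rw [show 1 / 4 * (psum f N)⁻¹ = (4 * psum f N)⁻¹ by rw [mul_inv]; norm_num]
        apply inv_anti₀ (by (clear * - hSN1; positivity))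
        linarith only [hS, hle]
      calc 1 / 4 * (f (N + 1) * (psum f N)⁻¹) = f (N + 1) * (1 / 4 * (psum f N)⁻¹) := by ring
        _ ≤ f (N + 1) * (2 * psum f (N + 1))⁻¹ := mul_le_mul_of_nonneg_left h3 hf0
    linarith only [ih, hlog, h2]

lemma sum_inv_le_log {m : ℕ} (hm : 1 ≤ m) {N : ℕ} (hN : m ≤ N) :
    ∑ n ∈ Finset.Ioc m N, (1 : ℝ) / n ≤ Real.log N - Real.log m := by
  induction N, hN using Nat.le_induction with
  | base => simp
  | succ N hN ih =>
    rw [Finset.sum_Ioc_succ_top (by omega)]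
    have hN0 : (0 : ℝ) < N := by exact_mod_cast (by omega : 0 < N)
    have hN1 : (0 : ℝ) < (N : ℝ) + 1 := by linarith only []
    have h1 := Real.one_sub_inv_le_log_of_pos (div_pos hN1 hN0)
    rw [Real.log_div hN1.ne' hN0.ne'] at h1
    have e : 1 - ((((N : ℝ) + 1) / N))⁻¹ = 1 / ((N : ℝ) + 1) := by
      rw [inv_div]; field_simp; ring
    push_cast
    linarith only [ih, h1, e]

/-- `T2` from the differential inequality. -/
theorem T2_abs {a b D : ℝ} {F F' : ℕ → ℝ → ℝ} (hD : 1 ≤ D)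
    (hF0 : ∀ n p, a ≤ p → p < b → 0 ≤ F n p) (hFD : ∀ n p, a ≤ p → p < b → F n p ≤ D)
    (hF1 : ∀ p, a ≤ p → p < b → 1 ≤ F 1 p)
    (hmono : ∀ n p q, a ≤ p → p ≤ q → q < b → F n p ≤ F n q)
    (hanti : ∀ n p, a ≤ p → p < b → F (n + 1) p ≤ F n p)
    (hder : ∀ n p, 1 ≤ n → a ≤ p → p < b → HasDerivAt (F n) (F' n p) p)
    (hdiff : ∀ (n : ℕ) p, 1 ≤ n → a ≤ p → p < b →
      F n p * (1 / 2 - psum (fun k => F k p) n / n) ≤ (psum (fun k => F k p) n / n) * F' n p)
    {p q : ℝ} {N m : ℕ} (hp : a ≤ p) (hpq : p < q) (hq : q < b) (hqp : q - p ≤ 1)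
    (hN : 1 ≤ (N : ℝ) * (F N p) ^ 2) (hm : (m : ℝ) ^ 4 ≤ 1 / (64 * D ^ 4) * N) :
    1 / (64 * D ^ 4) * (q - p) ≤ F m q := by
  have hD4 : 1 ≤ D ^ 4 := one_le_pow₀ hD
  have hc : 1 / (64 * D ^ 4) ≤ 1 / 64 :=
    one_div_le_one_div_of_le (by norm_num) (by linarith only [hD4])
  have hcpos : 0 < 1 / (64 * D ^ 4) := by positivity
  rcases Nat.eq_zero_or_pos m with h0 | hm1
  · subst h0
    have h1 := hF1 q (hp.trans hpq.le) hq
    have h2 := hanti 0 q (hp.trans hpq.le) hq
    have h3 : 1 / (64 * D ^ 4) * (q - p) ≤ 1 * 1 :=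
      mul_le_mul (by linarith only [hc]) hqp (by linarith only [hpq]) (by norm_num)
    simp only [zero_add] at h2
    linarith only [h1, h3, h2]
  have hm1' : (1 : ℝ) ≤ m := by exact_mod_cast hm1
  have hm4 : (1 : ℝ) ≤ (m : ℝ) ^ 4 := one_le_pow₀ hm1'
  have hN64 : (64 : ℝ) * D ^ 4 ≤ N := by
    have : (1 : ℝ) ≤ 1 / (64 * D ^ 4) * N := hm4.trans hm
    rw [one_div, inv_mul_eq_div, le_div_iff₀ (by positivity)] at this
    linarith only [this]
  have hNpos : (0 : ℝ) < N := by linarith only [hD4, hN64]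
  have hN1 : (1 : ℝ) < N := by linarith only [hD4, hN64]
  have hlogN : 0 < Real.log N := Real.log_pos hN1
  have hmN : m ≤ N := by
    have h1 : (m : ℝ) ≤ (m : ℝ) ^ 4 := by
      calc (m : ℝ) = (m : ℝ) ^ 1 := (pow_one _).symm
        _ ≤ (m : ℝ) ^ 4 := pow_le_pow_right₀ hm1' (by norm_num)
    have h2 : 1 / (64 * D ^ 4) * (N : ℝ) ≤ 1 * N := by
      apply mul_le_mul_of_nonneg_right (by linarith only [hc]) hNpos.le
    have : (m : ℝ) ≤ N := by linarith only [hm, h1, h2]
    exact_mod_cast this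
  -- lower bound on the partial sums
  have hSN : ∀ s, p ≤ s → s < b → √(N : ℝ) ≤ psum (fun k => F k s) N := by
    intro s hs hsb
    have h1 : (N : ℝ) * F N s ≤ psum (fun k => F k s) N := by
      unfold psum
      have : ∑ k ∈ Finset.Icc 1 N, F N s ≤ ∑ k ∈ Finset.Icc 1 N, F k s := by
        apply Finset.sum_le_sum
        intro k hk
        exact antitone_le (f := fun k => F k s) (fun n => hanti n s (hp.trans hs) hsb)
          (Finset.mem_Icc.1 hk).2
      rw [Finset.sum_const, Nat.card_Icc, nsmul_eq_mul] at this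
      simpa only [ge_iff_le, add_tsub_cancel_right] using this
    have h2 : √(N : ℝ) ≤ (N : ℝ) * F N p := by
      rw [Real.sqrt_le_left (mul_nonneg hNpos.le (hF0 _ _ hp (hpq.trans hq)))]
      have := mul_le_mul_of_nonneg_left hN hNpos.le
      nlinarith only [this]
    have h3 := hmono N p s hp hs hsb
    have h4 := mul_le_mul_of_nonneg_left h3 hNpos.le
    linarith only [h1, h2, h4]
  have hSm : ∀ s, a ≤ s → s < b → psum (fun k => F k s) m ≤ D * m := by
    intro s hs hsb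
    unfold psum
    calc ∑ k ∈ Finset.Icc 1 m, F k s ≤ ∑ k ∈ Finset.Icc 1 m, D :=
          Finset.sum_le_sum fun k _ => hFD k s hs hsb
      _ = D * m := by rw [Finset.sum_const, Nat.card_Icc, nsmul_eq_mul]; simp only [add_tsub_cancel_right, mul_comm]
  set U : ℝ → ℝ := fun s => ∑ n ∈ Finset.Ioc m N, F n s / n with hU
  set U' : ℝ → ℝ := fun s => ∑ n ∈ Finset.Ioc m N, F' n s / n with hU'
  have hUd : ∀ s, a ≤ s → s < b → HasDerivAt U (U' s) s := by
    intro s hs hsb
    apply HasDerivAt.fun_sum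
    intro n hn
    rw [Finset.mem_Ioc] at hn
    exact (hder n s (by omega) hs hsb).div_const _
  have hUge : ∀ s, p ≤ s → s < b → 1 / 16 * Real.log N - U s ≤ U' s := by
    intro s hs hsb
    have has := hp.trans hs
    set f : ℕ → ℝ := fun k => F k s with hf
    have hf0 : ∀ n, 0 ≤ f n := fun n => hF0 n s has hsb
    have hfa : ∀ n, f (n + 1) ≤ f n := fun n => hanti n s has hsb
    have hf1 : 0 < f 1 := by have := hF1 s has hsb; simp only [hf]; linarith only [this]
    have h1 := log_sum_le hf0 hfa hf1 hm1 hmN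
    have h2 : ∀ n ∈ Finset.Ioc m N, f n / (2 * psum f n) - f n / n ≤ F' n s / n := by
      intro n hn
      rw [Finset.mem_Ioc] at hn
      have hn0 : (0 : ℝ) < n := by exact_mod_cast (by omega : 0 < n)
      have hS : 0 < psum f n := lt_of_lt_of_le hf1 (psum_ge_one hf0 (by omega))
      have h3 := hdiff n s (by omega) has hsb
      have h4 : f n * (1 / 2 - psum f n / n) ≤ psum f n / n * F' n s := h3
      rw [← sub_nonneg]
      have e : F' n s / n - (f n / (2 * psum f n) - f n / n) =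
          (psum f n / n * F' n s - f n * (1 / 2 - psum f n / n)) / psum f n := by
        (clear * - hS hn0; field_simp)
      rw [e]
      exact div_nonneg (by linarith only [h3]) hS.le
    have h3 := Finset.sum_le_sum h2
    rw [Finset.sum_sub_distrib] at h3
    have h4 : 1 / 2 * Real.log N ≤ Real.log (psum f N) := by
      have h8 := Real.log_le_log (Real.sqrt_pos.2 hNpos) (hSN s hs hsb)
      rw [Real.log_sqrt hNpos.le] at h8
      linarith only [h8]
    have h5 : Real.log (psum f m) ≤ 1 / 4 * Real.log N := by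
      have hSpos : 0 < psum f m := lt_of_lt_of_le hf1 (psum_ge_one hf0 hm1)
      have h8 : (psum f m) ^ 4 ≤ N := by
        calc (psum f m) ^ 4 ≤ (D * m) ^ 4 := by
              have := hSm s has hsb
              (clear * - hSpos this; gcongr)
          _ = D ^ 4 * (m : ℝ) ^ 4 := by ring
          _ ≤ D ^ 4 * (1 / (64 * D ^ 4) * N) := mul_le_mul_of_nonneg_left hm (by positivity)
          _ = N / 64 := by (clear * - hD hNpos; field_simp)
          _ ≤ N := by linarith only []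
      have h9 := Real.log_le_log (by (clear * - hSpos; positivity)) h8
      rw [Real.log_pow] at h9
      push_cast at h9
      linarith only [h9]
    simp only [hU, hU']
    have h6 : 1 / 4 * (1 / 2 * Real.log N - 1 / 4 * Real.log N) ≤
        1 / 4 * (Real.log (psum f N) - Real.log (psum f m)) := by linarith only [h4, h5]
    have h7 : ∑ n ∈ Finset.Ioc m N, f n / n = ∑ n ∈ Finset.Ioc m N, F n s / n := rfl
    linarith only [h1, h3, h4, h5]
  have hUmono : ∀ s, p ≤ s → s ≤ q → U s ≤ U q := by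
    intro s hs hsq
    simp only [hU]
    apply Finset.sum_le_sum
    intro n _
    apply div_le_div_of_nonneg_right (hmono n s q (hp.trans hs) hsq hq) (by (clear * -; positivity))
  have hUp : 0 ≤ U p := Finset.sum_nonneg fun n _ => div_nonneg (hF0 n p hp (hpq.trans hq)) (by (clear * -; positivity))
  have hUq : 1 / 32 * Real.log N * (q - p) ≤ U q := by
    by_cases hex : ∃ s, p ≤ s ∧ s ≤ q ∧ 1 / 32 * Real.log N ≤ U s
    · obtain ⟨s, hs1, hs2, hs3⟩ := hex
      have h1 := hUmono s hs1 hs2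
      have h2 : 1 / 32 * Real.log N * (q - p) ≤ 1 / 32 * Real.log N * 1 :=
        mul_le_mul_of_nonneg_left hqp (by (clear * - hlogN; positivity))
      linarith only [hs3, h1, h2]
    · push Not at hex
      have hconv : Convex ℝ (Set.Icc p q) := convex_Icc p q
      have h1 := hconv.mul_sub_le_image_sub_of_le_deriv (f := U) (C := 1 / 32 * Real.log N)
        (fun s hs => (hUd s (hp.trans hs.1) (hs.2.trans_lt hq)).continuousAt.continuousWithinAt)
        (fun s hs => by
          have hs' := interior_subset hs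
          exact (hUd s (hp.trans hs'.1)
            (hs'.2.trans_lt hq)).differentiableAt.differentiableWithinAt)
        (fun s hs => by
          have hs' := interior_subset hs
          rw [(hUd s (hp.trans hs'.1) (hs'.2.trans_lt hq)).deriv]
          have h2 := hUge s hs'.1 (hs'.2.trans_lt hq)
          have h3 := hex s hs'.1 hs'.2
          linarith only [h2, h3]) p ⟨le_rfl, hpq.le⟩ q ⟨hpq.le, le_rfl⟩ hpq.le
      linarith only [hUp, h1]
  have hUle : U q ≤ F m q * Real.log N := by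
    have haq := hp.trans hpq.le
    have h1 : U q ≤ ∑ n ∈ Finset.Ioc m N, F m q * (1 / n) := by
      simp only [hU]
      apply Finset.sum_le_sum
      intro n hn
      rw [Finset.mem_Ioc] at hn
      have h2 : F n q ≤ F m q :=
        antitone_le (f := fun k => F k q) (fun n => hanti n q haq hq) hn.1.le
      rw [mul_one_div]
      exact div_le_div_of_nonneg_right h2 (by (clear * -; positivity))
    rw [← Finset.mul_sum] at h1
    have h2 := sum_inv_le_log hm1 hmN
    have h3 : 0 ≤ Real.log (m : ℝ) := Real.log_nonneg hm1'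
    exact h1.trans (mul_le_mul_of_nonneg_left (by linarith only [h2, h3]) (hF0 m q haq hq))
  have h1 : (1 / 32 * (q - p)) * Real.log N ≤ F m q * Real.log N := by linarith only [hUq, hUle]
  have h2 := le_of_mul_le_mul_right h1 hlogN
  have h3 : 1 / (64 * D ^ 4) * (q - p) ≤ 1 / 64 * (q - p) :=
    mul_le_mul_of_nonneg_right hc (by linarith only [hpq])
  linarith only [hpq, h2, h3]

end Vale.Agent.P151
end

section

open Finset

set_option linter.unusedSectionVars false

namespace Vale.Agent.P151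

section Split
variable {ι : Type*} [DecidableEq ι]

lemma Ex_indep_split (p : ℝ) {A Λ : Finset ι} (hA : A ⊆ Λ) {f g : Finset ι → ℝ}
    (hf : ∀ S ⊆ Λ, f S = f (S ∩ A)) (hg : ∀ S ⊆ Λ, g S = g (S \ A)) :
    Ex p Λ (fun S => f S * g S) = Ex p Λ f * Ex p Λ g := by
  have hΛ : Λ = A ∪ (Λ \ A) := by rw [Finset.union_sdiff_of_subset hA]
  have hd : Disjoint A (Λ \ A) := Finset.disjoint_sdiff
  have hfA : Ex p Λ f = Ex p A f := Ex_restrict p hA hf
  have hgA : Ex p Λ g = Ex p (Λ \ A) g := by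
    apply Ex_restrict p Finset.sdiff_subset
    intro S hS
    rw [hg S hS]
    congr 1
    ext e
    simp only [Finset.mem_sdiff, Finset.mem_inter]
    constructor
    · rintro ⟨h1, h2⟩
      exact ⟨h1, hS h1, h2⟩
    · rintro ⟨h1, _, h2⟩
      exact ⟨h1, h2⟩
  have h1 : Ex p Λ (fun S => f S * g S) =
      Ex p A (fun S => Ex p (Λ \ A) (fun T => f S * g T)) := by
    conv_lhs => rw [hΛ, Ex_union p hd]
    apply Ex_congr
    intro S hS
    apply Ex_congr
    intro T hT
    have hST : S ∪ T ⊆ Λ := Finset.union_subset (hS.trans hA) (hT.trans Finset.sdiff_subset)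
    have hTA : T ∩ A = ∅ := by
      rw [← Finset.disjoint_iff_inter_eq_empty]
      exact Finset.disjoint_of_subset_left hT Finset.sdiff_disjoint
    have e1 : f (S ∪ T) = f S := by
      rw [hf _ hST, Finset.union_inter_distrib_right, hTA, Finset.union_empty,
        Finset.inter_eq_left.2 hS]
    have e2 : g (S ∪ T) = g T := by
      rw [hg _ hST]
      congr 1
      ext e
      simp only [Finset.mem_sdiff, Finset.mem_union]
      constructor
      · rintro ⟨h1 | h1, h2⟩
        · exact absurd (hS h1) h2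
        · exact h1
      · intro h1
        exact ⟨Or.inr h1, (Finset.mem_sdiff.1 (hT h1)).2⟩
    rw [e1, e2]
  rw [h1, hfA, hgA]
  simp_rw [Ex_const_mul]
  rw [Ex_mul_const]

end Split

section Unique
variable {V : Type*} [DecidableEq V]

open Classical in
/-- edges of `Λ` touching `K` -/
noncomputable def TK (Λ : Finset (Sym2 V)) (K : Finset V) : Finset (Sym2 V) :=
  Λ.filter (fun e => ∃ v ∈ e, v ∈ K)

lemma mem_TK {Λ : Finset (Sym2 V)} {K : Finset V} {e : Sym2 V} :
    e ∈ TK Λ K ↔ e ∈ Λ ∧ ∃ v ∈ e, v ∈ K := by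
  classical
  simp only [TK, mem_filter]

lemma TK_subset (Λ : Finset (Sym2 V)) (K : Finset V) : TK Λ K ⊆ Λ := fun _ he => (mem_TK.1 he).1

lemma cl_eq_iff_inter {Λ W : Finset (Sym2 V)} (hW : W ⊆ Λ) (K : Finset V) (y : V) :
    cl W y = K ↔ cl (W ∩ TK Λ K) y = K := by
  constructor
  · intro h
    apply Finset.Subset.antisymm
    · rw [← h]; exact cl_mono Finset.inter_subset_left y
    · have : ∀ z ∈ K, z ∈ {z | Cn (W ∩ TK Λ K) y z} := by
        intro z hz
        rw [← h, mem_cl] at hz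
        refine Cn_closed (S := W) ?_ (Cn.refl _ y) hz
        intro u hu v huv
        have huK : u ∈ K := by
          rw [← h, mem_cl]
          exact Cn.mono Finset.inter_subset_left hu
        exact Cn.trans hu (Cn_of_mem (Finset.mem_inter.2 ⟨huv, mem_TK.2 ⟨hW huv, u, by simp, huK⟩⟩))
      intro z hz
      exact mem_cl.2 (this z hz)
  · intro h
    apply Finset.Subset.antisymm
    · intro z hz
      rw [mem_cl] at hz
      refine Cn_closed (S := W) (A := (K : Set V)) ?_ ?_ hz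
      · intro u hu v huv
        have hu' : u ∈ cl (W ∩ TK Λ K) y := by rw [h]; exact hu
        have : v ∈ cl (W ∩ TK Λ K) y := by
          rw [mem_cl] at hu' ⊢
          exact Cn.trans hu' (Cn_of_mem
            (Finset.mem_inter.2 ⟨huv, mem_TK.2 ⟨hW huv, u, by simp, hu⟩⟩))
        rw [h] at this
        exact this
      · have := self_mem_cl (W ∩ TK Λ K) y
        rw [h] at this
        exact this
    · rw [← h]
      intro z hz
      rw [mem_cl] at hz ⊢
      exact Cn.mono Finset.inter_subset_left hz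

lemma cl_off {Λ W : Finset (Sym2 V)} {K : Finset V} {x y : V}
    (h : cl W y = K) (hx : x ∉ K) : cl W x = cl (W \ TK Λ K) x := by
  apply Finset.Subset.antisymm
  · have : ∀ z ∈ cl W x, z ∈ {z | Cn (W \ TK Λ K) x z} := by
      intro z hz
      rw [mem_cl] at hz
      refine Cn_closed (S := W) ?_ (Cn.refl _ x) hz
      intro u hu v huv
      have hxu : Cn W x u := Cn.mono Finset.sdiff_subset hu
      have hnot : ∀ w, Cn W x w → w ∉ K := by
        intro w hw hwK
        rw [← h, mem_cl] at hwK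
        apply hx
        rw [← h, mem_cl]
        exact hwK.trans hw.symm
      refine Cn.trans hu (Cn_of_mem (Finset.mem_sdiff.2 ⟨huv, ?_⟩))
      rw [mem_TK]
      rintro ⟨_, w, hw, hwK⟩
      rw [Sym2.mem_iff] at hw
      rcases hw with rfl | rfl
      · exact hnot _ hxu hwK
      · exact hnot _ (hxu.trans (Cn_of_mem huv)) hwK
    intro z hz
    exact mem_cl.2 (this z hz)
  · exact cl_mono Finset.sdiff_subset x

/-- `x` is connected off `K` to an endpoint of an edge of `Λ` leading to `K` -/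
def A2 (Λ : Finset (Sym2 V)) (K : Finset V) (x : V) (S : Finset (Sym2 V)) : Prop :=
  ∃ b a, a ∈ K ∧ s(a, b) ∈ Λ ∧ Cn (S \ TK Λ K) x b

lemma A2_of_Cn {Λ S : Finset (Sym2 V)} (hS : S ⊆ Λ) {K : Finset V} {x y : V} (hx : x ∉ K)
    (hy : y ∈ K) (h : Cn S x y) : A2 Λ K x S := by
  by_contra hcon
  have : y ∈ {z | z ∉ K ∧ Cn (S \ TK Λ K) x z} := by
    refine Cn_closed (S := S) ?_ ⟨hx, Cn.refl _ x⟩ h
    rintro u ⟨huK, hu⟩ v huv
    have hvK : v ∉ K := by
      intro hvK
      apply hcon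
      refine ⟨u, v, hvK, ?_, hu⟩
      rw [Sym2.eq_swap]
      exact hS huv
    refine ⟨hvK, Cn.trans hu (Cn_of_mem (Finset.mem_sdiff.2 ⟨huv, ?_⟩))⟩
    rw [mem_TK]
    rintro ⟨_, w, hw, hwK⟩
    rw [Sym2.mem_iff] at hw
    rcases hw with rfl | rfl
    · exact huK hwK
    · exact hvK hwK
  exact this.1 hy

lemma A2_mono {Λ : Finset (Sym2 V)} {K : Finset V} {x : V} {S T : Finset (Sym2 V)} (h : S ⊆ T)
    (hA : A2 Λ K x S) : A2 Λ K x T := by
  obtain ⟨b, a, h1, h2, h3⟩ := hA
  exact ⟨b, a, h1, h2, h3.mono (Finset.sdiff_subset_sdiff h (Finset.Subset.refl _))⟩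

/-- the bridging event -/
def Br (Λ : Finset (Sym2 V)) (n : ℕ) (x : V) (S W : Finset (Sym2 V)) : Prop :=
  ∃ a b, s(a, b) ∈ Λ ∧ Cn S x b ∧ Sg n W s(a, b)

lemma Br_of {Λ S W : Finset (Sym2 V)} (hSW : S ⊆ W) {K : Finset V} {n : ℕ}
    {x y : V} (hK : cl W y = K) (hx : x ∉ K) (hn : n ≤ K.card)
    (hx2 : n ≤ csz (W \ TK Λ K) x) (hA : A2 Λ K x S) : Br Λ n x S W := by
  obtain ⟨b, a, haK, hab, hxb⟩ := hA
  have hxb' : Cn S x b := hxb.mono Finset.sdiff_subset
  have hxbW : Cn W x b := hxb'.mono hSW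
  have hya : Cn W y a := by rw [← hK, mem_cl] at haK; exact haK
  have hxy : ¬ Cn W x y := by
    intro h
    apply hx
    rw [← hK, mem_cl]
    exact h.symm
  refine ⟨a, b, hab, hxb', a, b, rfl, ?_, ?_, ?_⟩
  · intro h
    exact hxy (hxbW.trans (h.symm.trans hya.symm))
  · rw [← csz_eq hya]
    unfold csz
    rw [hK]
    exact hn
  · rw [← csz_eq hxbW]
    unfold csz
    rw [cl_off hK hx]
    exact hx2

open Classical in
/-- two distinct large clusters -/
noncomputable def E0 (n : ℕ) (x y : V) (W : Finset (Sym2 V)) : ℝ :=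
  if ¬ Cn W x y ∧ n ≤ csz W x ∧ n ≤ csz W y then 1 else 0

open Classical in
noncomputable def IK (y : V) (K : Finset V) (W : Finset (Sym2 V)) : ℝ :=
  if cl W y = K then 1 else 0

open Classical in
noncomputable def BK (Λ : Finset (Sym2 V)) (n : ℕ) (x : V) (K : Finset V)
    (W : Finset (Sym2 V)) : ℝ := if n ≤ csz (W \ TK Λ K) x then 1 else 0

open Classical in
noncomputable def AK (Λ : Finset (Sym2 V)) (x : V) (K : Finset V)
    (S : Finset (Sym2 V)) : ℝ := if A2 Λ K x S then 1 else 0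

open Classical in
noncomputable def cK (n : ℕ) (x : V) (K : Finset V) : ℝ := if x ∉ K ∧ n ≤ K.card then 1 else 0

lemma IK_nonneg (y : V) (K : Finset V) (W : Finset (Sym2 V)) : 0 ≤ IK y K W := by
  unfold IK; split_ifs <;> norm_num

lemma BK_nonneg (Λ : Finset (Sym2 V)) (n : ℕ) (x : V) (K : Finset V)
    (W : Finset (Sym2 V)) : 0 ≤ BK Λ n x K W := by
  unfold BK; split_ifs <;> norm_num

lemma BK_mono (Λ : Finset (Sym2 V)) (n : ℕ) (x : V) (K : Finset V) :
    Monotone (BK Λ n x K) := by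
  intro S T h
  unfold BK
  by_cases h1 : n ≤ csz (S \ TK Λ K) x
  · rw [if_pos h1, if_pos (h1.trans (csz_mono (Finset.sdiff_subset_sdiff h
      (Finset.Subset.refl _)) x))]
  · rw [if_neg h1]
    split_ifs <;> norm_num

lemma AK_mono (Λ : Finset (Sym2 V)) (x : V) (K : Finset V) :
    Monotone (AK Λ x K) := by
  intro S T h
  unfold AK
  by_cases h1 : A2 Λ K x S
  · rw [if_pos h1, if_pos (A2_mono h h1)]
  · rw [if_neg h1]
    split_ifs <;> norm_num

lemma E0_eq_sum {Λ W : Finset (Sym2 V)} {F : Finset V} (hΛF : ∀ e ∈ Λ, ∀ v ∈ e, v ∈ F)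
    (hW : W ⊆ Λ) (n : ℕ) {x y : V} (hy : y ∈ F) :
    E0 n x y W = ∑ K ∈ F.powerset, cK n x K * (IK y K W * BK Λ n x K W) := by
  classical
  rw [Finset.sum_eq_single (cl W y)]
  · unfold E0 cK IK BK
    rw [if_pos rfl, one_mul]
    by_cases hx : x ∈ cl W y
    · have : Cn W x y := (mem_cl.1 hx).symm
      rw [if_neg (fun h => h.1 this), if_neg (fun h => h.1 hx), zero_mul]
    · have hnc : ¬ Cn W x y := fun h => hx (mem_cl.2 h.symm)
      have hcl : csz W x = csz (W \ TK Λ (cl W y)) x := by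
        unfold csz
        rw [← cl_off rfl hx]
      by_cases h1 : n ≤ csz W y
      · have h1' : n ≤ (cl W y).card := h1
        rw [if_pos (⟨hx, h1'⟩ : x ∉ cl W y ∧ n ≤ (cl W y).card), one_mul, ← hcl]
        by_cases h2 : n ≤ csz W x
        · rw [if_pos h2, if_pos ⟨hnc, h2, h1⟩]
        · rw [if_neg h2, if_neg (fun h => h2 h.2.1)]
      · rw [if_neg (fun h => h1 h.2.2), if_neg (fun h => h1 h.2), zero_mul]
  · intro K _ hK
    unfold IK
    rw [if_neg (fun h => hK h.symm), zero_mul, mul_zero]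
  · intro h
    exfalso
    apply h
    rw [Finset.mem_powerset]
    exact cl_subset_of hΛF hW hy

lemma inter_TK_union {Λ S T : Finset (Sym2 V)} (K : Finset V) :
    (S ∪ T ∩ TK Λ K) ∩ TK Λ K = (S ∪ T) ∩ TK Λ K := by
  ext e
  simp only [Finset.mem_inter, Finset.mem_union]
  tauto

lemma inter_TK_union' {Λ S T : Finset (Sym2 V)} (K : Finset V) :
    (S ∩ TK Λ K ∪ T) ∩ TK Λ K = (S ∪ T) ∩ TK Λ K := by
  ext e
  simp only [Finset.mem_inter, Finset.mem_union]
  tauto

lemma sdiff_TK_union {Λ S T : Finset (Sym2 V)} (K : Finset V) :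
    (S ∪ T \ TK Λ K) \ TK Λ K = (S ∪ T) \ TK Λ K := by
  ext e
  simp only [Finset.mem_sdiff, Finset.mem_union]
  tauto

lemma sdiff_TK_union' {Λ S T : Finset (Sym2 V)} (K : Finset V) :
    (S \ TK Λ K ∪ T) \ TK Λ K = (S ∪ T) \ TK Λ K := by
  ext e
  simp only [Finset.mem_sdiff, Finset.mem_union]
  tauto

lemma IK_inter {Λ W : Finset (Sym2 V)} (hW : W ⊆ Λ) (y : V) (K : Finset V) :
    IK y K W = IK y K (W ∩ TK Λ K) := by
  unfold IK
  by_cases h : cl W y = K
  · rw [if_pos h, if_pos ((cl_eq_iff_inter hW K y).1 h)]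
  · rw [if_neg h, if_neg (fun h' => h ((cl_eq_iff_inter hW K y).2 h'))]

/-- The conditional bound for a fixed cluster `K` of `y`. -/
lemma fixedK {p' q : ℝ} (h0 : 0 ≤ p') (h1 : p' ≤ 1) (hq0 : 0 ≤ q) (hq1 : q ≤ 1)
    {Λ : Finset (Sym2 V)} (n : ℕ) (x y : V) (K : Finset V) :
    Ex p' Λ (con x y) * (cK n x K * Ex p' Λ (fun S => Ex q Λ (fun T =>
      IK y K (S ∪ T) * BK Λ n x K (S ∪ T)))) ≤
    cK n x K * Ex p' Λ (fun S => Ex q Λ (fun T =>
      (IK y K (S ∪ T) * BK Λ n x K (S ∪ T)) * AK Λ x K S)) := by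
  classical
  by_cases hc : x ∉ K ∧ n ≤ K.card
  swap
  · have : cK n x K = 0 := by unfold cK; exact if_neg hc
    rw [this]; simp
  have hcK : cK n x K = 1 := by unfold cK; exact if_pos hc
  rw [hcK, one_mul, one_mul]
  set a : Finset (Sym2 V) → ℝ := fun S => Ex q Λ (fun T => IK y K (S ∪ T)) with ha
  set b : Finset (Sym2 V) → ℝ := fun S => Ex q Λ (fun T => BK Λ n x K (S ∪ T)) with hb
  have hTK := TK_subset Λ K
  -- inner independence
  have inner : ∀ S ⊆ Λ, Ex q Λ (fun T => IK y K (S ∪ T) * BK Λ n x K (S ∪ T)) = a S * b S := by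
    intro S hS
    apply Ex_indep_split q hTK
    · intro T hT
      rw [IK_inter (Finset.union_subset hS hT), IK_inter (W := S ∪ T ∩ TK Λ K)
        (Finset.union_subset hS (Finset.inter_subset_left.trans hT)), inter_TK_union]
    · intro T _
      unfold BK
      rw [sdiff_TK_union]
  have haA : ∀ S ⊆ Λ, a S = a (S ∩ TK Λ K) := by
    intro S hS
    simp only [ha]
    apply Ex_congr
    intro T hT
    rw [IK_inter (Finset.union_subset hS hT), IK_inter (W := S ∩ TK Λ K ∪ T)
        (Finset.union_subset (Finset.inter_subset_left.trans hS) hT), inter_TK_union']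
  have hbA : ∀ S ⊆ Λ, b S = b (S \ TK Λ K) := by
    intro S _
    simp only [hb]
    apply Ex_congr
    intro T _
    unfold BK
    rw [sdiff_TK_union']
  have hAA : ∀ S ⊆ Λ, AK Λ x K S = AK Λ x K (S \ TK Λ K) := by
    intro S _
    unfold AK A2
    rw [Finset.sdiff_idem]
  have e1 : Ex p' Λ (fun S => Ex q Λ (fun T => IK y K (S ∪ T) * BK Λ n x K (S ∪ T))) =
      Ex p' Λ a * Ex p' Λ b := by
    rw [Ex_congr p' inner]
    exact Ex_indep_split p' hTK haA hbA
  have e2 : Ex p' Λ (fun S => Ex q Λ (fun T =>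
      (IK y K (S ∪ T) * BK Λ n x K (S ∪ T)) * AK Λ x K S)) =
      Ex p' Λ a * Ex p' Λ (fun S => b S * AK Λ x K S) := by
    rw [← Ex_indep_split p' hTK haA (g := fun S => b S * AK Λ x K S)]
    · apply Ex_congr
      intro S hS
      rw [Ex_mul_const, inner S hS]
      ring
    · intro S hS
      rw [hbA S hS, hAA S hS]
  rw [e1, e2]
  have ha0 : 0 ≤ Ex p' Λ a := Ex_nonneg h0 h1 (fun S _ =>
    Ex_nonneg hq0 hq1 (fun T _ => IK_nonneg y K _))
  have hb0 : 0 ≤ Ex p' Λ b := Ex_nonneg h0 h1 (fun S _ =>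
    Ex_nonneg hq0 hq1 (fun T _ => BK_nonneg Λ n x K _))
  have hbm : Monotone b := by
    intro S S' h
    simp only [hb]
    exact Ex_mono hq0 hq1 (fun T _ => BK_mono Λ n x K (Finset.union_subset_union_left h))
  have hH := harris h0 h1 Λ hbm (AK_mono Λ x K)
  by_cases hy : y ∈ K
  · have hcon : Ex p' Λ (con x y) ≤ Ex p' Λ (AK Λ x K) := by
      apply Ex_mono h0 h1
      intro S hS
      unfold con AK
      by_cases h : Cn S x y
      · rw [if_pos h, if_pos (A2_of_Cn hS hc.1 hy h)]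
      · rw [if_neg h]
        split_ifs <;> norm_num
    calc Ex p' Λ (con x y) * (Ex p' Λ a * Ex p' Λ b)
        = Ex p' Λ a * (Ex p' Λ b * Ex p' Λ (con x y)) := by ring
      _ ≤ Ex p' Λ a * (Ex p' Λ b * Ex p' Λ (AK Λ x K)) := by
          apply mul_le_mul_of_nonneg_left _ ha0
          exact mul_le_mul_of_nonneg_left hcon hb0
      _ ≤ _ := mul_le_mul_of_nonneg_left hH ha0
  · have hz : Ex p' Λ a = 0 := by
      have : ∀ S ⊆ Λ, a S = (fun _ => (0:ℝ)) S := by
        intro S _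
        simp only [ha]
        rw [Ex_congr q (G := fun _ => (0:ℝ))]
        · exact Ex_const q Λ 0
        · intro T _
          unfold IK
          apply if_neg
          intro h
          apply hy
          rw [← h]
          exact self_mem_cl _ y
      rw [Ex_congr p' this, Ex_const]
    rw [hz]
    simp

open Classical in
/-- Existence of a bridging edge (finite volume). -/
theorem uniq_fin {p p' q : ℝ} (h0 : 0 ≤ p') (h1 : p' ≤ 1) (hq0 : 0 ≤ q) (hq1 : q ≤ 1)
    (hp : 1 - p = (1 - p') * (1 - q))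
    {Λ : Finset (Sym2 V)} {F : Finset V} (hΛF : ∀ e ∈ Λ, ∀ v ∈ e, v ∈ F)
    (n : ℕ) {x y : V} (hy : y ∈ F) :
    Ex p' Λ (con x y) * Ex p Λ (E0 n x y) ≤
      Ex p' Λ (fun S => Ex q Λ (fun T => if Br Λ n x S (S ∪ T) then 1 else 0)) := by
  have e1 : Ex p Λ (E0 n x y) = ∑ K ∈ F.powerset, cK n x K * Ex p' Λ (fun S => Ex q Λ (fun T =>
      IK y K (S ∪ T) * BK Λ n x K (S ∪ T))) := by
    rw [Ex_superpose hp]
    have : ∀ K ∈ F.powerset, cK n x K * Ex p' Λ (fun S => Ex q Λ (fun T =>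
        IK y K (S ∪ T) * BK Λ n x K (S ∪ T))) = Ex p' Λ (fun S => Ex q Λ (fun T =>
        cK n x K * (IK y K (S ∪ T) * BK Λ n x K (S ∪ T)))) := by
      intro K _
      rw [← Ex_const_mul]
      apply Ex_congr
      intro S _
      rw [← Ex_const_mul]
    rw [Finset.sum_congr rfl this, ← Ex_sum]
    apply Ex_congr
    intro S hS
    rw [← Ex_sum]
    apply Ex_congr
    intro T hT
    exact E0_eq_sum hΛF (Finset.union_subset hS hT) n hy
  rw [e1, Finset.mul_sum]
  refine (Finset.sum_le_sum (fun K _ => fixedK (q := q) h0 h1 hq0 hq1 n x y K)).trans ?_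
  have e2 : ∀ K ∈ F.powerset, cK n x K * Ex p' Λ (fun S => Ex q Λ (fun T =>
      (IK y K (S ∪ T) * BK Λ n x K (S ∪ T)) * AK Λ x K S)) = Ex p' Λ (fun S => Ex q Λ (fun T =>
      cK n x K * ((IK y K (S ∪ T) * BK Λ n x K (S ∪ T)) * AK Λ x K S))) := by
    intro K _
    rw [← Ex_const_mul]
    apply Ex_congr
    intro S _
    rw [← Ex_const_mul]
  rw [Finset.sum_congr rfl e2, ← Ex_sum]
  apply Ex_mono h0 h1
  intro S hS
  rw [← Ex_sum]
  apply Ex_mono hq0 hq1
  intro T hT
  -- only the term `K = cl (S ∪ T) y` contributes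
  have hST : S ∪ T ⊆ Λ := Finset.union_subset hS hT
  have hsingle : ∑ K ∈ F.powerset,
      cK n x K * ((IK y K (S ∪ T) * BK Λ n x K (S ∪ T)) * AK Λ x K S) =
      cK n x (cl (S ∪ T) y) * ((IK y (cl (S ∪ T) y) (S ∪ T) *
        BK Λ n x (cl (S ∪ T) y) (S ∪ T)) * AK Λ x (cl (S ∪ T) y) S) := by
    apply Finset.sum_eq_single
    · intro K _ hK
      unfold IK
      rw [if_neg (fun h => hK h.symm)]
      ring
    · intro h
      exfalso
      apply h
      rw [Finset.mem_powerset]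
      exact cl_subset_of hΛF hST hy
  rw [hsingle]
  by_cases hB : Br Λ n x S (S ∪ T)
  · rw [if_pos hB]
    unfold cK IK BK AK
    split_ifs <;> norm_num
  · rw [if_neg hB]
    unfold cK IK BK AK
    by_cases hc : x ∉ cl (S ∪ T) y ∧ n ≤ (cl (S ∪ T) y).card
    · by_cases hb : n ≤ csz ((S ∪ T) \ TK Λ (cl (S ∪ T) y)) x
      · by_cases ha : A2 Λ (cl (S ∪ T) y) x S
        · exact absurd (Br_of Finset.subset_union_left rfl hc.1 hc.2 hb ha) hB
        · rw [if_neg ha]; simp
      · rw [if_neg hb]; simp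
    · rw [if_neg hc]; simp

end Unique

end Vale.Agent.P151
end

section

open Finset

set_option linter.unusedSectionVars false

namespace Vale.Agent.P151

section Mult
variable {V : Type*} [DecidableEq V]

open Classical in
/-- edges of `Λ` within distance `N` of `X` -/
noncomputable def near (G : SimpleGraph V) (X : Finset V) (N : ℕ) (Λ : Finset (Sym2 V)) :
    Finset (Sym2 V) := Λ.filter (fun e => ∃ x ∈ X, ∃ b ∈ e, G.dist x b ≤ N)

lemma mem_near {G : SimpleGraph V} {X : Finset V} {N : ℕ} {Λ : Finset (Sym2 V)} {e : Sym2 V} :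
    e ∈ near G X N Λ ↔ e ∈ Λ ∧ ∃ x ∈ X, ∃ b ∈ e, G.dist x b ≤ N := by
  classical
  simp only [near, mem_filter]

open Classical in
lemma count_bound (S : Finset (Sym2 V)) (X : Finset V) (N : ℕ) (e : Sym2 V) :
    ((X.filter (fun x => csz S x ≤ N ∧ ∃ b ∈ e, Cn S x b)).card : ℝ) ≤ 2 * N := by
  induction e with
  | _ a b =>
    set A : Finset V := if csz S a ≤ N then cl S a else ∅ with hA
    set B : Finset V := if csz S b ≤ N then cl S b else ∅ with hB
    have hAc : A.card ≤ N := by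
      rw [hA]
      by_cases h : csz S a ≤ N
      · rw [if_pos h]; exact h
      · rw [if_neg h]; simp
    have hBc : B.card ≤ N := by
      rw [hB]
      by_cases h : csz S b ≤ N
      · rw [if_pos h]; exact h
      · rw [if_neg h]; simp
    have hsub : X.filter (fun x => csz S x ≤ N ∧ ∃ u ∈ s(a, b), Cn S x u) ⊆ A ∪ B := by
      intro x hx
      rw [Finset.mem_filter] at hx
      obtain ⟨_, hxN, u, hu, hxu⟩ := hx
      rw [Sym2.mem_iff] at hu
      rw [Finset.mem_union]
      rcases hu with rfl | rfl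
      · left
        rw [hA, if_pos (by rw [← csz_eq hxu]; exact hxN), mem_cl]
        exact hxu.symm
      · right
        rw [hB, if_pos (by rw [← csz_eq hxu]; exact hxN), mem_cl]
        exact hxu.symm
    have h1 := Finset.card_le_card hsub
    have h2 := Finset.card_union_le A B
    have h3 : (X.filter (fun x => csz S x ≤ N ∧ ∃ u ∈ s(a, b), Cn S x u)).card ≤ 2 * N := by omega
    exact_mod_cast h3

open Classical in
lemma mult_bound {G : SimpleGraph V} {Λ S W : Finset (Sym2 V)} (hSG : ∀ e ∈ S, e ∈ G.edgeSet)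
    (X : Finset V) (n N : ℕ) :
    ∑ x ∈ X, (if Br Λ n x S W then (1 : ℝ) else 0) ≤
      ∑ x ∈ X, big (N + 1) x S + 2 * N * ∑ e ∈ near G X N Λ, (if Sg n W e then (1 : ℝ) else 0) := by
  have hpt : ∀ x ∈ X, (if Br Λ n x S W then (1 : ℝ) else 0) ≤ big (N + 1) x S +
      ∑ e ∈ near G X N Λ, (if Sg n W e then (1 : ℝ) else 0) *
        (if csz S x ≤ N ∧ ∃ b ∈ e, Cn S x b then 1 else 0) := by
    intro x hx
    have hnn : ∀ e ∈ near G X N Λ, 0 ≤ (if Sg n W e then (1 : ℝ) else 0) *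
        (if csz S x ≤ N ∧ ∃ b ∈ e, Cn S x b then 1 else 0) := by
      intro e _
      split_ifs <;> norm_num
    by_cases hB : Br Λ n x S W
    · rw [if_pos hB]
      by_cases hbig : N + 1 ≤ csz S x
      · have : big (N + 1) x S = 1 := by unfold big; exact if_pos hbig
        rw [this]
        have := Finset.sum_nonneg hnn
        linarith only [this]
      · obtain ⟨a, b, hab, hxb, hSg⟩ := hB
        have hdist : G.dist x b < csz S x := dist_lt_csz hSG hxb
        have hmem : s(a, b) ∈ near G X N Λ :=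
          mem_near.2 ⟨hab, x, hx, b, by simp, by omega⟩
        have h1 := Finset.single_le_sum hnn hmem
        rw [if_pos hSg, if_pos ⟨by omega, b, by simp, hxb⟩] at h1
        have := big_nonneg (N + 1) x S
        linarith only [h1, this]
    · rw [if_neg hB]
      have := Finset.sum_nonneg hnn
      have := big_nonneg (N + 1) x S
      linarith
  refine (Finset.sum_le_sum hpt).trans ?_
  rw [Finset.sum_add_distrib, Finset.sum_comm, Finset.mul_sum]
  apply add_le_add le_rfl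
  apply Finset.sum_le_sum
  intro e _
  rw [← Finset.mul_sum, mul_comm]
  have h2 : ∑ x ∈ X, (if csz S x ≤ N ∧ ∃ b ∈ e, Cn S x b then (1 : ℝ) else 0) =
      ((X.filter (fun x => csz S x ≤ N ∧ ∃ b ∈ e, Cn S x b)).card : ℝ) := by
    rw [Finset.sum_ite, Finset.sum_const_zero, add_zero, Finset.sum_const, nsmul_eq_mul, mul_one]
  rw [h2]
  apply mul_le_mul_of_nonneg_right (count_bound S X N e)
  split_ifs <;> norm_num

open Classical in
lemma Sg_local {G : SimpleGraph V} (hG : G.Connected) {W : Finset (Sym2 V)}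
    (hW : ∀ e ∈ W, e ∈ G.edgeSet) {F2 : Finset V} {n : ℕ} {e : Sym2 V}
    (hF2 : ∀ u ∈ e, ∀ z, G.dist u z < n → z ∈ F2) (h : Sg n W e) :
    Sg n (W ∩ edgesIn G F2) e := by
  obtain ⟨a, b, rfl, hab, ha, hb⟩ := h
  refine ⟨a, b, rfl, fun h => hab (h.mono Finset.inter_subset_left), ?_, ?_⟩
  · exact csz_local hW hG (fun z hz => hF2 a (by simp) z hz) ha
  · exact csz_local hW hG (fun z hz => hF2 b (by simp) z hz) hb

open Classical in
/-- The averaged uniqueness inequality in finite volume. -/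
theorem T3_fin {G : SimpleGraph V} (hG : G.Connected) {p p' q : ℝ} (h0 : 0 ≤ p') (h1 : p' ≤ 1)
    (hq0 : 0 ≤ q) (hq1 : q ≤ 1) (hp0 : 0 < p) (hp1 : p ≤ 1)
    (hp : 1 - p = (1 - p') * (1 - q)) {n N d : ℕ} (hn : 1 ≤ n) (hd1 : 1 ≤ d)
    (hd : ∀ F : Finset V, ∀ v, ((edgesIn G F).filter (fun e => v ∈ e)).card ≤ d)
    {F F2 X : Finset V} (hF2F : F2 ⊆ F)
    (hF2 : ∀ x ∈ X, ∀ z, G.dist x z ≤ N + 1 + n → z ∈ F2) (yy : V → V)
    (hyy : ∀ x ∈ X, yy x ∈ F) :
    ∑ x ∈ X, Ex p' (edgesIn G F) (con x (yy x)) * Ex p (edgesIn G F) (E0 n x (yy x)) ≤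
      ∑ x ∈ X, Ex p' (edgesIn G F) (big (N + 1) x) +
        2 * N * (4 * d * F2.card / (p * Real.sqrt n)) := by
  set Λ := edgesIn G F with hΛ
  set Λ2 := edgesIn G F2 with hΛ2
  have hΛF : ∀ e ∈ Λ, ∀ v ∈ e, v ∈ F := fun e he => (mem_edgesIn.1 he).2
  have hΛG : ∀ e ∈ Λ, e ∈ G.edgeSet := fun e he => (mem_edgesIn.1 he).1
  have hΛ2Λ : Λ2 ⊆ Λ := edgesIn_mono G hF2F
  have step1 : ∑ x ∈ X, Ex p' Λ (con x (yy x)) * Ex p Λ (E0 n x (yy x)) ≤
      Ex p' Λ (fun S => Ex q Λ (fun T => ∑ x ∈ X, if Br Λ n x S (S ∪ T) then (1:ℝ) else 0)) := by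
    refine (Finset.sum_le_sum (fun x hx =>
      uniq_fin h0 h1 hq0 hq1 hp hΛF n (hyy x hx))).trans (le_of_eq ?_)
    rw [← Ex_sum]
    apply Ex_congr
    intro S _
    rw [← Ex_sum]
  have step2 : Ex p' Λ (fun S => Ex q Λ (fun T =>
      ∑ x ∈ X, if Br Λ n x S (S ∪ T) then (1:ℝ) else 0)) ≤
      Ex p' Λ (fun S => Ex q Λ (fun T => ∑ x ∈ X, big (N + 1) x S +
        2 * N * ∑ e ∈ near G X N Λ, (if Sg n (S ∪ T) e then (1 : ℝ) else 0))) := by
    apply Ex_mono h0 h1
    intro S hS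
    apply Ex_mono hq0 hq1
    intro T _
    exact mult_bound (fun e he => hΛG e (hS he)) X n N
  have step3 : Ex p' Λ (fun S => Ex q Λ (fun T => ∑ x ∈ X, big (N + 1) x S +
        2 * N * ∑ e ∈ near G X N Λ, (if Sg n (S ∪ T) e then (1 : ℝ) else 0))) =
      ∑ x ∈ X, Ex p' Λ (big (N + 1) x) + 2 * N * ∑ e ∈ near G X N Λ,
        Ex p Λ (fun W => if Sg n W e then 1 else 0) := by
    have e1 : ∀ S ⊆ Λ, Ex q Λ (fun T => ∑ x ∈ X, big (N + 1) x S +
        2 * N * ∑ e ∈ near G X N Λ, (if Sg n (S ∪ T) e then (1 : ℝ) else 0)) =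
        ∑ x ∈ X, big (N + 1) x S + 2 * N * Ex q Λ (fun T =>
          ∑ e ∈ near G X N Λ, (if Sg n (S ∪ T) e then (1 : ℝ) else 0)) := by
      intro S _
      rw [Ex_add, Ex_const, Ex_const_mul]
    rw [Ex_congr p' e1, Ex_add, Ex_const_mul, Ex_sum]
    congr 2
    rw [← Ex_superpose hp Λ (fun W => ∑ e ∈ near G X N Λ, (if Sg n W e then (1 : ℝ) else 0)),
      Ex_sum]
  have hnear : near G X N Λ ⊆ Λ2 := by
    intro e he
    rw [mem_near] at he
    obtain ⟨heΛ, x, hx, b, hb, hxb⟩ := he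
    rw [hΛ2, mem_edgesIn]
    refine ⟨hΛG e heΛ, ?_⟩
    intro v hv
    apply hF2 x hx
    induction e with
    | _ u w =>
      have hadj : G.Adj u w := by simpa using hΛG _ heΛ
      have h1 : G.dist b v ≤ 1 := by
        rw [Sym2.mem_iff] at hv hb
        rcases hv with rfl | rfl <;> rcases hb with rfl | rfl
        · simp
        · exact (SimpleGraph.dist_eq_one_iff_adj.2 hadj.symm).le
        · exact (SimpleGraph.dist_eq_one_iff_adj.2 hadj).le
        · simp
      have := hG.dist_triangle (u := x) (v := b) (w := v)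
      omega
  have step4 : ∑ e ∈ near G X N Λ, Ex p Λ (fun W => if Sg n W e then (1:ℝ) else 0) ≤
      ∑ e ∈ near G X N Λ, Ex p Λ2 (fun W => if Sg n W e then 1 else 0) := by
    apply Finset.sum_le_sum
    intro e he
    have hres : Ex p Λ2 (fun W => if Sg n W e then (1:ℝ) else 0) =
        Ex p Λ (fun W => if Sg n (W ∩ Λ2) e then 1 else 0) := by
      rw [Ex_restrict p hΛ2Λ (F := fun W => if Sg n (W ∩ Λ2) e then (1:ℝ) else 0)]
      · apply Ex_congr
        intro S hS
        rw [Finset.inter_eq_left.2 hS]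
      · intro S _
        simp only [Finset.inter_assoc, Finset.inter_self]
    rw [hres]
    apply Ex_mono hp0.le hp1
    intro W hW
    by_cases hSg : Sg n W e
    · rw [if_pos hSg, if_pos]
      apply Sg_local hG (fun e he => hΛG e (hW he)) _ hSg
      intro u hu z hz
      rw [mem_near] at he
      obtain ⟨heΛ, x, hx, b, hb, hxb⟩ := he
      apply hF2 x hx
      induction e with
      | _ u' w' =>
        have hadj : G.Adj u' w' := by simpa using hΛG _ heΛ
        have h1 : G.dist b u ≤ 1 := by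
          rw [Sym2.mem_iff] at hu hb
          rcases hu with rfl | rfl <;> rcases hb with rfl | rfl
          · simp
          · exact (SimpleGraph.dist_eq_one_iff_adj.2 hadj.symm).le
          · exact (SimpleGraph.dist_eq_one_iff_adj.2 hadj).le
          · simp
        have h2 := hG.dist_triangle (u := x) (v := b) (w := u)
        have h3 := hG.dist_triangle (u := x) (v := u) (w := z)
        omega
    · rw [if_neg hSg]
      split_ifs <;> norm_num
  have step5 : ∑ e ∈ near G X N Λ, Ex p Λ2 (fun W => if Sg n W e then (1:ℝ) else 0) ≤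
      4 * d * F2.card / (p * Real.sqrt n) := by
    refine le_trans ?_ (two_ghost hp0 hp1 (Λ := Λ2) (F := F2)
      (fun e he => (mem_edgesIn.1 he).2) hn hd1 (hd F2))
    apply Finset.sum_le_sum_of_subset_of_nonneg hnear
    intro e _ _
    apply Ex_nonneg hp0.le hp1
    intro W _
    split_ifs <;> norm_num
  have hN0 : (0:ℝ) ≤ 2 * N := by (clear * -; positivity)
  have := mul_le_mul_of_nonneg_left (step4.trans step5) hN0
  rw [step3] at step2
  linarith only [step1, step2, this]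

end Mult

end Vale.Agent.P151
end

section

open Finset

set_option linter.unusedSectionVars false

namespace Vale.Agent.P151

section Geometry
variable {V : Type*} [DecidableEq V]

lemma mem_ballF_iff {G : SimpleGraph V} [G.LocallyFinite] (hG : G.Connected) {o x : V} {n : ℕ} :
    x ∈ ballF G o n ↔ G.dist x o ≤ n := by
  constructor
  · intro h
    obtain ⟨w, hw⟩ := dist_le_of_mem_ballF G o n x h
    exact (SimpleGraph.dist_le w).trans hw
  · exact mem_ballF_of_dist_le G hG o x n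

lemma dist_aut {G : SimpleGraph V} (hG : G.Connected) (g : G ≃g G) (x y : V) :
    G.dist (g x) (g y) = G.dist x y := by
  have key : ∀ (g : G ≃g G) (x y : V), G.dist (g x) (g y) ≤ G.dist x y := by
    intro g x y
    obtain ⟨w, hw⟩ := hG.exists_walk_length_eq_dist x y
    rw [← hw]
    have := SimpleGraph.dist_le (w.map g.toHom)
    rw [SimpleGraph.Walk.length_map] at this
    exact this
  apply le_antisymm (key g x y)
  have := key g.symm (g x) (g y)
  simpa using this

lemma exists_mid {G : SimpleGraph V} (hG : G.Connected) {x z : V} {a b : ℕ}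
    (h : G.dist x z ≤ a + b) : ∃ y, G.dist x y ≤ a ∧ G.dist y z ≤ b := by
  obtain ⟨w, hw⟩ := hG.exists_walk_length_eq_dist x z
  refine ⟨w.getVert a, ?_, ?_⟩
  · have := SimpleGraph.dist_le (w.take a)
    rw [SimpleGraph.Walk.take_length] at this
    exact this.trans (min_le_left _ _)
  · have := SimpleGraph.dist_le (w.drop a)
    rw [SimpleGraph.Walk.drop_length] at this
    omega

section prob
variable {G : SimpleGraph V} {p : ℝ}

lemma phi_local (h0 : 0 ≤ p) (h1 : p ≤ 1) (hG : G.Connected) {x : V} {n : ℕ} {F : Finset V}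
    (hF : ∀ y, G.dist x y < n → y ∈ F) : phi G p n x = Ex p (edgesIn G F) (big n x) := by
  apply le_antisymm
  · apply EV_le
    intro F'
    refine (Ex_edgesIn_mono (G := G) h0 h1 (big_mono n x)
      (Finset.subset_union_right (s₁ := F) (s₂ := F'))).trans (le_of_eq ?_)
    apply Ex_restrict p (edgesIn_mono G Finset.subset_union_left)
    intro S hS
    have hSG : ∀ e ∈ S, e ∈ G.edgeSet := fun e he => (mem_edgesIn.1 (hS he)).1
    unfold big
    by_cases h : n ≤ csz S x
    · rw [if_pos h, if_pos (csz_local hSG hG hF h)]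
    · rw [if_neg h, if_neg]
      intro h'
      exact h (h'.trans (csz_mono Finset.inter_subset_left x))
  · exact le_EV h0 h1 (big_le_one n x) F

lemma tau_nonneg (h0 : 0 ≤ p) (h1 : p ≤ 1) (x y : V) : 0 ≤ tau G p x y :=
  EV_nonneg h0 h1 (con_nonneg x y) (con_le_one x y)

lemma tau_le_one (h0 : 0 ≤ p) (h1 : p ≤ 1) (x y : V) : tau G p x y ≤ 1 :=
  EV_le_one h0 h1 (con_le_one x y)

lemma phi_nonneg (h0 : 0 ≤ p) (h1 : p ≤ 1) (n : ℕ) (x : V) : 0 ≤ phi G p n x :=
  EV_nonneg h0 h1 (big_nonneg n x) (big_le_one n x)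

lemma tau_self (h0 : 0 ≤ p) (h1 : p ≤ 1) (x : V) : tau G p x x = 1 := by
  apply le_antisymm (tau_le_one h0 h1 x x)
  refine le_trans ?_ (le_EV h0 h1 (con_le_one x x) ∅)
  have : ∀ S ⊆ edgesIn G ∅, con x x S = (fun _ => (1:ℝ)) S := by
    intro S _
    unfold con
    exact if_pos (Cn.refl S x)
  rw [Ex_congr p this, Ex_const]

lemma tau_mul (h0 : 0 ≤ p) (h1 : p ≤ 1) (x y z : V) :
    tau G p x y * tau G p y z ≤ tau G p x z := by
  refine (EV_mul_le h0 h1 (con_mono x y) (con_mono y z) (con_nonneg x y) (con_nonneg y z)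
    (con_le_one x y) (con_le_one y z)).trans ?_
  apply EV_mono h0 h1 _ (con_le_one x z)
  intro S
  unfold con
  by_cases h1 : Cn S x y
  · by_cases h2 : Cn S y z
    · rw [if_pos h1, if_pos h2, if_pos (h1.trans h2)]; norm_num
    · rw [if_neg h2, mul_zero]
      split_ifs <;> norm_num
  · rw [if_neg h1, zero_mul]
    split_ifs <;> norm_num

lemma tau_adj (h0 : 0 ≤ p) (h1 : p ≤ 1) {x y : V} (h : G.Adj x y) : p ≤ tau G p x y := by
  refine le_trans ?_ (le_EV h0 h1 (con_le_one x y) {x, y})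
  have hmem : s(x, y) ∈ edgesIn G {x, y} := mk_mem_edgesIn.2 ⟨h, by simp, by simp⟩
  have hsub : ({s(x, y)} : Finset (Sym2 V)) ⊆ edgesIn G {x, y} := by
    rw [Finset.singleton_subset_iff]; exact hmem
  refine le_trans ?_ (Ex_mono_set h0 h1 hsub (con_mono x y))
  have h2 : ({s(x, y)} : Finset (Sym2 V)) = insert s(x, y) ∅ := rfl
  rw [h2, Ex_insert p (Finset.notMem_empty _), Ex_empty, Ex_empty]
  have h3 : con x y (insert s(x, y) (∅ : Finset (Sym2 V))) = 1 := by
    unfold con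
    exact if_pos (Cn_of_mem (Finset.mem_insert_self _ _))
  rw [h3]
  have := con_nonneg x y (∅ : Finset (Sym2 V))
  nlinarith only [h1, this]

lemma tau_ge_pow (h0 : 0 ≤ p) (h1 : p ≤ 1) (hG : G.Connected) :
    ∀ (k : ℕ) (x y : V), G.dist x y ≤ k → p ^ k ≤ tau G p x y := by
  intro k
  induction k with
  | zero =>
    intro x y h
    have : x = y := by
      have := Nat.le_zero.1 h
      exact (hG.dist_eq_zero_iff).1 this
    subst this
    rw [pow_zero, tau_self h0 h1]
  | succ k ih =>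
    intro x y h
    obtain ⟨z, hz1, hz2⟩ := exists_mid hG h
    have h3 : p ≤ tau G p z y := by
      rcases Nat.le_one_iff_eq_zero_or_eq_one.1 hz2 with h4 | h4
      · have : z = y := (hG.dist_eq_zero_iff).1 h4
        subst this
        rw [tau_self h0 h1]; exact h1
      · exact tau_adj h0 h1 (SimpleGraph.dist_eq_one_iff_adj.1 h4)
    calc p ^ (k + 1) = p ^ k * p := pow_succ p k
      _ ≤ tau G p x z * tau G p z y := mul_le_mul (ih x z hz1) h3 h0 (tau_nonneg h0 h1 x z)
      _ ≤ tau G p x y := tau_mul h0 h1 x z y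

lemma phi_tau (h0 : 0 ≤ p) (h1 : p ≤ 1) (n : ℕ) (x y : V) :
    phi G p n y * tau G p y x ≤ phi G p n x := by
  refine (EV_mul_le h0 h1 (big_mono n y) (con_mono y x) (big_nonneg n y) (con_nonneg y x)
    (big_le_one n y) (con_le_one y x)).trans ?_
  apply EV_mono h0 h1 _ (big_le_one n x)
  intro S
  unfold con big
  by_cases h1 : n ≤ csz S y
  · by_cases h2 : Cn S y x
    · rw [if_pos h1, if_pos h2, if_pos (by rw [← csz_eq h2]; exact h1)]; norm_num
    · rw [if_neg h2, mul_zero]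
      split_ifs <;> norm_num
  · rw [if_neg h1, zero_mul]
    split_ifs <;> norm_num

lemma phi_comparison (h0 : 0 ≤ p) (h1 : p ≤ 1) (hG : G.Connected) (n : ℕ) (x y : V) {D : ℕ}
    (hD : G.dist y x ≤ D) : p ^ D * phi G p n y ≤ phi G p n x := by
  have h2 := tau_ge_pow h0 h1 hG D y x hD
  have h3 := phi_nonneg (G := G) h0 h1 n y
  calc p ^ D * phi G p n y ≤ tau G p y x * phi G p n y := mul_le_mul_of_nonneg_right h2 h3
    _ = phi G p n y * tau G p y x := mul_comm _ _
    _ ≤ phi G p n x := phi_tau h0 h1 n x y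

end prob

/-- sum of the tails over the representatives -/
noncomputable def SF (G : SimpleGraph V) (R : Finset V) (n : ℕ) (p : ℝ) : ℝ :=
  ∑ o ∈ R, phi G p n o

/-- `κ_p(r)` -/
noncomputable def kap (G : SimpleGraph V) (p : ℝ) (r : ℕ) : ℝ :=
  ⨅ q : {q : V × V // G.dist q.1 q.2 ≤ r}, tau G p q.1.1 q.1.2

section SFkap
variable {G : SimpleGraph V} {p : ℝ} {R : Finset V}

lemma SF_nonneg (h0 : 0 ≤ p) (h1 : p ≤ 1) (n : ℕ) : 0 ≤ SF G R n p :=
  Finset.sum_nonneg (fun o _ => phi_nonneg h0 h1 n o)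

lemma phi_le_SF (hR : ∀ x : V, ∃ y ∈ R, ∃ φ : G ≃g G, φ y = x) (h0 : 0 ≤ p) (h1 : p ≤ 1)
    (n : ℕ) (x : V) : phi G p n x ≤ SF G R n p := by
  obtain ⟨y, hy, φ, rfl⟩ := hR x
  rw [phi_aut]
  exact Finset.single_le_sum (f := fun o => phi G p n o) (fun o _ => phi_nonneg h0 h1 n o) hy

lemma SF_le_phi (hG : G.Connected) (hR : ∀ x : V, ∃ y ∈ R, ∃ φ : G ≃g G, φ y = x) {p0 : ℝ}
    (hp0 : 0 < p0) : ∃ c : ℝ, 0 < c ∧ c ≤ 1 ∧ ∀ (p : ℝ), p0 ≤ p → p ≤ 1 → ∀ (n : ℕ) (x : V),
      c * SF G R n p ≤ phi G p n x := by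
  classical
  obtain ⟨D, hD⟩ : ∃ D : ℕ, ∀ a ∈ R, ∀ b ∈ R, G.dist a b ≤ D := by
    refine ⟨∑ a ∈ R, ∑ b ∈ R, G.dist a b, ?_⟩
    intro a ha b hb
    calc G.dist a b ≤ ∑ b ∈ R, G.dist a b :=
          Finset.single_le_sum (f := fun b => G.dist a b) (fun _ _ => Nat.zero_le _) hb
      _ ≤ ∑ a ∈ R, ∑ b ∈ R, G.dist a b :=
          Finset.single_le_sum (f := fun a => ∑ b ∈ R, G.dist a b) (fun _ _ => Nat.zero_le _) ha
  refine ⟨min 1 (p0 ^ D / (R.card + 1)), lt_min one_pos (by (clear * - hp0; positivity)), min_le_left _ _, ?_⟩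
  intro p hp h1 n x
  have h0 : 0 ≤ p := hp0.le.trans hp
  obtain ⟨y, hy, φ, rfl⟩ := hR x
  rw [phi_aut]
  have hFF0 := SF_nonneg (G := G) (R := R) h0 h1 n
  have hphi0 := phi_nonneg (G := G) h0 h1 n y
  have h2 : p ^ D * SF G R n p ≤ (R.card + 1) * phi G p n y := by
    unfold SF
    rw [Finset.mul_sum]
    calc ∑ o ∈ R, p ^ D * phi G p n o ≤ ∑ o ∈ R, phi G p n y :=
          Finset.sum_le_sum (fun o ho => phi_comparison h0 h1 hG n y o (hD o ho y hy))
      _ = R.card * phi G p n y := by rw [Finset.sum_const, nsmul_eq_mul]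
      _ ≤ (R.card + 1) * phi G p n y := by linarith
  have h3 : p0 ^ D ≤ p ^ D := pow_le_pow_left₀ hp0.le hp D
  calc min 1 (p0 ^ D / (R.card + 1)) * SF G R n p ≤ (p0 ^ D / (R.card + 1)) * SF G R n p :=
        mul_le_mul_of_nonneg_right (min_le_right _ _) hFF0
    _ = (p0 ^ D * SF G R n p) / (R.card + 1) := by ring
    _ ≤ ((R.card + 1) * phi G p n y) / (R.card + 1) := by
        apply div_le_div_of_nonneg_right _ (by (clear * -; positivity))
        exact (mul_le_mul_of_nonneg_right h3 hFF0).trans h2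
    _ = phi G p n y := by (clear * -; field_simp)

lemma kap_bdd (h0 : 0 ≤ p) (h1 : p ≤ 1) (r : ℕ) : BddBelow (Set.range
    (fun q : {q : V × V // G.dist q.1 q.2 ≤ r} => tau G p q.1.1 q.1.2)) := by
  refine ⟨0, ?_⟩
  rintro _ ⟨q, rfl⟩
  exact tau_nonneg h0 h1 _ _

lemma kap_le (h0 : 0 ≤ p) (h1 : p ≤ 1) {r : ℕ} {x y : V} (h : G.dist x y ≤ r) :
    kap G p r ≤ tau G p x y :=
  ciInf_le (kap_bdd h0 h1 r) ⟨(x, y), h⟩

lemma le_kap (hne : Nonempty V) {r : ℕ} {c : ℝ} (h : ∀ x y, G.dist x y ≤ r → c ≤ tau G p x y) :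
    c ≤ kap G p r := by
  obtain ⟨o⟩ := hne
  have : Nonempty {q : V × V // G.dist q.1 q.2 ≤ r} := ⟨⟨(o, o), by simp⟩⟩
  exact le_ciInf (fun q => h _ _ q.2)

lemma kap_nonneg (hne : Nonempty V) (h0 : 0 ≤ p) (h1 : p ≤ 1) (r : ℕ) : 0 ≤ kap G p r :=
  le_kap hne (fun x y _ => tau_nonneg h0 h1 x y)

lemma kap_pow (hG : G.Connected) (h0 : 0 ≤ p) (h1 : p ≤ 1) (r k : ℕ) :
    (kap G p r) ^ k ≤ kap G p (k * r) := by
  have hne := hG.nonempty
  apply le_kap hne
  induction k with
  | zero =>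
    intro x y h
    rw [zero_mul] at h
    have : x = y := (hG.dist_eq_zero_iff).1 (Nat.le_zero.1 h)
    subst this
    rw [pow_zero, tau_self h0 h1]
  | succ k ih =>
    intro x y h
    rw [Nat.succ_mul] at h
    obtain ⟨z, hz1, hz2⟩ := exists_mid hG h
    calc (kap G p r) ^ (k + 1) = (kap G p r) ^ k * kap G p r := pow_succ _ k
      _ ≤ tau G p x z * tau G p z y :=
          mul_le_mul (ih x z hz1) (kap_le h0 h1 hz2) (kap_nonneg hne h0 h1 r)
            (tau_nonneg h0 h1 x z)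
      _ ≤ tau G p x y := tau_mul h0 h1 x z y

lemma kap_one (hG : G.Connected) (h0 : 0 ≤ p) (h1 : p ≤ 1) : p ≤ kap G p 1 := by
  apply le_kap hG.nonempty
  intro x y h
  have := tau_ge_pow h0 h1 hG 1 x y h
  rwa [pow_one] at this

/-- simultaneous finite-volume approximation of finitely many two-point functions -/
lemma exists_region (h0 : 0 ≤ p) (h1 : p ≤ 1) (o : V) (B : Finset V) {ε : ℝ} (hε : 0 < ε) :
    ∃ F : Finset V, ∀ y ∈ B, tau G p o y - ε ≤ Ex p (edgesIn G F) (con o y) := by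
  have : ∀ y : V, ∃ F : Finset V, tau G p o y - ε < Ex p (edgesIn G F) (con o y) := by
    intro y
    apply exists_lt_Ex
    unfold tau
    linarith
  choose Fy hFy using this
  refine ⟨B.biUnion Fy, ?_⟩
  intro y hy
  refine (hFy y).le.trans (Ex_edgesIn_mono h0 h1 (con_mono o y) ?_)
  exact Finset.subset_biUnion_of_mem Fy hy

open Classical in
lemma sum_con_le (o : V) (B : Finset V) (N : ℕ) (S : Finset (Sym2 V)) :
    ∑ y ∈ B, con o y S ≤ N + B.card * big N o S := by
  have h1 : ∑ y ∈ B, con o y S = ((B.filter (fun y => Cn S o y)).card : ℝ) := by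
    unfold con
    rw [Finset.sum_ite, Finset.sum_const_zero, add_zero, Finset.sum_const, nsmul_eq_mul, mul_one]
  rw [h1]
  by_cases h : N ≤ csz S o
  · have hb : big N o S = 1 := by unfold big; exact if_pos h
    rw [hb, mul_one]
    have h2 : ((B.filter (fun y => Cn S o y)).card : ℝ) ≤ B.card := by
      exact_mod_cast Finset.card_filter_le _ _
    have : (0:ℝ) ≤ N := by positivity
    linarith only [h2]
  · have hb : big N o S = 0 := by unfold big; exact if_neg h
    rw [hb, mul_zero, add_zero]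
    have h2 : (B.filter (fun y => Cn S o y)) ⊆ cl S o := by
      intro y hy
      rw [Finset.mem_filter] at hy
      exact mem_cl.2 hy.2
    have h3 := Finset.card_le_card h2
    have h4 : (B.filter (fun y => Cn S o y)).card ≤ N := by
      unfold csz at h
      omega
    exact_mod_cast h4

/-- The volume bound. -/
lemma volume_ineq (h0 : 0 ≤ p) (h1 : p ≤ 1)
    (o : V) (B : Finset V) (r : ℕ) (hB : ∀ y ∈ B, G.dist o y ≤ r) (N : ℕ) :
    B.card * kap G p r ≤ N + B.card * phi G p N o := by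
  apply le_of_forall_pos_le_add
  intro ε hε
  obtain ⟨F, hF⟩ := exists_region (G := G) h0 h1 o B
    (div_pos hε (by (clear * -; positivity) : (0:ℝ) < B.card + 1))
  have s1 : ∑ y ∈ B, (kap G p r - ε / (B.card + 1)) ≤
      ∑ y ∈ B, Ex p (edgesIn G F) (con o y) := by
    apply Finset.sum_le_sum
    intro y hy
    have := kap_le (G := G) h0 h1 (hB y hy)
    have := hF y hy
    linarith
  rw [Finset.sum_const, nsmul_eq_mul, ← Ex_sum] at s1
  have s2 : Ex p (edgesIn G F) (fun S => ∑ y ∈ B, con o y S) ≤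
      Ex p (edgesIn G F) (fun S => N + B.card * big N o S) :=
    Ex_mono h0 h1 (fun S _ => sum_con_le o B N S)
  rw [Ex_add, Ex_const, Ex_const_mul] at s2
  have s3 : Ex p (edgesIn G F) (big N o) ≤ phi G p N o := le_EV h0 h1 (big_le_one N o) F
  have s4 : (B.card : ℝ) * Ex p (edgesIn G F) (big N o) ≤ B.card * phi G p N o :=
    mul_le_mul_of_nonneg_left s3 (by (clear * -; positivity))
  have s5 : (B.card : ℝ) * (ε / (B.card + 1)) ≤ ε := by
    rw [mul_div_assoc', div_le_iff₀ (by (clear * -; positivity))]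
    nlinarith only [hε]
  linarith

end SFkap

end Geometry

end Vale.Agent.P151
end

section

/-!
# Oriented Peierls argument for adaptively explored site fields

A cell is a point of `ℤ × ℤ`; the children of `u` are `u + (1,0)` and `u + (0,1)`.
`reach O` is the set of cells reached from the origin by oriented paths of cells of `O`.
-/

set_option autoImplicit false

namespace Vale.Agent.P151.Red.OP

/-- The child relation. -/
def Child (u v : ℤ × ℤ) : Prop := v = u + (1, 0) ∨ v = u + (0, 1)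

/-- The cells reached from the origin through cells of `O`. -/
def reach (O : Set (ℤ × ℤ)) : Set (ℤ × ℤ) :=
  {w | Relation.ReflTransGen (fun u v => Child u v ∧ v ∈ O) (0, 0) w}

/-- The four unit vectors, in counterclockwise order. -/
def vec (j : Fin 4) : ℤ × ℤ :=
  if j = 0 then (1, 0) else if j = 1 then (0, 1) else if j = 2 then (-1, 0) else (0, -1)

/-- One step of a walk along sides of cells. A state is a cell and an outward direction. -/
def stp (t : Fin 3) (s : (ℤ × ℤ) × Fin 4) : (ℤ × ℤ) × Fin 4 :=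
  if t = 0 then (s.1, s.2 + 1)
  else if t = 1 then (s.1 + vec (s.2 + 1), s.2)
  else (s.1 + vec s.2 + vec (s.2 + 1), s.2 + 3)

open Classical in
/-- The turn made by the boundary walk of `C`. -/
noncomputable def turn (C : Set (ℤ × ℤ)) (s : (ℤ × ℤ) × Fin 4) : Fin 3 :=
  if s.1 + vec (s.2 + 1) ∉ C then 0
  else if s.1 + vec s.2 + vec (s.2 + 1) ∉ C then 1 else 2

/-- The boundary sides of `C`. -/
def bd (C : Set (ℤ × ℤ)) : Set ((ℤ × ℤ) × Fin 4) := {s | s.1 ∈ C ∧ s.1 + vec s.2 ∉ C}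

/-- The boundary walk. -/
noncomputable def phi (C : Set (ℤ × ℤ)) (s : (ℤ × ℤ) × Fin 4) : (ℤ × ℤ) × Fin 4 :=
  stp (turn C s) s

theorem vec_add_three (j : Fin 4) : vec (j + 3) = - vec (j + 1) := by
  fin_cases j <;> simp [vec]

theorem vec_add_two (j : Fin 4) : vec (j + 1 + 1) = - vec j := by
  fin_cases j <;> simp [vec]

theorem add_three_add_one (j : Fin 4) : j + 3 + 1 = j := by
  fin_cases j <;> rfl

theorem add_one_add_three (j : Fin 4) : j + 1 + 3 = j := by
  fin_cases j <;> rfl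

theorem stp_zero (s : (ℤ × ℤ) × Fin 4) : stp 0 s = (s.1, s.2 + 1) := rfl

theorem stp_one (s : (ℤ × ℤ) × Fin 4) : stp 1 s = (s.1 + vec (s.2 + 1), s.2) := rfl

theorem stp_two (s : (ℤ × ℤ) × Fin 4) :
    stp 2 s = (s.1 + vec s.2 + vec (s.2 + 1), s.2 + 3) := rfl

theorem phi_mem (C : Set (ℤ × ℤ)) {s : (ℤ × ℤ) × Fin 4} (hs : s ∈ bd C) : phi C s ∈ bd C := by
  obtain ⟨c, j⟩ := s
  obtain ⟨h1, h2⟩ := hs
  simp only at h1 h2
  unfold phi turn
  simp only
  by_cases ha : c + vec (j + 1) ∉ C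
  · rw [if_pos ha, stp_zero]
    exact ⟨h1, ha⟩
  · rw [if_neg ha]
    push Not at ha
    by_cases hb : c + vec j + vec (j + 1) ∉ C
    · rw [if_pos hb, stp_one]
      refine ⟨ha, ?_⟩
      show c + vec (j + 1) + vec j ∉ C
      rw [add_right_comm]
      exact hb
    · rw [if_neg hb, stp_two]
      push Not at hb
      refine ⟨hb, ?_⟩
      show c + vec j + vec (j + 1) + vec (j + 3) ∉ C
      rw [vec_add_three, add_neg_cancel_right]
      exact h2

open Classical in
/-- The inverse of the boundary walk. -/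
noncomputable def psi (C : Set (ℤ × ℤ)) (s : (ℤ × ℤ) × Fin 4) : (ℤ × ℤ) × Fin 4 :=
  if s.1 - vec (s.2 + 1) ∉ C then (s.1, s.2 + 3)
  else if s.1 - vec (s.2 + 1) + vec s.2 ∉ C then (s.1 - vec (s.2 + 1), s.2)
  else (s.1 - vec (s.2 + 1) + vec s.2, s.2 + 1)

theorem psi_phi (C : Set (ℤ × ℤ)) {s : (ℤ × ℤ) × Fin 4} (hs : s ∈ bd C) :
    psi C (phi C s) = s := by
  obtain ⟨c, j⟩ := s
  obtain ⟨h1, h2⟩ := hs
  simp only at h1 h2
  unfold phi turn
  simp only
  by_cases ha : c + vec (j + 1) ∉ C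
  · rw [if_pos ha, stp_zero]
    unfold psi
    simp only
    rw [if_pos (by rw [vec_add_two, sub_neg_eq_add]; exact h2), add_one_add_three]
  · rw [if_neg ha]
    push Not at ha
    by_cases hb : c + vec j + vec (j + 1) ∉ C
    · rw [if_pos hb, stp_one]
      unfold psi
      simp only
      rw [if_neg (by rw [add_sub_cancel_right]; exact not_not.mpr h1),
        if_pos (by rw [add_sub_cancel_right]; exact h2), add_sub_cancel_right]
    · rw [if_neg hb, stp_two]
      push Not at hb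
      have h3 : c + vec j + vec (j + 1) - vec (j + 3 + 1) = c + vec (j + 1) := by
        rw [add_three_add_one]; abel
      have h4 : c + vec j + vec (j + 1) - vec (j + 3 + 1) + vec (j + 3) = c := by
        rw [add_three_add_one, vec_add_three]; abel
      unfold psi
      simp only
      rw [if_neg (by rw [h3]; exact not_not.mpr ha), if_neg (by rw [h4]; exact not_not.mpr h1), h4,
        add_three_add_one]

/-- Twice the starting corner of a side. -/
def pos (s : (ℤ × ℤ) × Fin 4) : ℤ × ℤ := s.1 + s.1 + vec s.2 - vec (s.2 + 1)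

theorem pos_stp (t : Fin 3) (s : (ℤ × ℤ) × Fin 4) :
    pos (stp t s) = pos s + vec (s.2 + 1) + vec (s.2 + 1) := by
  obtain ⟨c, j⟩ := s
  unfold pos stp
  by_cases h0 : t = 0
  · simp only [h0, if_true]
    rw [vec_add_two]
    abel
  · by_cases h1 : t = 1
    · simp only [h1, one_ne_zero, if_false, if_true]
      abel
    · simp only [h0, h1, if_false]
      rw [add_three_add_one, vec_add_three]
      abel

/-- The walk from the side below the origin, with given turns. -/
def wk (t : ℕ → Fin 3) : ℕ → (ℤ × ℤ) × Fin 4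
  | 0 => ((0, 0), 3)
  | n + 1 => stp (t n) (wk t n)

theorem pos_wk (t : ℕ → Fin 3) (n : ℕ) :
    pos (wk t n) = pos (wk t 0) +
      ∑ i ∈ Finset.range n, (vec ((wk t i).2 + 1) + vec ((wk t i).2 + 1)) := by
  induction n with
  | zero => simp
  | succ n ih =>
    rw [Finset.sum_range_succ, ← add_assoc, ← ih]
    show pos (stp (t n) (wk t n)) = _
    rw [pos_stp]
    abel

/-- The cells outside the sides whose outward direction is `(1,0)` or `(0,1)`. -/
def failed (t : ℕ → Fin 3) (n : ℕ) : Finset (ℤ × ℤ) :=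
  ((Finset.range n).filter (fun i => (wk t i).2 = 0 ∨ (wk t i).2 = 1)).image
    (fun i => (wk t i).1 + vec (wk t i).2)

theorem four_mul_card_failed (t : ℕ → Fin 3) (n : ℕ) (hc : wk t n = wk t 0)
    (hinj : Set.InjOn (wk t) (Set.Iio n)) : n ≤ 4 * (failed t n).card := by
  -- the numbers of sides in the four directions
  have hsum : ∑ i ∈ Finset.range n, (vec ((wk t i).2 + 1) + vec ((wk t i).2 + 1)) = 0 := by
    have := pos_wk t n
    rw [hc] at this
    exact (left_eq_add.mp this)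
  have hcount : ∀ j : Fin 4, ((Finset.range n).filter (fun i => (wk t i).2 = j)).card =
      ∑ i ∈ Finset.range n, if (wk t i).2 = j then 1 else 0 := by
    intro j
    rw [Finset.card_filter]
  have hx : ((((Finset.range n).filter (fun i => (wk t i).2 = 1)).card : ℕ) : ℤ) =
      ((Finset.range n).filter (fun i => (wk t i).2 = 3)).card := by
    have h := congrArg Prod.fst hsum
    rw [Prod.fst_sum] at h
    have h2 : ∀ i, (vec ((wk t i).2 + 1) + vec ((wk t i).2 + 1)).1 =
        2 * (if (wk t i).2 = 3 then 1 else 0) - 2 * (if (wk t i).2 = 1 then (1 : ℤ) else 0) := by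
      intro i
      generalize (wk t i).2 = j
      fin_cases j <;> simp [vec]
    rw [Finset.sum_congr rfl (fun i _ => h2 i), Finset.sum_sub_distrib, ← Finset.mul_sum,
      ← Finset.mul_sum] at h
    rw [hcount, hcount]
    push_cast
    simp only [Prod.fst_zero] at h
    linarith only [h]
  have hy : ((((Finset.range n).filter (fun i => (wk t i).2 = 0)).card : ℕ) : ℤ) =
      ((Finset.range n).filter (fun i => (wk t i).2 = 2)).card := by
    have h := congrArg Prod.snd hsum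
    rw [Prod.snd_sum] at h
    have h2 : ∀ i, (vec ((wk t i).2 + 1) + vec ((wk t i).2 + 1)).2 =
        2 * (if (wk t i).2 = 0 then 1 else 0) - 2 * (if (wk t i).2 = 2 then (1 : ℤ) else 0) := by
      intro i
      generalize (wk t i).2 = j
      fin_cases j <;> simp [vec]
    rw [Finset.sum_congr rfl (fun i _ => h2 i), Finset.sum_sub_distrib, ← Finset.mul_sum,
      ← Finset.mul_sum] at h
    rw [hcount, hcount]
    push_cast
    simp only [Prod.snd_zero] at h
    linarith only [h]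
  have htot : ((Finset.range n).filter (fun i => (wk t i).2 = 0)).card +
      ((Finset.range n).filter (fun i => (wk t i).2 = 1)).card +
      ((Finset.range n).filter (fun i => (wk t i).2 = 2)).card +
      ((Finset.range n).filter (fun i => (wk t i).2 = 3)).card = n := by
    rw [hcount, hcount, hcount, hcount, ← Finset.sum_add_distrib, ← Finset.sum_add_distrib,
      ← Finset.sum_add_distrib]
    have h2 : ∀ i, ((((if (wk t i).2 = 0 then 1 else 0) + if (wk t i).2 = 1 then 1 else 0) +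
        if (wk t i).2 = 2 then 1 else 0) + if (wk t i).2 = 3 then 1 else 0) = 1 := by
      intro i
      generalize (wk t i).2 = j
      fin_cases j <;> simp
    rw [Finset.sum_congr rfl (fun i _ => h2 i)]
    simp
  have hle : ∀ j : Fin 4, (j = 0 ∨ j = 1) →
      ((Finset.range n).filter (fun i => (wk t i).2 = j)).card ≤ (failed t n).card := by
    intro j hj
    refine Finset.card_le_card_of_injOn (fun i => (wk t i).1 + vec (wk t i).2) ?_ ?_
    · intro i hi
      rw [Finset.mem_coe, Finset.mem_filter] at hi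
      unfold failed
      rw [Finset.mem_coe, Finset.mem_image]
      refine ⟨i, ?_, rfl⟩
      rw [Finset.mem_filter]
      exact ⟨hi.1, by rw [hi.2]; exact hj⟩
    · intro i hi k hk h
      rw [Finset.mem_coe, Finset.mem_filter] at hi hk
      simp only at h
      rw [hi.2, hk.2] at h
      have h3 : (wk t i).1 = (wk t k).1 := add_right_cancel h
      apply hinj (Finset.mem_range.mp hi.1) (Finset.mem_range.mp hk.1)
      exact Prod.ext h3 (by rw [hi.2, hk.2])
  have h0 := hle 0 (Or.inl rfl)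
  have h1 := hle 1 (Or.inr rfl)
  omega

/-! ### The reached set -/

theorem zero_mem_reach (O : Set (ℤ × ℤ)) : ((0, 0) : ℤ × ℤ) ∈ reach O :=
  Relation.ReflTransGen.refl

theorem reach_child {O : Set (ℤ × ℤ)} {u v : ℤ × ℤ} (hu : u ∈ reach O) (h : Child u v)
    (hv : v ∈ O) : v ∈ reach O :=
  Relation.ReflTransGen.tail hu ⟨h, hv⟩

theorem reach_nonneg {O : Set (ℤ × ℤ)} {w : ℤ × ℤ} (hw : w ∈ reach O) : 0 ≤ w.1 ∧ 0 ≤ w.2 := by
  induction hw with
  | refl => exact ⟨le_rfl, le_rfl⟩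
  | tail _ h ih =>
    rcases h.1 with h | h
    · rw [h]
      simp only [Prod.fst_add, Prod.snd_add]
      omega
    · rw [h]
      simp only [Prod.fst_add, Prod.snd_add]
      omega

theorem reach_level {O : Set (ℤ × ℤ)} {N : ℕ} (h : ∀ w ∈ reach O, w.1 + w.2 ≠ N) {w : ℤ × ℤ}
    (hw : w ∈ reach O) : w.1 + w.2 < N := by
  induction hw with
  | refl =>
    have := h _ (zero_mem_reach O)
    simp only [add_zero] at this
    simp only [add_zero]
    omega
  | tail hu h1 ih =>
    rename_i u v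
    have h2 := h _ (Relation.ReflTransGen.tail hu h1)
    have h3 : v.1 + v.2 = u.1 + u.2 + 1 := by
      rcases h1.1 with h4 | h4
      · rw [h4]
        simp only [Prod.fst_add, Prod.snd_add]
        omega
      · rw [h4]
        simp only [Prod.fst_add, Prod.snd_add]
        omega
    omega

/-- `w` is an attempted and failed site. -/
def Fails (O : Set (ℤ × ℤ)) (w : ℤ × ℤ) : Prop := w ∉ O ∧ ∃ u ∈ reach O, Child u w

theorem exists_walk (O : Set (ℤ × ℤ)) (N : ℕ) (h : ∀ w ∈ reach O, w.1 + w.2 ≠ N) :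
    ∃ n, 1 ≤ n ∧ n ≤ N * N * 4 ∧ ∃ t : ℕ → Fin 3, (∀ i, n ≤ i → t i = 0) ∧
      wk t n = wk t 0 ∧ Set.InjOn (wk t) (Set.Iio n) ∧
      ∀ w ∈ failed t n, Fails O w ∧ 0 ≤ w.1 ∧ 0 ≤ w.2 ∧ 1 ≤ w.1 + w.2 ∧ w.1 + w.2 ≤ N := by
  classical
  set C := reach O with hC
  have hbox : ∀ c ∈ C, c ∈ (Finset.Ico (0 : ℤ) N ×ˢ Finset.Ico (0 : ℤ) N) := by
    intro c hc
    have h1 := reach_nonneg hc
    have h2 := reach_level h hc
    simp only [Finset.mem_product, Finset.mem_Ico]
    omega
  have hfin : (bd C).Finite := by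
    apply Set.Finite.subset
      (Finset.finite_toSet ((Finset.Ico (0 : ℤ) N ×ˢ Finset.Ico (0 : ℤ) N) ×ˢ
        (Finset.univ : Finset (Fin 4))))
    intro s hs
    rw [Finset.mem_coe, Finset.mem_product]
    exact ⟨hbox _ hs.1, Finset.mem_univ _⟩
  have he0 : (((0, 0), 3) : (ℤ × ℤ) × Fin 4) ∈ bd C := by
    refine ⟨zero_mem_reach O, ?_⟩
    intro h1
    have h2 := (reach_nonneg h1).2
    revert h2
    simp only [vec, Fin.isValue, Fin.reduceEq, ↓reduceIte, Int.reduceNeg, Prod.mk_add_mk, add_zero, zero_add, Int.neg_nonneg, Int.reduceLE, imp_self]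
  have : Finite (bd C) := hfin.to_subtype
  let f : bd C → bd C := fun s => ⟨phi C s.1, phi_mem C s.2⟩
  have hf : Function.Injective f := by
    intro a b hab
    have h1 : phi C a.1 = phi C b.1 := congrArg Subtype.val hab
    apply Subtype.ext
    rw [← psi_phi C a.2, h1, psi_phi C b.2]
  let e : bd C := ⟨((0, 0), 3), he0⟩
  have hper := hf.mem_periodicPts e
  set n := Function.minimalPeriod f e with hn
  have hnpos : 0 < n := Function.minimalPeriod_pos_of_mem_periodicPts hper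
  let t : ℕ → Fin 3 := fun i => if i < n then turn C (f^[i] e).1 else 0
  have hwk : ∀ i, i ≤ n → wk t i = (f^[i] e).1 := by
    intro i
    induction i with
    | zero => intro _; rfl
    | succ i ih =>
      intro hi
      have h1 : i < n := by omega
      show stp (t i) (wk t i) = _
      rw [ih h1.le, Function.iterate_succ_apply']
      show stp (if i < n then turn C (f^[i] e).1 else 0) (f^[i] e).1 = phi C (f^[i] e).1
      rw [if_pos h1]
      rfl
  have hinj : Set.InjOn (wk t) (Set.Iio n) := by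
    intro i hi k hk hik
    rw [hwk i (le_of_lt hi), hwk k (le_of_lt hk)] at hik
    exact Function.iterate_injOn_Iio_minimalPeriod hi hk (Subtype.ext hik)
  have hmem : ∀ i, i < n → wk t i ∈ bd C := by
    intro i hi
    rw [hwk i hi.le]
    exact (f^[i] e).2
  refine ⟨n, hnpos, ?_, t, ?_, ?_, hinj, ?_⟩
  · have h1 : (Finset.range n).card ≤ ((Finset.Ico (0 : ℤ) N ×ˢ Finset.Ico (0 : ℤ) N) ×ˢ
        (Finset.univ : Finset (Fin 4))).card := by
      refine Finset.card_le_card_of_injOn (wk t) ?_ ?_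
      · intro i hi
        rw [Finset.mem_coe, Finset.mem_range] at hi
        rw [Finset.mem_coe, Finset.mem_product]
        exact ⟨hbox _ (hmem i hi).1, Finset.mem_univ _⟩
      · intro i hi k hk
        rw [Finset.mem_coe, Finset.mem_range] at hi hk
        exact hinj hi hk
    rw [Finset.card_range, Finset.card_product, Finset.card_product, Int.card_Ico,
      Finset.card_univ, Fintype.card_fin] at h1
    simpa only [ge_iff_le, sub_zero, Int.toNat_natCast] using h1
  · intro i hi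
    show (if i < n then turn C (f^[i] e).1 else 0) = 0
    rw [if_neg (by omega)]
  · rw [hwk n le_rfl, hwk 0 (Nat.zero_le n), hn, Function.iterate_minimalPeriod]
    rfl
  · intro w hw
    unfold failed at hw
    rw [Finset.mem_image] at hw
    obtain ⟨i, hi, hiw⟩ := hw
    rw [Finset.mem_filter, Finset.mem_range] at hi
    obtain ⟨hi1, hi2⟩ := hi
    have h1 := hmem i hi1
    have hchild : Child (wk t i).1 w := by
      rcases hi2 with h2 | h2
      · left
        rw [← hiw, h2]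
        rfl
      · right
        rw [← hiw, h2]
        rfl
    have hwC : w ∉ C := by
      rw [← hiw]
      exact h1.2
    have h3 := reach_nonneg h1.1
    have h4 := reach_level h h1.1
    refine ⟨⟨fun hwO => hwC (reach_child h1.1 hchild hwO), _, h1.1, hchild⟩, ?_⟩
    rcases hchild with h5 | h5
    · rw [h5]
      simp only [Prod.fst_add, Prod.snd_add]
      omega
    · rw [h5]
      simp only [Prod.fst_add, Prod.snd_add]
      omega

/-! ### The union bound -/

/-- Extension of a finite turn sequence. -/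
def ext {n : ℕ} (τ : Fin n → Fin 3) : ℕ → Fin 3 := fun i => if h : i < n then τ ⟨i, h⟩ else 0

theorem geom_bound (M : ℕ) : ∑ n ∈ Finset.Icc 1 M, (1 / 3 : ℝ) ^ n ≤ 1 / 2 := by
  have h : ∀ M : ℕ, ∑ n ∈ Finset.Icc 1 M, (1 / 3 : ℝ) ^ n = 1 / 2 - (1 / 2) * (1 / 3) ^ M := by
    intro M
    induction M with
    | zero => simp
    | succ M ih =>
      rw [Finset.sum_Icc_succ_top (by omega), ih, pow_succ]
      ring
  rw [h]
  have : (0 : ℝ) ≤ (1 / 3) ^ M := by positivity
  linarith only [this]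

/-- **Oriented Peierls argument**, for a finitely subadditive monotone set function `m`. -/
theorem oriented_peierls_set {Ω : Type*} (m : Set Ω → ℝ) (hm0 : m ∅ = 0)
    (hmono : ∀ A B : Set Ω, A ⊆ B → m A ≤ m B) (hsub : ∀ A B : Set Ω, m (A ∪ B) ≤ m A + m B)
    (B : ℝ) (hB : 0 ≤ B) (O : Ω → Set (ℤ × ℤ)) (N : ℕ)
    (hS : ∀ S : Finset (ℤ × ℤ),
      (∀ w ∈ S, 0 ≤ w.1 ∧ 0 ≤ w.2 ∧ 1 ≤ w.1 + w.2 ∧ w.1 + w.2 ≤ N) →
      m {ω | ∀ w ∈ S, Fails (O ω) w} ≤ (1 / 6561) ^ S.card * B) :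
    m {ω | ∀ w ∈ reach (O ω), w.1 + w.2 ≠ N} ≤ 1 / 2 * B := by
  classical
  have hsubU : ∀ {ι : Type} (s : Finset ι) (A : ι → Set Ω), m (⋃ i ∈ s, A i) ≤ ∑ i ∈ s, m (A i) := by
    intro ι s A
    induction s using Finset.induction_on with
    | empty => simp only [Finset.notMem_empty, Set.iUnion_of_empty, Set.iUnion_empty, hm0, Finset.sum_empty, Std.le_refl]
    | insert a s ha ih =>
      rw [Finset.set_biUnion_insert, Finset.sum_insert ha]
      exact (hsub _ _).trans (by linarith)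
  -- admissible turn sequences
  let adm : (n : ℕ) → (Fin n → Fin 3) → Prop := fun n τ =>
    wk (ext τ) n = wk (ext τ) 0 ∧ Set.InjOn (wk (ext τ)) (Set.Iio n) ∧
      ∀ w ∈ failed (ext τ) n, 0 ≤ w.1 ∧ 0 ≤ w.2 ∧ 1 ≤ w.1 + w.2 ∧ w.1 + w.2 ≤ N
  let Ev : (n : ℕ) → (Fin n → Fin 3) → Set Ω := fun n τ =>
    if adm n τ then {ω | ∀ w ∈ failed (ext τ) n, Fails (O ω) w} else ∅
  have hcov : {ω | ∀ w ∈ reach (O ω), w.1 + w.2 ≠ N} ⊆
      ⋃ n ∈ Finset.Icc 1 (N * N * 4), ⋃ τ ∈ (Finset.univ : Finset (Fin n → Fin 3)), Ev n τ := by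
    intro ω hω
    obtain ⟨n, h1, h2, t, h3, h4, h5, h6⟩ := exists_walk (O ω) N hω
    have hext : ext (fun i : Fin n => t i) = t := by
      funext i
      unfold ext
      by_cases hi : i < n
      · rw [dif_pos hi]
      · rw [dif_neg hi, h3 i (by omega)]
    simp only [Set.mem_iUnion]
    refine ⟨n, Finset.mem_Icc.mpr ⟨h1, h2⟩, fun i : Fin n => t i, Finset.mem_univ _, ?_⟩
    have hadm : adm n (fun i : Fin n => t i) := by
      show wk (ext _) n = wk (ext _) 0 ∧ _ ∧ _
      rw [hext]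
      exact ⟨h4, h5, fun w hw => (h6 w hw).2⟩
    show ω ∈ (if adm n (fun i : Fin n => t i) then _ else ∅)
    rw [if_pos hadm, hext]
    exact fun w hw => (h6 w hw).1
  have hEv : ∀ n : ℕ, ∀ τ : Fin n → Fin 3, m (Ev n τ) ≤ (1 / 9) ^ n * B := by
    intro n τ
    show m (if adm n τ then _ else ∅) ≤ _
    by_cases ha : adm n τ
    · rw [if_pos ha]
      refine (hS _ ha.2.2).trans ?_
      apply mul_le_mul_of_nonneg_right _ hB
      have h1 := four_mul_card_failed (ext τ) n ha.1 ha.2.1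
      calc ((1 : ℝ) / 6561) ^ (failed (ext τ) n).card
          = (1 / 9) ^ (4 * (failed (ext τ) n).card) := by
            rw [pow_mul]
            norm_num
        _ ≤ (1 / 9) ^ n := pow_le_pow_of_le_one (by norm_num) (by norm_num) h1
    · rw [if_neg ha, hm0]
      (clear * - hB; positivity)
  calc m {ω | ∀ w ∈ reach (O ω), w.1 + w.2 ≠ N}
      ≤ m (⋃ n ∈ Finset.Icc 1 (N * N * 4),
          ⋃ τ ∈ (Finset.univ : Finset (Fin n → Fin 3)), Ev n τ) := hmono _ _ hcov
    _ ≤ ∑ n ∈ Finset.Icc 1 (N * N * 4), m (⋃ τ ∈ (Finset.univ : Finset (Fin n → Fin 3)), Ev n τ) :=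
        hsubU _ _
    _ ≤ ∑ n ∈ Finset.Icc 1 (N * N * 4), ∑ τ ∈ (Finset.univ : Finset (Fin n → Fin 3)), m (Ev n τ) :=
        Finset.sum_le_sum (fun n _ => hsubU _ _)
    _ ≤ ∑ n ∈ Finset.Icc 1 (N * N * 4), (1 / 3) ^ n * B := by
        apply Finset.sum_le_sum
        intro n _
        refine (Finset.sum_le_sum (fun τ _ => hEv n τ)).trans ?_
        rw [Finset.sum_const, Finset.card_univ, Fintype.card_fun, Fintype.card_fin,
          Fintype.card_fin, nsmul_eq_mul, ← mul_assoc]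
        apply mul_le_mul_of_nonneg_right _ hB
        push_cast
        rw [← mul_pow]
        norm_num
    _ ≤ 1 / 2 * B := by
        rw [← Finset.sum_mul]
        exact mul_le_mul_of_nonneg_right (geom_bound _) hB

/-! ### The version on `ℕ × ℕ` -/

/-- The child relation on `ℕ × ℕ`. -/
def ChildN (u v : ℕ × ℕ) : Prop := v = (u.1 + 1, u.2) ∨ v = (u.1, u.2 + 1)

/-- The sites reached from the origin through sites of `O`. -/
def reachN (O : Set (ℕ × ℕ)) : Set (ℕ × ℕ) :=
  {w | Relation.ReflTransGen (fun u v => ChildN u v ∧ v ∈ O) (0, 0) w}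

/-- `w` is an attempted and failed site. -/
def FailsN (O : Set (ℕ × ℕ)) (w : ℕ × ℕ) : Prop := w ∉ O ∧ ∃ u ∈ reachN O, ChildN u w

/-- The embedding of `ℕ × ℕ`. -/
def emb (w : ℕ × ℕ) : ℤ × ℤ := ((w.1 : ℤ), (w.2 : ℤ))

theorem reach_emb (O : Set (ℕ × ℕ)) : reach (emb '' O) = emb '' reachN O := by
  apply Set.Subset.antisymm
  · intro z hz
    induction hz with
    | refl => exact ⟨(0, 0), Relation.ReflTransGen.refl, rfl⟩
    | tail _ h ih =>
      rename_i u v
      obtain ⟨a, ha, rfl⟩ := ih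
      obtain ⟨hc, b, hb, rfl⟩ := h
      refine ⟨b, Relation.ReflTransGen.tail ha ⟨?_, hb⟩, rfl⟩
      rcases hc with h | h
      · left
        have h1 := congrArg Prod.fst h
        have h2 := congrArg Prod.snd h
        simp only [emb, Prod.fst_add, Prod.snd_add] at h1 h2
        exact Prod.ext (by show b.1 = a.1 + 1; omega) (by show b.2 = a.2; omega)
      · right
        have h1 := congrArg Prod.fst h
        have h2 := congrArg Prod.snd h
        simp only [emb, Prod.fst_add, Prod.snd_add] at h1 h2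
        exact Prod.ext (by show b.1 = a.1; omega) (by show b.2 = a.2 + 1; omega)
  · rintro _ ⟨w, hw, rfl⟩
    induction hw with
    | refl => exact Relation.ReflTransGen.refl
    | @tail u v _ h ih =>
      refine Relation.ReflTransGen.tail ih ⟨?_, v, h.2, rfl⟩
      rcases h.1 with h | h
      · left
        rw [h]
        simp [emb]
      · right
        rw [h]
        simp [emb]

theorem fails_emb {O : Set (ℕ × ℕ)} {w : ℕ × ℕ} (h : Fails (emb '' O) (emb w)) : FailsN O w := by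
  obtain ⟨h1, u, hu, hc⟩ := h
  refine ⟨fun hw => h1 ⟨w, hw, rfl⟩, ?_⟩
  rw [reach_emb] at hu
  obtain ⟨a, ha, rfl⟩ := hu
  refine ⟨a, ha, ?_⟩
  rcases hc with h | h
  · left
    have h1 := congrArg Prod.fst h
    have h2 := congrArg Prod.snd h
    simp only [emb, Prod.fst_add, Prod.snd_add] at h1 h2
    exact Prod.ext (by show w.1 = a.1 + 1; omega) (by show w.2 = a.2; omega)
  · right
    have h1 := congrArg Prod.fst h
    have h2 := congrArg Prod.snd h
    simp only [emb, Prod.fst_add, Prod.snd_add] at h1 h2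
    exact Prod.ext (by show w.1 = a.1; omega) (by show w.2 = a.2 + 1; omega)

/-- **Oriented Peierls argument** on `ℕ × ℕ`, for a finitely subadditive monotone set function
`m`. -/
theorem oriented_peierls_set_nat {Ω : Type*} (m : Set Ω → ℝ) (hm0 : m ∅ = 0)
    (hmono : ∀ A B : Set Ω, A ⊆ B → m A ≤ m B) (hsub : ∀ A B : Set Ω, m (A ∪ B) ≤ m A + m B)
    (B : ℝ) (hB : 0 ≤ B) (O : Ω → Set (ℕ × ℕ)) (N : ℕ)
    (hS : ∀ S : Finset (ℕ × ℕ), (∀ w ∈ S, 1 ≤ w.1 + w.2 ∧ w.1 + w.2 ≤ N) →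
      m {ω | ∀ w ∈ S, FailsN (O ω) w} ≤ (1 / 6561) ^ S.card * B) :
    m {ω | ∀ w ∈ reachN (O ω), w.1 + w.2 ≠ N} ≤ 1 / 2 * B := by
  classical
  have key := oriented_peierls_set m hm0 hmono hsub B hB (fun ω => emb '' O ω) N ?_
  · refine le_trans (hmono _ _ ?_) key
    intro ω hω z hz
    rw [reach_emb] at hz
    obtain ⟨w, hw, rfl⟩ := hz
    have := hω w hw
    simp only [emb]
    omega
  · intro S h
    let S' : Finset (ℕ × ℕ) := S.image (fun z => (z.1.toNat, z.2.toNat))
    have hemb : ∀ z ∈ S, emb (z.1.toNat, z.2.toNat) = z := by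
      intro z hz
      have h1 := h z hz
      simp only [emb]
      exact Prod.ext (by show ((z.1.toNat : ℕ) : ℤ) = z.1; omega)
        (by show ((z.2.toNat : ℕ) : ℤ) = z.2; omega)
    have hcard : S'.card = S.card := by
      apply Finset.card_image_of_injOn
      intro a ha b hb hab
      rw [← hemb a ha, ← hemb b hb]
      exact congrArg emb hab
    rw [← hcard]
    refine le_trans (hmono _ _ ?_) (hS S' ?_)
    · intro ω hω w hw
      rw [Finset.mem_image] at hw
      obtain ⟨z, hz, rfl⟩ := hw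
      apply fails_emb
      rw [hemb z hz]
      exact hω z hz
    · intro w hw
      rw [Finset.mem_image] at hw
      obtain ⟨z, hz, rfl⟩ := hw
      have h1 := h z hz
      show 1 ≤ z.1.toNat + z.2.toNat ∧ z.1.toNat + z.2.toNat ≤ N
      omega

end Vale.Agent.P151.Red.OP
end

section

/-!
Abstract finite-volume lemmas for the Grimmett-Marstrand lemma: indicator expectations, closing a
small random set of edges, the square root trick.
-/

open Finset

set_option linter.unusedSectionVars false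

namespace Vale.Agent.P151.GM

section
variable {ι : Type*} [DecidableEq ι]

open Classical in
/-- indicator function of an event -/
noncomputable def ind (Q : Finset ι → Prop) (S : Finset ι) : ℝ := if Q S then 1 else 0

lemma ind_pos {Q : Finset ι → Prop} {S : Finset ι} (h : Q S) : ind Q S = 1 := if_pos h

lemma ind_neg {Q : Finset ι → Prop} {S : Finset ι} (h : ¬ Q S) : ind Q S = 0 := if_neg h

lemma ind_nonneg (Q : Finset ι → Prop) (S : Finset ι) : 0 ≤ ind Q S := by
  unfold ind; split_ifs <;> norm_num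

lemma ind_le {Q Q' : Finset ι → Prop} {S S' : Finset ι} (h : Q S → Q' S') :
    ind Q S ≤ ind Q' S' := by
  by_cases hQ : Q S
  · rw [ind_pos hQ, ind_pos (h hQ)]
  · rw [ind_neg hQ]; exact ind_nonneg _ _

lemma ind_congr {Q Q' : Finset ι → Prop} {S S' : Finset ι} (h : Q S ↔ Q' S') :
    ind Q S = ind Q' S' := le_antisymm (ind_le h.1) (ind_le h.2)

lemma Ex_ind_nonneg {p : ℝ} (h0 : 0 ≤ p) (h1 : p ≤ 1) (Λ : Finset ι) (Q : Finset ι → Prop) :
    0 ≤ Ex p Λ (ind Q) := Ex_nonneg h0 h1 fun S _ => ind_nonneg Q S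

/-- Probability that a fixed set is closed. -/
lemma Ex_disj (p : ℝ) (Λ K : Finset ι) :
    Ex p Λ (ind (fun S => Disjoint S K)) = (1 - p) ^ (Λ ∩ K).card := by
  induction Λ using Finset.induction_on with
  | empty =>
    have h : ind (fun S : Finset ι => Disjoint S K) ∅ = 1 := ind_pos (Finset.disjoint_empty_left K)
    rw [Ex_empty, h]; simp
  | insert e Λ he ih =>
    rw [Ex_insert p he, ih]
    by_cases heK : e ∈ K
    · have h1 : ∀ S ⊆ Λ, ind (fun S => Disjoint S K) (insert e S) = 0 := by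
        intro S _
        apply ind_neg
        intro h
        exact Finset.disjoint_left.1 h (Finset.mem_insert_self e S) heK
      rw [Ex_congr p h1, Ex_const, Finset.insert_inter_of_mem heK, Finset.card_insert_of_notMem
        (fun h => he (Finset.mem_inter.1 h).1), pow_succ]
      ring
    · have h1 : ∀ S ⊆ Λ, ind (fun S => Disjoint S K) (insert e S) =
          ind (fun S => Disjoint S K) S := by
        intro S _
        apply ind_congr
        rw [Finset.disjoint_insert_left]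
        exact ⟨fun h => h.2, fun h => ⟨heK, h⟩⟩
      rw [Ex_congr p h1, ih, Finset.insert_inter_of_notMem heK]
      ring

lemma pow_le_Ex_disj {p : ℝ} (h0 : 0 ≤ p) (h1 : p ≤ 1) (Λ K : Finset ι) {M : ℕ}
    (hK : K.card ≤ M) : (1 - p) ^ M ≤ Ex p Λ (ind (fun S => Disjoint S K)) := by
  rw [Ex_disj]
  apply pow_le_pow_of_le_one (by linarith only [h1]) (by linarith only [h0])
  exact (Finset.card_le_card Finset.inter_subset_right).trans hK

/-- Closing a small set of fresh edges depending on the past. -/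
lemma kill {p : ℝ} (h0 : 0 ≤ p) (h1 : p ≤ 1) {R D : Finset ι} (hRD : Disjoint R D) (M : ℕ)
    (A B : Finset ι → Prop) (K : Finset ι → Finset ι)
    (hK : ∀ S ⊆ R, A S → (K S).card ≤ M)
    (hB : ∀ S ⊆ R, ∀ T ⊆ D, A S → Disjoint T (K S) → B (S ∪ T)) :
    (1 - p) ^ M * Ex p R (ind A) ≤ Ex p (R ∪ D) (ind B) := by
  rw [Ex_union p hRD, ← Ex_const_mul]
  apply Ex_mono h0 h1
  intro S hS
  by_cases hA : A S
  · rw [ind_pos hA, mul_one]
    refine (pow_le_Ex_disj h0 h1 D (K S) (hK S hS hA)).trans (Ex_mono h0 h1 ?_)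
    intro T hT
    exact ind_le (Q := fun S => Disjoint S (K _)) (Q' := B) (S := T) (S' := S ∪ T)
      (fun h => hB S hS T hT hA h)
  · rw [ind_neg hA, mul_zero]
    exact Ex_nonneg h0 h1 fun T _ => ind_nonneg _ _

lemma harris_anti {p : ℝ} (h0 : 0 ≤ p) (h1 : p ≤ 1) (Λ : Finset ι) {F G : Finset ι → ℝ}
    (hF : Antitone F) (hG : Antitone G) :
    Ex p Λ F * Ex p Λ G ≤ Ex p Λ (fun S => F S * G S) := by
  have h := harris h0 h1 Λ (F := fun S => (-1) * F S) (G := fun S => (-1) * G S)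
    (fun S T hST => by have := hF hST; simp only; linarith)
    (fun S T hST => by have := hG hST; simp only; linarith)
  rw [Ex_const_mul, Ex_const_mul] at h
  have e : (fun S => (-1) * F S * ((-1) * G S)) = (fun S => F S * G S) := by
    funext S; ring
  rw [e] at h
  linarith

lemma harris_prod {κ : Type*} {p : ℝ} (h0 : 0 ≤ p) (h1 : p ≤ 1) (Λ : Finset ι)
    (J : Finset κ) (F : κ → Finset ι → ℝ) (hn : ∀ j S, 0 ≤ F j S) (ha : ∀ j, Antitone (F j)) :
    ∏ j ∈ J, Ex p Λ (F j) ≤ Ex p Λ (fun S => ∏ j ∈ J, F j S) := by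
  classical
  induction J using Finset.induction_on with
  | empty => simp
  | insert j J hj ih =>
    rw [Finset.prod_insert hj]
    have hanti : Antitone (fun S => ∏ j ∈ J, F j S) := by
      intro S T hST
      exact Finset.prod_le_prod (fun j _ => hn j T) (fun j _ => ha j hST)
    calc Ex p Λ (F j) * ∏ j ∈ J, Ex p Λ (F j)
        ≤ Ex p Λ (F j) * Ex p Λ (fun S => ∏ j ∈ J, F j S) :=
          mul_le_mul_of_nonneg_left ih (Ex_nonneg h0 h1 fun S _ => hn j S)
      _ ≤ Ex p Λ (fun S => F j S * ∏ j ∈ J, F j S) := harris_anti h0 h1 Λ (ha j) hanti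
      _ = _ := by congr 1; funext S; rw [Finset.prod_insert hj]

lemma continuous_Ex (Λ : Finset ι) (F : Finset ι → ℝ) : Continuous (fun p => Ex p Λ F) :=
  continuous_iff_continuousAt.2 fun p => (hasDerivAt_Ex p Λ F).continuousAt

end

end Vale.Agent.P151.GM
end

section

/-!
# Product bound for adaptive explorations, and the oriented Peierls argument for them
-/

open Finset

set_option linter.unusedSectionVars false

namespace Vale.Agent.P151.Red.AD

open Vale.Agent.P151.GM Vale.Agent.P151.Red.OP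

section
variable {ι : Type*} [DecidableEq ι]

/-- The set revealed before step `n`. -/
def Rg (D : ℕ → Finset ι) (n : ℕ) : Finset ι := (range n).biUnion D

theorem Rg_succ (D : ℕ → Finset ι) (n : ℕ) : Rg D (n + 1) = Rg D n ∪ D n := by
  unfold Rg
  rw [range_add_one, biUnion_insert, union_comm]

theorem Rg_mono (D : ℕ → Finset ι) {m n : ℕ} (h : m ≤ n) : Rg D m ⊆ Rg D n :=
  biUnion_subset_biUnion_of_subset_left D (range_subset_range.2 h)

theorem disjoint_Rg {D : ℕ → Finset ι} (hD : ∀ i j, i < j → Disjoint (D i) (D j)) (n : ℕ) :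
    Disjoint (Rg D n) (D n) := by
  unfold Rg
  rw [disjoint_biUnion_left]
  intro i hi
  exact hD i n (mem_range.1 hi)

/-- Restriction of the window for an event which only depends on a smaller window. -/
theorem Ex_ind_Rg (p : ℝ) (D : ℕ → Finset ι) {m n : ℕ} (h : m ≤ n) (Q : Finset ι → Prop)
    (hQ : ∀ T, Q T ↔ Q (T ∩ Rg D m)) : Ex p (Rg D n) (ind Q) = Ex p (Rg D m) (ind Q) := by
  apply Ex_restrict p (Rg_mono D h)
  intro S _
  exact ind_congr (hQ S)

/-- **Product bound.** -/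
theorem product_bound {p : ℝ} (h0 : 0 ≤ p) (h1 : p ≤ 1) (D : ℕ → Finset ι)
    (hD : ∀ i j, i < j → Disjoint (D i) (D j)) (m : ℕ) (Start : Finset ι → Prop)
    (hSt : ∀ T, Start T ↔ Start (T ∩ Rg D m)) (Fail : ℕ → Finset ι → Prop)
    (hF : ∀ t T, Fail t T ↔ Fail t (T ∩ Rg D (t + 1))) {γ : ℝ} (hγ : 0 ≤ γ)
    (hc : ∀ t, m ≤ t → ∀ A ⊆ Rg D t, Start A →
      Ex p (D t) (fun B => ind (Fail t) (A ∪ B)) ≤ γ) (n : ℕ) :
    m ≤ n → ∀ S : Finset ℕ, (∀ t ∈ S, m ≤ t ∧ t < n) →
      Ex p (Rg D n) (ind (fun T => Start T ∧ ∀ t ∈ S, Fail t T)) ≤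
        γ ^ S.card * Ex p (Rg D m) (ind Start) := by
  induction n with
  | zero =>
    intro hn S hS
    have hS0 : S = ∅ := by
      rw [eq_empty_iff_forall_notMem]
      intro t ht
      exact absurd (hS t ht).2 (by omega)
    have hm0 : m = 0 := by omega
    subst hS0 hm0
    rw [card_empty, pow_zero, one_mul]
    exact Ex_mono h0 h1 fun T _ => ind_le (fun h => h.1)
  | succ n ih =>
    intro hn S hS
    by_cases hmn : m = n + 1
    · have hS0 : S = ∅ := by
        rw [eq_empty_iff_forall_notMem]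
        intro t ht
        have := hS t ht
        omega
      subst hS0
      rw [card_empty, pow_zero, one_mul, ← hmn]
      exact Ex_mono h0 h1 fun T _ => ind_le (fun h => h.1)
    have hmn' : m ≤ n := by omega
    have hd := disjoint_Rg hD n
    -- the event up to time `n`
    have hrest : ∀ S' : Finset ℕ, (∀ t ∈ S', m ≤ t ∧ t < n) → ∀ A ⊆ Rg D n, ∀ B ⊆ D n,
        ((Start (A ∪ B) ∧ ∀ t ∈ S', Fail t (A ∪ B)) ↔ (Start A ∧ ∀ t ∈ S', Fail t A)) := by
      intro S' hS' A hA B hB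
      have e1 : ∀ k, k ≤ n → (A ∪ B) ∩ Rg D k = A ∩ Rg D k := by
        intro k hk
        have hdk : Disjoint (Rg D k) B :=
          disjoint_of_subset_left (Rg_mono D hk) (disjoint_of_subset_right hB hd)
        rw [union_inter_distrib_right, disjoint_iff_inter_eq_empty.1 hdk.symm, union_empty]
      refine and_congr ?_ (forall₂_congr fun t ht => ?_)
      · rw [hSt (A ∪ B), e1 m hmn', ← hSt A]
      · have h2 := hS' t ht
        rw [hF t (A ∪ B), e1 (t + 1) (by omega), ← hF t A]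
    by_cases hnS : n ∈ S
    · -- the last site belongs to `S`
      have hS' : ∀ t ∈ S.erase n, m ≤ t ∧ t < n := by
        intro t ht
        have h2 := hS t (mem_of_mem_erase ht)
        have h3 := ne_of_mem_erase ht
        omega
      have hcard : S.card = (S.erase n).card + 1 := (card_erase_add_one hnS).symm
      rw [Rg_succ, Ex_union p hd, hcard, pow_succ]
      calc Ex p (Rg D n) (fun A => Ex p (D n)
            (fun B => ind (fun T => Start T ∧ ∀ t ∈ S, Fail t T) (A ∪ B)))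
          ≤ Ex p (Rg D n) (fun A => γ * ind (fun T => Start T ∧ ∀ t ∈ S.erase n, Fail t T) A) := by
            apply Ex_mono h0 h1
            intro A hA
            by_cases hev : Start A ∧ ∀ t ∈ S.erase n, Fail t A
            · rw [ind_pos (Q := fun T => Start T ∧ ∀ t ∈ S.erase n, Fail t T) hev, mul_one]
              refine le_trans (Ex_mono h0 h1 (G := fun B => ind (Fail n) (A ∪ B)) ?_)
                (hc n hmn' A hA hev.1)
              intro B _
              exact ind_le (fun h => h.2 n hnS)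
            · rw [ind_neg (Q := fun T => Start T ∧ ∀ t ∈ S.erase n, Fail t T) hev, mul_zero]
              have hz : Ex p (D n) (fun B => ind (fun T => Start T ∧ ∀ t ∈ S, Fail t T) (A ∪ B)) =
                  Ex p (D n) (fun _ => 0) := by
                apply Ex_congr
                intro B hB
                apply ind_neg
                intro h
                apply hev
                rw [← hrest (S.erase n) hS' A hA B hB]
                exact ⟨h.1, fun t ht => h.2 t (mem_of_mem_erase ht)⟩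
              rw [hz, Ex_const]
        _ = γ * Ex p (Rg D n) (ind (fun T => Start T ∧ ∀ t ∈ S.erase n, Fail t T)) := by
            rw [Ex_const_mul]
        _ ≤ γ * (γ ^ (S.erase n).card * Ex p (Rg D m) (ind Start)) :=
            mul_le_mul_of_nonneg_left (ih hmn' _ hS') hγ
        _ = γ ^ (S.erase n).card * γ * Ex p (Rg D m) (ind Start) := by ring
    · have hS' : ∀ t ∈ S, m ≤ t ∧ t < n := by
        intro t ht
        have h2 := hS t ht
        have h3 : t ≠ n := fun h => hnS (h ▸ ht)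
        omega
      refine le_trans (le_of_eq ?_) (ih hmn' S hS')
      apply Ex_restrict p (Rg_mono D (Nat.le_succ n))
      intro T hT
      apply ind_congr
      have hT' : T = T ∩ Rg D n ∪ T ∩ D n := by
        rw [← inter_union_distrib_left, ← Rg_succ]
        exact (inter_eq_left.2 hT).symm
      have h2 := hrest S hS' (T ∩ Rg D n) inter_subset_right (T ∩ D n) inter_subset_right
      rw [← hT'] at h2
      exact h2

end

section sites
variable {ι : Type*} [DecidableEq ι]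

/-- The number of a site in the exploration order. -/
def num (s : ℕ × ℕ) : ℕ := Nat.pair s.1 s.2

theorem num_unpair (n : ℕ) : num (Nat.unpair n) = n := Nat.pair_unpair n

theorem unpair_num (s : ℕ × ℕ) : Nat.unpair (num s) = s := Nat.unpair_pair s.1 s.2

theorem num_injective : Function.Injective num := by
  intro a b h
  rw [← unpair_num a, h, unpair_num]

theorem num_child {u s : ℕ × ℕ} (h : ChildN u s) : num u < num s := by
  rcases h with h | h
  · rw [h]
    exact Nat.pair_lt_pair_left _ (Nat.lt_succ_self _)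
  · rw [h]
    exact Nat.pair_lt_pair_right _ (Nat.lt_succ_self _)

/-- The edges revealed before the exploration of number `n`. -/
def Rs (E : ℕ × ℕ → Finset ι) (n : ℕ) : Finset ι := Rg (fun j => E (Nat.unpair j)) n

/-- Reaching a site only depends on the sites explored before. -/
theorem reachN_congr {O O' : Set (ℕ × ℕ)} {n : ℕ}
    (h : ∀ s, num s < n → (s ∈ O ↔ s ∈ O')) {u : ℕ × ℕ} (hu : u ∈ reachN O) (hn : num u < n) :
    u ∈ reachN O' := by
  induction hu with
  | refl => exact Relation.ReflTransGen.refl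
  | @tail a b _ hab ih =>
    have h1 := num_child hab.1
    exact Relation.ReflTransGen.tail (ih (h1.trans hn)) ⟨hab.1, (h b hn).1 hab.2⟩

/-- **Conclusion of the exploration.** -/
theorem exploration {p : ℝ} (h0 : 0 ≤ p) (h1 : p ≤ 1) (E : ℕ × ℕ → Finset ι)
    (hE : ∀ s t, s ≠ t → Disjoint (E s) (E t)) (Start : Finset ι → Prop)
    (hSt : ∀ T, Start T ↔ Start (T ∩ Rs E 1)) (O : Finset ι → Set (ℕ × ℕ))
    (hO : ∀ s T, s ∈ O T ↔ s ∈ O (T ∩ Rs E (num s + 1)))
    (hkey : ∀ s : ℕ × ℕ, 1 ≤ num s → ∀ T ⊆ Rs E (num s), Start T →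
      (∃ u ∈ reachN (O T), ChildN u s) →
      Ex p (E s) (fun B => ind (fun T' => s ∉ O T') (T ∪ B)) ≤ 1 / 6561) (L n : ℕ)
    (hn : ∀ s : ℕ × ℕ, s.1 + s.2 ≤ L → num s < n) :
    1 / 2 * Ex p (Rs E 1) (ind Start) ≤
      Ex p (Rs E n) (ind (fun T => Start T ∧ ∃ s ∈ reachN (O T), s.1 + s.2 = L)) := by
  classical
  have hn1 : 1 ≤ n := by
    have := hn (0, 0) (by simp)
    omega
  set D : ℕ → Finset ι := fun j => E (Nat.unpair j) with hDdef
  have hD : ∀ i j, i < j → Disjoint (D i) (D j) := by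
    intro i j hij
    apply hE
    intro h
    have := congrArg num h
    rw [num_unpair, num_unpair] at this
    omega
  have hDnum : ∀ s, D (num s) = E s := by
    intro s
    show E (Nat.unpair (num s)) = E s
    rw [unpair_num]
  -- the failure events
  let Fl : ℕ → Finset ι → Prop := fun t T => FailsN (O T) (Nat.unpair t)
  have hOR : ∀ k s T, num s < k → (s ∈ O T ↔ s ∈ O (T ∩ Rg D k)) := by
    intro k s T hk
    have hsub : Rs E (num s + 1) ⊆ Rg D k := Rg_mono D (by omega)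
    have e : T ∩ Rg D k ∩ Rs E (num s + 1) = T ∩ Rs E (num s + 1) := by
      rw [inter_assoc, inter_eq_right.2 hsub]
    rw [hO s T, hO s (T ∩ Rg D k), e]
  have hFl : ∀ t T, Fl t T ↔ Fl t (T ∩ Rg D (t + 1)) := by
    have key : ∀ t T T', (∀ s, num s < t + 1 → (s ∈ O T ↔ s ∈ O T')) → Fl t T → Fl t T' := by
      intro t T T' h hf
      obtain ⟨h2, u, hu, hc⟩ := hf
      have h3 : num (Nat.unpair t) = t := num_unpair t
      refine ⟨fun h4 => h2 ((h _ (by omega)).2 h4), u, ?_, hc⟩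
      have h5 := num_child hc
      exact reachN_congr h hu (by omega)
    intro t T
    constructor
    · exact key t _ _ (fun s hs => hOR (t + 1) s T hs)
    · exact key t _ _ (fun s hs => (hOR (t + 1) s T hs).symm)
  have hc : ∀ t, 1 ≤ t → ∀ A ⊆ Rg D t, Start A →
      Ex p (D t) (fun B => ind (Fl t) (A ∪ B)) ≤ 1 / 6561 := by
    intro t ht A hA hS
    have h3 : num (Nat.unpair t) = t := num_unpair t
    by_cases hpar : ∃ u ∈ reachN (O A), ChildN u (Nat.unpair t)
    · have h4 := hkey (Nat.unpair t) (by omega) A (by rw [h3]; exact hA) hS hpar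
      refine le_trans (Ex_mono h0 h1 ?_) h4
      intro B _
      exact ind_le (fun h => h.1)
    · have hz : Ex p (D t) (fun B => ind (Fl t) (A ∪ B)) = Ex p (D t) (fun _ => 0) := by
        apply Ex_congr
        intro B hB
        apply ind_neg
        rintro ⟨_, u, hu, hcu⟩
        apply hpar
        refine ⟨u, ?_, hcu⟩
        have h5 := num_child hcu
        refine reachN_congr (n := t) ?_ hu (by omega)
        intro s hs
        rw [hOR t s (A ∪ B) hs, hOR t s A hs]
        have e : (A ∪ B) ∩ Rg D t = A ∩ Rg D t := by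
          have hdk : Disjoint (Rg D t) B := disjoint_of_subset_right hB (disjoint_Rg hD t)
          rw [union_inter_distrib_right, disjoint_iff_inter_eq_empty.1 hdk.symm, union_empty]
        rw [e]
      rw [hz, Ex_const]
      norm_num
  -- the Peierls argument
  have hB0 : 0 ≤ Ex p (Rs E 1) (ind Start) := Ex_ind_nonneg h0 h1 _ _
  have key := oriented_peierls_set_nat (Ω := Finset ι)
    (fun A => Ex p (Rs E n) (ind (fun T => Start T ∧ T ∈ A)))
    (by
      have : Ex p (Rs E n) (ind (fun T => Start T ∧ T ∈ (∅ : Set (Finset ι)))) =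
          Ex p (Rs E n) (fun _ => 0) := by
        apply Ex_congr
        intro T _
        exact ind_neg (fun h => h.2)
      rw [this, Ex_const])
    (by
      intro A B hAB
      exact Ex_mono h0 h1 fun T _ => ind_le (fun h => ⟨h.1, hAB h.2⟩))
    (by
      intro A B
      rw [← Ex_add]
      apply Ex_mono h0 h1
      intro T _
      have a1 := ind_nonneg (fun T => Start T ∧ T ∈ A) T
      have a2 := ind_nonneg (fun T => Start T ∧ T ∈ B) T
      by_cases h : Start T ∧ T ∈ A ∪ B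
      · rcases h.2 with hA | hB
        · have a3 : ind (fun T => Start T ∧ T ∈ A) T = 1 := ind_pos ⟨h.1, hA⟩
          have a4 : ind (fun T => Start T ∧ T ∈ A ∪ B) T = 1 := ind_pos h
          linarith only [a2, a3, a4]
        · have a3 : ind (fun T => Start T ∧ T ∈ B) T = 1 := ind_pos ⟨h.1, hB⟩
          have a4 : ind (fun T => Start T ∧ T ∈ A ∪ B) T = 1 := ind_pos h
          linarith only [a1, a3, a4]
      · have a4 : ind (fun T => Start T ∧ T ∈ A ∪ B) T = 0 := ind_neg h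
        linarith)
    (Ex p (Rs E 1) (ind Start)) hB0 O L ?_
  · have hsplit : Ex p (Rs E 1) (ind Start) =
        Ex p (Rs E n) (ind (fun T => Start T ∧ T ∈ {ω | ∀ w ∈ reachN (O ω), w.1 + w.2 ≠ L})) +
        Ex p (Rs E n) (ind (fun T => Start T ∧ ∃ s ∈ reachN (O T), s.1 + s.2 = L)) := by
      rw [← Ex_add]
      have e1 : Ex p (Rs E 1) (ind Start) = Ex p (Rs E n) (ind Start) :=
        (Ex_ind_Rg p D hn1 Start hSt).symm
      rw [e1]
      apply Ex_congr
      intro T _
      by_cases hS : Start T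
      · by_cases h : ∃ s ∈ reachN (O T), s.1 + s.2 = L
        · have a1 : ind (fun T => Start T ∧ ∃ s ∈ reachN (O T), s.1 + s.2 = L) T = 1 :=
            ind_pos ⟨hS, h⟩
          have a2 : ind (fun T => Start T ∧ T ∈ {ω | ∀ w ∈ reachN (O ω), w.1 + w.2 ≠ L}) T = 0 := by
            apply ind_neg
            rintro ⟨_, h2⟩
            obtain ⟨s, hs, hs2⟩ := h
            exact h2 s hs hs2
          rw [ind_pos hS, a1, a2, zero_add]
        · have a1 : ind (fun T => Start T ∧ ∃ s ∈ reachN (O T), s.1 + s.2 = L) T = 0 :=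
            ind_neg (fun h2 => h h2.2)
          have a2 : ind (fun T => Start T ∧ T ∈ {ω | ∀ w ∈ reachN (O ω), w.1 + w.2 ≠ L}) T = 1 := by
            apply ind_pos
            refine ⟨hS, ?_⟩
            intro w hw hw2
            exact h ⟨w, hw, hw2⟩
          rw [ind_pos hS, a1, a2, add_zero]
      · have a1 : ind (fun T => Start T ∧ ∃ s ∈ reachN (O T), s.1 + s.2 = L) T = 0 :=
          ind_neg (fun h2 => hS h2.1)
        have a2 : ind (fun T => Start T ∧ T ∈ {ω | ∀ w ∈ reachN (O ω), w.1 + w.2 ≠ L}) T = 0 :=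
          ind_neg (fun h2 => hS h2.1)
        rw [ind_neg hS, a1, a2, add_zero]
    linarith only [key, hsplit]
  · intro S hS
    have h5 := product_bound h0 h1 D hD 1 Start hSt Fl hFl (γ := 1 / 6561) (by norm_num) hc n hn1
      (S.image num) (by
        intro t ht
        rw [mem_image] at ht
        obtain ⟨s, hs, rfl⟩ := ht
        have h6 := hS s hs
        refine ⟨?_, hn s h6.2⟩
        by_contra hlt
        have h7 : num s = num (0, 0) := by
          have : num (0, 0) = 0 := rfl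
          omega
        have h8 := num_injective h7
        rw [h8] at h6
        simp at h6)
    rw [card_image_of_injective _ num_injective] at h5
    refine le_trans (Ex_mono h0 h1 ?_) h5
    intro T _
    refine ind_le (fun h => ⟨h.1, ?_⟩)
    intro t ht
    rw [mem_image] at ht
    obtain ⟨s, hs, rfl⟩ := ht
    show FailsN (O T) (Nat.unpair (num s))
    rw [unpair_num]
    exact h.2 s hs

end sites

end Vale.Agent.P151.Red.AD
end
end

section

section

/-!
# P151: `θ(p_c) = 0` on `ℤ^d`, definitions for the dynamic renormalisation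

Percolation on finite sets of edges: `Ex p B F` (file `Ex.lean`) is the expectation of `F T` where
`T ⊆ B` is the set of open edges; configurations are `S ∪ T` with `S` already revealed and open.
The dimension is `d = m + 2`.
-/

open MeasureTheory ProbabilityTheory

set_option autoImplicit false

noncomputable section

namespace Vale.Agent.P151.Red

open Vale.Agent.P151

/-- The real indicator of a proposition. -/
def ind (P : Prop) : ℝ := by classical exact if P then 1 else 0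

/-- The probability of `Q` when every element of `B` is open with probability `p`. -/
def Pr {ι : Type} [DecidableEq ι] (p : ℝ) (B : Finset ι) (Q : Finset ι → Prop) : ℝ :=
  Ex p B (fun T => ind (Q T))

/-- The Kozma-Nitzan inequality (domination form) for an increasing property `F` of clusters:
`S` is the set of the edges already open, the edges of `B` are random. -/
def KNStar : Prop :=
  ∀ (V : Type) [DecidableEq V] (p : ℝ), 0 < p → p < 1 → ∀ (S B : Finset (Sym2 V)) (A : Finset V)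
    (o : V) (F : Set V → Prop), (∀ C C' : Set V, C ⊆ C' → F C → F C') → ∀ η : ℝ, 0 ≤ η →
    (∀ a ∈ A, Pr p B (fun T => ¬ F (cluster (↑(S ∪ T) : Set (Sym2 V)) a)) ≤ η) →
    Pr p B (fun T => (∃ a ∈ A, a ∈ cluster (↑(S ∪ T) : Set (Sym2 V)) o) ∧
      ¬ F (cluster (↑(S ∪ T) : Set (Sym2 V)) o)) ≤ η

/-- The nearest neighbour graph on `ℤ^d`. -/
def lattice (d : ℕ) : SimpleGraph (Fin d → ℤ) where
  Adj x y := ∑ i, |x i - y i| = 1
  symm := ⟨by
    intro x y h
    have : ∀ i, |y i - x i| = |x i - y i| := fun i => abs_sub_comm _ _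
    simpa [this] using h⟩
  loopless := ⟨by
    intro x h
    simp at h⟩

/-- The vertices of `ℤ^(m+2)`. -/
abbrev Vx (m : ℕ) : Type := Fin (m + 2) → ℤ

variable {m : ℕ}

/-- The centre of the block `u`. -/
def ctr (L : ℕ) (u : ℕ × ℕ) : Vx m :=
  fun j => if j = 0 then 2 * (L : ℤ) * u.1 else if j = 1 then 2 * (L : ℤ) * u.2 else 0

/-- The next block in the direction `a`. -/
def nxt (u : ℕ × ℕ) (a : Bool) : ℕ × ℕ := if a then (u.1, u.2 + 1) else (u.1 + 1, u.2)

/-- The errors of the steering procedure. -/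
def err (ε₂ θ : ℝ) : ℕ → ℝ
  | 0 => ε₂
  | t + 1 => ε₂ + θ + 3 * √(err ε₂ θ t)

end Vale.Agent.P151.Red
end
end

section

/-!
# Module R1a: elementary facts about `Pr`
-/

set_option linter.all false
set_option autoImplicit false

noncomputable section

namespace Vale.Agent.P151.Red

open Vale.Agent.P151

section general

variable {ι : Type} [DecidableEq ι]

theorem ind_nonneg (P : Prop) : 0 ≤ ind P := by
  unfold ind; split_ifs <;> norm_num

theorem ind_le_one (P : Prop) : ind P ≤ 1 := by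
  unfold ind; split_ifs <;> norm_num

theorem ind_true {P : Prop} (h : P) : ind P = 1 := if_pos h

theorem ind_false {P : Prop} (h : ¬ P) : ind P = 0 := if_neg h

theorem ind_mono {P Q : Prop} (h : P → Q) : ind P ≤ ind Q := by
  by_cases hP : P
  · rw [ind_true hP, ind_true (h hP)]
  · rw [ind_false hP]; exact ind_nonneg Q

theorem Pr_nonneg {p : ℝ} (h0 : 0 ≤ p) (h1 : p ≤ 1) (B : Finset ι) (Q : Finset ι → Prop) :
    0 ≤ Pr p B Q := Ex_nonneg h0 h1 fun _ _ => ind_nonneg _

theorem Pr_le_one {p : ℝ} (h0 : 0 ≤ p) (h1 : p ≤ 1) (B : Finset ι) (Q : Finset ι → Prop) :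
    Pr p B Q ≤ 1 := Ex_le_const h0 h1 fun _ _ => ind_le_one _

theorem Pr_mono {p : ℝ} (h0 : 0 ≤ p) (h1 : p ≤ 1) {B : Finset ι} {Q Q' : Finset ι → Prop}
    (h : ∀ T ⊆ B, Q T → Q' T) : Pr p B Q ≤ Pr p B Q' :=
  Ex_mono h0 h1 fun T hT => ind_mono (h T hT)

theorem Pr_congr {p : ℝ} {B : Finset ι} {Q Q' : Finset ι → Prop}
    (h : ∀ T ⊆ B, (Q T ↔ Q' T)) : Pr p B Q = Pr p B Q' :=
  Ex_congr p fun T hT => by rw [propext (h T hT)]

theorem Pr_or_le {p : ℝ} (h0 : 0 ≤ p) (h1 : p ≤ 1) (B : Finset ι) (Q Q' : Finset ι → Prop) :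
    Pr p B (fun T => Q T ∨ Q' T) ≤ Pr p B Q + Pr p B Q' := by
  unfold Pr
  rw [← Ex_add]
  refine Ex_mono h0 h1 fun T _ => ?_
  by_cases hQ : Q T
  · rw [ind_true (Or.inl hQ), ind_true hQ]
    linarith [ind_nonneg (Q' T)]
  · rw [ind_false hQ, zero_add]
    exact ind_mono fun h => h.resolve_left hQ

theorem Pr_not {p : ℝ} (B : Finset ι) (Q : Finset ι → Prop) :
    Pr p B (fun T => ¬ Q T) = 1 - Pr p B Q := by
  unfold Pr
  rw [← Ex_const p B 1, ← Ex_sub]
  refine Ex_congr p fun T _ => ?_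
  by_cases h : Q T
  · rw [ind_true h, ind_false (not_not.2 h), sub_self]
  · rw [ind_true h, ind_false h, sub_zero]

theorem Pr_false' (p : ℝ) (B : Finset ι) : Pr p B (fun _ => False) = 0 := by
  unfold Pr
  rw [← Ex_const p B 0]
  exact Ex_congr p fun T _ => ind_false not_false

/-- Fubini: reveal `A`, then `B`. -/
theorem Pr_union (p : ℝ) {A B : Finset ι} (hAB : Disjoint A B) (Q : Finset ι → Prop) :
    Pr p (A ∪ B) Q = Ex p A (fun S => Pr p B (fun T => Q (S ∪ T))) := by
  unfold Pr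
  rw [Ex_union p hAB]

/-- An event which only depends on the edges of `A`. -/
theorem Pr_restrict (p : ℝ) {A B : Finset ι} (hA : A ⊆ B) {Q : Finset ι → Prop}
    (h : ∀ T ⊆ B, (Q T ↔ Q (T ∩ A))) : Pr p B Q = Pr p A Q :=
  Ex_restrict p hA fun T hT => by rw [propext (h T hT)]

/-- A decreasing event is less likely with more edges. -/
theorem Pr_anti_set {p : ℝ} (h0 : 0 ≤ p) (h1 : p ≤ 1) {A B : Finset ι} (hAB : A ⊆ B)
    {Q : Finset ι → Prop} (hQ : ∀ T T' : Finset ι, T ⊆ T' → Q T' → Q T) :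
    Pr p B Q ≤ Pr p A Q := by
  have hB : B = A ∪ (B \ A) := by rw [Finset.union_sdiff_of_subset hAB]
  rw [hB, Pr_union p Finset.disjoint_sdiff]
  refine Ex_mono h0 h1 fun S _ => ?_
  exact Ex_le_const h0 h1 fun T _ => ind_mono (hQ _ _ Finset.subset_union_left)

/-- Opening the edges of `E` makes a decreasing event less likely. (Reveal `E ∩ B` first.) -/
theorem Pr_open {p : ℝ} (h0 : 0 ≤ p) (h1 : p ≤ 1) (B E : Finset ι) {Q : Finset ι → Prop}
    (hQ : ∀ T T' : Finset ι, T ⊆ T' → Q T' → Q T) :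
    Pr p (B \ E) (fun T => Q (E ∪ T)) ≤ Pr p B Q := by
  have hB : B = (B ∩ E) ∪ (B \ E) := by
    ext x; by_cases h : x ∈ E <;> simp [h]
  have hd : Disjoint (B ∩ E) (B \ E) :=
    Finset.disjoint_of_subset_left Finset.inter_subset_right Finset.disjoint_sdiff
  conv_rhs => rw [hB, Pr_union p hd]
  rw [← Ex_const p (B ∩ E) (Pr p (B \ E) (fun T => Q (E ∪ T)))]
  refine Ex_mono h0 h1 fun S hS => Pr_mono h0 h1 fun T _ h => ?_
  exact hQ _ _ (Finset.union_subset_union_left (hS.trans Finset.inter_subset_right)) h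

/-- Markov's inequality. -/
theorem markov_Ex {p : ℝ} (h0 : 0 ≤ p) (h1 : p ≤ 1) (B : Finset ι) (f : Finset ι → ℝ)
    (hf : ∀ T ⊆ B, 0 ≤ f T) (t : ℝ) (ht : 0 ≤ t) :
    t * Pr p B (fun T => t ≤ f T) ≤ Ex p B f := by
  unfold Pr
  rw [← Ex_const_mul]
  refine Ex_mono h0 h1 fun T hT => ?_
  by_cases h : t ≤ f T
  · rw [ind_true h, mul_one]; exact h
  · rw [ind_false h, mul_zero]; exact hf T hT

theorem Ex_ind_eq (p : ℝ) (E : Finset ι) (c : ℝ) :
    Ex p E (fun S => ind (S = E) * c) = p ^ E.card * c := by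
  unfold Ex
  rw [Finset.sum_eq_single E]
  · simp [ind_true]
  · intro S _ hS
    simp [ind_false hS]
  · intro h; exact absurd (Finset.mem_powerset_self E) h

/-- Conditioning on `E` being open. -/
theorem Pr_open_and (p : ℝ) {B E : Finset ι} (hE : E ⊆ B) (Q : Finset ι → Prop) :
    Pr p B (fun S => E ⊆ S ∧ Q S) = p ^ E.card * Pr p (B \ E) (fun S => Q (E ∪ S)) := by
  have hΛ : B = E ∪ (B \ E) := by rw [Finset.union_sdiff_of_subset hE]
  conv_lhs => rw [hΛ]
  rw [Pr_union p Finset.disjoint_sdiff, ← Ex_ind_eq]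
  refine Ex_congr p fun S hS => ?_
  by_cases h : S = E
  · subst h
    rw [ind_true rfl, one_mul]
    refine Pr_congr fun T _ => ?_
    simp
  · rw [ind_false h, zero_mul, ← Pr_false' p (B \ E)]
    refine Pr_congr fun T hT => ?_
    simp only [iff_false, not_and]
    intro hc
    exfalso
    refine h (Finset.Subset.antisymm hS fun e he => ?_)
    rcases Finset.mem_union.1 (hc he) with h' | h'
    · exact h'
    · exact absurd he (Finset.mem_sdiff.1 (hT h')).2

/-- All edges of `A` are open with probability `p ^ |A|`. -/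
theorem Pr_all_open (p : ℝ) {A B : Finset ι} (hA : A ⊆ B) :
    Pr p B (fun T => A ⊆ T) = p ^ A.card := by
  have h := Pr_open_and p hA (fun _ => True)
  simp only [and_true] at h
  rw [h]
  have : Pr p (B \ A) (fun _ => True) = 1 := by
    unfold Pr
    rw [← Ex_const p (B \ A) 1]
    exact Ex_congr p fun T _ => ind_true trivial
  rw [this, mul_one]

end general

end Vale.Agent.P151.Red
end
end

section

/-!
# Module R1b: clusters and the edges of the lattice
-/

set_option autoImplicit false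

noncomputable section

namespace Vale.Agent.P151.Red

open Vale.Agent.P151

section clusters

variable {V : Type}

theorem mem_cluster_self (ω : Set (Sym2 V)) (x : V) : x ∈ cluster ω x :=
  SimpleGraph.Reachable.refl x

theorem cluster_mono {ω ω' : Set (Sym2 V)} (h : ω ⊆ ω') (x : V) : cluster ω x ⊆ cluster ω' x :=
  fun _ hy => SimpleGraph.Reachable.mono (SimpleGraph.fromEdgeSet_mono h) hy

theorem mem_cluster_symm {ω : Set (Sym2 V)} {x y : V} (h : y ∈ cluster ω x) : x ∈ cluster ω y :=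
  SimpleGraph.Reachable.symm h

theorem mem_cluster_trans {ω : Set (Sym2 V)} {x y z : V} (h : y ∈ cluster ω x)
    (h' : z ∈ cluster ω y) : z ∈ cluster ω x :=
  SimpleGraph.Reachable.trans h h'

/-- Two vertices joined by an open edge are in the same cluster. -/
theorem mem_cluster_of_edge {ω : Set (Sym2 V)} {x y : V} (h : s(x, y) ∈ ω) : y ∈ cluster ω x := by
  by_cases hxy : x = y
  · subst hxy; exact mem_cluster_self ω x
  · exact SimpleGraph.Adj.reachable ((SimpleGraph.fromEdgeSet_adj _).2 ⟨h, hxy⟩)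

end clusters

section lattice

variable {m : ℕ}

end lattice

end Vale.Agent.P151.Red
end
end

section

end

section

/-!
# Module R3a: Chebyshev for the number of fully open seed boxes

PROOF. `Z w = ∑ x ∈ R, ind (Eb x ⊆ w)`, `E Z = M q`, `E (Z - M q)^2 = M q (1 - q) ≤ M q` because the
events `Eb x ⊆ w` are independent with probability `q = p ^ N` (`Pr_all_open` for `Eb x` and for
`Eb x ∪ Eb y`).  `Z < M q / 2` implies `(Z - M q)^2 ≥ (M q)^2 / 4`; Markov.
-/

set_option linter.all false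
set_option autoImplicit false

noncomputable section

namespace Vale.Agent.P151.Red

open Vale.Agent.P151

theorem card_filter_ind {κ : Type} (R : Finset κ) (P : κ → Prop) [DecidablePred P] :
    ((R.filter P).card : ℝ) = ∑ x ∈ R, ind (P x) := by
  rw [Finset.card_filter]
  push_cast
  refine Finset.sum_congr rfl fun x _ => ?_
  by_cases h : P x
  · rw [if_pos h, ind_true h]
  · rw [if_neg h, ind_false h]

theorem ind_mul_ind (P Q : Prop) : ind P * ind Q = ind (P ∧ Q) := by
  by_cases hP : P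
  · by_cases hQ : Q
    · rw [ind_true hP, ind_true hQ, ind_true ⟨hP, hQ⟩, mul_one]
    · rw [ind_false hQ, ind_false (P := P ∧ Q) (fun h => hQ h.2), mul_zero]
  · rw [ind_false hP, ind_false (P := P ∧ Q) (fun h => hP h.1), zero_mul]

/-- Chebyshev for the number of fully open boxes. -/
theorem few_open {ι κ : Type} [DecidableEq ι] [DecidableEq κ] {p : ℝ} (h0 : 0 < p) (h1 : p < 1)
    (X R : Finset κ) (Eb : κ → Finset ι) (N M : ℕ) (hM : 0 < M)
    (hdis : ∀ x ∈ X, ∀ y ∈ X, x ≠ y → Disjoint (Eb x) (Eb y)) (hN : ∀ x ∈ X, (Eb x).card = N)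
    (hR : R ⊆ X) (hRM : R.card = M) :
    Pr p (X.biUnion Eb) (fun w => ((R.filter (fun x => Eb x ⊆ w)).card : ℝ) < M * p ^ N / 2) ≤
      4 / (M * p ^ N) := by
  set W : Finset ι := X.biUnion Eb with hW
  set q : ℝ := p ^ N with hq
  have hq0 : 0 < q := pow_pos h0 N
  have hMq : 0 < (M : ℝ) * q := by positivity
  have hEW : ∀ x ∈ R, Eb x ⊆ W := fun x hx => Finset.subset_biUnion_of_mem Eb (hR hx)
  have e1 : ∀ x ∈ R, Ex p W (fun w => ind (Eb x ⊆ w)) = q := by
    intro x hx
    have := Pr_all_open p (hEW x hx)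
    unfold Pr at this
    rw [this, hN x (hR hx)]
  have e2 : ∀ x ∈ R, ∀ y ∈ R, Ex p W (fun w => ind (Eb x ⊆ w) * ind (Eb y ⊆ w)) =
      q ^ 2 + (if x = y then q - q ^ 2 else 0) := by
    intro x hx y hy
    have h3 := Pr_all_open p (Finset.union_subset (hEW x hx) (hEW y hy))
    unfold Pr at h3
    have h4 : (fun w : Finset ι => ind (Eb x ⊆ w) * ind (Eb y ⊆ w)) =
        fun w => ind (Eb x ∪ Eb y ⊆ w) := by
      funext w
      rw [ind_mul_ind, Finset.union_subset_iff]
    rw [h4, h3]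
    split_ifs with h
    · subst h
      rw [Finset.union_self, hN x (hR hx)]
      ring
    · rw [Finset.card_union_of_disjoint (hdis x (hR hx) y (hR hy) h), hN x (hR hx),
        hN y (hR hy), pow_add]
      ring
  -- variance
  have e3 : Ex p W (fun w => ((∑ x ∈ R, ind (Eb x ⊆ w)) - M * q) ^ 2) = M * (q - q ^ 2) := by
    have hexp : (fun w : Finset ι => ((∑ x ∈ R, ind (Eb x ⊆ w)) - M * q) ^ 2) =
        fun w => ((∑ x ∈ R, ∑ y ∈ R, ind (Eb x ⊆ w) * ind (Eb y ⊆ w)) -
          (2 * (M * q)) * ∑ x ∈ R, ind (Eb x ⊆ w)) + (M * q) ^ 2 := by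
      funext w
      rw [← Finset.sum_mul_sum]
      ring
    rw [hexp, Ex_add, Ex_sub, Ex_const_mul, Ex_const, Ex_sum, Ex_sum]
    have h5 : ∀ x ∈ R, Ex p W (fun w => ∑ y ∈ R, ind (Eb x ⊆ w) * ind (Eb y ⊆ w)) =
        M * q ^ 2 + (q - q ^ 2) := by
      intro x hx
      rw [Ex_sum, Finset.sum_congr rfl (e2 x hx), Finset.sum_add_distrib, Finset.sum_const, hRM,
        nsmul_eq_mul, Finset.sum_ite_eq, if_pos hx]
    rw [Finset.sum_congr rfl h5, Finset.sum_congr rfl e1, Finset.sum_const, Finset.sum_const, hRM,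
      nsmul_eq_mul, nsmul_eq_mul]
    ring
  have h6 := markov_Ex h0.le h1.le W (fun w => ((∑ x ∈ R, ind (Eb x ⊆ w)) - M * q) ^ 2)
    (fun _ _ => sq_nonneg _) ((M * q) ^ 2 / 4) (by positivity)
  rw [e3] at h6
  have h7 : Pr p W (fun w => ((R.filter (fun x => Eb x ⊆ w)).card : ℝ) < M * q / 2) ≤
      Pr p W (fun w => (M * q) ^ 2 / 4 ≤ ((∑ x ∈ R, ind (Eb x ⊆ w)) - M * q) ^ 2) := by
    refine Pr_mono h0.le h1.le fun w _ h => ?_
    rw [card_filter_ind] at h
    nlinarith only [hMq, h]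
  rw [le_div_iff₀ hMq]
  have h8 : (M * q) ^ 2 / 4 * Pr p W (fun w => ((R.filter (fun x => Eb x ⊆ w)).card : ℝ) <
      M * q / 2) ≤ M * q := by
    refine (mul_le_mul_of_nonneg_left h7 (by positivity)).trans (h6.trans ?_)
    have : 0 ≤ (M : ℝ) * q ^ 2 := by positivity
    linarith only [this]
  have h9 : (M * q) * (Pr p W (fun w => ((R.filter (fun x => Eb x ⊆ w)).card : ℝ) <
      M * q / 2) * (M * q)) ≤ (M * q) * 4 := by
    linarith only [h8]
  exact le_of_mul_le_mul_left h9 hMq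

end Vale.Agent.P151.Red
end
end

section

/-!
# Module R3b: Lemma 1 (one step through random seed boxes)

`X` = finite set of labels of seed boxes, `Eb x` = edges of the box `x`, `bx x` = its vertices,
`rp x` = a vertex of it.  `D` = all other fresh edges, `G₀ ⊆ D`.

PROOF.  Let `E = X.biUnion Eb`, `q = p ^ N`.  By `Pr_union` reveal `w ⊆ E` first, then `T ⊆ D`.
`A w = {rp x | x ∈ X, Eb x ⊆ w, Pr p D (fun T => ¬ F (cluster (S ∪ w ∪ T) (rp x))) ≤ √ε₁}`.
By `KNStar` (with `S ∪ w` instead of `S`, `B = D`, `η = √ε₁`):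
`Pr p D (o meets A w, ¬ F (cluster (S ∪ w ∪ T) o)) ≤ √ε₁` for every `w`.
If the number of reached boxes `R(T) = {x ∈ X | ∃ v ∈ bx x, v ∈ cluster (S ∪ (T ∩ G₀)) o}` is at
least `M` (this does not depend on `w`), choose `R' T ⊆ R T` with exactly `M` elements.  Then
`{|R T| ≥ M, ¬ F} ⊆ {o meets A w, ¬ F} ∪ {|R T| ≥ M, no x ∈ R' T with rp x ∈ A w}`
(if `x ∈ R T` and `Eb x ⊆ w` then `rp x ∈ cluster (S ∪ w ∪ T) o`).  For a fixed set `R'` of `M`
labels: with `Z w = #{x ∈ R' | Eb x ⊆ w}`, `Zb w = #{x ∈ R' | Eb x ⊆ w, x bad for w}`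
(`bad` = the probability above is `> √ε₁`), no `x ∈ R'` in `A w` means `Z = Zb`, hence `Z < M q/2` or
`Zb ≥ M q/2`.  `Pr p E (Z < M q / 2) ≤ 4 / (M q)` by Chebyshev (`E (Z - M q)^2 = M q (1 - q)`, the
events `Eb x ⊆ w` are independent), `Pr p E (Zb ≥ M q/2) ≤ 2 √ε₁` by Markov, because
`Pr p E (Eb x ⊆ w, x bad) ≤ q * √ε₁` (reveal `Eb x` first; Markov and the hypothesis `hε`, which is
`Pr p (D ∪ (X.erase x).biUnion Eb) ... = Ex p ((X.erase x).biUnion Eb) (Pr p D ...)`).
-/

set_option linter.all false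
set_option autoImplicit false

noncomputable section

namespace Vale.Agent.P151.Red

open Vale.Agent.P151

theorem osFalse {ι : Type} [DecidableEq ι] (p : ℝ) (B : Finset ι) :
    Pr p B (fun _ => False) = 0 := by
  unfold Pr
  rw [← Ex_const p B 0]
  exact Ex_congr p fun T _ => ind_false not_false

/-- Conditioning on `E` being open. -/
theorem osOpenAnd {ι : Type} [DecidableEq ι] (p : ℝ) {B E : Finset ι} (hE : E ⊆ B)
    (Q : Finset ι → Prop) :
    Pr p B (fun S => E ⊆ S ∧ Q S) = p ^ E.card * Pr p (B \ E) (fun S => Q (E ∪ S)) := by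
  have hΛ : B = E ∪ (B \ E) := by rw [Finset.union_sdiff_of_subset hE]
  have hite : ∀ c : ℝ, Ex p E (fun S => ind (S = E) * c) = p ^ E.card * c := by
    intro c
    unfold Ex
    rw [Finset.sum_eq_single E]
    · simp [ind_true]
    · intro S _ hS
      simp [ind_false hS]
    · intro h; exact absurd (Finset.mem_powerset_self E) h
  conv_lhs => rw [hΛ]
  rw [Pr_union p Finset.disjoint_sdiff, ← hite]
  refine Ex_congr p fun S hS => ?_
  by_cases h : S = E
  · subst h
    rw [ind_true rfl, one_mul]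
    refine Pr_congr fun T _ => ?_
    simp
  · rw [ind_false h, zero_mul, ← osFalse p (B \ E)]
    refine Pr_congr fun T hT => ?_
    simp only [iff_false, not_and]
    intro hc
    exfalso
    refine h (Finset.Subset.antisymm hS fun e he => ?_)
    rcases Finset.mem_union.1 (hc he) with h' | h'
    · exact h'
    · exact absurd he (Finset.mem_sdiff.1 (hT h')).2

theorem osCard {κ : Type} (R : Finset κ) (P : κ → Prop) [DecidablePred P] :
    ((R.filter P).card : ℝ) = ∑ x ∈ R, ind (P x) := by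
  rw [Finset.card_filter]
  push_cast
  refine Finset.sum_congr rfl fun x _ => ?_
  by_cases h : P x
  · rw [if_pos h, ind_true h]
  · rw [if_neg h, ind_false h]

theorem osMono {V : Type} {ω ω' : Set (Sym2 V)} (h : ω ⊆ ω') (x : V) :
    cluster ω x ⊆ cluster ω' x := fun y hy =>
  SimpleGraph.Reachable.mono (SimpleGraph.fromEdgeSet_mono h) hy

open Classical in
theorem oneStep (KN : KNStar) {V : Type} [DecidableEq V] {κ : Type} [DecidableEq κ] {p : ℝ}
    (h0 : 0 < p) (h1 : p < 1) (S : Finset (Sym2 V)) (o : V) (X : Finset κ)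
    (Eb : κ → Finset (Sym2 V)) (bx : κ → Set V) (rp : κ → V) (N M : ℕ) (hM : 0 < M)
    (hdis : ∀ x ∈ X, ∀ y ∈ X, x ≠ y → Disjoint (Eb x) (Eb y)) (hN : ∀ x ∈ X, (Eb x).card = N)
    (hconn : ∀ x ∈ X, ∀ v ∈ bx x, v ∈ cluster (↑(Eb x) : Set (Sym2 V)) (rp x))
    (D G₀ : Finset (Sym2 V)) (hG : G₀ ⊆ D) (hD : ∀ x ∈ X, Disjoint D (Eb x))
    (F : Set V → Prop) (hF : ∀ C C' : Set V, C ⊆ C' → F C → F C') (ε₁ : ℝ) (hε0 : 0 ≤ ε₁)
    (hε : ∀ x ∈ X, Pr p (D ∪ (X.erase x).biUnion Eb)
      (fun T => ¬ F (cluster (↑(S ∪ (Eb x ∪ T)) : Set (Sym2 V)) (rp x))) ≤ ε₁) :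
    Pr p (D ∪ X.biUnion Eb) (fun T =>
      M ≤ (X.filter (fun x => ∃ v ∈ bx x, v ∈ cluster (↑(S ∪ (T ∩ G₀)) : Set (Sym2 V)) o)).card ∧
      ¬ F (cluster (↑(S ∪ T) : Set (Sym2 V)) o)) ≤ 4 / (M * p ^ N) + 3 * √ε₁ := by
  set W : Finset (Sym2 V) := X.biUnion Eb with hWdef
  set q : ℝ := p ^ N with hqdef
  set s : ℝ := √ε₁ with hsdef
  have hs0 : 0 ≤ s := Real.sqrt_nonneg _
  have hss : s * s = ε₁ := Real.mul_self_sqrt hε0
  have hq0 : 0 < q := pow_pos h0 N
  have hMq : 0 < (M : ℝ) * q := by positivity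
  have hd : Disjoint W D := (Finset.disjoint_biUnion_left _ _ _).2 fun x hx => (hD x hx).symm
  have hEW : ∀ x ∈ X, Eb x ⊆ W := fun x hx => Finset.subset_biUnion_of_mem Eb hx
  -- reached seeds
  set H : Finset (Sym2 V) → Finset κ := fun T =>
    X.filter (fun x => ∃ v ∈ bx x, v ∈ cluster (↑(S ∪ (T ∩ G₀)) : Set (Sym2 V)) o) with hH
  have hHX : ∀ T, H T ⊆ X := fun T => Finset.filter_subset _ _
  have hHw : ∀ w ⊆ W, ∀ T, H (w ∪ T) = H T := by
    intro w hw T
    have : (w ∪ T) ∩ G₀ = T ∩ G₀ := by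
      rw [Finset.union_inter_distrib_right, Finset.disjoint_iff_inter_eq_empty.1
        (Finset.disjoint_of_subset_left hw (Finset.disjoint_of_subset_right hG hd)),
        Finset.empty_union]
    simp only [hH, this]
  -- a subset with exactly M elements
  have hex : ∀ T, ∃ Y : Finset κ, Y ⊆ H T ∧ (M ≤ (H T).card → Y.card = M) := by
    intro T
    by_cases hN : M ≤ (H T).card
    · obtain ⟨Y, hY1, hY2⟩ := Finset.exists_subset_card_eq hN
      exact ⟨Y, hY1, fun _ => hY2⟩
    · exact ⟨∅, Finset.empty_subset _, fun h => absurd h hN⟩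
  choose Y hYH hYM using hex
  have hYX : ∀ T, Y T ⊆ X := fun T => (hYH T).trans (hHX T)
  set r : Finset (Sym2 V) → κ → ℝ := fun w x =>
    Pr p D (fun T => ¬ F (cluster (↑(S ∪ (w ∪ T)) : Set (Sym2 V)) (rp x))) with hr
  have hr0 : ∀ w x, 0 ≤ r w x := fun w x => Pr_nonneg h0.le h1.le _ _
  set A : Finset (Sym2 V) → Finset κ := fun w => X.filter (fun x => Eb x ⊆ w ∧ r w x ≤ s) with hA
  set Q1 : Finset (Sym2 V) → Finset (Sym2 V) → Prop := fun w T =>
    M ≤ (H T).card ∧ (((Y T).filter (fun x => Eb x ⊆ w)).card : ℝ) < M * q / 2 with hQ1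
  set Q2 : Finset (Sym2 V) → Finset (Sym2 V) → Prop := fun w T =>
    M ≤ (H T).card ∧ M * q / 2 ≤ ∑ x ∈ Y T, ind (Eb x ⊆ w ∧ s < r w x) with hQ2
  set Q3 : Finset (Sym2 V) → Finset (Sym2 V) → Prop := fun w T =>
    (∃ a ∈ (A w).image rp, a ∈ cluster (↑((S ∪ w) ∪ T) : Set (Sym2 V)) o) ∧
      ¬ F (cluster (↑((S ∪ w) ∪ T) : Set (Sym2 V)) o) with hQ3
  have hcover : ∀ w ⊆ W, ∀ T ⊆ D, (M ≤ (H (w ∪ T)).card ∧
      ¬ F (cluster (↑(S ∪ (w ∪ T)) : Set (Sym2 V)) o)) → (Q1 w T ∨ Q2 w T) ∨ Q3 w T := by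
    intro w hw T hT ⟨hM', hbad⟩
    rw [hHw w hw] at hM'
    by_cases h : ∃ x ∈ Y T, Eb x ⊆ w ∧ r w x ≤ s
    · obtain ⟨x, hx, hxw, hrx⟩ := h
      right
      rw [← Finset.union_assoc] at hbad
      refine ⟨⟨rp x, Finset.mem_image.2 ⟨x, Finset.mem_filter.2 ⟨hYX T hx, hxw, hrx⟩, rfl⟩, ?_⟩,
        hbad⟩
      obtain ⟨v, hv, hov⟩ := (Finset.mem_filter.1 (hYH T hx)).2
      have g1 : v ∈ cluster (↑((S ∪ w) ∪ T) : Set (Sym2 V)) o := by
        refine osMono ?_ o hov
        rw [Finset.coe_subset]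
        exact Finset.union_subset_union Finset.subset_union_left Finset.inter_subset_left
      have g2 : v ∈ cluster (↑((S ∪ w) ∪ T) : Set (Sym2 V)) (rp x) := by
        refine osMono ?_ (rp x) (hconn x (hYX T hx) v hv)
        rw [Finset.coe_subset]
        exact hxw.trans (Finset.subset_union_right.trans Finset.subset_union_left)
      exact SimpleGraph.Reachable.trans g1 (SimpleGraph.Reachable.symm g2)
    · left
      push Not at h
      by_cases hZ : (((Y T).filter (fun x => Eb x ⊆ w)).card : ℝ) < M * q / 2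
      · exact Or.inl ⟨hM', hZ⟩
      · refine Or.inr ⟨hM', ?_⟩
        rw [not_lt, osCard] at hZ
        refine hZ.trans (Finset.sum_le_sum fun x hx => ind_mono fun hxw => ⟨hxw, h x hx hxw⟩)
  -- the three estimates
  have hb1 : Ex p W (fun w => Pr p D (Q1 w)) ≤ 4 / (M * q) := by
    unfold Pr
    rw [Ex_comm]
    refine Ex_le_const h0.le h1.le fun T _ => ?_
    change Pr p W (fun w => Q1 w T) ≤ _
    by_cases hN' : M ≤ (H T).card
    · refine (Pr_mono h0.le h1.le (Q' := fun w => (((Y T).filter (fun x => Eb x ⊆ w)).card : ℝ) <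
        M * q / 2) fun w _ h => h.2).trans ?_
      exact few_open h0 h1 X (Y T) Eb N M hM hdis hN (hYX T) (hYM T hN')
    · have : Pr p W (fun w => Q1 w T) = 0 := by
        rw [← osFalse p W]
        exact Pr_congr fun w _ => by simp only [hQ1, hN', false_and]
      rw [this]
      positivity
  have hmark : ∀ x ∈ X, Pr p W (fun w => Eb x ⊆ w ∧ s < r w x) ≤ q * s := by
    intro x hx
    have hWE : W \ Eb x = (X.erase x).biUnion Eb := by
      ext e
      simp only [hWdef, Finset.mem_sdiff, Finset.mem_biUnion, Finset.mem_erase]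
      constructor
      · rintro ⟨⟨y, hy, he⟩, hne⟩
        exact ⟨y, ⟨fun hyx => hne (hyx ▸ he), hy⟩, he⟩
      · rintro ⟨y, ⟨hyx, hy⟩, he⟩
        exact ⟨⟨y, hy, he⟩, fun hex => Finset.disjoint_left.1 (hdis y hy x hx hyx) he hex⟩
    have e0 : Pr p W (fun w => Eb x ⊆ w ∧ s < r w x) =
        q * Pr p (W \ Eb x) (fun w => s < r (Eb x ∪ w) x) := by
      rw [osOpenAnd p (hEW x hx) (fun w => s < r w x), hN x hx]
    rw [e0]
    refine mul_le_mul_of_nonneg_left ?_ hq0.le
    have e1 : Ex p (W \ Eb x) (fun w => r (Eb x ∪ w) x) ≤ ε₁ := by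
      have h3 := hε x hx
      have hdE : Disjoint (W \ Eb x) D := Finset.disjoint_of_subset_left Finset.sdiff_subset hd
      rw [← hWE, Finset.union_comm, Pr_union p hdE] at h3
      refine le_trans (le_of_eq ?_) h3
      refine Ex_congr p fun w _ => ?_
      simp only [hr, Finset.union_assoc]
    rcases eq_or_lt_of_le hs0 with hs | hs
    · -- `ε₁ = 0`
      have hz : ε₁ = 0 := by rw [← hss, ← hs, mul_zero]
      rw [← hs]
      have h5 : ∀ w ⊆ W \ Eb x, r (Eb x ∪ w) x ≤ 0 := by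
        intro w hw
        have h6 : p ^ w.card * (1 - p) ^ ((W \ Eb x).card - w.card) * r (Eb x ∪ w) x ≤ 0 := by
          rw [hz] at e1
          refine le_trans ?_ e1
          unfold Ex
          exact Finset.single_le_sum (f := fun w => p ^ w.card *
            (1 - p) ^ ((W \ Eb x).card - w.card) * r (Eb x ∪ w) x)
            (fun S _ => mul_nonneg (mul_nonneg (pow_nonneg h0.le _)
              (pow_nonneg (by linarith only [h1]) _)) (hr0 _ _)) (Finset.mem_powerset.2 hw)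
        have h7 : 0 < p ^ w.card * (1 - p) ^ ((W \ Eb x).card - w.card) :=
          mul_pos (pow_pos h0 _) (pow_pos (by linarith only [h1]) _)
        by_contra hc
        push Not at hc
        nlinarith only [h6, h7, hc]
      exact (Pr_mono h0.le h1.le (Q' := fun _ => False)
        fun w hw h => absurd h (not_lt.2 (h5 w hw))).trans (le_of_eq (osFalse p _))
    · have h4 := markov_Ex h0.le h1.le (W \ Eb x) (fun w => r (Eb x ∪ w) x)
        (fun w _ => hr0 _ _) s hs0
      have h5 : Pr p (W \ Eb x) (fun w => s < r (Eb x ∪ w) x) ≤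
          Pr p (W \ Eb x) (fun w => s ≤ r (Eb x ∪ w) x) :=
        Pr_mono h0.le h1.le fun w _ h => h.le
      have h6 : s * Pr p (W \ Eb x) (fun w => s ≤ r (Eb x ∪ w) x) ≤ s * s := by
        rw [hss]; exact h4.trans e1
      exact h5.trans (le_of_mul_le_mul_left h6 hs)
  have hb2 : Ex p W (fun w => Pr p D (Q2 w)) ≤ 2 * s := by
    unfold Pr
    rw [Ex_comm]
    refine Ex_le_const h0.le h1.le fun T _ => ?_
    change Pr p W (fun w => Q2 w T) ≤ _
    by_cases hN' : M ≤ (H T).card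
    · refine (Pr_mono h0.le h1.le (Q' := fun w => M * q / 2 ≤
        ∑ x ∈ Y T, ind (Eb x ⊆ w ∧ s < r w x)) fun w _ h => h.2).trans ?_
      have h4 := markov_Ex h0.le h1.le W (fun w => ∑ x ∈ Y T, ind (Eb x ⊆ w ∧ s < r w x))
        (fun w _ => Finset.sum_nonneg fun _ _ => ind_nonneg _) (M * q / 2) (by (clear * - hM h0; positivity))
      rw [Ex_sum] at h4
      have h5 : ∑ x ∈ Y T, Ex p W (fun w => ind (Eb x ⊆ w ∧ s < r w x)) ≤ M * (q * s) := by
        refine (Finset.sum_le_sum fun x hx => hmark x (hYX T hx)).trans ?_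
        rw [Finset.sum_const, hYM T hN', nsmul_eq_mul]
      have h6 : M * q / 2 * Pr p W (fun w => M * q / 2 ≤
          ∑ x ∈ Y T, ind (Eb x ⊆ w ∧ s < r w x)) ≤ M * q / 2 * (2 * s) := by
        refine h4.trans (h5.trans (le_of_eq ?_))
        ring
      exact le_of_mul_le_mul_left h6 (by positivity)
    · have h' : Pr p W (fun w => Q2 w T) = 0 := by
        rw [← osFalse p W]
        exact Pr_congr fun w _ => by simp only [hQ2, hN', false_and]
      rw [h']
      (clear * -; positivity)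
  have hb3 : Ex p W (fun w => Pr p D (Q3 w)) ≤ s := by
    refine Ex_le_const h0.le h1.le fun w hw => ?_
    refine KN V p h0 h1 (S ∪ w) D ((A w).image rp) o F hF s hs0 fun a ha => ?_
    obtain ⟨x, hx, rfl⟩ := Finset.mem_image.1 ha
    have h3 := (Finset.mem_filter.1 hx).2.2
    simp only [hr, ← Finset.union_assoc] at h3
    exact h3
  calc Pr p (D ∪ W) (fun T => M ≤ (H T).card ∧ ¬ F (cluster (↑(S ∪ T) : Set (Sym2 V)) o))
      = Ex p W (fun w => Pr p D (fun T => M ≤ (H (w ∪ T)).card ∧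
          ¬ F (cluster (↑(S ∪ (w ∪ T)) : Set (Sym2 V)) o))) := by
        rw [Finset.union_comm, Pr_union p hd]
    _ ≤ Ex p W (fun w => (Pr p D (Q1 w) + Pr p D (Q2 w)) + Pr p D (Q3 w)) := by
        refine Ex_mono h0.le h1.le fun w hw => ?_
        refine (Pr_mono h0.le h1.le (hcover w hw)).trans ?_
        refine (Pr_or_le h0.le h1.le _ _ _).trans (add_le_add_left (Pr_or_le h0.le h1.le _ _ _) _)
    _ = (Ex p W (fun w => Pr p D (Q1 w)) + Ex p W (fun w => Pr p D (Q2 w))) +
        Ex p W (fun w => Pr p D (Q3 w)) := by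
        rw [Ex_add, Ex_add]
    _ ≤ _ := by linarith only [hb1, hb2, hb3]

end Vale.Agent.P151.Red
end
end

section

/-!
# Module R6: the abstract dynamic renormalisation step

Any vertex set `V`; blocks indexed by `ℕ × ℕ`, `E u` = fresh edges of the block `u`; `X w a` = the
labels of the seed boxes of the block `w` entered in direction `a`; `Eb x` = edges of the seed box
`x`, `bx x` its vertices, `rp x` a vertex of it.
-/

set_option autoImplicit false
set_option linter.unusedSectionVars false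

noncomputable section

namespace Vale.Agent.P151.Red

open Vale.Agent.P151

/-- The data of the abstract exploration. -/
structure BD (V κ : Type) where
  /-- the origin -/
  o : V
  /-- edges of the blocks -/
  E : ℕ × ℕ → Finset (Sym2 V)
  /-- labels of the seed boxes of a block, for each direction of entrance -/
  X : ℕ × ℕ → Bool → Finset κ
  /-- edges of a seed box -/
  Eb : κ → Finset (Sym2 V)
  /-- vertices of a seed box -/
  bx : κ → Set V
  /-- a vertex of the seed box -/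
  rp : κ → V
  /-- number of edges of a seed box -/
  N : ℕ
  /-- number of seed boxes to be reached -/
  M : ℕ

namespace BD

variable {V κ : Type} [DecidableEq V] [DecidableEq κ] (D : BD V κ)

/-- Consistency of the data. -/
structure Ok : Prop where
  M_pos : 0 < D.M
  disjoint : ∀ u v, u ≠ v → Disjoint (D.E u) (D.E v)
  seed_subset : ∀ w a, ∀ x ∈ D.X w a, D.Eb x ⊆ D.E w
  seed_disjoint : ∀ w a, ∀ x ∈ D.X w a, ∀ y ∈ D.X w a, x ≠ y → Disjoint (D.Eb x) (D.Eb y)
  seed_card : ∀ w a, ∀ x ∈ D.X w a, (D.Eb x).card = D.N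
  seed_conn : ∀ w a, ∀ x ∈ D.X w a, ∀ v ∈ D.bx x,
    v ∈ cluster (↑(D.Eb x) : Set (Sym2 V)) (D.rp x)

/-- The edges of the block `w` which do not belong to the seed boxes. -/
def fr (w : ℕ × ℕ) (a : Bool) : Finset (Sym2 V) := D.E w \ (D.X w a).biUnion D.Eb

open Classical in
/-- `C` meets at least `M` seed boxes of the block `w`. -/
def Meets (w : ℕ × ℕ) (a : Bool) (C : Set V) : Prop :=
  D.M ≤ ((D.X w a).filter (fun x => ∃ v ∈ D.bx x, v ∈ C)).card

/-- The conditional probability that the cluster of `o` meets fewer than `M` seed boxes. -/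
def rho (p : ℝ) (w : ℕ × ℕ) (a : Bool) (S : Finset (Sym2 V)) : ℝ :=
  Pr p (D.fr w a) (fun T => ¬ D.Meets w a (cluster (↑(S ∪ T) : Set (Sym2 V)) D.o))

/-- The block `u` is good, given the open revealed edges `S`. -/
def Good (p ε : ℝ) (u : ℕ × ℕ) (S : Finset (Sym2 V)) : Prop :=
  ∀ a : Bool, D.rho p (nxt u a) a S ≤ ε

/-- Steering: from an open seed box of a block one reaches many seed boxes of the next blocks. -/
def Steer (p ε₁ : ℝ) : Prop :=
  ∀ (w : ℕ × ℕ) (a b : Bool), ∀ x ∈ D.X w a,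
    Pr p ((D.E w ∪ D.fr (nxt w b) b) \ D.Eb x) (fun T => ¬ D.Meets (nxt w b) b
      (cluster (↑(D.Eb x ∪ T) : Set (Sym2 V)) (D.rp x))) ≤ ε₁

/-- Steering from the origin: `B₀` are the edges of the first seed box. -/
def SteerStart (p ε₁ : ℝ) (B₀ : Finset (Sym2 V)) : Prop :=
  ∀ b : Bool, Pr p ((D.E (0, 0) ∪ D.fr (nxt (0, 0) b) b) \ B₀)
    (fun T => ¬ D.Meets (nxt (0, 0) b) b (cluster (↑(B₀ ∪ T) : Set (Sym2 V)) D.o)) ≤ ε₁

variable {D}

omit [DecidableEq V] [DecidableEq κ] in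
theorem Meets_mono {w : ℕ × ℕ} {a : Bool} {C C' : Set V} (h : C ⊆ C') (hC : D.Meets w a C) :
    D.Meets w a C' := by
  classical
  unfold Meets at *
  refine hC.trans (Finset.card_le_card ?_)
  intro x hx
  rw [Finset.mem_filter] at hx ⊢
  obtain ⟨h1, v, hv, hvC⟩ := hx
  exact ⟨h1, v, hv, h hvC⟩

theorem rho_nonneg {p : ℝ} (h0 : 0 ≤ p) (h1 : p ≤ 1) (w : ℕ × ℕ) (a : Bool)
    (S : Finset (Sym2 V)) : 0 ≤ D.rho p w a S := Pr_nonneg h0 h1 _ _

theorem rho_anti {p : ℝ} (h0 : 0 ≤ p) (h1 : p ≤ 1) {w : ℕ × ℕ} {a : Bool}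
    {S S' : Finset (Sym2 V)} (h : S ⊆ S') : D.rho p w a S' ≤ D.rho p w a S := by
  apply Pr_mono h0 h1
  intro T _ hT hM
  refine hT (Meets_mono (cluster_mono ?_ _) hM)
  exact_mod_cast Finset.union_subset_union_left h

theorem nxt_ne (w : ℕ × ℕ) (b : Bool) : nxt w b ≠ w := by
  intro h
  cases b
  · have := congrArg Prod.fst h
    simp only [nxt, Bool.false_eq_true, ↓reduceIte, Nat.add_eq_left, one_ne_zero] at this
  · have := congrArg Prod.snd h
    simp [nxt] at this

theorem fr_subset (w : ℕ × ℕ) (a : Bool) : D.fr w a ⊆ D.E w := Finset.sdiff_subset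

theorem disj_fr (hD : D.Ok) {w w' : ℕ × ℕ} (h : w ≠ w') (a : Bool) :
    Disjoint (D.E w) (D.fr w' a) :=
  Finset.disjoint_of_subset_right (fr_subset w' a) (hD.disjoint w w' h)

theorem fr_union (hD : D.Ok) (w : ℕ × ℕ) (a : Bool) :
    D.fr w a ∪ (D.X w a).biUnion D.Eb = D.E w := by
  unfold fr
  apply Finset.sdiff_union_of_subset
  exact Finset.biUnion_subset.2 (fun x hx => hD.seed_subset w a x hx)

open Classical in
/-- The seed boxes reached from the origin through `fr w a`. -/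
def Rch (D : BD V κ) (w : ℕ × ℕ) (a : Bool) (S T : Finset (Sym2 V)) : Finset κ :=
  (D.X w a).filter (fun x => ∃ v ∈ D.bx x,
    v ∈ cluster (↑(S ∪ (T ∩ D.fr w a)) : Set (Sym2 V)) D.o)

/-- The application of `oneStep`. -/
theorem one (KN : KNStar) {p : ℝ} (h0 : 0 < p) (h1 : p < 1) (hD : D.Ok) (ε₁ : ℝ) (hε₁ : 0 ≤ ε₁)
    (hst : D.Steer p ε₁) (w : ℕ × ℕ) (a b : Bool) (S : Finset (Sym2 V)) :
    Pr p (D.E w ∪ D.fr (nxt w b) b) (fun T => D.M ≤ (D.Rch w a S T).card ∧
      ¬ D.Meets (nxt w b) b (cluster (↑(S ∪ T) : Set (Sym2 V)) D.o)) ≤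
      4 / (D.M * p ^ D.N) + 3 * √ε₁ := by
  classical
  have hne : w ≠ nxt w b := (nxt_ne w b).symm
  have hdisj : ∀ x ∈ D.X w a, Disjoint (D.fr w a ∪ D.fr (nxt w b) b) (D.Eb x) := by
    intro x hx
    rw [Finset.disjoint_union_left]
    refine ⟨?_, ?_⟩
    · unfold fr
      apply Finset.disjoint_of_subset_right (Finset.subset_biUnion_of_mem D.Eb hx)
      exact Finset.sdiff_disjoint
    · exact (Finset.disjoint_of_subset_left (hD.seed_subset w a x hx) (disj_fr hD hne b)).symm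
  have hun : D.fr w a ∪ D.fr (nxt w b) b ∪ (D.X w a).biUnion D.Eb =
      D.E w ∪ D.fr (nxt w b) b := by
    rw [Finset.union_right_comm, fr_union hD]
  have h := oneStep KN h0 h1 S D.o (D.X w a) D.Eb D.bx D.rp D.N D.M hD.M_pos
    (hD.seed_disjoint w a) (hD.seed_card w a) (hD.seed_conn w a)
    (D.fr w a ∪ D.fr (nxt w b) b) (D.fr w a) Finset.subset_union_left hdisj
    (D.Meets (nxt w b) b) (fun C C' hC hm => Meets_mono hC hm) ε₁ hε₁ ?_
  · rw [hun] at h
    exact h
  · intro x hx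
    have hset : D.fr w a ∪ D.fr (nxt w b) b ∪ ((D.X w a).erase x).biUnion D.Eb =
        (D.E w ∪ D.fr (nxt w b) b) \ D.Eb x := by
      have h2 : (D.X w a).biUnion D.Eb = D.Eb x ∪ ((D.X w a).erase x).biUnion D.Eb := by
        conv_lhs => rw [← Finset.insert_erase hx]
        rw [Finset.biUnion_insert]
      have h3 : Disjoint (D.Eb x) (((D.X w a).erase x).biUnion D.Eb) := by
        rw [Finset.disjoint_biUnion_right]
        intro y hy
        rw [Finset.mem_erase] at hy
        exact hD.seed_disjoint w a x hx y hy.2 (Ne.symm hy.1)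
      rw [← hun, h2]
      rw [Finset.union_left_comm, Finset.union_sdiff_distrib, Finset.sdiff_self,
        Finset.empty_union]
      symm
      apply Finset.sdiff_eq_self_of_disjoint
      rw [Finset.disjoint_union_left]
      exact ⟨hdisj x hx, h3.symm⟩
    rw [hset]
    refine le_trans (Pr_mono h0.le h1.le ?_) (hst w a b x hx)
    intro T _ hT hM
    refine hT (Meets_mono (cluster_mono ?_ _) hM)
    exact_mod_cast Finset.subset_union_right

/-- `P(|R| ≥ M, rho > ε') ≤ κ / ε'`. -/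
theorem one_markov (KN : KNStar) {p : ℝ} (h0 : 0 < p) (h1 : p < 1) (hD : D.Ok) (ε₁ : ℝ)
    (hε₁ : 0 ≤ ε₁) (hst : D.Steer p ε₁) (ε' : ℝ) (hε' : 0 < ε') (w : ℕ × ℕ) (a b : Bool)
    (S : Finset (Sym2 V)) :
    Pr p (D.E w) (fun T => D.M ≤ (D.Rch w a S T).card ∧ ¬ D.rho p (nxt w b) b (S ∪ T) ≤ ε') ≤
      (4 / (D.M * p ^ D.N) + 3 * √ε₁) / ε' := by
  have hne : w ≠ nxt w b := (nxt_ne w b).symm
  have hone := one KN h0 h1 hD ε₁ hε₁ hst w a b S
  rw [Pr_union p (disj_fr hD hne b)] at hone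
  set f : Finset (Sym2 V) → ℝ := fun T =>
    ind (D.M ≤ (D.Rch w a S T).card) * D.rho p (nxt w b) b (S ∪ T) with hf
  have hf0 : ∀ T, 0 ≤ f T := fun T => mul_nonneg (ind_nonneg _) (rho_nonneg h0.le h1.le _ _ _)
  have hle : Ex p (D.E w) f ≤ 4 / (D.M * p ^ D.N) + 3 * √ε₁ := by
    refine le_trans (Ex_mono h0.le h1.le ?_) hone
    intro T hT
    have hR : ∀ T' ⊆ D.fr (nxt w b) b, D.Rch w a S (T ∪ T') = D.Rch w a S T := by
      intro T' hT'
      unfold Rch
      have hinter : (T ∪ T') ∩ D.fr w a = T ∩ D.fr w a := by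
        rw [Finset.union_inter_distrib_right]
        have : T' ∩ D.fr w a = ∅ := by
          rw [← Finset.disjoint_iff_inter_eq_empty]
          exact (Finset.disjoint_of_subset_left (fr_subset w a)
            (Finset.disjoint_of_subset_right hT' (disj_fr hD hne b))).symm
        rw [this, Finset.union_empty]
      rw [hinter]
    by_cases hM : D.M ≤ (D.Rch w a S T).card
    · rw [hf]
      simp only
      rw [ind_true hM, one_mul]
      unfold rho
      apply Pr_mono h0.le h1.le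
      intro T' hT' hnot
      refine ⟨by rw [hR T' hT']; exact hM, ?_⟩
      rw [Finset.union_assoc] at hnot
      exact hnot
    · rw [hf]
      simp only
      rw [ind_false hM, zero_mul]
      exact Pr_nonneg h0.le h1.le _ _
  have hmk := markov_Ex h0.le h1.le (D.E w) f (fun T _ => hf0 T) ε' hε'.le
  have h2 : Pr p (D.E w) (fun T => D.M ≤ (D.Rch w a S T).card ∧
      ¬ D.rho p (nxt w b) b (S ∪ T) ≤ ε') ≤ Pr p (D.E w) (fun T => ε' ≤ f T) := by
    apply Pr_mono h0.le h1.le
    rintro T _ ⟨hM, hr⟩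
    rw [hf]
    simp only
    rw [ind_true hM, one_mul]
    exact (not_le.1 hr).le
  rw [le_div_iff₀ hε']
  calc Pr p (D.E w) (fun T => D.M ≤ (D.Rch w a S T).card ∧
        ¬ D.rho p (nxt w b) b (S ∪ T) ≤ ε') * ε'
      ≤ Pr p (D.E w) (fun T => ε' ≤ f T) * ε' := mul_le_mul_of_nonneg_right h2 hε'.le
    _ = ε' * Pr p (D.E w) (fun T => ε' ≤ f T) := mul_comm _ _
    _ ≤ Ex p (D.E w) f := hmk
    _ ≤ _ := hle

/-- **The dynamic renormalisation step.** -/
theorem block_step (KN : KNStar) {p : ℝ} (h0 : 0 < p) (h1 : p < 1) (hD : D.Ok) (ε₁ : ℝ)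
    (hε₁ : 0 ≤ ε₁) (hst : D.Steer p ε₁) (ε' : ℝ) (hε' : 0 < ε') (w : ℕ × ℕ) (a : Bool)
    (S : Finset (Sym2 V)) (hS : D.rho p w a S ≤ ε') :
    Pr p (D.E w) (fun T => ¬ D.Good p ε' w (S ∪ T)) ≤
      ε' + 2 * (4 / (D.M * p ^ D.N) + 3 * √ε₁) / ε' := by
  classical
  have hfew : Pr p (D.E w) (fun T => ¬ D.M ≤ (D.Rch w a S T).card) ≤ ε' := by
    refine le_trans (le_of_eq ?_) hS
    unfold rho
    rw [Pr_restrict p (fr_subset w a)]
    · apply Pr_congr
      intro T hT
      unfold Rch Meets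
      rw [Finset.inter_eq_left.2 hT]
    · intro T _
      unfold Rch
      rw [Finset.inter_assoc, Finset.inter_self]
  have ha := one_markov KN h0 h1 hD ε₁ hε₁ hst ε' hε' w a false S
  have hb := one_markov KN h0 h1 hD ε₁ hε₁ hst ε' hε' w a true S
  have hsub : Pr p (D.E w) (fun T => ¬ D.Good p ε' w (S ∪ T)) ≤
      Pr p (D.E w) (fun T => ¬ D.M ≤ (D.Rch w a S T).card ∨
        ((D.M ≤ (D.Rch w a S T).card ∧ ¬ D.rho p (nxt w false) false (S ∪ T) ≤ ε') ∨
        (D.M ≤ (D.Rch w a S T).card ∧ ¬ D.rho p (nxt w true) true (S ∪ T) ≤ ε'))) := by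
    apply Pr_mono h0.le h1.le
    intro T _ hT
    by_cases hM : D.M ≤ (D.Rch w a S T).card
    · right
      unfold Good at hT
      push Not at hT
      obtain ⟨c, hc⟩ := hT
      cases c
      · exact Or.inl ⟨hM, not_le.2 hc⟩
      · exact Or.inr ⟨hM, not_le.2 hc⟩
    · exact Or.inl hM
  have hor1 := Pr_or_le h0.le h1.le (D.E w) (fun T => ¬ D.M ≤ (D.Rch w a S T).card)
    (fun T => (D.M ≤ (D.Rch w a S T).card ∧ ¬ D.rho p (nxt w false) false (S ∪ T) ≤ ε') ∨
        (D.M ≤ (D.Rch w a S T).card ∧ ¬ D.rho p (nxt w true) true (S ∪ T) ≤ ε'))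
  have hor2 := Pr_or_le h0.le h1.le (D.E w)
    (fun T => D.M ≤ (D.Rch w a S T).card ∧ ¬ D.rho p (nxt w false) false (S ∪ T) ≤ ε')
    (fun T => D.M ≤ (D.Rch w a S T).card ∧ ¬ D.rho p (nxt w true) true (S ∪ T) ≤ ε')
  have h2 : ε' + 2 * (4 / (D.M * p ^ D.N) + 3 * √ε₁) / ε' =
      ε' + ((4 / (D.M * p ^ D.N) + 3 * √ε₁) / ε' + (4 / (D.M * p ^ D.N) + 3 * √ε₁) / ε') := by
    ring
  rw [h2]
  linarith only [hfew, ha, hb, hsub, hor1, hor2]

/-- The start. -/
theorem start_good {p : ℝ} (h0 : 0 < p) (h1 : p < 1) (hD : D.Ok) (ε₁ : ℝ)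
    (B₀ : Finset (Sym2 V)) (hB₀ : B₀ ⊆ D.E (0, 0)) (hst : D.SteerStart p ε₁ B₀) (ε' : ℝ)
    (hε' : 0 < ε') :
    p ^ B₀.card * (1 - 2 * ε₁ / ε') ≤ Pr p (D.E (0, 0)) (fun T => D.Good p ε' (0, 0) T) := by
  classical
  have hbad : ∀ b : Bool, Pr p (D.E (0, 0) \ B₀)
      (fun T => ¬ D.rho p (nxt (0, 0) b) b (B₀ ∪ T) ≤ ε') ≤ ε₁ / ε' := by
    intro b
    have hne : (0, 0) ≠ nxt (0, 0) b := (nxt_ne (0, 0) b).symm
    have hd := disj_fr hD hne b
    have hset : (D.E (0, 0) ∪ D.fr (nxt (0, 0) b) b) \ B₀ =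
        (D.E (0, 0) \ B₀) ∪ D.fr (nxt (0, 0) b) b := by
      rw [Finset.union_sdiff_distrib]
      congr 1
      apply Finset.sdiff_eq_self_of_disjoint
      exact (Finset.disjoint_of_subset_left hB₀ hd).symm
    have h2 := hst b
    rw [hset, Pr_union p (Finset.disjoint_of_subset_left Finset.sdiff_subset hd)] at h2
    have h3 : Ex p (D.E (0, 0) \ B₀) (fun T => D.rho p (nxt (0, 0) b) b (B₀ ∪ T)) ≤ ε₁ := by
      refine le_trans (le_of_eq ?_) h2
      apply Ex_congr
      intro T _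
      unfold rho
      apply Pr_congr
      intro T' _
      rw [Finset.union_assoc]
    have hmk := markov_Ex h0.le h1.le (D.E (0, 0) \ B₀)
      (fun T => D.rho p (nxt (0, 0) b) b (B₀ ∪ T)) (fun T _ => rho_nonneg h0.le h1.le _ _ _)
      ε' hε'.le
    have h4 : Pr p (D.E (0, 0) \ B₀) (fun T => ¬ D.rho p (nxt (0, 0) b) b (B₀ ∪ T) ≤ ε') ≤
        Pr p (D.E (0, 0) \ B₀) (fun T => ε' ≤ D.rho p (nxt (0, 0) b) b (B₀ ∪ T)) := by
      apply Pr_mono h0.le h1.le
      intro T _ hT
      exact (not_le.1 hT).le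
    rw [le_div_iff₀ hε']
    calc _ ≤ Pr p (D.E (0, 0) \ B₀) (fun T => ε' ≤ D.rho p (nxt (0, 0) b) b (B₀ ∪ T)) * ε' :=
          mul_le_mul_of_nonneg_right h4 hε'.le
      _ = ε' * Pr p (D.E (0, 0) \ B₀) (fun T => ε' ≤ D.rho p (nxt (0, 0) b) b (B₀ ∪ T)) :=
          mul_comm _ _
      _ ≤ _ := hmk.trans h3
  have hgood : 1 - 2 * ε₁ / ε' ≤ Pr p (D.E (0, 0) \ B₀)
      (fun T => D.Good p ε' (0, 0) (B₀ ∪ T)) := by
    have h2 : Pr p (D.E (0, 0) \ B₀) (fun T => ¬ D.Good p ε' (0, 0) (B₀ ∪ T)) ≤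
        Pr p (D.E (0, 0) \ B₀) (fun T => ¬ D.rho p (nxt (0, 0) false) false (B₀ ∪ T) ≤ ε' ∨
          ¬ D.rho p (nxt (0, 0) true) true (B₀ ∪ T) ≤ ε') := by
      apply Pr_mono h0.le h1.le
      intro T _ hT
      unfold Good at hT
      push Not at hT
      obtain ⟨c, hc⟩ := hT
      cases c
      · exact Or.inl (not_le.2 hc)
      · exact Or.inr (not_le.2 hc)
    have h3 := Pr_or_le h0.le h1.le (D.E (0, 0) \ B₀)
      (fun T => ¬ D.rho p (nxt (0, 0) false) false (B₀ ∪ T) ≤ ε')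
      (fun T => ¬ D.rho p (nxt (0, 0) true) true (B₀ ∪ T) ≤ ε')
    have h4 := Pr_not (p := p) (D.E (0, 0) \ B₀) (fun T => D.Good p ε' (0, 0) (B₀ ∪ T))
    have h5 := hbad false
    have h6 := hbad true
    have h7 : 2 * ε₁ / ε' = ε₁ / ε' + ε₁ / ε' := by ring
    rw [h7]
    linarith only [h2, h3, h4, h5, h6]
  have hpow : 0 ≤ p ^ B₀.card := pow_nonneg h0.le _
  have hun : B₀ ∪ (D.E (0, 0) \ B₀) = D.E (0, 0) := Finset.union_sdiff_of_subset hB₀
  rw [← hun, Pr_union p Finset.disjoint_sdiff]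
  have h2 : p ^ B₀.card * (1 - 2 * ε₁ / ε') ≤ Ex p B₀ (fun S => ind (B₀ ⊆ S) *
      Pr p (D.E (0, 0) \ B₀) (fun T => D.Good p ε' (0, 0) (B₀ ∪ T))) := by
    rw [Ex_mul_const]
    have h3 : Ex p B₀ (fun S => ind (B₀ ⊆ S)) = p ^ B₀.card :=
      Pr_all_open p (Finset.Subset.refl B₀)
    rw [h3]
    exact mul_le_mul_of_nonneg_left hgood hpow
  refine h2.trans (Ex_mono h0.le h1.le ?_)
  intro S hS
  by_cases hSB : B₀ ⊆ S
  · have : S = B₀ := Finset.Subset.antisymm hS hSB
    subst this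
    rw [ind_true (Finset.Subset.refl _), one_mul]
  · rw [ind_false hSB, zero_mul]
    exact Pr_nonneg h0.le h1.le _ _

/-- If a block is good then the cluster of the origin comes close to the next blocks. -/
theorem far_of_good {p : ℝ} (hD : D.Ok) {ε' : ℝ} (hε' : ε' < 1) {u : ℕ × ℕ}
    {S : Finset (Sym2 V)} (h : D.Good p ε' u S) (a : Bool) :
    ∃ v ∈ cluster (↑S : Set (Sym2 V)) D.o,
      (∃ x ∈ D.X (nxt u a) a, v ∈ D.bx x) ∨ (∃ e ∈ D.E (nxt u a), v ∈ e) := by
  classical
  have h2 := h a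
  by_contra hno
  push Not at hno
  have h3 : D.rho p (nxt u a) a S = 1 := by
    unfold rho
    have : Pr p (D.fr (nxt u a) a) (fun _ => True) = 1 := by
      unfold Pr
      simp only [ind_true trivial]
      exact Ex_const _ _ _
    rw [← this]
    apply Pr_congr
    intro T hT
    refine ⟨fun _ => trivial, fun _ hM => ?_⟩
    -- no new vertex can be reached
    have hcl : cluster (↑(S ∪ T) : Set (Sym2 V)) D.o ⊆ cluster (↑S : Set (Sym2 V)) D.o := by
      intro v hv
      have key : Cn (S ∪ T) D.o v := hv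
      refine Cn_closed (A := {v | Cn S D.o v}) ?_ (Cn.refl _ _) key
      intro y hy z hyz
      rw [Finset.mem_union] at hyz
      rcases hyz with hyz | hyz
      · exact Cn.trans hy (Cn_of_mem hyz)
      · exfalso
        exact (hno y hy).2 _ (fr_subset _ _ (hT hyz)) (by simp)
    unfold Meets at hM
    have hpos : 0 < ((D.X (nxt u a) a).filter (fun x => ∃ v ∈ D.bx x,
        v ∈ cluster (↑(S ∪ T) : Set (Sym2 V)) D.o)).card := lt_of_lt_of_le hD.M_pos hM
    obtain ⟨x, hx⟩ := Finset.card_pos.1 hpos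
    rw [Finset.mem_filter] at hx
    obtain ⟨h4, v, hv, hvC⟩ := hx
    exact (hno v (hcl hvC)).1 x h4 hv
  rw [h3] at h2
  linarith

end BD

end Vale.Agent.P151.Red
end
end

section

/-!
# Module R6: conclusion of the abstract exploration
-/

set_option autoImplicit false
set_option linter.unusedSectionVars false

noncomputable section

namespace Vale.Agent.P151.Red

open Vale.Agent.P151 Vale.Agent.P151.Red.AD Vale.Agent.P151.Red.OP

theorem gm_ind_eq {ι : Type} [DecidableEq ι] (Q : Finset ι → Prop) (S : Finset ι) :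
    GM.ind Q S = ind (Q S) := by
  by_cases h : Q S
  · rw [GM.ind_pos h, ind_true h]
  · rw [GM.ind_neg h, ind_false h]

theorem Ex_gm_ind {ι : Type} [DecidableEq ι] (p : ℝ) (B : Finset ι) (Q : Finset ι → Prop) :
    Ex p B (GM.ind Q) = Pr p B Q := by
  unfold Pr
  apply Ex_congr
  intro S _
  exact gm_ind_eq Q S

theorem child_nxt {u s : ℕ × ℕ} (h : ChildN u s) : ∃ a, s = nxt u a := by
  rcases h with h | h
  · exact ⟨false, by rw [h]; rfl⟩
  · exact ⟨true, by rw [h]; rfl⟩

namespace BD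

variable {V κ : Type} [DecidableEq V] [DecidableEq κ] {D : BD V κ}

/-- The good blocks of a configuration. -/
def Occ (D : BD V κ) (p ε' : ℝ) (T : Finset (Sym2 V)) : Set (ℕ × ℕ) :=
  {s | D.Good p ε' s (T ∩ Rs D.E (num s + 1))}

theorem num_zero : num (0, 0) = 0 := by
  unfold num
  decide

theorem Rs_one (D : BD V κ) : Rs D.E 1 = D.E (0, 0) := by
  unfold Rs Rg
  rw [Finset.range_one, Finset.singleton_biUnion]
  rfl

theorem Rs_succ_num (D : BD V κ) (s : ℕ × ℕ) : Rs D.E (num s + 1) = Rs D.E (num s) ∪ D.E s := by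
  unfold Rs
  rw [Rg_succ, unpair_num]

/-- **The abstract exploration.** -/
theorem abs_main (KN : KNStar) {p : ℝ} (h0 : 0 < p) (h1 : p < 1) (hD : D.Ok) (ε₁ : ℝ)
    (hε₁ : 0 ≤ ε₁) (hst : D.Steer p ε₁) (B₀ : Finset (Sym2 V)) (hB₀ : B₀ ⊆ D.E (0, 0))
    (hst0 : D.SteerStart p ε₁ B₀) (ε' : ℝ) (hε' : 0 < ε')
    (hγ : ε' + 2 * (4 / (D.M * p ^ D.N) + 3 * √ε₁) / ε' ≤ 1 / 6561) (L : ℕ) :
    ∃ n : ℕ, 1 / 2 * (p ^ B₀.card * (1 - 2 * ε₁ / ε')) ≤ Pr p (Rs D.E n)
      (fun T => ∃ s : ℕ × ℕ, s.1 + s.2 = L ∧ D.Good p ε' s (T ∩ Rs D.E (num s + 1))) := by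
  have hz : (0, 0) = ((0, 0) : ℕ × ℕ) := rfl
  have hgood0 : ∀ T, D.Good p ε' (0, 0) (T ∩ Rs D.E 1) ↔ (0, 0) ∈ D.Occ p ε' T := by
    intro T
    unfold Occ
    rw [Set.mem_ofPred_eq, num_zero]
  have hreach : ∀ T, D.Good p ε' (0, 0) (T ∩ Rs D.E 1) → ∀ u ∈ reachN (D.Occ p ε' T),
      u ∈ D.Occ p ε' T := by
    intro T hT u hu
    cases hu with
    | refl => exact (hgood0 T).1 hT
    | tail _ h => exact h.2
  have hexp := exploration h0.le h1.le D.E hD.disjoint
    (fun T => D.Good p ε' (0, 0) (T ∩ Rs D.E 1))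
    (fun T => by
      show _ ↔ D.Good p ε' (0, 0) (T ∩ Rs D.E 1 ∩ Rs D.E 1)
      rw [Finset.inter_assoc, Finset.inter_self])
    (D.Occ p ε')
    (fun s T => by
      show D.Good p ε' s (T ∩ Rs D.E (num s + 1)) ↔
        D.Good p ε' s (T ∩ Rs D.E (num s + 1) ∩ Rs D.E (num s + 1))
      rw [Finset.inter_assoc, Finset.inter_self])
    (by
      intro s _ T hT hStart hpar
      obtain ⟨u, hu, hc⟩ := hpar
      obtain ⟨a, rfl⟩ := child_nxt hc
      have hocc : D.Good p ε' u (T ∩ Rs D.E (num u + 1)) := hreach T hStart u hu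
      have hrho : D.rho p (nxt u a) a T ≤ ε' :=
        (rho_anti h0.le h1.le Finset.inter_subset_left).trans (hocc a)
      have hstep := block_step KN h0 h1 hD ε₁ hε₁ hst ε' hε' (nxt u a) a T hrho
      refine le_trans (le_of_eq ?_) (hstep.trans hγ)
      unfold Pr
      apply Ex_congr
      intro B hB
      rw [gm_ind_eq]
      congr 1
      apply propext
      apply not_congr
      show D.Good p ε' (nxt u a) ((T ∪ B) ∩ Rs D.E (num (nxt u a) + 1)) ↔ _
      have hsub : T ∪ B ⊆ Rs D.E (num (nxt u a) + 1) := by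
        rw [Rs_succ_num]
        exact Finset.union_subset_union hT hB
      rw [Finset.inter_eq_left.2 hsub])
    L ((L + 1) ^ 2 + 1)
    (by
      intro s hs
      have h2 := Nat.pair_lt_max_add_one_sq s.1 s.2
      have h3 : max s.1 s.2 + 1 ≤ L + 1 := by omega
      have h4 : (max s.1 s.2 + 1) ^ 2 ≤ (L + 1) ^ 2 := Nat.pow_le_pow_left h3 2
      unfold num
      omega)
  refine ⟨(L + 1) ^ 2 + 1, ?_⟩
  rw [Ex_gm_ind, Ex_gm_ind] at hexp
  have hs := start_good h0 h1 hD ε₁ B₀ hB₀ hst0 ε' hε'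
  have hs2 : Pr p (Rs D.E 1) (fun T => D.Good p ε' (0, 0) (T ∩ Rs D.E 1)) =
      Pr p (D.E (0, 0)) (fun T => D.Good p ε' (0, 0) T) := by
    rw [Rs_one]
    apply Pr_congr
    intro T hT
    rw [Finset.inter_eq_left.2 hT]
  rw [hs2] at hexp
  have h5 : 1 / 2 * (p ^ B₀.card * (1 - 2 * ε₁ / ε')) ≤
      1 / 2 * Pr p (D.E (0, 0)) (fun T => D.Good p ε' (0, 0) T) := by linarith only [hs]
  refine h5.trans (hexp.trans (Pr_mono h0.le h1.le ?_))
  rintro T _ ⟨hStart, s, hs, hsL⟩
  exact ⟨s, hsL, hreach T hStart s hs⟩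

/-- The cluster of the origin comes close to blocks of every level. -/
theorem abs_far (KN : KNStar) {p : ℝ} (h0 : 0 < p) (h1 : p < 1) (hD : D.Ok) (ε₁ : ℝ)
    (hε₁ : 0 ≤ ε₁) (hst : D.Steer p ε₁) (B₀ : Finset (Sym2 V)) (hB₀ : B₀ ⊆ D.E (0, 0))
    (hst0 : D.SteerStart p ε₁ B₀) (ε' : ℝ) (hε' : 0 < ε')
    (hγ : ε' + 2 * (4 / (D.M * p ^ D.N) + 3 * √ε₁) / ε' ≤ 1 / 6561) (L : ℕ) :
    ∃ n : ℕ, 1 / 2 * (p ^ B₀.card * (1 - 2 * ε₁ / ε')) ≤ Pr p (Rs D.E n)
      (fun T => ∃ (w : ℕ × ℕ) (a : Bool), w.1 + w.2 = L + 1 ∧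
        ∃ v ∈ cluster (↑T : Set (Sym2 V)) D.o,
          (∃ x ∈ D.X w a, v ∈ D.bx x) ∨ (∃ e ∈ D.E w, v ∈ e)) := by
  obtain ⟨n, hn⟩ := abs_main KN h0 h1 hD ε₁ hε₁ hst B₀ hB₀ hst0 ε' hε' hγ L
  refine ⟨n, hn.trans (Pr_mono h0.le h1.le ?_)⟩
  rintro T _ ⟨s, hsL, hgood⟩
  have hM : (0 : ℝ) < D.M := by exact_mod_cast hD.M_pos
  have hε1 : ε' < 1 := by
    have h2 : 0 ≤ 2 * (4 / (D.M * p ^ D.N) + 3 * √ε₁) / ε' := by
      have := pow_pos h0 D.N
      (clear * - hM h0 hε'; positivity)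
    linarith only [hγ, h2]
  obtain ⟨v, hv, h⟩ := far_of_good hD hε1 hgood false
  refine ⟨nxt s false, false, ?_, v, ?_, h⟩
  · simp only [nxt, Bool.false_eq_true, if_false]
    omega
  · refine cluster_mono ?_ _ hv
    exact_mod_cast Finset.inter_subset_left

end BD

end Vale.Agent.P151.Red
end
end

section

/-!
# Module R4c: translation invariance

PROOF. `T ↦ T.image (Sym2.map (· + y))` is a bijection between the subsets of `star n 0` and of
`star n y`; clusters, boxes and face orthants are translated.  (General lemma: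
`Ex p (B.image f) F = Ex p B (fun T => F (T.image f))` for injective `f`.)
-/

set_option autoImplicit false

noncomputable section

namespace Vale.Agent.P151.Red

open Vale.Agent.P151

/-- Expectation over the subsets of an image. -/
theorem Ex_image_inj {ι κ : Type} [DecidableEq ι] [DecidableEq κ] {f : ι → κ}
    (hf : Function.Injective f) (p : ℝ) (B : Finset ι) (F : Finset κ → ℝ) :
    Ex p (B.image f) F = Ex p B (fun T => F (T.image f)) := by
  induction B using Finset.induction_on generalizing F with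
  | empty => rw [Finset.image_empty, Ex_empty, Ex_empty, Finset.image_empty]
  | insert a s ha ih =>
    have h1 : f a ∉ s.image f := by
      rw [Finset.mem_image]
      rintro ⟨b, hb, hab⟩
      exact ha (hf hab ▸ hb)
    rw [Finset.image_insert, Ex_insert p h1, Ex_insert p ha, ih, ih]
    congr 2
    refine Ex_congr p fun T _ => ?_
    rw [Finset.image_insert]

theorem cluster_equiv_mp {V : Type} [DecidableEq V] (g : V ≃ V) (T : Finset (Sym2 V)) {u v : V}
    (h : v ∈ cluster (↑T : Set (Sym2 V)) u) :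
    g v ∈ cluster (↑(T.image (Sym2.map g)) : Set (Sym2 V)) (g u) := by
  let φ : SimpleGraph.fromEdgeSet (↑T : Set (Sym2 V)) →g
      SimpleGraph.fromEdgeSet (↑(T.image (Sym2.map g)) : Set (Sym2 V)) :=
    ⟨g, by
      intro a b hab
      rw [SimpleGraph.fromEdgeSet_adj] at hab ⊢
      refine ⟨?_, fun hc => hab.2 (g.injective hc)⟩
      rw [Finset.mem_coe, Finset.mem_image]
      exact ⟨s(a, b), hab.1, rfl⟩⟩
  exact SimpleGraph.Reachable.map φ h

theorem cluster_equiv {V : Type} [DecidableEq V] (g : V ≃ V) (T : Finset (Sym2 V)) (u v : V) :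
    g v ∈ cluster (↑(T.image (Sym2.map g)) : Set (Sym2 V)) (g u) ↔
      v ∈ cluster (↑T : Set (Sym2 V)) u := by
  constructor
  · intro h
    have h1 := cluster_equiv_mp g.symm _ h
    rw [Finset.image_image, ← Sym2.map_comp, Equiv.symm_comp_self, Sym2.map_id,
      Finset.image_id, Equiv.symm_apply_apply, Equiv.symm_apply_apply] at h1
    exact h1
  · exact cluster_equiv_mp g T

variable {m : ℕ}

end Vale.Agent.P151.Red
end
end

section

/-!
# The critical probability is smaller than one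

`pc_lt_one_of_quadrant`: if the quadrant `ℕ × ℕ` embeds in `G`, then `pc G < 1`.
-/

set_option autoImplicit false

open MeasureTheory ProbabilityTheory unitInterval Filter

namespace Vale.Agent.P151.Red.PL

open Vale.Agent.P151.Red.OP

universe u

section inc

variable {V : Type u} (pt : ℕ × ℕ → V)

open Classical in
/-- The edges from the parents of `w` to `w`. -/
noncomputable def inc (w : ℕ × ℕ) : Finset (Sym2 V) :=
  (if 1 ≤ w.1 then {s(pt (w.1 - 1, w.2), pt w)} else ∅) ∪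
    (if 1 ≤ w.2 then {s(pt (w.1, w.2 - 1), pt w)} else ∅)

theorem mem_inc {w : ℕ × ℕ} {e : Sym2 V} :
    e ∈ inc pt w ↔ ∃ u : ℕ × ℕ, ChildN u w ∧ e = s(pt u, pt w) := by
  classical
  unfold inc
  rw [Finset.mem_union]
  constructor
  · rintro (h | h)
    · by_cases h1 : 1 ≤ w.1
      · rw [if_pos h1, Finset.mem_singleton] at h
        exact ⟨(w.1 - 1, w.2), Or.inl (Prod.ext (by show w.1 = w.1 - 1 + 1; omega) rfl), h⟩
      · rw [if_neg h1] at h
        simp at h
    · by_cases h1 : 1 ≤ w.2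
      · rw [if_pos h1, Finset.mem_singleton] at h
        exact ⟨(w.1, w.2 - 1), Or.inr (Prod.ext rfl (by show w.2 = w.2 - 1 + 1; omega)), h⟩
      · rw [if_neg h1] at h
        simp at h
  · rintro ⟨u, hu, rfl⟩
    rcases hu with hu | hu
    · left
      have h1 : 1 ≤ w.1 := by rw [hu]; simp only [le_add_iff_nonneg_left, zero_le]
      have h2 : (w.1 - 1, w.2) = u := by rw [hu]; simp only [add_tsub_cancel_right, Prod.mk.eta]
      rw [if_pos h1, Finset.mem_singleton, h2]
    · right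
      have h1 : 1 ≤ w.2 := by rw [hu]; simp only [le_add_iff_nonneg_left, zero_le]
      have h2 : (w.1, w.2 - 1) = u := by rw [hu]; simp only [add_tsub_cancel_right, Prod.mk.eta]
      rw [if_pos h1, Finset.mem_singleton, h2]

theorem card_inc_le (w : ℕ × ℕ) : (inc pt w).card ≤ 2 := by
  classical
  unfold inc
  refine (Finset.card_union_le _ _).trans ?_
  have h1 : (if 1 ≤ w.1 then ({s(pt (w.1 - 1, w.2), pt w)} : Finset (Sym2 V)) else ∅).card ≤ 1 := by
    split_ifs <;> simp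
  have h2 : (if 1 ≤ w.2 then ({s(pt (w.1, w.2 - 1), pt w)} : Finset (Sym2 V)) else ∅).card ≤ 1 := by
    split_ifs <;> simp
  omega

theorem level_child {u w : ℕ × ℕ} (h : ChildN u w) : w.1 + w.2 = u.1 + u.2 + 1 := by
  rcases h with h | h <;> rw [h] <;> simp only <;> omega

theorem inc_disjoint (hinj : Function.Injective pt) {w w' : ℕ × ℕ} (hne : w ≠ w') :
    Disjoint (inc pt w) (inc pt w') := by
  rw [Finset.disjoint_left]
  intro e he he'
  rw [mem_inc] at he he'
  obtain ⟨u, hu, rfl⟩ := he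
  obtain ⟨u', hu', h⟩ := he'
  rw [Sym2.eq_iff] at h
  rcases h with ⟨_, h⟩ | ⟨h1, h2⟩
  · exact hne (hinj h)
  · have h3 := hinj h1
    have h4 := hinj h2
    have h5 := level_child hu
    have h6 := level_child hu'
    rw [← h4, ← h3] at h6
    omega

end inc

section prob

open Classical in
/-- The indicator of a proposition. -/
noncomputable def ind (P : Prop) : ℝ := if P then 1 else 0

theorem ind_pos {P : Prop} (h : P) : ind P = 1 := by
  unfold ind
  exact if_pos h

theorem ind_neg {P : Prop} (h : ¬ P) : ind P = 0 := by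
  unfold ind
  exact if_neg h

theorem ind_nonneg (P : Prop) : 0 ≤ ind P := by
  by_cases h : P
  · rw [ind_pos h]; exact zero_le_one
  · rw [ind_neg h]

theorem ind_mono {P Q : Prop} (h : P → Q) : ind P ≤ ind Q := by
  by_cases hP : P
  · rw [ind_pos hP, ind_pos (h hP)]
  · rw [ind_neg hP]; exact ind_nonneg Q

theorem ind_congr {P Q : Prop} (h : P ↔ Q) : ind P = ind Q := by
  rw [propext h]

theorem ind_and (P Q : Prop) : ind (P ∧ Q) = ind P * ind Q := by
  by_cases hP : P
  · by_cases hQ : Q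
    · rw [ind_pos hP, ind_pos hQ, ind_pos ⟨hP, hQ⟩, mul_one]
    · rw [ind_neg hQ, ind_neg (fun h => hQ h.2), mul_zero]
  · rw [ind_neg hP, ind_neg (fun h => hP h.1), zero_mul]

theorem ind_not (P : Prop) : ind (¬ P) = 1 - ind P := by
  by_cases hP : P
  · rw [ind_pos hP, ind_neg (not_not.2 hP), sub_self]
  · rw [ind_neg hP, ind_pos hP, sub_zero]

theorem Ex_subset {ι : Type*} [DecidableEq ι] (p : ℝ) (A : Finset ι) :
    Ex p A (fun T => ind (A ⊆ T)) = p ^ A.card := by
  unfold Ex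
  rw [Finset.sum_eq_single A]
  · simp only [ind_pos (Finset.Subset.refl A)]
    simp
  · intro S hS hne
    simp only
    rw [ind_neg, mul_zero]
    intro h
    exact hne (Finset.Subset.antisymm (Finset.mem_powerset.1 hS) h)
  · intro h
    exact absurd (Finset.mem_powerset_self A) h

theorem Ex_not_subset {ι : Type*} [DecidableEq ι] {p : ℝ} (h1 : p ≤ 1) (A : Finset ι)
    (hA : A.card ≤ 2) : Ex p A (fun T => ind (¬ A ⊆ T)) ≤ 2 * (1 - p) := by
  have h : Ex p A (fun T => ind (¬ A ⊆ T)) = 1 - p ^ A.card := by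
    rw [← Ex_subset p A]
    have h2 : (1 : ℝ) = Ex p A (fun _ => 1) := (Ex_const p A 1).symm
    rw [h2, ← Ex_sub]
    apply Ex_congr
    intro S _
    exact ind_not _
  rw [h]
  have h3 : A.card = 0 ∨ A.card = 1 ∨ A.card = 2 := by omega
  rcases h3 with h3 | h3 | h3
  · rw [h3]; simp only [pow_zero, sub_self, Nat.ofNat_pos, mul_nonneg_iff_of_pos_left, sub_nonneg, ge_iff_le]; exact h1
  · rw [h3]; simp only [pow_one, tsub_le_iff_right, ge_iff_le]; linarith only [h1]
  · rw [h3]; nlinarith only [sq_nonneg (1 - p)]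

variable {V : Type u} [DecidableEq V] (pt : ℕ × ℕ → V)

theorem Ex_all_fail (hinj : Function.Injective pt) {p : ℝ} (h0 : 0 ≤ p) (h1 : p ≤ 1)
    (S : Finset (ℕ × ℕ)) :
    Ex p (S.biUnion (inc pt)) (fun T => ind (∀ w ∈ S, ¬ inc pt w ⊆ T)) ≤
      (2 * (1 - p)) ^ S.card := by
  induction S using Finset.induction_on with
  | empty =>
    simp only [Finset.biUnion_empty, Ex_empty, Finset.card_empty, pow_zero]
    rw [ind_pos (by simp)]
  | insert w S hw ih =>
    have hd : Disjoint (inc pt w) (S.biUnion (inc pt)) := by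
      rw [Finset.disjoint_biUnion_right]
      intro w' hw'
      apply inc_disjoint pt hinj
      rintro rfl
      exact hw hw'
    rw [Finset.biUnion_insert, Ex_union p hd, Finset.card_insert_of_notMem hw, pow_succ, mul_comm]
    have hstep : Ex p (inc pt w) (fun A => Ex p (S.biUnion (inc pt)) (fun T =>
        ind (∀ w' ∈ insert w S, ¬ inc pt w' ⊆ A ∪ T))) =
        Ex p (inc pt w) (fun A => ind (¬ inc pt w ⊆ A) *
          Ex p (S.biUnion (inc pt)) (fun T => ind (∀ w' ∈ S, ¬ inc pt w' ⊆ T))) := by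
      apply Ex_congr
      intro A hA
      rw [← Ex_const_mul]
      apply Ex_congr
      intro T hT
      have h2 : inc pt w ⊆ A ∪ T ↔ inc pt w ⊆ A := by
        constructor
        · intro h e he
          rcases Finset.mem_union.1 (h he) with h3 | h3
          · exact h3
          · exact absurd (hT h3) (Finset.disjoint_left.1 hd he)
        · intro h
          exact h.trans Finset.subset_union_left
      have h3 : ∀ w' ∈ S, (inc pt w' ⊆ A ∪ T ↔ inc pt w' ⊆ T) := by
        intro w' hw'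
        constructor
        · intro h e he
          rcases Finset.mem_union.1 (h he) with h4 | h4
          · exact absurd (Finset.mem_biUnion.2 ⟨w', hw', he⟩) (Finset.disjoint_left.1 hd (hA h4))
          · exact h4
        · intro h
          exact h.trans Finset.subset_union_right
      rw [← ind_and]
      apply ind_congr
      rw [Finset.forall_mem_insert, h2]
      refine and_congr Iff.rfl (forall₂_congr fun w' hw' => ?_)
      rw [h3 w' hw']
    rw [hstep, Ex_mul_const]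
    have hx := Ex_not_subset h1 (inc pt w) (card_inc_le pt w)
    have hy : 0 ≤ Ex p (S.biUnion (inc pt)) (fun T => ind (∀ w' ∈ S, ¬ inc pt w' ⊆ T)) :=
      Ex_nonneg h0 h1 (fun T _ => ind_nonneg _)
    exact mul_le_mul hx ih hy (by linarith only [h1])

/-- The edges used up to level `N`. -/
noncomputable def win (N : ℕ) : Finset (Sym2 V) :=
  (Finset.range (N + 1) ×ˢ Finset.range (N + 1)).biUnion (inc pt)

theorem inc_subset_win {N : ℕ} {w : ℕ × ℕ} (h : w.1 + w.2 ≤ N) : inc pt w ⊆ win pt N := by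
  unfold win
  apply Finset.subset_biUnion_of_mem (inc pt)
  rw [Finset.mem_product, Finset.mem_range, Finset.mem_range]
  omega

theorem Ex_reach (hinj : Function.Injective pt) {p : ℝ} (h0 : 0 ≤ p) (h1 : p ≤ 1)
    (hp : 2 * (1 - p) ≤ 1 / 6561) (N : ℕ) :
    Ex p (win pt N) (fun T => ind (∀ w ∈ reachN {w | inc pt w ⊆ T}, w.1 + w.2 ≠ N)) ≤ 1 / 2 := by
  have key := oriented_peierls_set_nat (Ω := Finset (Sym2 V))
    (fun A => Ex p (win pt N) (fun T => ind (T ∈ A)))
    (by
      have : (fun T : Finset (Sym2 V) => ind (T ∈ (∅ : Set (Finset (Sym2 V))))) = fun _ => 0 := by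
        funext T
        exact ind_neg (fun h => h)
      rw [this, Ex_const])
    (by
      intro A B hAB
      apply Ex_mono h0 h1
      intro T _
      exact ind_mono (fun h => hAB h))
    (by
      intro A B
      rw [← Ex_add]
      apply Ex_mono h0 h1
      intro T _
      rw [ind_congr (Set.mem_union T A B)]
      by_cases hA : T ∈ A
      · rw [ind_pos hA, ind_pos (Or.inl hA)]
        linarith only [ind_nonneg (T ∈ B)]
      · by_cases hB : T ∈ B
        · rw [ind_pos hB, ind_pos (Or.inr hB)]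
          linarith only [ind_nonneg (T ∈ A)]
        · rw [ind_neg hA, ind_neg hB, ind_neg (fun h => h.elim hA hB)]
          norm_num)
    1 zero_le_one (fun T => {w | inc pt w ⊆ T}) N ?_
  · rw [mul_one] at key
    exact key
  · intro S hS
    rw [mul_one]
    refine le_trans (Ex_mono h0 h1 (G := fun T => ind (∀ w ∈ S, ¬ inc pt w ⊆ T)) ?_) ?_
    · intro T _
      exact ind_mono (fun h w hw => (h w hw).1)
    · have h2 : Ex p (win pt N) (fun T => ind (∀ w ∈ S, ¬ inc pt w ⊆ T)) =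
          Ex p (S.biUnion (inc pt)) (fun T => ind (∀ w ∈ S, ¬ inc pt w ⊆ T)) := by
        apply Ex_restrict p
        · apply Finset.biUnion_subset.2
          intro w hw
          exact inc_subset_win pt (hS w hw).2
        · intro T _
          apply ind_congr
          refine forall₂_congr fun w hw => ?_
          rw [Finset.subset_inter_iff]
          exact not_congr ⟨fun h => ⟨h, Finset.subset_biUnion_of_mem (inc pt) hw⟩, fun h => h.1⟩
      rw [h2]
      exact (Ex_all_fail pt hinj h0 h1 S).trans (pow_le_pow_left₀ (by linarith only [h1]) hp _)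

end prob

section main

variable {V : Type u} [DecidableEq V] (pt : ℕ × ℕ → V)

/-- The event that level `N` is reached inside the window. -/
def lev (N : ℕ) : Set (Set (Sym2 V)) :=
  {ω | ∃ w ∈ reachN {w | (inc pt w : Set (Sym2 V)) ⊆ ω ∩ (win pt N : Set (Sym2 V))}, w.1 + w.2 = N}

theorem lev_measurable (N : ℕ) : MeasurableSet (lev pt N) :=
  measurableSet_inter_pred (win pt N)
    (fun ω => ∃ w ∈ reachN {w | (inc pt w : Set (Sym2 V)) ⊆ ω}, w.1 + w.2 = N)

theorem lev_prob (G : SimpleGraph V) (hinj : Function.Injective pt)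
    (hadj : ∀ u w, ChildN u w → G.Adj (pt u) (pt w)) (p : I) (hp : 2 * (1 - (p : ℝ)) ≤ 1 / 6561)
    (N : ℕ) : 1 / 2 ≤ (setBernoulli G.edgeSet p).real (lev pt N) := by
  classical
  have hsub : ((win pt N : Finset (Sym2 V)) : Set (Sym2 V)) ⊆ G.edgeSet := by
    intro e he
    rw [Finset.mem_coe] at he
    unfold win at he
    rw [Finset.mem_biUnion] at he
    obtain ⟨w, _, hw⟩ := he
    rw [mem_inc] at hw
    obtain ⟨u, hu, rfl⟩ := hw
    exact hadj u w hu
  have h1 := setBer_inter_pred G.edgeSet p (win pt N) hsub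
    (fun ω => ∃ w ∈ reachN {w | (inc pt w : Set (Sym2 V)) ⊆ ω}, w.1 + w.2 = N)
  have h2 : (setBernoulli G.edgeSet p).real (lev pt N) =
      Ex (p : ℝ) (win pt N) (fun T => ind (∃ w ∈ reachN {w | inc pt w ⊆ T}, w.1 + w.2 = N)) := by
    show (setBernoulli G.edgeSet p).real {ω : Set (Sym2 V) | (fun ω : Set (Sym2 V) =>
      ∃ w ∈ reachN {w | (inc pt w : Set (Sym2 V)) ⊆ ω}, w.1 + w.2 = N)
        (ω ∩ (win pt N : Set (Sym2 V)))} = _
    rw [h1, Finset.sum_filter]
    unfold Ex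
    apply Finset.sum_congr rfl
    intro T _
    simp only [Finset.coe_subset]
    by_cases h : ∃ w ∈ reachN {w | inc pt w ⊆ T}, w.1 + w.2 = N
    · rw [if_pos h, ind_pos h, mul_one]
    · rw [if_neg h, ind_neg h, mul_zero]
  rw [h2]
  have h3 := Ex_reach pt hinj p.2.1 p.2.2 hp N
  have h4 : Ex (p : ℝ) (win pt N) (fun T => ind (∃ w ∈ reachN {w | inc pt w ⊆ T}, w.1 + w.2 = N))
      = 1 - Ex (p : ℝ) (win pt N)
        (fun T => ind (∀ w ∈ reachN {w | inc pt w ⊆ T}, w.1 + w.2 ≠ N)) := by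
    have h5 : (1 : ℝ) = Ex (p : ℝ) (win pt N) (fun _ => 1) := (Ex_const _ _ 1).symm
    rw [h5, ← Ex_sub]
    apply Ex_congr
    intro T _
    rw [← ind_not]
    apply ind_congr
    push Not
    rfl
  linarith only [h3, h4]

omit [DecidableEq V] in
theorem reach_cluster (hinj : Function.Injective pt) {ω : Set (Sym2 V)} {w : ℕ × ℕ}
    (hw : w ∈ reachN {w | (inc pt w : Set (Sym2 V)) ⊆ ω}) : pt w ∈ cluster ω (pt (0, 0)) := by
  induction hw with
  | refl => exact SimpleGraph.Reachable.refl _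
  | @tail a b _ h ih =>
    refine SimpleGraph.Reachable.trans ih (SimpleGraph.Adj.reachable ?_)
    rw [SimpleGraph.fromEdgeSet_adj]
    refine ⟨h.2 (Finset.mem_coe.2 ((mem_inc pt).2 ⟨a, h.1, rfl⟩)), ?_⟩
    intro h2
    have h3 := hinj h2
    have h4 := level_child h.1
    rw [h3] at h4
    omega

theorem infinite_of_levels (hinj : Function.Injective pt) {ω : Set (Sym2 V)}
    (h : ∀ N, ∃ n, N ≤ n ∧ ω ∈ lev pt n) : (cluster ω (pt (0, 0))).Infinite := by
  intro hfin
  have h1 : (pt ⁻¹' (cluster ω (pt (0, 0)))).Finite := hfin.preimage hinj.injOn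
  obtain ⟨M, hM⟩ := (h1.image (fun w => w.1 + w.2)).bddAbove
  obtain ⟨n, hn, w, hw, hwn⟩ := h (M + 1)
  have h2 : w ∈ reachN {w | (inc pt w : Set (Sym2 V)) ⊆ ω} := by
    clear hwn
    induction hw with
    | refl => exact Relation.ReflTransGen.refl
    | @tail a b _ h3 ih =>
      exact Relation.ReflTransGen.tail ih ⟨h3.1, fun e he => (h3.2 he).1⟩
  have h3 := reach_cluster pt hinj h2
  have h4 : w.1 + w.2 ≤ M := hM ⟨w, h3, rfl⟩
  omega

omit [DecidableEq V] in
/-- If the quadrant `ℕ × ℕ` embeds in `G`, then the critical probability is smaller than one. -/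
theorem pc_lt_one_of_quadrant (G : SimpleGraph V) (hinj : Function.Injective pt)
    (hadj : ∀ u w, ChildN u w → G.Adj (pt u) (pt w)) : pc G < 1 := by
  classical
  have hp : (1 - 1 / 13122 : ℝ) ∈ Set.Icc (0 : ℝ) 1 := by constructor <;> norm_num
  set p : I := ⟨1 - 1 / 13122, hp⟩ with hpdef
  have hp2 : 2 * (1 - (p : ℝ)) ≤ 1 / 6561 := by
    show 2 * (1 - (1 - 1 / 13122 : ℝ)) ≤ 1 / 6561
    norm_num
  set μ := setBernoulli G.edgeSet p with hμ
  let C : ℕ → Set (Set (Sym2 V)) := fun N => ⋃ n, ⋃ (_ : N ≤ n), lev pt n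
  have hCm : ∀ N, MeasurableSet (C N) := fun N =>
    MeasurableSet.iUnion (fun n => MeasurableSet.iUnion (fun _ => lev_measurable pt n))
  have hanti : Antitone C := by
    intro a b hab ω hω
    simp only [C, Set.mem_iUnion] at hω ⊢
    obtain ⟨n, hn, h⟩ := hω
    exact ⟨n, hab.trans hn, h⟩
  have hge : ∀ N, ENNReal.ofReal (1 / 2) ≤ μ (C N) := by
    intro N
    have h1 := lev_prob pt G hinj hadj p hp2 N
    have h2 : μ (lev pt N) ≤ μ (C N) := by
      apply measure_mono
      intro ω hω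
      simp only [C, Set.mem_iUnion]
      exact ⟨N, le_rfl, hω⟩
    refine le_trans ?_ h2
    rw [← ofReal_measureReal]
    exact ENNReal.ofReal_le_ofReal h1
  have hlim := tendsto_measure_iInter_atTop (μ := μ) (fun N => (hCm N).nullMeasurableSet) hanti
    ⟨0, measure_ne_top μ _⟩
  have h3 : ENNReal.ofReal (1 / 2) ≤ μ (⋂ N, C N) := ge_of_tendsto' hlim hge
  have h4 : (⋂ N, C N) ⊆ hasInfiniteCluster V := by
    intro ω hω
    refine ⟨pt (0, 0), infinite_of_levels pt hinj ?_⟩
    intro N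
    have := Set.mem_iInter.1 hω N
    simp only [C, Set.mem_iUnion] at this
    obtain ⟨n, hn, h⟩ := this
    exact ⟨n, hn, h⟩
  have h5 : 0 < μ (hasInfiniteCluster V) := by
    refine lt_of_lt_of_le ?_ (h3.trans (measure_mono h4))
    rw [ENNReal.ofReal_pos]
    norm_num
  have h6 : pc G ≤ 1 - 1 / 13122 := by
    apply csInf_le
    · exact ⟨0, fun q hq => hq.1.1⟩
    · exact ⟨hp, h5⟩
  linarith only [h6]

end main

end Vale.Agent.P151.Red.PL
end
end

section

section

/-!
# P151, second stage: quasi-transitive graphs with an equivariant map onto `ℤ²`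

Definitions.  `V : Type`; percolation on finite sets of edges with `Red.Pr`.
-/

set_option autoImplicit false
set_option linter.unusedSectionVars false

noncomputable section

namespace Vale.Agent.P151.Pl

open Vale.Agent.P151 Vale.Agent.P151.Red

/-- The value of the linear form `f` at `v`. -/
def dot (f v : ℝ × ℝ) : ℝ := f.1 * v.1 + f.2 * v.2

/-- The norm of a linear form. -/
def nm (f : ℝ × ℝ) : ℝ := |f.1| + |f.2|

variable {V : Type} [DecidableEq V]

/-- A group `Γ` of automorphisms with finitely many orbits, and an equivariant map `P` to `ℝ²` such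
that two elements of `Γ` act as the translations by `(1, 0)` and `(0, 1)`. -/
structure Act (G : SimpleGraph V) [G.LocallyFinite] where
  conn : G.Connected
  Γ : Subgroup (G ≃g G)
  P : V → ℝ × ℝ
  τ : (G ≃g G) → ℝ × ℝ
  equi : ∀ φ ∈ Γ, ∀ v, P (φ v) = P v + τ φ
  o : V
  P_o : P o = 0
  D₀ : ℕ
  dense : ∀ v, ∃ φ ∈ Γ, G.dist v (φ o) ≤ D₀
  C₀ : ℝ
  C₀_pos : 0 < C₀
  lip : ∀ u v, G.Adj u v → |(P u).1 - (P v).1| ≤ C₀ ∧ |(P u).2 - (P v).2| ≤ C₀
  Δ : ℕ
  deg : ∀ v, G.degree v ≤ Δ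
  a₁ : G ≃g G
  a₁_mem : a₁ ∈ Γ
  τ_a₁ : τ a₁ = (1, 0)
  a₂ : G ≃g G
  a₂_mem : a₂ ∈ Γ
  τ_a₂ : τ a₂ = (0, 1)

variable (G : SimpleGraph V) [G.LocallyFinite]

/-- The edges of the seed, i.e. the edges of the ball of radius `k` around `x`. -/
def Ek (k : ℕ) (x : V) : Finset (Sym2 V) := edgesIn G (ballF G x k)

open Classical in
/-- The edges inside `D` with an end point in `H`. -/
def reg (D : Finset V) (H : Set V) : Finset (Sym2 V) :=
  (edgesIn G D).filter (fun e => ∃ v ∈ e, v ∈ H)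

/-- The cluster of the (open) seed with centre `x`. -/
def seedCl (k : ℕ) (x : V) (T : Finset (Sym2 V)) : Set V :=
  cluster (↑(Ek G k x ∪ T) : Set (Sym2 V)) x

open Classical in
/-- The vertices of `D \ H` in the cluster of the seed. -/
def out (k : ℕ) (x : V) (D : Finset V) (H : Set V) (T : Finset (Sym2 V)) : Finset V :=
  D.filter (fun z => z ∉ H ∧ z ∈ seedCl G k x T)

open Classical in
/-- The vertices of `A \ H` in the cluster of the seed satisfying `J`. -/
def outJ (k : ℕ) (x : V) (D : Finset V) (H J : Set V) (T : Finset (Sym2 V)) : Finset V :=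
  (out G k x D H T).filter (fun z => z ∈ J)

/-- Failure probability: `Efr` = fresh edges, `F` increasing property of the cluster. -/
def Fail (p : ℝ) (Efr : Finset (Sym2 V)) (F : Set V → Prop) (k : ℕ) (x : V) : ℝ :=
  Pr p (Efr \ Ek G k x) (fun T => ¬ F (seedCl G k x T))

variable {G}

/-- The region defined by a set `K` of constraints `dot f (P v) ≤ a`, `(f, a) ∈ K`. -/
def Wk (A : Act G) (K : Set ((ℝ × ℝ) × ℝ)) : Set V := {v | ∀ c ∈ K, dot c.1 (A.P v) ≤ c.2}

/-- The vertices far away from the region. -/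
def Fk (A : Act G) (K : Set ((ℝ × ℝ) × ℝ)) (C : ℝ) : Set V :=
  {v | ∃ c ∈ K, c.2 + C * nm c.1 < dot c.1 (A.P v)}

/-- `v` can escape far away from the region by a walk of length at most `n` avoiding the region. -/
def Esc (A : Act G) (K : Set ((ℝ × ℝ) × ℝ)) (C : ℝ) (n : ℕ) (v : V) : Prop :=
  ∃ (u : V) (w : G.Walk v u), w.length ≤ n ∧ u ∈ Fk A K C ∧ ∀ z ∈ w.support, z ∉ Wk A K

/-- The region with its pockets filled. -/
def Hk (A : Act G) (K : Set ((ℝ × ℝ) × ℝ)) (C : ℝ) (n : ℕ) : Set V := {v | ¬ Esc A K C n v}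

/-- The half plane `dot f (P v) ≤ a`. -/
def hp (f : ℝ × ℝ) (a : ℝ) : Set ((ℝ × ℝ) × ℝ) := {(f, a)}

/-- The slab `|dot f (P v)| ≤ a`. -/
def slab (f : ℝ × ℝ) (a : ℝ) : Set ((ℝ × ℝ) × ℝ) := {(f, a), (-f, a)}

/-- `(C₁, C, n)` are compatible: a vertex at distance more than `C₁` from the region can escape. -/
def PocketOK (A : Act G) (C₁ C : ℝ) (n : ℕ) : Prop :=
  ∀ (K : Set ((ℝ × ℝ) × ℝ)) (v : V), ∀ c ∈ K, c.2 + C₁ * nm c.1 < dot c.1 (A.P v) → Esc A K C n v

/-- Percolation from the seed of radius `k` with probability at least `1 - ε`. -/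
def Base (A : Act G) (p : ℝ) (k : ℕ) (ε : ℝ) : Prop :=
  ∀ R : ℕ, k ≤ R → 1 - ε ≤ Pr p (edgesIn G (ballF G A.o R))
    (fun T => ∃ v ∈ seedCl G k A.o T, G.dist v A.o = R)

/-- The parallelogram `|f| ≤ a`, `|g| ≤ b` (cut at distance `R`). -/
def Ls (A : Act G) (f g : ℝ × ℝ) (a b : ℝ) (R : ℕ) : Finset V :=
  (ballF G A.o R).filter (fun v => |dot f (A.P v)| ≤ a ∧ |dot g (A.P v)| ≤ b)

/-- The parallelogram and the vertices beyond its `g`-sides. -/
def As (A : Act G) (f g : ℝ × ℝ) (a b : ℝ) (R : ℕ) : Finset V :=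
  Ls A f g a b R ∪ (ballF G A.o (R + 1)).filter (fun v => b < |dot g (A.P v)|)

/-- The probability to leave the parallelogram through the `g`-sides. -/
def QR (A : Act G) (p : ℝ) (k : ℕ) (f g : ℝ × ℝ) (a b : ℝ) (R : ℕ) : ℝ :=
  Pr p (reg G (As A f g a b R) ↑(Ls A f g a b R))
    (fun T => ∃ v ∈ seedCl G k A.o T, v ∈ As A f g a b R ∧ b < |dot g (A.P v)|)

/-- The landing area: `(s, t)`-coordinates within `α` of `μ`. -/
def LA (A : Act G) (s t μ : ℝ × ℝ) (α : ℝ) : Set V :=
  {v | |dot s (A.P v) - μ.1| ≤ α ∧ |dot t (A.P v) - μ.2| ≤ α}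

/-- A good move: from the seed one reaches at least `N` vertices of the landing area near `μ`, in a
domain contained in the square of side `30`, with probability at least `1 - η`. -/
def Move (A : Act G) (p η : ℝ) (k N : ℕ) (C : ℝ) (n : ℕ) (α : ℝ) (s t μ : ℝ × ℝ) (r : ℕ) : Prop :=
  ∃ (D : Finset V) (K : Set ((ℝ × ℝ) × ℝ)), ballF G A.o k ⊆ D ∧
    (∀ v ∈ ballF G A.o k, v ∈ Wk A K) ∧ D ⊆ ballF G A.o r ∧
    (∀ v ∈ D, |dot s (A.P v)| ≤ 15 ∧ |dot t (A.P v)| ≤ 15) ∧
    Pr p (reg G D (Hk A K C n)) (fun T =>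
      (outJ G k A.o D (Hk A K C n) (LA A s t μ α) T).card < N) ≤ η

/-- The corridor with lateral form `u`, forward form `l`, lateral displacement `- σ`. -/
def Cor (A : Act G) (l u : ℝ × ℝ) (σ : ℤ) (r : ℕ) : Finset V :=
  (ballF G A.o r).filter (fun v => |dot u (A.P v) + σ| ≤ 40 ∧ -31 ≤ dot l (A.P v) ∧
    dot l (A.P v) ≤ 220 ∧ (60 ≤ dot l (A.P v) → |dot u (A.P v) + σ| ≤ 20))

end Vale.Agent.P151.Pl
end
end

section

/-!
# Interfaces between the clusters of modules (statements as `Prop`s)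

Cluster A (exits): `TwoMovesStmt`.  Cluster B (Kozma-Nitzan chain): `ReachStmt`, `StepStmt`,
`ChainStmt`.  Cluster C: `OffsetStmt`, blocks, `FscStmt`.
-/

set_option autoImplicit false
set_option linter.unusedSectionVars false

noncomputable section

namespace Vale.Agent.P151.Pl

open Vale.Agent.P151 Vale.Agent.P151.Red

variable {V : Type} [DecidableEq V] {G : SimpleGraph V} [G.LocallyFinite]

/-- Percolation at `p` in finite volume. -/
def Perc (A : Act G) (p : ℝ) : Prop :=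
  ∃ c : ℝ, 0 < c ∧ ∀ R : ℕ, c ≤ Pr p (edgesIn G (ballF G A.o R))
    (fun T => ∃ v ∈ cluster (↑T : Set (Sym2 V)) A.o, G.dist v A.o = R)

/-- Cluster A: if there is percolation at `p` there are two good moves, at arbitrarily large
scale. -/
def TwoMovesStmt (A : Act G) (p : ℝ) : Prop :=
  ∀ η : ℝ, 0 < η → ∀ α : ℝ, 0 < α → ∃ k : ℕ, ∀ (N : ℕ) (C₁ C : ℝ) (n : ℕ), 0 < C₁ →
    PocketOK A C₁ C n → ∀ ε : ℝ, 0 < ε → ∃ (s t : ℝ × ℝ) (r : ℕ), nm s ≤ ε ∧ nm t ≤ ε ∧
      Move A p η k N C n α s t (2, -1) r ∧ Move A p η k N C n α s t (-1, 2) r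

open Classical in
/-- Cluster B, packing and fresh connections: `X` = centres of pairwise disjoint balls outside `H`;
if from the seed of `x` one reaches at least `N` vertices of `J \ H` inside `(D, H)`, and each
vertex of `J` is joined to a ball of `X` by a short walk outside `H`, then at least `M` of the balls
are reached, using only edges outside the balls of `X`. -/
def ReachStmt (G : SimpleGraph V) [G.LocallyFinite] (Δ : ℕ) (q Q : ℝ) : Prop :=
  (∀ v, G.degree v ≤ Δ) → 0 < q → Q < 1 → ∀ (k M ℓ : ℕ) (δ : ℝ), 0 < δ → ∃ N : ℕ, ∀ p : ℝ, q ≤ p → p ≤ Q →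
    ∀ (x : V) (D : Finset V) (H J : Set V) (X : Finset V) (Efr : Finset (Sym2 V)) (η : ℝ),
      (∀ v ∈ ballF G x k, v ∈ D ∧ v ∈ H) →
      (∀ y ∈ X, ∀ v ∈ ballF G y k, v ∉ H) →
      (∀ y ∈ X, ∀ z ∈ X, y ≠ z → Disjoint (ballF G y k) (ballF G z k)) →
      reg G D H ⊆ Efr →
      (∀ z ∈ D, z ∈ J → z ∉ H → ∃ (v : V) (w : G.Walk z v), w.length ≤ ℓ ∧
        (∀ u ∈ w.support, u ∉ H) ∧ (∀ e ∈ w.edges, (∀ y ∈ X, e ∉ Ek G k y) → e ∈ Efr) ∧
        ∃ y ∈ X, v ∈ ballF G y k) →
      Pr p (reg G D H) (fun T => (outJ G k x D H J T).card < N) ≤ η →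
      Pr p (Efr \ Ek G k x) (fun T => (X.filter (fun y => ∃ v ∈ ballF G y k,
        v ∈ seedCl G k x (T ∩ ((Efr \ Ek G k x) \ X.biUnion (Ek G k))))).card < M) ≤ η + δ

/-- Cluster B, one step of the chain (Lemma 1 = `oneStep`, after choosing a maximal packing in
`Y`): failure probabilities `a` from all the centres `Y` give `η + δ + θ + 3 √a` from `x`. -/
def StepStmt (G : SimpleGraph V) [G.LocallyFinite] (Δ : ℕ) (q Q : ℝ) : Prop :=
  (∀ v, G.degree v ≤ Δ) → 0 < q → Q < 1 → ∀ (k ℓ : ℕ) (m : ℕ) (θ : ℝ), 0 < θ → ∃ N : ℕ,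
    ∀ p : ℝ, q ≤ p → p ≤ Q →
    ∀ (x : V) (D : Finset V) (H J : Set V) (Y : Finset V) (Efr : Finset (Sym2 V)) (η a : ℝ)
      (F : Set V → Prop), (∀ B B' : Set V, B ⊆ B' → F B → F B') → 0 ≤ a →
      (Ek G k x).card = m → (∀ y ∈ Y, (Ek G k y).card = m) →
      (∀ v ∈ ballF G x k, v ∈ D ∧ v ∈ H) →
      (∀ y ∈ Y, ∀ v ∈ ballF G y k, v ∉ H) →
      reg G D H ⊆ Efr → (∀ y ∈ Y, Ek G k y ⊆ Efr) →
      (∀ z ∈ D, z ∈ J → z ∉ H → ∃ y ∈ Y, ∃ w : G.Walk z y, w.length ≤ ℓ ∧
        (∀ u ∈ w.support, u ∉ H) ∧ ∀ e ∈ w.edges, e ∈ Efr) →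
      Pr p (reg G D H) (fun T => (outJ G k x D H J T).card < N) ≤ η →
      (∀ y ∈ Y, Fail G p Efr F k y ≤ a) →
      Fail G p Efr F k x ≤ η + θ + 3 * √a

/-- Cluster B, the chain: inside the corridor the line `l = 183` is reached. `lat b` is the lateral
form. -/
def ChainStmt (A : Act G) (q Q : ℝ) : Prop :=
  ∀ η₁ : ℝ, 0 < η₁ → ∃ η : ℝ, 0 < η ∧ ∃ α : ℝ, 0 < α ∧ ∀ k : ℕ, ∃ (N : ℕ) (C₁ C : ℝ) (n : ℕ),
    0 < C₁ ∧ PocketOK A C₁ C n ∧ ∃ ε : ℝ, 0 < ε ∧ ∀ (s t : ℝ × ℝ) (r : ℕ), nm s ≤ ε → nm t ≤ ε →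
      ∃ r' : ℕ, ∀ p : ℝ, q ≤ p → p ≤ Q →
      Move A p η k N C n α s t (2, -1) r → Move A p η k N C n α s t (-1, 2) r →
      ∀ σ : ℤ, |σ| ≤ 24 → ∀ u : ℝ × ℝ, u = s ∨ u = t →
        Pr p (edgesIn G (Cor A (s + t) u σ r')) (fun T =>
          ¬ ∃ v ∈ seedCl G k A.o T, v ∈ Cor A (s + t) u σ r' ∧ 183 ≤ dot (s + t) (A.P v)) ≤ η₁

/-- The number of contacts with the line `l = τ` inside the corridor is rarely small. -/
def GoodOff (A : Act G) (p η₁ : ℝ) (k N₀ : ℕ) (C : ℝ) (n : ℕ) (l u : ℝ × ℝ) (σ : ℤ) (r : ℕ)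
    (τ : ℝ) : Prop :=
  Pr p (reg G (Cor A l u σ r) (Hk A (hp l τ) C n))
    (fun T => (out G k A.o (Cor A l u σ r) (Hk A (hp l τ) C n) T).card < N₀) ≤ 2 * η₁

/-- Cluster C, choice of the distance `j₀` of the lines (Lemma M + pigeonhole). -/
def OffsetStmt (A : Act G) (Q : ℝ) : Prop :=
  ∀ (η₁ : ℝ), 0 < η₁ → ∀ (k N₀ : ℕ) (C₁ C : ℝ) (n : ℕ), 0 < C₁ → PocketOK A C₁ C n → ∀ B : ℝ,
    ∃ ε : ℝ, 0 < ε ∧ ∀ (s t : ℝ × ℝ) (r : ℕ), nm s ≤ ε → nm t ≤ ε → ∀ p : ℝ, 0 < p → p ≤ Q →
      (∀ σ : ℤ, |σ| ≤ 24 → ∀ u : ℝ × ℝ, u = s ∨ u = t →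
        Pr p (edgesIn G (Cor A (s + t) u σ r)) (fun T =>
          ¬ ∃ v ∈ seedCl G k A.o T, v ∈ Cor A (s + t) u σ r ∧ 183 ≤ dot (s + t) (A.P v)) ≤ η₁) →
      ∃ j₀ : ℝ, 180 ≤ j₀ ∧ j₀ ≤ 181 ∧ ∀ σ : ℤ, |σ| ≤ 24 → ∀ u : ℝ × ℝ, u = s ∨ u = t →
        ∀ e : ℝ, 0 ≤ e → e ≤ B * nm (s + t) →
          GoodOff A p η₁ k N₀ C n (s + t) u σ r (j₀ - e)

/-- Cluster C, finite size criterion. -/
def FscStmt (A : Act G) (q Q : ℝ) : Prop :=
  ∃ η₁ : ℝ, 0 < η₁ ∧ ∀ k : ℕ, ∃ (N₀ : ℕ) (C₁ C : ℝ) (n : ℕ) (B : ℝ), 0 < C₁ ∧ PocketOK A C₁ C n ∧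
    ∃ ε : ℝ, 0 < ε ∧ ∀ (s t : ℝ × ℝ) (r : ℕ), nm s ≤ ε → nm t ≤ ε → s + t ≠ 0 →
      ∀ p : ℝ, q ≤ p → p ≤ Q → ∀ j₀ : ℝ, 180 ≤ j₀ → j₀ ≤ 181 →
      (∀ σ : ℤ, |σ| ≤ 24 → ∀ u : ℝ × ℝ, u = s ∨ u = t → ∀ e : ℝ, 0 ≤ e → e ≤ B * nm (s + t) →
          GoodOff A p η₁ k N₀ C n (s + t) u σ r (j₀ - e)) → Perc A p

/-- Main finite volume theorem. -/
def MainStmt (A : Act G) : Prop :=
  ∀ p : ℝ, 0 < p → p < 1 → Perc A p → ∃ p' : ℝ, 0 < p' ∧ p' < p ∧ Perc A p'

end Vale.Agent.P151.Pl
end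
end

section

/-!
# Large seeds percolate with high probability

PROOF.  `a R = Pr p (edgesIn G (ballF G o R)) (∃ v ∈ cluster T o, dist v o = R)` is decreasing in `R`
(a path to distance `R + 1` contains a path inside the ball to distance `R`; `Pr_restrict`) and
`≥ c > 0`; let `θ = inf a`.  Choose `k` with `a k * (1 - ε) ≤ θ`.  For `R ≥ k`:
`θ ≤ a R ≤ a k * b`, `b = Pr p (edgesIn (ballF R)) (∃ v ∈ seedCl k o T, dist v o = R)`, because the
event of `a R` is contained in {`o` is joined to distance `k` by the edges of `Ek k o`} ∩ {the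
event of `b`}, the first one depends on the edges of `Ek k o`, the second one on the other edges
(the edges of the seed are always open in `seedCl`).  So `b ≥ θ / a k ≥ 1 - ε`.
Compare `GM.cc_le_mul`, `GM.exists_rr_ge` in `Red/GMZd.lean`.
-/

set_option autoImplicit false
set_option linter.unusedSectionVars false

noncomputable section

namespace Vale.Agent.P151.Pl

open Vale.Agent.P151 Vale.Agent.P151.Red

variable {V : Type} [DecidableEq V] {G : SimpleGraph V} [G.LocallyFinite]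

/-- A path to distance `n ≥ k` contains a path to distance `k` inside the ball of radius `k`. -/
theorem Base_reach (hG : G.Connected) (o : V) {k n : ℕ} (hkn : k ≤ n) {T : Finset (Sym2 V)}
    (hT : ∀ a b, s(a, b) ∈ T → G.Adj a b)
    (h : ∃ v ∈ cluster (↑T : Set (Sym2 V)) o, G.dist v o = n) :
    ∃ v ∈ cluster (↑(T ∩ edgesIn G (ballF G o k)) : Set (Sym2 V)) o, G.dist v o = k := by
  by_contra hcon
  push Not at hcon
  have hin : ∀ u, Cn (T ∩ edgesIn G (ballF G o k)) o u → G.dist u o < k := by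
    intro u hu
    have h1 : u ∈ {u | G.dist u o ≤ k} := by
      refine Cn_closed (A := {u | G.dist u o ≤ k}) ?_ ?_ hu
      · intro x _ y hxy
        have h2 := (mk_mem_edgesIn.1 (Finset.mem_inter.1 hxy).2).2.2
        exact (mem_ballF_iff hG).1 h2
      · simp only [Set.mem_ofPred_eq, SimpleGraph.dist_self, zero_le]
    have h3 : G.dist u o ≠ k := hcon u hu
    exact lt_of_le_of_ne h1 h3
  obtain ⟨v, hv, hvn⟩ := h
  have h4 : v ∈ {u | Cn (T ∩ edgesIn G (ballF G o k)) o u} := by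
    refine Cn_closed (S := T) (A := {u | Cn (T ∩ edgesIn G (ballF G o k)) o u}) ?_
      (Cn.refl _ _) hv
    intro x hx y hxy
    have hadj := hT x y hxy
    have hdx := hin x hx
    have hdy : G.dist y o ≤ k := by
      have h5 := hG.dist_triangle (u := y) (v := x) (w := o)
      have h6 : G.dist y x = 1 := SimpleGraph.dist_eq_one_iff_adj.2 hadj.symm
      omega
    refine Cn.trans hx (Cn_of_mem (Finset.mem_inter.2 ⟨hxy, mk_mem_edgesIn.2 ⟨hadj, ?_, ?_⟩⟩))
    · exact (mem_ballF_iff hG).2 hdx.le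
    · exact (mem_ballF_iff hG).2 hdy
  have h7 := hin v h4
  omega

/-- The main inequality `a R ≤ a k * b`. -/
theorem Base_mul (A : Act G) {p : ℝ} (h0 : 0 ≤ p) (h1 : p ≤ 1) {k R : ℕ} (hkR : k ≤ R) :
    Pr p (edgesIn G (ballF G A.o R))
      (fun T => ∃ v ∈ cluster (↑T : Set (Sym2 V)) A.o, G.dist v A.o = R) ≤
    Pr p (edgesIn G (ballF G A.o k))
      (fun T => ∃ v ∈ cluster (↑T : Set (Sym2 V)) A.o, G.dist v A.o = k) *
    Pr p (edgesIn G (ballF G A.o R)) (fun T => ∃ v ∈ seedCl G k A.o T, G.dist v A.o = R) := by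
  have hsub : edgesIn G (ballF G A.o k) ⊆ edgesIn G (ballF G A.o R) :=
    edgesIn_mono G (ballF_mono G A.o hkR)
  have hb : Pr p (edgesIn G (ballF G A.o R))
        (fun T => ∃ v ∈ seedCl G k A.o T, G.dist v A.o = R) =
      Pr p (edgesIn G (ballF G A.o R) \ edgesIn G (ballF G A.o k))
        (fun T => ∃ v ∈ seedCl G k A.o T, G.dist v A.o = R) := by
    refine Pr_restrict p Finset.sdiff_subset fun T hT => ?_
    have e : Ek G k A.o ∪ T ∩ (edgesIn G (ballF G A.o R) \ edgesIn G (ballF G A.o k)) =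
        Ek G k A.o ∪ T := by
      ext x
      simp only [Ek, Finset.mem_union, Finset.mem_inter, Finset.mem_sdiff]
      constructor
      · rintro (h | h)
        · exact Or.inl h
        · exact Or.inr h.1
      · rintro (h | h)
        · exact Or.inl h
        · by_cases hx : x ∈ edgesIn G (ballF G A.o k)
          · exact Or.inl hx
          · exact Or.inr ⟨h, hT h, hx⟩
    unfold seedCl
    rw [e]
  rw [hb]
  have hun : edgesIn G (ballF G A.o R) = edgesIn G (ballF G A.o k) ∪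
      (edgesIn G (ballF G A.o R) \ edgesIn G (ballF G A.o k)) := by
    rw [Finset.union_sdiff_of_subset hsub]
  conv_lhs => rw [hun, Pr_union p Finset.disjoint_sdiff]
  set b := Pr p (edgesIn G (ballF G A.o R) \ edgesIn G (ballF G A.o k))
        (fun T => ∃ v ∈ seedCl G k A.o T, G.dist v A.o = R) with hbdef
  unfold Pr
  rw [← Ex_mul_const]
  refine Ex_mono h0 h1 fun S hS => ?_
  by_cases hQ : ∃ v ∈ cluster (↑S : Set (Sym2 V)) A.o, G.dist v A.o = k
  · rw [ind_true hQ, one_mul, hbdef]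
    refine Pr_mono h0 h1 fun T _ hT => ?_
    obtain ⟨v, hv, hvR⟩ := hT
    refine ⟨v, cluster_mono ?_ A.o hv, hvR⟩
    rw [Finset.coe_subset]
    exact Finset.union_subset_union_left hS
  · rw [ind_false hQ, zero_mul]
    change Pr p _ _ ≤ 0
    rw [← Pr_false' p (edgesIn G (ballF G A.o R) \ edgesIn G (ballF G A.o k))]
    refine Pr_mono h0 h1 fun T hT h => hQ ?_
    have hG' : ∀ a b, s(a, b) ∈ S ∪ T → G.Adj a b := by
      intro a b hab
      rcases Finset.mem_union.1 hab with h2 | h2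
      · exact (mk_mem_edgesIn.1 (hS h2)).1
      · exact (mk_mem_edgesIn.1 (Finset.mem_sdiff.1 (hT h2)).1).1
    have h3 := Base_reach A.conn A.o hkR hG' h
    have e : (S ∪ T) ∩ edgesIn G (ballF G A.o k) = S := by
      ext x
      simp only [Finset.mem_union, Finset.mem_inter]
      constructor
      · rintro ⟨h4 | h4, h5⟩
        · exact h4
        · exact absurd h5 (Finset.mem_sdiff.1 (hT h4)).2
      · intro h4
        exact ⟨Or.inl h4, hS h4⟩
    rw [e] at h3
    exact h3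

theorem exists_base (A : Act G) {p : ℝ} (h0 : 0 < p) (h1 : p < 1) (hP : Perc A p) :
    ∀ ε : ℝ, 0 < ε → ∃ k : ℕ, Base A p k ε := by
  intro ε hε
  obtain ⟨c, hc, hθ⟩ := hP
  set a : ℕ → ℝ := fun R => Pr p (edgesIn G (ballF G A.o R))
      (fun T => ∃ v ∈ cluster (↑T : Set (Sym2 V)) A.o, G.dist v A.o = R) with ha
  have hbdd : BddBelow (Set.range a) := ⟨c, by rintro _ ⟨n, rfl⟩; exact hθ n⟩
  set θ := ⨅ n, a n with hθdef
  have hθc : c ≤ θ := le_ciInf hθ
  have hθpos : 0 < θ := lt_of_lt_of_le hc hθc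
  have hlt : θ < θ * (1 + ε) := by nlinarith only [hε, hc, hθc]
  obtain ⟨k, hk⟩ := exists_lt_of_ciInf_lt hlt
  refine ⟨k, fun R hR => ?_⟩
  have h2 : θ ≤ a R := ciInf_le hbdd R
  have h3 := Base_mul A h0.le h1.le hR
  set b := Pr p (edgesIn G (ballF G A.o R))
    (fun T => ∃ v ∈ seedCl G k A.o T, G.dist v A.o = R) with hb
  have h4 : 0 ≤ b := Pr_nonneg h0.le h1.le _ _
  have h5 : θ ≤ θ * (1 + ε) * b := by
    refine h2.trans (h3.trans (mul_le_mul_of_nonneg_right hk.le h4))
  have h6 : 1 ≤ (1 + ε) * b := by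
    by_contra hcon
    push Not at hcon
    nlinarith only [h5, hcon, hθpos]
  have h7 : b ≤ 1 := Pr_le_one h0.le h1.le _ _
  nlinarith only [h6, hε]

end Vale.Agent.P151.Pl
end
end

section

/-!
# Invariance under automorphisms (all proofs are routine)
-/

set_option autoImplicit false
set_option linter.unusedSectionVars false

noncomputable section

namespace Vale.Agent.P151.Pl

open Vale.Agent.P151 Vale.Agent.P151.Red

variable {V : Type} [DecidableEq V] {G : SimpleGraph V} [G.LocallyFinite]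

namespace Act

variable (A : Act G)

theorem τ_eq {φ : G ≃g G} (hφ : φ ∈ A.Γ) : A.τ φ = A.P (φ A.o) := by
  rw [A.equi φ hφ, A.P_o, zero_add]

theorem τ_mul {φ ψ : G ≃g G} (hφ : φ ∈ A.Γ) (hψ : ψ ∈ A.Γ) :
    A.τ (φ * ψ) = A.τ φ + A.τ ψ := by
  have h1 : (φ * ψ) A.o = φ (ψ A.o) := rfl
  rw [τ_eq A (A.Γ.mul_mem hφ hψ), h1, A.equi φ hφ, A.equi ψ hψ, A.P_o, zero_add, add_comm]

theorem τ_inv {φ : G ≃g G} (hφ : φ ∈ A.Γ) : A.τ φ⁻¹ = - A.τ φ := by
  have h1 := τ_mul A (A.Γ.inv_mem hφ) hφ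
  have h2 : φ⁻¹ * φ = 1 := inv_mul_cancel φ
  have h3 : A.τ (1 : G ≃g G) = 0 := by
    rw [τ_eq A A.Γ.one_mem]
    exact A.P_o
  rw [h2, h3] at h1
  exact eq_neg_of_add_eq_zero_left h1.symm

end Act

theorem dot_add (f v w : ℝ × ℝ) : dot f (v + w) = dot f v + dot f w := by
  simp only [dot, Prod.fst_add, Prod.snd_add]; ring

theorem dot_add_left (f g v : ℝ × ℝ) : dot (f + g) v = dot f v + dot g v := by
  simp only [dot, Prod.fst_add, Prod.snd_add]; ring

theorem dot_neg_left (f v : ℝ × ℝ) : dot (-f) v = - dot f v := by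
  simp only [dot, Prod.fst_neg, Prod.snd_neg]; ring

theorem dot_smul_left (c : ℝ) (f v : ℝ × ℝ) : dot (c • f) v = c * dot f v := by
  simp only [dot, Prod.smul_fst, Prod.smul_snd, smul_eq_mul]; ring

theorem nm_nonneg (f : ℝ × ℝ) : 0 ≤ nm f := add_nonneg (abs_nonneg _) (abs_nonneg _)

theorem nm_add_le (f g : ℝ × ℝ) : nm (f + g) ≤ nm f + nm g := by
  simp only [nm, Prod.fst_add, Prod.snd_add]
  linarith [abs_add_le f.1 g.1, abs_add_le f.2 g.2]

theorem nm_smul (c : ℝ) (f : ℝ × ℝ) : nm (c • f) = |c| * nm f := by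
  simp only [nm, Prod.smul_fst, Prod.smul_snd, smul_eq_mul, abs_mul]; ring

theorem nm_neg (f : ℝ × ℝ) : nm (-f) = nm f := by
  simp only [nm, Prod.fst_neg, Prod.snd_neg, abs_neg]

end Vale.Agent.P151.Pl
end
end

section

/-!
# Geometry: Lipschitz bounds, axis walks, pockets

PROOF of `exists_pocket`.  Let `ℓ = max (dist o (a₁ o)) (dist o (a₂ o))`, `C₁ = C₀ (D₀ + ℓ) + 1`.
Let `f = c.1`, `c.2 + C₁ nm f < dot f (P v)`.  If `f.1` is the larger coefficient in absolute value
use `ψ = a₁` or `a₁⁻¹` (sign such that `dot f (τ ψ) = |f.1| ≥ nm f / 2`), otherwise `a₂`.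
Walk: `v → φ o` (`φ ∈ Γ`, length `≤ D₀`), then `φ ψ^i o → φ ψ^(i+1) o` (image under `φ ψ^i` of a
geodesic `o → ψ o`, length `≤ ℓ`), `i < j`, `j ≥ 2 |C| + 1`.  Along the walk `dot f (P ·)` stays
`≥ dot f (P v) - C₀ nm f (D₀ + ℓ) > c.2` (`lip_dist`), so it avoids `Wk`; at the end it is
`≥ dot f (P v) - C₀ nm f D₀ + j nm f / 2 > c.2 + C nm f`.  Length `≤ D₀ + j ℓ =: n`.
(If `nm f = 0` then `v` itself is in `Fk`, `w = nil`.)
-/

set_option autoImplicit false
set_option linter.unusedSectionVars false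

noncomputable section

namespace Vale.Agent.P151.Pl

open Vale.Agent.P151 Vale.Agent.P151.Red

variable {V : Type} [DecidableEq V] {G : SimpleGraph V} [G.LocallyFinite]

theorem lip_adj (A : Act G) (f : ℝ × ℝ) {u v : V} (h : G.Adj u v) :
    |dot f (A.P u) - dot f (A.P v)| ≤ A.C₀ * nm f := by
  obtain ⟨h1, h2⟩ := A.lip u v h
  have e : dot f (A.P u) - dot f (A.P v) =
      f.1 * ((A.P u).1 - (A.P v).1) + f.2 * ((A.P u).2 - (A.P v).2) := by
    unfold dot; ring
  rw [e]
  calc |f.1 * ((A.P u).1 - (A.P v).1) + f.2 * ((A.P u).2 - (A.P v).2)|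
      ≤ |f.1| * |(A.P u).1 - (A.P v).1| + |f.2| * |(A.P u).2 - (A.P v).2| := by
        refine (abs_add_le _ _).trans ?_
        rw [abs_mul, abs_mul]
    _ ≤ |f.1| * A.C₀ + |f.2| * A.C₀ := by
        gcongr
    _ = A.C₀ * nm f := by unfold nm; ring

theorem lip_walk (A : Act G) (f : ℝ × ℝ) {u v : V} (w : G.Walk u v) {z : V}
    (hz : z ∈ w.support) : |dot f (A.P z) - dot f (A.P u)| ≤ A.C₀ * nm f * w.length := by
  have hn : 0 ≤ A.C₀ * nm f := mul_nonneg A.C₀_pos.le (nm_nonneg f)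
  induction w with
  | nil =>
    rw [SimpleGraph.Walk.support_nil, List.mem_singleton] at hz
    subst hz
    simp
  | @cons a b c hab p ih =>
    rw [SimpleGraph.Walk.support_cons, List.mem_cons] at hz
    rw [SimpleGraph.Walk.length_cons]
    push_cast
    rcases hz with hz | hz
    · subst hz
      rw [sub_self, abs_zero]
      (clear * - hn; positivity)
    · have h1 := ih hz
      have h2 := lip_adj A f hab.symm
      have h3 := abs_sub_le (dot f (A.P z)) (dot f (A.P b)) (dot f (A.P a))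
      linarith

theorem lip_dist (A : Act G) (f : ℝ × ℝ) (u v : V) :
    |dot f (A.P u) - dot f (A.P v)| ≤ A.C₀ * nm f * G.dist u v := by
  obtain ⟨w, hw⟩ := (A.conn v u).exists_walk_length_eq_dist
  have h := lip_walk A f w (SimpleGraph.Walk.end_mem_support w)
  rwa [hw, SimpleGraph.dist_comm] at h

theorem lip_ball (A : Act G) (f : ℝ × ℝ) {x v : V} {k : ℕ} (h : v ∈ ballF G x k) :
    |dot f (A.P v) - dot f (A.P x)| ≤ A.C₀ * nm f * k := by
  have hn : 0 ≤ A.C₀ * nm f := mul_nonneg A.C₀_pos.le (nm_nonneg f)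
  obtain ⟨w, hw⟩ := dist_le_of_mem_ballF G x k v h
  have h1 := lip_walk A f w (SimpleGraph.Walk.end_mem_support w)
  rw [abs_sub_comm]
  refine h1.trans ?_
  have : (w.length : ℝ) ≤ k := by exact_mod_cast hw
  gcongr

theorem pocket_dist_map (a : G ≃g G) (x y : V) : G.dist (a x) (a y) = G.dist x y := by
  have key : ∀ (b : G ≃g G) (x y : V), G.Reachable x y → G.dist (b x) (b y) ≤ G.dist x y := by
    intro b x y hr
    obtain ⟨w, hw⟩ := hr.exists_walk_length_eq_dist
    rw [← hw, ← SimpleGraph.Walk.length_map b.toHom w]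
    exact SimpleGraph.dist_le _
  by_cases hr : G.Reachable x y
  · apply le_antisymm (key a x y hr)
    have hr' : G.Reachable (a x) (a y) := hr.map a.toHom
    have := key a.symm (a x) (a y) hr'
    simpa only [ge_iff_le, RelIso.symm_apply_apply] using this
  · have hr' : ¬ G.Reachable (a x) (a y) := fun h => hr (by
      have := h.map a.symm.toHom
      simpa using this)
    rw [SimpleGraph.dist_eq_zero_of_not_reachable hr,
      SimpleGraph.dist_eq_zero_of_not_reachable hr']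

/-- The direction of the axis. -/
theorem pocket_dir (A : Act G) : ∃ ℓ : ℕ, ∀ f : ℝ × ℝ, ∃ ψ ∈ A.Γ,
    nm f / 2 ≤ dot f (A.τ ψ) ∧ G.dist A.o (ψ A.o) ≤ ℓ := by
  have hinv : ∀ a : G ≃g G, G.dist A.o (a⁻¹ A.o) = G.dist A.o (a A.o) := by
    intro a
    have h1 : G.dist (a A.o) (a (a⁻¹ A.o)) = G.dist A.o (a⁻¹ A.o) :=
      pocket_dist_map a A.o (a⁻¹ A.o)
    have h2 : a (a⁻¹ A.o) = A.o := RelIso.apply_inv_self a A.o
    rw [h2] at h1
    rw [← h1, SimpleGraph.dist_comm]
  refine ⟨max (G.dist A.o (A.a₁ A.o)) (G.dist A.o (A.a₂ A.o)), fun f => ?_⟩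
  rcases le_total |f.2| |f.1| with hf | hf
  · rcases le_total 0 f.1 with h0 | h0
    · refine ⟨A.a₁, A.a₁_mem, ?_, le_max_left _ _⟩
      rw [A.τ_a₁]
      unfold nm dot
      rw [abs_of_nonneg h0] at hf ⊢
      simp only [mul_one, mul_zero, add_zero]
      linarith
    · refine ⟨A.a₁⁻¹, A.Γ.inv_mem A.a₁_mem, ?_, by rw [hinv]; exact le_max_left _ _⟩
      rw [A.τ_inv A.a₁_mem, A.τ_a₁]
      unfold nm dot
      rw [abs_of_nonpos h0] at hf ⊢
      simp only [Prod.fst_neg, Prod.snd_neg, neg_zero, mul_neg, mul_one, mul_zero, add_zero]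
      linarith only [hf]
  · rcases le_total 0 f.2 with h0 | h0
    · refine ⟨A.a₂, A.a₂_mem, ?_, le_max_right _ _⟩
      rw [A.τ_a₂]
      unfold nm dot
      rw [abs_of_nonneg h0] at hf ⊢
      simp only [mul_one, mul_zero, zero_add]
      linarith
    · refine ⟨A.a₂⁻¹, A.Γ.inv_mem A.a₂_mem, ?_, by rw [hinv]; exact le_max_right _ _⟩
      rw [A.τ_inv A.a₂_mem, A.τ_a₂]
      unfold nm dot
      rw [abs_of_nonpos h0] at hf ⊢
      simp only [Prod.fst_neg, Prod.snd_neg, neg_zero, mul_neg, mul_one, mul_zero, zero_add]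
      linarith

theorem pocket_P_step (A : Act G) {φ ψ : G ≃g G} (hφ : φ ∈ A.Γ) (hψ : ψ ∈ A.Γ) :
    A.P ((φ * ψ) A.o) = A.P (φ A.o) + A.τ ψ := by
  have h1 : (φ * ψ) A.o = φ (ψ A.o) := rfl
  rw [h1, A.equi φ hφ, A.equi ψ hψ, A.equi φ hφ, A.P_o]
  abel

theorem pocket_orbit_walk (A : Act G) {f : ℝ × ℝ} {ψ : G ≃g G} (hψ : ψ ∈ A.Γ) {ℓ : ℕ}
    (h1 : nm f / 2 ≤ dot f (A.τ ψ)) (h2 : G.dist A.o (ψ A.o) ≤ ℓ) {φ : G ≃g G}
    (hφ : φ ∈ A.Γ) (j : ℕ) :
    ∃ (u : V) (w : G.Walk (φ A.o) u), w.length ≤ j * ℓ ∧ u = (φ * ψ ^ j) A.o ∧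
      (∀ z ∈ w.support, dot f (A.P (φ A.o)) - A.C₀ * nm f * ℓ ≤ dot f (A.P z)) ∧
      dot f (A.P (φ A.o)) + j * (nm f / 2) ≤ dot f (A.P u) := by
  have hn : 0 ≤ A.C₀ * nm f := mul_nonneg A.C₀_pos.le (nm_nonneg f)
  have hn' := nm_nonneg f
  induction j with
  | zero =>
    refine ⟨φ A.o, SimpleGraph.Walk.nil, by simp, by simp, ?_, by simp⟩
    intro z hz
    rw [SimpleGraph.Walk.support_nil, List.mem_singleton] at hz
    subst hz
    have : 0 ≤ A.C₀ * nm f * ℓ := by (clear * - hn; positivity)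
    linarith only [this]
  | succ j ih =>
    obtain ⟨u, w, hw1, hw2, hw3, hw4⟩ := ih
    have hm : φ * ψ ^ j ∈ A.Γ := A.Γ.mul_mem hφ (A.Γ.pow_mem hψ j)
    obtain ⟨w', hw'⟩ := (A.conn u ((φ * ψ ^ (j + 1)) A.o)).exists_walk_length_eq_dist
    have e1 : (φ * ψ ^ (j + 1)) A.o = (φ * ψ ^ j) (ψ A.o) := by
      rw [pow_succ, ← mul_assoc]; rfl
    have hd : G.dist u ((φ * ψ ^ (j + 1)) A.o) ≤ ℓ := by
      rw [hw2, e1, pocket_dist_map]
      exact h2
    have hl : w'.length ≤ ℓ := by rw [hw']; exact hd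
    have hl' : (w'.length : ℝ) ≤ ℓ := by exact_mod_cast hl
    have ev : dot f (A.P ((φ * ψ ^ (j + 1)) A.o)) = dot f (A.P u) + dot f (A.τ ψ) := by
      rw [pow_succ, ← mul_assoc, pocket_P_step A hm hψ, dot_add, hw2]
    refine ⟨_, w.append w', ?_, rfl, ?_, ?_⟩
    · rw [SimpleGraph.Walk.length_append]
      have : (j + 1) * ℓ = j * ℓ + ℓ := by ring
      omega
    · intro z hz
      rw [SimpleGraph.Walk.mem_support_append_iff] at hz
      rcases hz with hz | hz
      · exact hw3 z hz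
      · have h5 := lip_walk A f w' hz
        have h6 : A.C₀ * nm f * w'.length ≤ A.C₀ * nm f * ℓ := by (clear * - hl' hn; gcongr)
        have h7 := (abs_le.1 h5).1
        have h8 : (0 : ℝ) ≤ j * (nm f / 2) := by (clear * - hn'; positivity)
        linarith only [hw4, h6, h7, h8]
    · rw [ev]
      push_cast
      linarith only [h1, hw4]

/-- Axis walks: in the direction in which `f` increases. -/
theorem axis_walk (A : Act G) : ∃ ℓ : ℕ, ∀ (f : ℝ × ℝ) (v : V) (j : ℕ),
    ∃ (u : V) (w : G.Walk v u), w.length ≤ A.D₀ + j * ℓ ∧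
      (∀ z ∈ w.support, dot f (A.P v) - A.C₀ * nm f * (A.D₀ + ℓ) ≤ dot f (A.P z)) ∧
      dot f (A.P v) - A.C₀ * nm f * A.D₀ + j * (nm f / 2) ≤ dot f (A.P u) := by
  obtain ⟨ℓ, hℓ⟩ := pocket_dir A
  refine ⟨ℓ, fun f v j => ?_⟩
  have hn : 0 ≤ A.C₀ * nm f := mul_nonneg A.C₀_pos.le (nm_nonneg f)
  obtain ⟨ψ, hψ, h1, h2⟩ := hℓ f
  obtain ⟨φ, hφ, hd⟩ := A.dense v
  obtain ⟨w₁, hw₁⟩ := (A.conn v (φ A.o)).exists_walk_length_eq_dist
  obtain ⟨u, w₂, h3, -, h4, h5⟩ := pocket_orbit_walk A hψ h1 h2 hφ j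
  have hl : w₁.length ≤ A.D₀ := by rw [hw₁]; exact hd
  have hl' : (w₁.length : ℝ) ≤ A.D₀ := by exact_mod_cast hl
  have key : ∀ z ∈ w₁.support, dot f (A.P v) - A.C₀ * nm f * A.D₀ ≤ dot f (A.P z) := by
    intro z hz
    have h6 := (abs_le.1 (lip_walk A f w₁ hz)).1
    have h7 : A.C₀ * nm f * w₁.length ≤ A.C₀ * nm f * A.D₀ := by (clear * - hl' hn; gcongr)
    linarith only [h6, h7]
  have hend := key _ (SimpleGraph.Walk.end_mem_support w₁)
  have hpos : 0 ≤ A.C₀ * nm f * ℓ := by (clear * - hn; positivity)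
  refine ⟨u, w₁.append w₂, ?_, ?_, ?_⟩
  · rw [SimpleGraph.Walk.length_append]
    omega
  · intro z hz
    rw [mul_add]
    rw [SimpleGraph.Walk.mem_support_append_iff] at hz
    rcases hz with hz | hz
    · have := key z hz
      linarith only [hpos, this]
    · have := h4 z hz
      linarith only [hend, this]
  · linarith only [h5, hend]

theorem exists_pocket (A : Act G) : ∃ C₁ : ℝ, 0 < C₁ ∧ ∀ C : ℝ, ∃ n : ℕ, PocketOK A C₁ C n := by
  obtain ⟨ℓ, hℓ⟩ := axis_walk A
  have hC₀ := A.C₀_pos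
  refine ⟨A.C₀ * (A.D₀ + ℓ) + 1, by (clear * - hC₀; positivity), fun C => ⟨A.D₀ + ⌈2 * |C|⌉₊ * ℓ, ?_⟩⟩
  intro K v c hc hv
  obtain ⟨u, w, h1, h2, h3⟩ := hℓ c.1 v ⌈2 * |C|⌉₊
  have hn := nm_nonneg c.1
  refine ⟨u, w, h1, ⟨c, hc, ?_⟩, ?_⟩
  · have h4 : 2 * |C| ≤ (⌈2 * |C|⌉₊ : ℝ) := Nat.le_ceil _
    have h5 : C * nm c.1 ≤ |C| * nm c.1 := by
      gcongr
      exact le_abs_self C
    have h6 : |C| * nm c.1 ≤ (⌈2 * |C|⌉₊ : ℝ) * (nm c.1 / 2) := by
      have := mul_le_mul_of_nonneg_right h4 hn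
      linarith only [this]
    have h7 : 0 ≤ A.C₀ * ℓ * nm c.1 := by (clear * - hC₀ hn; positivity)
    have h8 : (A.C₀ * (A.D₀ + ℓ) + 1) * nm c.1 =
        A.C₀ * nm c.1 * A.D₀ + A.C₀ * ℓ * nm c.1 + nm c.1 := by ring
    linarith only [hv, h3, hn, h5, h6, h7]
  · intro z hz hzW
    have h4 := hzW c hc
    have h5 := h2 z hz
    have h8 : (A.C₀ * (A.D₀ + ℓ) + 1) * nm c.1 =
        A.C₀ * nm c.1 * (A.D₀ + ℓ) + nm c.1 := by ring
    linarith only [hv, hn, h4, h5]

theorem Wk_subset_Hk (A : Act G) (K : Set ((ℝ × ℝ) × ℝ)) (C : ℝ) (n : ℕ) :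
    Wk A K ⊆ Hk A K C n := by
  rintro v hv ⟨u, w, -, -, h⟩
  exact h v (SimpleGraph.Walk.start_mem_support w) hv

theorem Hk_le {A : Act G} {C₁ C : ℝ} {n : ℕ} (h : PocketOK A C₁ C n) {K : Set ((ℝ × ℝ) × ℝ)}
    {v : V} (hv : v ∈ Hk A K C n) {c : (ℝ × ℝ) × ℝ} (hc : c ∈ K) :
    dot c.1 (A.P v) ≤ c.2 + C₁ * nm c.1 := by
  by_contra hcon
  exact hv (h K v c hc (not_le.1 hcon))

/-- Neighbours of the filled region belong to the next region. -/
theorem Hk_nb {A : Act G} {C₁ C : ℝ} {n : ℕ} (h : PocketOK A C₁ C n)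
    {K K' : Set ((ℝ × ℝ) × ℝ)}
    (hKK : ∀ c' ∈ K', ∃ c ∈ K, c.1 = c'.1 ∧ c.2 + (C₁ + A.C₀) * nm c.1 ≤ c'.2)
    {u v : V} (hu : u ∈ Hk A K C n) (huv : G.Adj u v) : v ∈ Wk A K' := by
  intro c' hc'
  obtain ⟨c, hc, e, h1⟩ := hKK c' hc'
  rw [← e]
  have h2 := Hk_le h hu hc
  have h3 := (abs_le.1 (lip_adj A c.1 huv)).1
  have h4 : (C₁ + A.C₀) * nm c.1 = C₁ * nm c.1 + A.C₀ * nm c.1 := by ring
  linarith only [h1, h2, h3]

end Vale.Agent.P151.Pl
end
end

section

/-!
# Lemma M: few contacts with a cut set are rare for most of the cut sets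

PROOF of `lemM`.  Let `R j = reg G D (H j)` (increasing in `j`, contained in `edgesIn G D`).
`r j` = probability (for `edgesIn G D`) that `seedCl` meets `D \ H j`; `r` is decreasing, in `[0, 1]`.
Let `S ⊆ R j` with `1 ≤ (out S).card < M` and let `K S` be the set of the edges of
`edgesIn G D \ R j` with an end point in `out S`: at most `Δ M` edges.  If `T ⊆ edgesIn G D \ R j`
is disjoint from `K S` then `seedCl (S ∪ T) = seedCl S` (`Cn_closed`: an edge of `T` has no end
point in `H j`, and the vertices of `seedCl S` (inside `D`) outside `H j` are in `out S`).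
This cluster meets `D \ H j` but not `D \ H (j + 1)`: a vertex of `out S` is the end point of an
edge of `R j` (or in the ball, excluded) so it is adjacent to a vertex of `H j`, so it is in
`H (j + 1)`.  `GM.kill` gives `(1 - p) ^ (Δ M) * P(1 ≤ out < M) ≤ r j - r (j + 1)`; sum over `j`.

`lemM_zero`: if `seedCl` (edges of `edgesIn G D`) meets `D \ H I` and `j ≤ I` then the path from the
seed leaves `H j`; the first vertex outside `H j` is in `out (T ∩ R j)`.
-/

set_option autoImplicit false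
set_option linter.unusedSectionVars false

noncomputable section

namespace Vale.Agent.P151.Pl

open Vale.Agent.P151 Vale.Agent.P151.Red

variable {V : Type} [DecidableEq V] {G : SimpleGraph V} [G.LocallyFinite]

theorem mem_reg {D : Finset V} {H : Set V} {e : Sym2 V} :
    e ∈ reg G D H ↔ e ∈ edgesIn G D ∧ ∃ v ∈ e, v ∈ H := by
  classical
  unfold reg; rw [Finset.mem_filter]

theorem reg_subset (D : Finset V) (H : Set V) : reg G D H ⊆ edgesIn G D := by
  classical
  unfold reg; exact Finset.filter_subset _ _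

theorem mem_out {k : ℕ} {x : V} {D : Finset V} {H : Set V} {T : Finset (Sym2 V)} {z : V} :
    z ∈ out G k x D H T ↔ z ∈ D ∧ z ∉ H ∧ z ∈ seedCl G k x T := by
  classical
  unfold out; rw [Finset.mem_filter]

theorem Ek_end {k : ℕ} {x u v : V} (h : s(u, v) ∈ Ek G k x) : v ∈ ballF G x k :=
  (mk_mem_edgesIn.1 h).2.2

/-- A set containing the centre, closed under the open edges, contains the cluster. -/
theorem seedCl_subset {k : ℕ} {x : V} {T : Finset (Sym2 V)} {A : Set V} (hx : x ∈ A)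
    (hA : ∀ u ∈ A, ∀ v, s(u, v) ∈ Ek G k x ∪ T → v ∈ A) : seedCl G k x T ⊆ A := by
  intro y hy
  exact Cn_closed hA hx hy

theorem seedCl_self (k : ℕ) (x : V) (T : Finset (Sym2 V)) : x ∈ seedCl G k x T :=
  mem_cluster_self _ _

theorem seedCl_step {k : ℕ} {x u v : V} {T : Finset (Sym2 V)} (hu : u ∈ seedCl G k x T)
    (h : s(u, v) ∈ Ek G k x ∪ T) : v ∈ seedCl G k x T :=
  mem_cluster_trans hu (mem_cluster_of_edge (Finset.mem_coe.2 h))

theorem seedCl_mono (k : ℕ) (x : V) {T T' : Finset (Sym2 V)} (h : T ⊆ T') :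
    seedCl G k x T ⊆ seedCl G k x T' :=
  cluster_mono (Finset.coe_subset.2 (Finset.union_subset_union_right h)) x

/-- If no vertex outside `H` is reached inside `H` then the cluster stays in `H`. -/
theorem stay {k : ℕ} {x : V} {D : Finset V} {H : Set V} (hD : ballF G x k ⊆ D)
    (hH : ∀ v ∈ ballF G x k, v ∈ H) {T : Finset (Sym2 V)} (hT : T ⊆ edgesIn G D)
    (h : (out G k x D H (T ∩ reg G D H)).card = 0) :
    ∀ v ∈ seedCl G k x T, v ∈ D ∧ v ∈ H := by
  have hsub : seedCl G k x T ⊆ {v | v ∈ seedCl G k x (T ∩ reg G D H) ∧ v ∈ D ∧ v ∈ H} := by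
    apply seedCl_subset
    · exact ⟨seedCl_self _ _ _, hD (mem_ballF_self G x k), hH x (mem_ballF_self G x k)⟩
    · rintro u ⟨hu1, hu2, hu3⟩ v huv
      rcases Finset.mem_union.1 huv with h1 | h1
      · exact ⟨seedCl_step hu1 (Finset.mem_union_left _ h1), hD (Ek_end h1), hH _ (Ek_end h1)⟩
      · have h2 := mk_mem_edgesIn.1 (hT h1)
        have h3 : v ∈ seedCl G k x (T ∩ reg G D H) := by
          refine seedCl_step hu1 (Finset.mem_union_right _ (Finset.mem_inter.2 ⟨h1, ?_⟩))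
          exact mem_reg.2 ⟨hT h1, u, Sym2.mem_mk_left u v, hu3⟩
        refine ⟨h3, h2.2.2, ?_⟩
        by_contra hv
        have h4 : v ∈ out G k x D H (T ∩ reg G D H) := mem_out.2 ⟨h2.2.2, hv, h3⟩
        rw [Finset.card_eq_zero] at h
        rw [h] at h4
        exact Finset.notMem_empty _ h4
  intro v hv
  exact (hsub hv).2

theorem card_edges_at {Δ : ℕ} (hΔ : ∀ v, G.degree v ≤ Δ) (O : Finset V) (E : Finset (Sym2 V))
    (hE : ∀ e ∈ E, e ∈ G.edgeSet ∧ ∃ v ∈ e, v ∈ O) : E.card ≤ Δ * O.card := by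
  classical
  have hsub : E ⊆ O.biUnion (fun v => (G.neighborFinset v).image (fun u => s(v, u))) := by
    intro e he
    obtain ⟨h1, v, hv, hvO⟩ := hE e he
    obtain ⟨u, rfl⟩ := Sym2.mem_iff_exists.1 hv
    refine Finset.mem_biUnion.2 ⟨v, hvO, Finset.mem_image.2 ⟨u, ?_, rfl⟩⟩
    rw [SimpleGraph.mem_neighborFinset]
    exact h1
  refine (Finset.card_le_card hsub).trans (Finset.card_biUnion_le.trans ?_)
  have : ∀ v ∈ O, ((G.neighborFinset v).image (fun u => s(v, u))).card ≤ Δ := by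
    intro v _
    refine Finset.card_image_le.trans ?_
    rw [SimpleGraph.card_neighborFinset_eq_degree]
    exact hΔ v
  refine (Finset.sum_le_card_nsmul O _ Δ this).trans ?_
  rw [smul_eq_mul, mul_comm]

theorem lemM {p : ℝ} (h0 : 0 < p) (h1 : p < 1) (Δ : ℕ) (hΔ : ∀ v, G.degree v ≤ Δ) (k : ℕ) (x : V)
    (D : Finset V) (H : ℕ → Set V) (hD : ballF G x k ⊆ D) (hH : ∀ v ∈ ballF G x k, v ∈ H 0)
    (hmono : ∀ i j, i ≤ j → H i ⊆ H j)
    (hnb : ∀ j, ∀ u ∈ H j, ∀ v, G.Adj u v → v ∈ H (j + 1)) (M I : ℕ) :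
    ∑ j ∈ Finset.range I, Pr p (reg G D (H j))
      (fun T => 1 ≤ (out G k x D (H j) T).card ∧ (out G k x D (H j) T).card < M) ≤
      ((1 - p) ^ (Δ * M))⁻¹ := by
  classical
  set B := edgesIn G D with hBdef
  set Q : ℕ → Finset (Sym2 V) → Prop := fun j T => ∃ v ∈ seedCl G k x T, v ∈ D ∧ v ∉ H j with hQ
  have hstep : ∀ j, (1 - p) ^ (Δ * M) * Pr p (reg G D (H j))
      (fun T => 1 ≤ (out G k x D (H j) T).card ∧ (out G k x D (H j) T).card < M) ≤
      Pr p B (Q j) - Pr p B (Q (j + 1)) := by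
    intro j
    set R := reg G D (H j) with hR
    have hRB : R ⊆ B := reg_subset D (H j)
    have hkill := GM.kill (p := p) h0.le h1.le (R := R) (D := B \ R) Finset.disjoint_sdiff (Δ * M)
      (fun T => 1 ≤ (out G k x D (H j) T).card ∧ (out G k x D (H j) T).card < M)
      (fun T => Q j T ∧ ¬ Q (j + 1) T)
      (fun S => (B \ R).filter (fun e => ∃ v ∈ e, v ∈ out G k x D (H j) S))
      (by
        rintro S hS ⟨_, hlt⟩
        refine (card_edges_at hΔ (out G k x D (H j) S) _ ?_).trans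
          (Nat.mul_le_mul_left Δ hlt.le)
        intro e he
        rw [Finset.mem_filter, Finset.mem_sdiff] at he
        exact ⟨(mem_edgesIn.1 he.1.1).1, he.2⟩)
      (by
        rintro S hS T hT ⟨hge, _⟩ hdis
        constructor
        · obtain ⟨z, hz⟩ := Finset.card_pos.1 hge
          have hz' := mem_out.1 hz
          exact ⟨z, seedCl_mono k x Finset.subset_union_left hz'.2.2, hz'.1, hz'.2.1⟩
        · rintro ⟨v, hv, hvD, hvH⟩
          have hsub : seedCl G k x (S ∪ T) ⊆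
              {v | v ∈ seedCl G k x S ∧ v ∈ D ∧ v ∈ H (j + 1)} := by
            apply seedCl_subset
            · exact ⟨seedCl_self _ _ _, hD (mem_ballF_self G x k),
                hmono 0 (j + 1) (Nat.zero_le _) (hH x (mem_ballF_self G x k))⟩
            · rintro u ⟨hu1, hu2, hu3⟩ w huw
              rcases Finset.mem_union.1 huw with h2 | h2
              · exact ⟨seedCl_step hu1 (Finset.mem_union_left _ h2), hD (Ek_end h2),
                  hmono 0 (j + 1) (Nat.zero_le _) (hH _ (Ek_end h2))⟩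
              · rcases Finset.mem_union.1 h2 with h3 | h3
                · have h4 := mem_reg.1 (hS h3)
                  have h5 := mk_mem_edgesIn.1 h4.1
                  refine ⟨seedCl_step hu1 (Finset.mem_union_right _ h3), h5.2.2, ?_⟩
                  obtain ⟨y, hy, hyH⟩ := h4.2
                  rcases Sym2.mem_iff.1 hy with rfl | rfl
                  · exact hnb j _ hyH _ h5.1
                  · exact hmono j (j + 1) (Nat.le_succ j) hyH
                · exfalso
                  have h4 := hT h3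
                  have h5 := Finset.mem_sdiff.1 h4
                  have hu : u ∉ H j := by
                    intro hu
                    exact h5.2 (mem_reg.2 ⟨h5.1, u, Sym2.mem_mk_left u w, hu⟩)
                  have h6 : u ∈ out G k x D (H j) S := mem_out.2 ⟨hu2, hu, hu1⟩
                  exact Finset.disjoint_left.1 hdis h3
                    (Finset.mem_filter.2 ⟨h4, u, Sym2.mem_mk_left u w, h6⟩)
          exact hvH (hsub hv).2.2)
    have hU : R ∪ (B \ R) = B := Finset.union_sdiff_of_subset hRB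
    rw [hU] at hkill
    refine hkill.trans ?_
    have hd : Pr p B (Q j) - Pr p B (Q (j + 1)) =
        Ex p B (fun T => ind (Q j T) - ind (Q (j + 1) T)) := by
      rw [Ex_sub]; rfl
    rw [hd]
    refine Ex_mono h0.le h1.le ?_
    intro T _
    have himp : Q (j + 1) T → Q j T := by
      rintro ⟨v, hv, hvD, hvH⟩
      exact ⟨v, hv, hvD, fun h => hvH (hmono j (j + 1) (Nat.le_succ j) h)⟩
    show GM.ind (fun T => Q j T ∧ ¬ Q (j + 1) T) T ≤ _
    by_cases ha : Q j T
    · by_cases hb : Q (j + 1) T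
      · rw [GM.ind_neg (fun h => h.2 hb), ind_true ha, ind_true hb, sub_self]
      · rw [GM.ind_pos ⟨ha, hb⟩, ind_true ha, ind_false hb, sub_zero]
    · have hb : ¬ Q (j + 1) T := fun h => ha (himp h)
      rw [GM.ind_neg (fun h => ha h.1), ind_false ha, ind_false hb, sub_zero]
  have hsum : (1 - p) ^ (Δ * M) * ∑ j ∈ Finset.range I, Pr p (reg G D (H j))
      (fun T => 1 ≤ (out G k x D (H j) T).card ∧ (out G k x D (H j) T).card < M) ≤
      Pr p B (Q 0) - Pr p B (Q I) := by
    rw [Finset.mul_sum, ← Finset.sum_range_sub' (fun j => Pr p B (Q j)) I]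
    exact Finset.sum_le_sum fun j _ => hstep j
  have hpos : 0 < (1 - p) ^ (Δ * M) := pow_pos (by linarith only [h1]) _
  have h2 : Pr p B (Q 0) - Pr p B (Q I) ≤ 1 := by
    have := Pr_le_one h0.le h1.le B (Q 0)
    have := Pr_nonneg h0.le h1.le B (Q I)
    (clear Δ hΔ hD hH hmono hnb M hBdef hQ hstep hsum hpos; linarith)
  rw [inv_eq_one_div, le_div_iff₀' hpos]
  exact hsum.trans h2

theorem lemM_zero {p : ℝ} (h0 : 0 < p) (h1 : p < 1) (k : ℕ) (x : V)
    (D : Finset V) (H : Set V) (J : Set V) (hD : ballF G x k ⊆ D) (hH : ∀ v ∈ ballF G x k, v ∈ H)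
    (hJ : ∀ v ∈ J, v ∉ H) :
    Pr p (reg G D H) (fun T => (out G k x D H T).card = 0) ≤
      Pr p (edgesIn G D) (fun T => ¬ ∃ v ∈ seedCl G k x T, v ∈ D ∧ v ∈ J) := by
  have hres : Pr p (edgesIn G D) (fun T => (out G k x D H (T ∩ reg G D H)).card = 0) =
      Pr p (reg G D H) (fun T => (out G k x D H T).card = 0) := by
    rw [Pr_restrict p (reg_subset D H)]
    · refine Pr_congr fun T hT => ?_
      rw [Finset.inter_eq_left.2 hT]
    · intro T _
      rw [Finset.inter_assoc, Finset.inter_self]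
  rw [← hres]
  refine Pr_mono h0.le h1.le ?_
  rintro T hT h ⟨v, hv, _, hvJ⟩
  exact hJ v hvJ (stay hD hH hT h v hv).2

end Vale.Agent.P151.Pl
end
end

section

/-!
# Abstract form of Lemma E

Cells `E z` (pairwise disjoint sets of edges); `t T` = the set of the cells which are touched, the
event `Bad` and the set `t T` do not depend on the cells not in `t T`, and on `Bad` no touched cell is
completely open.  Then `E[1_Bad ∏_{z ∈ t} (1 - p ^ |E z|)⁻¹] ≤ 1`.
-/

set_option autoImplicit false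
set_option linter.unusedSectionVars false

noncomputable section

namespace Vale.Agent.P151.Pl

open Vale.Agent.P151 Vale.Agent.P151.Red

section abs
variable {ι κ : Type} [DecidableEq ι] [DecidableEq κ]

theorem absE {p : ℝ} (h0 : 0 < p) (h1 : p < 1) (E : κ → Finset ι) (Z : Finset κ) :
    ∀ (B : Finset ι) (Bad : Finset ι → Prop) (t : Finset ι → Finset κ),
      (∀ z ∈ Z, E z ⊆ B) → (∀ z ∈ Z, ∀ z' ∈ Z, z ≠ z' → Disjoint (E z) (E z')) →
      (∀ T ⊆ B, Bad T → ∀ z ∈ t T, z ∈ Z ∧ ¬ E z ⊆ T) →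
      (∀ T ⊆ B, Bad T → ∀ z ∈ Z, z ∉ t T → ∀ U ⊆ E z,
        Bad ((T \ E z) ∪ U) ∧ t ((T \ E z) ∪ U) = t T) →
      Ex p B (fun T => ind (Bad T) * ∏ z ∈ t T, (1 - p ^ (E z).card)⁻¹) ≤ 1 := by
  induction Z using Finset.induction_on with
  | empty =>
    intro B Bad t _ _ hi _
    refine Ex_le_const h0.le h1.le fun T hT => ?_
    by_cases hb : Bad T
    · have : t T = ∅ := by
        rw [Finset.eq_empty_iff_forall_notMem]
        intro z hz
        exact Finset.notMem_empty _ (hi T hT hb z hz).1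
      rw [this, Finset.prod_empty, mul_one]
      exact ind_le_one _
    · rw [ind_false hb, zero_mul]; exact zero_le_one
  | insert z₀ Z hz₀ ih =>
    intro B Bad t hE hdis hi hii
    set E₀ := E z₀ with hE₀
    set C := B \ E₀ with hC
    have hE₀B : E₀ ⊆ B := hE z₀ (Finset.mem_insert_self _ _)
    have hCB : C ⊆ B := Finset.sdiff_subset
    have hB : B = E₀ ∪ C := by rw [hC, Finset.union_sdiff_of_subset hE₀B]
    have hd : Disjoint E₀ C := Finset.disjoint_sdiff
    have hq : ∀ z, 0 ≤ (1 - p ^ (E z).card)⁻¹ := by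
      intro z
      have : p ^ (E z).card ≤ 1 := pow_le_one₀ h0.le h1.le
      exact inv_nonneg.2 (by linarith)
    have hsub : ∀ U ⊆ E₀, ∀ S ⊆ C, U ∪ S ⊆ B := by
      intro U hU S hS
      exact Finset.union_subset (hU.trans hE₀B) (hS.trans hCB)
    have hUSE : ∀ U ⊆ E₀, ∀ S ⊆ C, (U ∪ S) \ E₀ = S := by
      intro U hU S hS
      ext e
      simp only [Finset.mem_sdiff, Finset.mem_union]
      constructor
      · rintro ⟨h | h, h'⟩
        · exact absurd (hU h) h'
        · exact h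
      · intro h
        exact ⟨Or.inr h, (Finset.mem_sdiff.1 (hS h)).2⟩
    -- invariance in the cell `z₀`
    have hinv : ∀ U ⊆ E₀, ∀ S ⊆ C, ∀ U' ⊆ E₀, Bad (U ∪ S) → z₀ ∉ t (U ∪ S) →
        Bad (U' ∪ S) ∧ t (U' ∪ S) = t (U ∪ S) := by
      intro U hU S hS U' hU' hb hz
      have h2 := hii (U ∪ S) (hsub U hU S hS) hb z₀ (Finset.mem_insert_self _ _) hz U' hU'
      rw [← hE₀, hUSE U hU S hS, Finset.union_comm] at h2
      exact h2
    -- induction hypothesis for each `U`
    have hIH : ∀ U ⊆ E₀, Ex p C (fun S => ind (Bad (U ∪ S)) *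
        ∏ z ∈ (t (U ∪ S)).erase z₀, (1 - p ^ (E z).card)⁻¹) ≤ 1 := by
      intro U hU
      apply ih C (fun S => Bad (U ∪ S)) (fun S => (t (U ∪ S)).erase z₀)
      · intro z hz e he
        rw [hC, Finset.mem_sdiff]
        refine ⟨hE z (Finset.mem_insert_of_mem hz) he, fun h => ?_⟩
        refine Finset.disjoint_left.1 (hdis z (Finset.mem_insert_of_mem hz) z₀
          (Finset.mem_insert_self _ _) ?_) he h
        rintro rfl; exact hz₀ hz
      · intro z hz z' hz' hne
        exact hdis z (Finset.mem_insert_of_mem hz) z' (Finset.mem_insert_of_mem hz') hne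
      · intro S hS hb z hz
        rw [Finset.mem_erase] at hz
        obtain ⟨h2, h3⟩ := hi (U ∪ S) (hsub U hU S hS) hb z hz.2
        refine ⟨(Finset.mem_insert.1 h2).resolve_left hz.1, fun h => h3 ?_⟩
        exact h.trans Finset.subset_union_right
      · intro S hS hb z hz hzt U' hU'
        have hne : z ≠ z₀ := by rintro rfl; exact hz₀ hz
        have hzt' : z ∉ t (U ∪ S) := fun h => hzt (Finset.mem_erase.2 ⟨hne, h⟩)
        have h2 := hii (U ∪ S) (hsub U hU S hS) hb z (Finset.mem_insert_of_mem hz) hzt' U' hU'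
        have hdz : Disjoint (E z) E₀ := hdis z (Finset.mem_insert_of_mem hz) z₀
          (Finset.mem_insert_self _ _) hne
        have h3 : (U ∪ S) \ E z ∪ U' = U ∪ (S \ E z ∪ U') := by
          rw [Finset.union_sdiff_distrib, Finset.union_assoc]
          congr 1
          rw [Finset.sdiff_eq_self_iff_disjoint]
          exact (hdz.mono_right hU).symm
        rw [h3] at h2
        exact ⟨h2.1, by rw [h2.2]⟩
    set Y := Ex p C (fun S => ind (Bad S ∧ z₀ ∉ t S) * ∏ z ∈ t S, (1 - p ^ (E z).card)⁻¹) with hY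
    set X : Finset ι → ℝ := fun U => Ex p C (fun S => ind (Bad (U ∪ S) ∧ z₀ ∈ t (U ∪ S)) *
      ∏ z ∈ (t (U ∪ S)).erase z₀, (1 - p ^ (E z).card)⁻¹) with hX
    have hYU : ∀ U ⊆ E₀, ∀ S ⊆ C, ind (Bad (U ∪ S) ∧ z₀ ∉ t (U ∪ S)) *
        ∏ z ∈ t (U ∪ S), (1 - p ^ (E z).card)⁻¹ =
        ind (Bad S ∧ z₀ ∉ t S) * ∏ z ∈ t S, (1 - p ^ (E z).card)⁻¹ := by
      intro U hU S hS
      by_cases h : Bad S ∧ z₀ ∉ t S
      · have h2 := hinv ∅ (Finset.empty_subset _) S hS U hU (by rw [Finset.empty_union]; exact h.1)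
          (by rw [Finset.empty_union]; exact h.2)
        rw [Finset.empty_union] at h2
        rw [ind_true h, ind_true (by rw [h2.2]; exact ⟨h2.1, h.2⟩), h2.2]
      · rw [ind_false h, ind_false, zero_mul, zero_mul]
        rintro ⟨h2, h3⟩
        have h4 := hinv U hU S hS ∅ (Finset.empty_subset _) h2 h3
        rw [Finset.empty_union] at h4
        exact h ⟨h4.1, by rw [h4.2]; exact h3⟩
    have hX0 : ∀ U, 0 ≤ X U := fun U => Ex_nonneg h0.le h1.le fun S _ =>
      mul_nonneg (ind_nonneg _) (Finset.prod_nonneg fun z _ => hq z)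
    have hXY : ∀ U ⊆ E₀, X U + Y ≤ 1 := by
      intro U hU
      refine le_trans (le_of_eq ?_) (hIH U hU)
      rw [hX, hY, ← Ex_add]
      refine Ex_congr p fun S hS => ?_
      rw [← hYU U hU S hS]
      by_cases hb : Bad (U ∪ S)
      · by_cases hz : z₀ ∈ t (U ∪ S)
        · rw [ind_true ⟨hb, hz⟩, ind_true hb, ind_false (fun h => h.2 hz), zero_mul, add_zero]
        · rw [ind_false (fun h => hz h.2), ind_true ⟨hb, hz⟩, ind_true hb, zero_mul, zero_add,
            Finset.erase_eq_of_notMem hz]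
      · rw [ind_false (fun h => hb h.1), ind_false (fun h => hb h.1), ind_false hb]
        simp only [zero_mul, add_zero]
    have hXE : X E₀ = 0 := by
      rw [hX, ← Ex_const p C 0]
      refine Ex_congr p fun S hS => ?_
      rw [ind_false, zero_mul]
      rintro ⟨hb, hz⟩
      exact (hi (E₀ ∪ S) (hsub E₀ (Finset.Subset.refl _) S hS) hb z₀ hz).2
        Finset.subset_union_left
    have hY1 : Y ≤ 1 := by
      have := hXY E₀ (Finset.Subset.refl _)
      rw [hXE, zero_add] at this; exact this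
    set q := 1 - p ^ E₀.card with hqdef
    have hq0 : 0 ≤ q := by
      have : p ^ E₀.card ≤ 1 := pow_le_one₀ h0.le h1.le
      rw [hqdef]; linarith only [this]
    -- the total
    have htot : Ex p B (fun T => ind (Bad T) * ∏ z ∈ t T, (1 - p ^ (E z).card)⁻¹) =
        Ex p E₀ (fun U => q⁻¹ * X U + Y) := by
      rw [hB, Ex_union p hd]
      refine Ex_congr p fun U hU => ?_
      rw [hX, hY, ← Ex_const_mul, ← Ex_add]
      refine Ex_congr p fun S hS => ?_
      rw [← hYU U hU S hS]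
      by_cases hb : Bad (U ∪ S)
      · by_cases hz : z₀ ∈ t (U ∪ S)
        · have e1 : ind (Bad (U ∪ S) ∧ z₀ ∈ t (U ∪ S)) = 1 := ind_true ⟨hb, hz⟩
          have e2 : ind (Bad (U ∪ S) ∧ z₀ ∉ t (U ∪ S)) = 0 := ind_false (fun h => h.2 hz)
          rw [e1, e2, ind_true hb, zero_mul, add_zero, one_mul, one_mul,
            ← Finset.mul_prod_erase _ _ hz]
        · have e1 : ind (Bad (U ∪ S) ∧ z₀ ∈ t (U ∪ S)) = 0 := ind_false (fun h => hz h.2)
          have e2 : ind (Bad (U ∪ S) ∧ z₀ ∉ t (U ∪ S)) = 1 := ind_true ⟨hb, hz⟩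
          rw [e1, e2, ind_true hb, zero_mul, mul_zero, zero_add]
      · have e1 : ind (Bad (U ∪ S) ∧ z₀ ∈ t (U ∪ S)) = 0 := ind_false (fun h => hb h.1)
        have e2 : ind (Bad (U ∪ S) ∧ z₀ ∉ t (U ∪ S)) = 0 := ind_false (fun h => hb h.1)
        rw [e1, e2, ind_false hb]
        simp only [zero_mul, mul_zero, add_zero]
    rw [htot]
    have hbd : Ex p E₀ (fun U => q⁻¹ * X U + Y) ≤
        Ex p E₀ (fun U => (q⁻¹ * (1 - Y)) * ind (¬ E₀ ⊆ U) + Y) := by
      refine Ex_mono h0.le h1.le fun U hU => ?_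
      by_cases h : E₀ ⊆ U
      · have : U = E₀ := Finset.Subset.antisymm hU h
        subst this
        rw [hXE, ind_false (not_not.2 h)]
        simp
      · rw [ind_true h, mul_one]
        have := hXY U hU
        have h3 : X U ≤ 1 - Y := by linarith only [this]
        have := mul_le_mul_of_nonneg_left h3 (inv_nonneg.2 hq0)
        linarith only [this]
    refine hbd.trans ?_
    rw [Ex_add, Ex_const, Ex_const_mul]
    have hopen : Ex p E₀ (fun U => ind (¬ E₀ ⊆ U)) = q := by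
      have h2 := Pr_not (p := p) E₀ (fun U => E₀ ⊆ U)
      rw [Pr_all_open p (Finset.Subset.refl E₀)] at h2
      exact h2
    rw [hopen]
    have h5 : q⁻¹ * q ≤ 1 := by
      by_cases h : q = 0
      · rw [h]; simp
      · rw [inv_mul_cancel₀ h]
    have h6 : q⁻¹ * (1 - Y) * q = (q⁻¹ * q) * (1 - Y) := by ring
    rw [h6]
    nlinarith only [hY1, h5]

theorem absE_le {p : ℝ} (h0 : 0 < p) (h1 : p < 1) (E : κ → Finset ι) (Z : Finset κ)
    (B : Finset ι) (Bad : Finset ι → Prop) (t : Finset ι → Finset κ) (N l : ℕ)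
    (hN : ∀ z ∈ Z, (E z).card ≤ N)
    (hE : ∀ z ∈ Z, E z ⊆ B) (hdis : ∀ z ∈ Z, ∀ z' ∈ Z, z ≠ z' → Disjoint (E z) (E z'))
    (hi : ∀ T ⊆ B, Bad T → ∀ z ∈ t T, z ∈ Z ∧ ¬ E z ⊆ T)
    (hii : ∀ T ⊆ B, Bad T → ∀ z ∈ Z, z ∉ t T → ∀ U ⊆ E z,
        Bad ((T \ E z) ∪ U) ∧ t ((T \ E z) ∪ U) = t T) :
    Pr p B (fun T => Bad T ∧ l ≤ (t T).card) ≤ (1 - p ^ N) ^ l := by
  have h2 := absE h0 h1 E Z B Bad t hE hdis hi hii
  have hc0 : 0 ≤ 1 - p ^ N := by
    have : p ^ N ≤ 1 := pow_le_one₀ h0.le h1.le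
    linarith only [this]
  have hc1 : 1 - p ^ N ≤ 1 := by
    have : 0 < p ^ N := pow_pos h0 N
    linarith only [this]
  have h3 : Pr p B (fun T => Bad T ∧ l ≤ (t T).card) ≤
      Ex p B (fun T => (1 - p ^ N) ^ l * (ind (Bad T) * ∏ z ∈ t T, (1 - p ^ (E z).card)⁻¹)) := by
    refine Ex_mono h0.le h1.le fun T hT => ?_
    by_cases hb : Bad T
    · by_cases hl : l ≤ (t T).card
      · rw [ind_true ⟨hb, hl⟩, ind_true hb, one_mul]
        have hpos : ∀ z ∈ t T, 0 < 1 - p ^ (E z).card := by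
          intro z hz
          have h4 := (hi T hT hb z hz).2
          have h5 : (E z).card ≠ 0 := by
            intro h
            rw [Finset.card_eq_zero] at h
            rw [h] at h4
            exact h4 (Finset.empty_subset _)
          have := pow_lt_one₀ h0.le h1 h5
          linarith only [this]
        have hprod : ∏ z ∈ t T, (1 - p ^ (E z).card) ≤ (1 - p ^ N) ^ l := by
          refine (Finset.prod_le_prod (fun z hz => (hpos z hz).le)
            (g := fun _ => 1 - p ^ N) (fun z hz => ?_)).trans ?_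
          · have := pow_le_pow_of_le_one h0.le h1.le (hN z (hi T hT hb z hz).1)
            linarith only [this]
          · rw [Finset.prod_const]
            exact pow_le_pow_of_le_one hc0 hc1 hl
        have hpp : 0 < ∏ z ∈ t T, (1 - p ^ (E z).card) := Finset.prod_pos hpos
        rw [Finset.prod_inv_distrib]
        rw [← div_eq_mul_inv, le_div_iff₀ hpp, one_mul]
        exact hprod
      · rw [ind_false (fun h => hl h.2)]
        refine mul_nonneg (pow_nonneg hc0 _) (mul_nonneg (ind_nonneg _)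
          (Finset.prod_nonneg fun z _ => ?_))
        have : p ^ (E z).card ≤ 1 := pow_le_one₀ h0.le h1.le
        exact inv_nonneg.2 (by linarith only [this])
    · rw [ind_false (fun h => hb h.1), ind_false hb, zero_mul, mul_zero]
  refine h3.trans ?_
  rw [Ex_const_mul]
  calc (1 - p ^ N) ^ l * Ex p B (fun T => ind (Bad T) * ∏ z ∈ t T, (1 - p ^ (E z).card)⁻¹)
      ≤ (1 - p ^ N) ^ l * 1 := mul_le_mul_of_nonneg_left h2 (pow_nonneg hc0 _)
    _ = _ := mul_one _

end abs

end Vale.Agent.P151.Pl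
end
end

section

/-!
# Lemma E: a large cluster close to the exits finds an exit

The vertices of `L` which are joined to `A \ L` by a walk of length at most `n` in `A` are divided
into cells, one for each vertex `z` of `A \ L` (`rt n v = some z`); the cell of `z` is connected by
its edges `cellE n z`, it has at most `(Δ + 1) ^ n` vertices.  On the event `Bad` that the cluster
of the seed does not meet `A \ L`, the cells not touched by the cluster are not explored, and no
touched cell is completely open.  Abstract lemma: `absE_le`.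
-/

set_option autoImplicit false
set_option linter.unusedSectionVars false

noncomputable section

namespace Vale.Agent.P151.Pl

open Vale.Agent.P151 Vale.Agent.P151.Red

variable {V : Type} [DecidableEq V] {G : SimpleGraph V} [G.LocallyFinite]

section cells

variable (G)

open Classical in
/-- The exit assigned to `v` after `j` steps. -/
def rt (A L : Finset V) : ℕ → V → Option V
  | 0, v => if v ∈ A \ L then some v else none
  | j + 1, v => if (rt A L j v).isSome then rt A L j v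
      else if h : v ∈ L ∧ ∃ u, G.Adj v u ∧ (rt A L j u).isSome then rt A L j (Classical.choose h.2)
      else none

variable {G}
variable {A L : Finset V}

theorem rt_zero (v : V) : rt G A L 0 v = if v ∈ A \ L then some v else none := by
  classical
  unfold rt
  split_ifs <;> rfl

theorem rt_succ_of_some {j : ℕ} {v z : V} (h : rt G A L j v = some z) :
    rt G A L (j + 1) v = some z := by
  rw [rt, if_pos (by rw [h]; rfl), h]

theorem rt_mono {i j : ℕ} (hij : i ≤ j) {v z : V} (h : rt G A L i v = some z) :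
    rt G A L j v = some z := by
  induction hij with
  | refl => exact h
  | step _ ih => exact rt_succ_of_some ih

theorem rt_exit {z : V} (hz : z ∈ A \ L) (j : ℕ) : rt G A L j z = some z := by
  refine rt_mono (Nat.zero_le j) ?_
  rw [rt_zero, if_pos hz]

/-- The new values at step `j + 1`. -/
theorem rt_succ_new {j : ℕ} {v z : V} (h : rt G A L (j + 1) v = some z) :
    rt G A L j v = some z ∨ (v ∈ L ∧ ∃ u, G.Adj v u ∧ rt G A L j u = some z) := by
  classical
  rw [rt] at h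
  by_cases h1 : (rt G A L j v).isSome
  · rw [if_pos h1] at h; exact Or.inl h
  · rw [if_neg h1] at h
    by_cases h2 : v ∈ L ∧ ∃ u, G.Adj v u ∧ (rt G A L j u).isSome
    · rw [dif_pos h2] at h
      exact Or.inr ⟨h2.1, Classical.choose h2.2, (Classical.choose_spec h2.2).1, h⟩
    · rw [dif_neg h2] at h
      exact absurd h (by simp)

theorem rt_spec (hLA : L ⊆ A) : ∀ {j : ℕ} {v z : V}, rt G A L j v = some z →
    z ∈ A \ L ∧ v ∈ A ∧ v ∈ ballF G z j := by
  intro j
  induction j with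
  | zero =>
    intro v z h
    rw [rt_zero] at h
    split_ifs at h with h1
    rw [Option.some.injEq] at h
    subst h
    exact ⟨h1, (Finset.mem_sdiff.1 h1).1, mem_ballF_self G v 0⟩
  | succ j ih =>
    intro v z h
    rcases rt_succ_new h with h1 | ⟨h1, u, h2, h3⟩
    · obtain ⟨a, b, c⟩ := ih h1
      exact ⟨a, b, ballF_mono G z (Nat.le_succ j) c⟩
    · obtain ⟨a, b, c⟩ := ih h3
      exact ⟨a, hLA h1, (mem_ballF_succ G z j v).2 (Or.inr ⟨u, c, h2.symm⟩)⟩

theorem rt_isSome_step {j : ℕ} {v u : V} (hv : v ∈ A) (huv : G.Adj v u)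
    (hu : (rt G A L j u).isSome) : (rt G A L (j + 1) v).isSome := by
  classical
  by_cases h : v ∈ L
  · rw [rt]
    by_cases h1 : (rt G A L j v).isSome
    · rw [if_pos h1]; exact h1
    · have h2 : v ∈ L ∧ ∃ u, G.Adj v u ∧ (rt G A L j u).isSome := ⟨h, u, huv, hu⟩
      rw [if_neg h1, dif_pos h2]
      exact (Classical.choose_spec h2.2).2
  · rw [rt_exit (Finset.mem_sdiff.2 ⟨hv, h⟩)]; rfl

theorem rt_cover : ∀ (j : ℕ) (v z : V) (w : G.Walk v z), z ∈ A \ L → w.length ≤ j →
    (∀ u ∈ w.support, u ∈ A) → (rt G A L j v).isSome := by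
  intro j
  induction j with
  | zero =>
    intro v z w hz hw _
    have : v = z := SimpleGraph.Walk.eq_of_length_eq_zero (Nat.le_zero.1 hw)
    subst this
    rw [rt_exit hz]; rfl
  | succ j ih =>
    intro v z w hz hw hs
    cases w with
    | nil => rw [rt_exit hz]; rfl
    | cons h q =>
      rw [SimpleGraph.Walk.length_cons] at hw
      refine rt_isSome_step (hs _ (by simp)) h (ih _ _ q hz (by omega) ?_)
      intro u hu
      exact hs u (by rw [SimpleGraph.Walk.support_cons]; exact List.mem_cons_of_mem _ hu)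

open Classical in
/-- The edges of the cell of `z`. -/
def cellE (G : SimpleGraph V) [G.LocallyFinite] (A L : Finset V) (n : ℕ) (z : V) :
    Finset (Sym2 V) :=
  (reg G A (↑L : Set V)).filter (fun e => ∀ v ∈ e, rt G A L n v = some z)

theorem mem_cellE {n : ℕ} {z : V} {e : Sym2 V} : e ∈ cellE G A L n z ↔
    e ∈ reg G A (↑L : Set V) ∧ ∀ v ∈ e, rt G A L n v = some z := by
  classical
  unfold cellE; rw [Finset.mem_filter]

theorem rt_conn (hLA : L ⊆ A) {n : ℕ} : ∀ {j : ℕ}, j ≤ n → ∀ {v z : V}, rt G A L j v = some z →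
    Cn (cellE G A L n z) v z := by
  intro j
  induction j with
  | zero =>
    intro _ v z h
    rw [rt_zero] at h
    split_ifs at h with h1
    rw [Option.some.injEq] at h
    subst h
    exact Cn.refl _ _
  | succ j ih =>
    intro hj v z h
    rcases rt_succ_new h with h1 | ⟨h1, u, h2, h3⟩
    · exact ih (by omega) h1
    · refine Cn.trans (Cn_of_mem (S := cellE G A L n z) (a := v) (b := u) ?_) (ih (by omega) h3)
      rw [mem_cellE, mem_reg, mk_mem_edgesIn]
      refine ⟨⟨⟨h2, hLA h1, (rt_spec hLA h3).2.1⟩, v, Sym2.mem_mk_left v u, h1⟩, ?_⟩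
      intro y hy
      rcases Sym2.mem_iff.1 hy with rfl | rfl
      · exact rt_mono hj h
      · exact rt_mono (by omega) h3

theorem cellE_disjoint {n : ℕ} {z z' : V} (hne : z ≠ z') :
    Disjoint (cellE G A L n z) (cellE G A L n z') := by
  rw [Finset.disjoint_left]
  intro e he he'
  rw [mem_cellE] at he he'
  obtain ⟨v, hv⟩ : ∃ v, v ∈ e := by
    induction e with
    | _ a b => exact ⟨a, by simp⟩
  have h1 := he.2 v hv
  rw [he'.2 v hv, Option.some.injEq] at h1
  exact hne h1.symm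

end cells

theorem card_ballF_le {Δ : ℕ} (hΔ : ∀ v, G.degree v ≤ Δ) (z : V) (n : ℕ) :
    (ballF G z n).card ≤ (Δ + 1) ^ n := by
  induction n with
  | zero => rw [ballF_zero]; simp
  | succ n ih =>
    have hsub : ballF G z (n + 1) ⊆
        (ballF G z n).biUnion (fun x => insert x (G.neighborFinset x)) := by
      intro y hy
      rw [Finset.mem_biUnion]
      rcases (mem_ballF_succ G z n y).1 hy with h | ⟨x, hx, hxy⟩
      · exact ⟨y, h, Finset.mem_insert_self _ _⟩
      · exact ⟨x, hx, Finset.mem_insert_of_mem ((SimpleGraph.mem_neighborFinset _ _ _).2 hxy)⟩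
    refine (Finset.card_le_card hsub).trans (Finset.card_biUnion_le.trans ?_)
    refine (Finset.sum_le_card_nsmul _ _ (Δ + 1) (fun x _ => ?_)).trans ?_
    · refine (Finset.card_insert_le _ _).trans ?_
      rw [SimpleGraph.card_neighborFinset_eq_degree]
      exact Nat.add_le_add_right (hΔ x) 1
    · rw [smul_eq_mul, pow_succ]
      exact Nat.mul_le_mul_right _ ih

theorem card_cellE_le {Δ : ℕ} (hΔ : ∀ v, G.degree v ≤ Δ) {A L : Finset V} (hLA : L ⊆ A) (n : ℕ)
    (z : V) : (cellE G A L n z).card ≤ (Δ + 1) ^ (n + 1) := by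
  have h1 : (cellE G A L n z).card ≤ Δ * (ballF G z n).card := by
    refine card_edges_at hΔ (ballF G z n) _ ?_
    intro e he
    rw [mem_cellE] at he
    refine ⟨(mem_edgesIn.1 (mem_reg.1 he.1).1).1, ?_⟩
    obtain ⟨v, hv⟩ : ∃ v, v ∈ e := by
      induction e with
      | _ a b => exact ⟨a, by simp⟩
    exact ⟨v, hv, (rt_spec hLA (he.2 v hv)).2.2⟩
  refine h1.trans ?_
  rw [pow_succ, mul_comm]
  exact Nat.mul_le_mul (card_ballF_le hΔ z n) (Nat.le_succ Δ)

open Classical in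
theorem lemE {p : ℝ} (h0 : 0 < p) (h1 : p < 1) (Δ : ℕ) (hΔ : ∀ v, G.degree v ≤ Δ) (k : ℕ) (x : V)
    (A L W₀ : Finset V) (hLA : L ⊆ A) (hB : ballF G x k ⊆ L) (hW : W₀ ⊆ L) (n : ℕ)
    (hwalk : ∀ v ∈ W₀, ∃ (z : V) (w : G.Walk v z), z ∈ A \ L ∧ w.length ≤ n ∧
      ∀ u ∈ w.support, u ∈ A) (m : ℕ) :
    Pr p (reg G A ↑L) (fun T => m ≤ (W₀.filter (fun v => v ∈ seedCl G k x T)).card ∧
      ∀ z ∈ A \ L, z ∉ seedCl G k x T) ≤
      (1 - p ^ ((Δ + 1) ^ (n + 1))) ^ (m / (Δ + 1) ^ (n + 1)) := by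
  set N := (Δ + 1) ^ (n + 1) with hN
  have hNpos : 0 < N := pow_pos (Nat.succ_pos Δ) _
  set t : Finset (Sym2 V) → Finset V := fun T =>
    (A \ L).filter (fun z => ∃ v ∈ seedCl G k x T, rt G A L n v = some z) with ht
  set Bad : Finset (Sym2 V) → Prop := fun T => ∀ z ∈ A \ L, z ∉ seedCl G k x T with hBad
  have habs := absE_le (ι := Sym2 V) (κ := V) h0 h1 (cellE G A L n) (A \ L)
    (reg G A (↑L : Set V)) Bad t N (m / N)
    (fun z _ => card_cellE_le hΔ hLA n z)
    (fun z _ e he => (mem_cellE.1 he).1)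
    (fun z _ z' _ hne => cellE_disjoint hne)
    (by
      intro T _ hb z hz
      rw [ht, Finset.mem_filter] at hz
      obtain ⟨hzA, v, hv, hvz⟩ := hz
      refine ⟨hzA, fun hsub => hb z hzA ?_⟩
      have h2 : Cn (Ek G k x ∪ T) v z :=
        Cn.mono (hsub.trans Finset.subset_union_right) (rt_conn hLA le_rfl hvz)
      exact mem_cluster_trans hv h2)
    (by
      intro T hT hb z hzA hzt U hU
      have hno : ∀ u v : V, u ∈ seedCl G k x T → s(u, v) ∉ cellE G A L n z := by
        intro u v hu he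
        apply hzt
        rw [ht, Finset.mem_filter]
        exact ⟨hzA, u, hu, (mem_cellE.1 he).2 u (Sym2.mem_mk_left u v)⟩
      have hcl : seedCl G k x (T \ cellE G A L n z ∪ U) = seedCl G k x T := by
        apply Set.Subset.antisymm
        · apply seedCl_subset (seedCl_self _ _ _)
          intro u hu v huv
          rcases Finset.mem_union.1 huv with h2 | h2
          · exact seedCl_step hu (Finset.mem_union_left _ h2)
          · rcases Finset.mem_union.1 h2 with h3 | h3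
            · exact seedCl_step hu (Finset.mem_union_right _ (Finset.mem_sdiff.1 h3).1)
            · exact absurd (hU h3) (hno u v hu)
        · have hsub : seedCl G k x T ⊆ {v | v ∈ seedCl G k x T ∧
              v ∈ seedCl G k x (T \ cellE G A L n z ∪ U)} := by
            apply seedCl_subset
            · exact ⟨seedCl_self _ _ _, seedCl_self _ _ _⟩
            · rintro u ⟨hu1, hu2⟩ v huv
              refine ⟨seedCl_step hu1 huv, ?_⟩
              rcases Finset.mem_union.1 huv with h2 | h2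
              · exact seedCl_step hu2 (Finset.mem_union_left _ h2)
              · refine seedCl_step hu2 (Finset.mem_union_right _ (Finset.mem_union_left _
                  (Finset.mem_sdiff.2 ⟨h2, hno u v hu1⟩)))
          exact fun v hv => (hsub hv).2
      constructor
      · intro z' hz'
        rw [hcl]; exact hb z' hz'
      · simp only [ht, hcl])
  refine le_trans (Pr_mono h0.le h1.le ?_) habs
  rintro T hT ⟨hm, hb⟩
  refine ⟨hb, ?_⟩
  -- count
  have hcard : (W₀.filter (fun v => v ∈ seedCl G k x T)).card ≤ N * (t T).card := by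
    have hsub : W₀.filter (fun v => v ∈ seedCl G k x T) ⊆ (t T).biUnion (fun z => ballF G z n) := by
      intro v hv
      rw [Finset.mem_filter] at hv
      obtain ⟨z', w, hz', hw, hs⟩ := hwalk v hv.1
      have h2 := rt_cover n v z' w hz' hw hs
      obtain ⟨z, hz⟩ := Option.isSome_iff_exists.1 h2
      have h3 := rt_spec hLA hz
      rw [Finset.mem_biUnion]
      refine ⟨z, ?_, h3.2.2⟩
      rw [ht, Finset.mem_filter]
      exact ⟨h3.1, v, hv.2, hz⟩
    refine (Finset.card_le_card hsub).trans (Finset.card_biUnion_le.trans ?_)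
    refine (Finset.sum_le_card_nsmul _ _ N (fun z _ => ?_)).trans ?_
    · refine (card_ballF_le hΔ z n).trans ?_
      exact Nat.pow_le_pow_right (Nat.succ_pos Δ) (Nat.le_succ n)
    · rw [smul_eq_mul, mul_comm]
  exact Nat.div_le_of_le_mul (hm.trans hcard)

end Vale.Agent.P151.Pl
end
end

section

/-!
# The common part of `exit_all` and `thin`
-/

set_option autoImplicit false
set_option linter.unusedSectionVars false

noncomputable section

namespace Vale.Agent.P151.Pl.EBd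

open Vale.Agent.P151 Vale.Agent.P151.Red Vale.Agent.P151.Pl

variable {V : Type} [DecidableEq V] {G : SimpleGraph V} [G.LocallyFinite]

/-- Induction along a cluster. -/
theorem cluster_ind {ω : Set (Sym2 V)} {x : V} {Q : V → Prop} (h0 : Q x)
    (hs : ∀ y z, y ∈ cluster ω x → Q y → s(y, z) ∈ ω → Q z) {y : V} (hy : y ∈ cluster ω x) :
    Q y := by
  have h1 : Relation.ReflTransGen (SimpleGraph.fromEdgeSet ω).Adj x y :=
    (SimpleGraph.reachable_iff_reflTransGen _ _).1 hy
  induction h1 with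
  | refl => exact h0
  | tail hab hbc ih =>
    have hb := (SimpleGraph.reachable_iff_reflTransGen _ _).2 hab
    exact hs _ _ hb (ih hb) ((SimpleGraph.fromEdgeSet_adj _).1 hbc).1

theorem mem_Ek {k : ℕ} {x : V} {e : Sym2 V} (h : e ∈ Ek G k x) :
    e ∈ G.edgeSet ∧ ∀ v ∈ e, v ∈ ballF G x k := mem_edgesIn.1 h

theorem mem_reg {D : Finset V} {H : Set V} {e : Sym2 V} :
    e ∈ reg G D H ↔ (e ∈ G.edgeSet ∧ ∀ v ∈ e, v ∈ D) ∧ ∃ v ∈ e, v ∈ H := by
  classical
  unfold reg
  rw [Finset.mem_filter, mem_edgesIn]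

theorem reg_mono {D D' : Finset V} {H H' : Set V} (hD : D ⊆ D') (hH : H ⊆ H') :
    reg G D H ⊆ reg G D' H' := by
  intro e he
  rw [mem_reg] at he ⊢
  exact ⟨⟨he.1.1, fun v hv => hD (he.1.2 v hv)⟩, he.2.imp fun v hv => ⟨hv.1, hH hv.2⟩⟩

theorem self_mem_seedCl (k : ℕ) (x : V) (T : Finset (Sym2 V)) : x ∈ seedCl G k x T :=
  mem_cluster_self _ _

theorem seedCl_mono {k : ℕ} {x : V} {T T' : Finset (Sym2 V)} (h : T ⊆ T') :
    seedCl G k x T ⊆ seedCl G k x T' :=
  cluster_mono (by exact_mod_cast Finset.union_subset_union_right h) x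

theorem seedCl_step {k : ℕ} {x y z : V} {T : Finset (Sym2 V)} (hy : y ∈ seedCl G k x T)
    (h : s(y, z) ∈ Ek G k x ∨ s(y, z) ∈ T) : z ∈ seedCl G k x T :=
  mem_cluster_trans hy (mem_cluster_of_edge (by simpa using h))

/-- Induction along the cluster of the seed. -/
theorem seedCl_ind {k : ℕ} {x : V} {T : Finset (Sym2 V)} {Q : V → Prop} (h0 : Q x)
    (hs : ∀ y z, y ∈ seedCl G k x T → Q y → (s(y, z) ∈ Ek G k x ∨ s(y, z) ∈ T) → Q z) {y : V}
    (hy : y ∈ seedCl G k x T) : Q y :=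
  cluster_ind h0 (fun y z h1 h2 h3 => hs y z h1 h2 (by simpa using h3)) hy

/-- All distances are attained in the cluster. -/
theorem seedCl_dist {k : ℕ} {x : V} (hG : G.Connected) {T : Finset (Sym2 V)}
    (hT : ∀ e ∈ T, e ∈ G.edgeSet) {y : V} (hy : y ∈ seedCl G k x T) :
    ∀ j ≤ G.dist y x, ∃ u ∈ seedCl G k x T, G.dist u x = j := by
  refine seedCl_ind (Q := fun y => ∀ j ≤ G.dist y x, ∃ u ∈ seedCl G k x T, G.dist u x = j)
    ?_ ?_ hy
  · intro j hj
    rw [SimpleGraph.dist_self] at hj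
    exact ⟨x, self_mem_seedCl k x T, by rw [SimpleGraph.dist_self]; omega⟩
  · intro y z hy ih hyz j hj
    have hadj : G.Adj y z := by
      rcases hyz with h | h
      · exact (mem_Ek h).1
      · exact hT _ h
    by_cases hj2 : j ≤ G.dist y x
    · exact ih j hj2
    · refine ⟨z, seedCl_step hy hyz, ?_⟩
      have h1 : G.dist z x ≤ G.dist y x + 1 := by
        have h2 := hG.dist_triangle (u := z) (v := y) (w := x)
        have h3 : G.dist z y = 1 := SimpleGraph.dist_eq_one_iff_adj.2 hadj.symm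
        omega
      omega

open Classical in
/-- The common part of `exit_all` and `thin`. -/
theorem exit_bound (A : Act G) {p : ℝ} (h0 : 0 < p) (h1 : p < 1) {k : ℕ} {ε : ℝ}
    (hB : Base A p k ε) {R : ℕ} (hkR : k ≤ R) (A' L W₀ : Finset V) (hLA : L ⊆ A')
    (hA' : A' ⊆ ballF G A.o (R + 1)) (hball : ballF G A.o k ⊆ L) (hW : W₀ ⊆ L) (n : ℕ)
    (hwalk : ∀ v ∈ W₀, ∃ (z : V) (w : G.Walk v z), z ∈ A' \ L ∧ w.length ≤ n ∧
      ∀ u ∈ w.support, u ∈ A') (m : ℕ)
    (hm : ∀ T : Finset (Sym2 V),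
      (∃ v ∈ seedCl G k A.o (T ∩ edgesIn G (ballF G A.o R)), G.dist v A.o = R) →
      (∀ z ∈ A' \ L, z ∉ seedCl G k A.o (T ∩ reg G A' ↑L)) →
      m ≤ (W₀.filter (fun v => v ∈ seedCl G k A.o (T ∩ reg G A' ↑L))).card) :
    Pr p (reg G A' ↑L) (fun T => ∀ z ∈ A' \ L, z ∉ seedCl G k A.o T) ≤
      ε + (1 - p ^ ((A.Δ + 1) ^ (n + 1))) ^ (m / (A.Δ + 1) ^ (n + 1)) := by
  set Ω := edgesIn G (ballF G A.o (R + 1)) with hΩ
  set Λ := reg G A' ↑L with hΛ
  set E := edgesIn G (ballF G A.o R) with hE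
  have hΛΩ : Λ ⊆ Ω := by
    intro e he
    rw [mem_reg] at he
    exact mem_edgesIn.2 ⟨he.1.1, fun v hv => hA' (he.1.2 v hv)⟩
  have hEΩ : E ⊆ Ω := by
    intro e he
    rw [mem_edgesIn] at he ⊢
    exact ⟨he.1, fun v hv => ballF_mono G A.o (Nat.le_succ R) (he.2 v hv)⟩
  set NoEx : Finset (Sym2 V) → Prop := fun T => ∀ z ∈ A' \ L, z ∉ seedCl G k A.o T with hNo
  set Re : Finset (Sym2 V) → Prop := fun T => ∃ v ∈ seedCl G k A.o T, G.dist v A.o = R with hRe
  set Q3 : Finset (Sym2 V) → Prop := fun T =>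
    m ≤ (W₀.filter (fun v => v ∈ seedCl G k A.o T)).card ∧ ∀ z ∈ A' \ L, z ∉ seedCl G k A.o T
    with hQ3
  -- all events on `Ω`
  have res : ∀ (B : Finset (Sym2 V)), B ⊆ Ω → ∀ Q : Finset (Sym2 V) → Prop,
      Pr p Ω (fun T => Q (T ∩ B)) = Pr p B Q := by
    intro B hB2 Q
    rw [Pr_restrict p hB2 (Q := fun T => Q (T ∩ B))
      (fun T _ => by rw [Finset.inter_assoc, Finset.inter_self])]
    exact Pr_congr fun T hT => by rw [Finset.inter_eq_left.2 hT]
  have e1 : Pr p Λ NoEx = Pr p Ω (fun T => NoEx (T ∩ Λ)) := (res Λ hΛΩ NoEx).symm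
  have e2 : Pr p Ω (fun T => NoEx (T ∩ Λ)) ≤
      Pr p Ω (fun T => ¬ Re (T ∩ E)) + Pr p Ω (fun T => Q3 (T ∩ Λ)) := by
    refine le_trans (Pr_mono h0.le h1.le fun T _ hT => ?_) (Pr_or_le h0.le h1.le Ω _ _)
    by_cases hr : Re (T ∩ E)
    · exact Or.inr ⟨hm T hr hT, hT⟩
    · exact Or.inl hr
  have e3 : Pr p Ω (fun T => ¬ Re (T ∩ E)) ≤ ε := by
    rw [res E hEΩ (fun T => ¬ Re T), Pr_not]
    have := hB R hkR
    linarith only [this]
  have e4 : Pr p Ω (fun T => Q3 (T ∩ Λ)) ≤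
      (1 - p ^ ((A.Δ + 1) ^ (n + 1))) ^ (m / (A.Δ + 1) ^ (n + 1)) := by
    rw [res Λ hΛΩ Q3]
    exact lemE h0 h1 A.Δ A.deg k A.o A' L W₀ hLA hball hW n hwalk m
  rw [e1]
  (clear * - e2 e3 e4; linarith)

/-- The error term tends to zero. -/
theorem exists_small {p : ℝ} (h0 : 0 < p) (h1 : p < 1) {N : ℕ} (hN : 0 < N) {δ : ℝ}
    (hδ : 0 < δ) : ∃ m₀ : ℕ, ∀ m : ℕ, m₀ ≤ m → (1 - p ^ N) ^ (m / N) ≤ δ := by
  have hp : 0 < p ^ N := pow_pos h0 N
  have hp1 : p ^ N ≤ 1 := pow_le_one₀ h0.le h1.le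
  obtain ⟨j, hj⟩ := exists_pow_lt_of_lt_one hδ (by linarith only [hp] : 1 - p ^ N < 1)
  refine ⟨j * N, fun m hm => ?_⟩
  have hjm : j ≤ m / N := (Nat.le_div_iff_mul_le hN).2 hm
  exact (pow_le_pow_of_le_one (by linarith only [hp1]) (by linarith only [hp]) hjm).trans hj.le

end Vale.Agent.P151.Pl.EBd
end
end

section

/-!
# `exit_all`
-/

set_option autoImplicit false
set_option linter.unusedSectionVars false

noncomputable section

namespace Vale.Agent.P151.Pl.EBd

open Vale.Agent.P151 Vale.Agent.P151.Red Vale.Agent.P151.Pl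

variable {V : Type} [DecidableEq V] {G : SimpleGraph V} [G.LocallyFinite]

theorem mem_Ls {A : Act G} {f g : ℝ × ℝ} {a b : ℝ} {R : ℕ} {v : V} :
    v ∈ Ls A f g a b R ↔ v ∈ ballF G A.o R ∧ |dot f (A.P v)| ≤ a ∧ |dot g (A.P v)| ≤ b := by
  unfold Ls
  rw [Finset.mem_filter]

theorem mem_As {A : Act G} {f g : ℝ × ℝ} {a b : ℝ} {R : ℕ} {v : V} :
    v ∈ As A f g a b R ↔ v ∈ Ls A f g a b R ∨
      (v ∈ ballF G A.o (R + 1) ∧ b < |dot g (A.P v)|) := by
  unfold As
  rw [Finset.mem_union, Finset.mem_filter]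

theorem Ls_swap (A : Act G) (f g : ℝ × ℝ) (a b : ℝ) (R : ℕ) :
    Ls A g f b a R = Ls A f g a b R := by
  ext v
  rw [mem_Ls, mem_Ls]
  tauto

/-- The parallelogram and all its exits. -/
def Aall (A : Act G) (f g : ℝ × ℝ) (a b : ℝ) (R : ℕ) : Finset V :=
  Ls A f g a b R ∪ (ballF G A.o (R + 1)).filter
    (fun v => a < |dot f (A.P v)| ∨ b < |dot g (A.P v)|)

theorem mem_Aall {A : Act G} {f g : ℝ × ℝ} {a b : ℝ} {R : ℕ} {v : V} :
    v ∈ Aall A f g a b R ↔ v ∈ Ls A f g a b R ∨
      (v ∈ ballF G A.o (R + 1) ∧ (a < |dot f (A.P v)| ∨ b < |dot g (A.P v)|)) := by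
  unfold Aall
  rw [Finset.mem_union, Finset.mem_filter]

theorem mem_Aall_of_ball {A : Act G} {f g : ℝ × ℝ} {a b : ℝ} {R : ℕ} {v : V}
    (h : v ∈ ballF G A.o R) : v ∈ Aall A f g a b R := by
  rw [mem_Aall, mem_Ls]
  by_cases h1 : |dot f (A.P v)| ≤ a
  · by_cases h2 : |dot g (A.P v)| ≤ b
    · exact Or.inl ⟨h, h1, h2⟩
    · exact Or.inr ⟨ballF_mono G A.o (Nat.le_succ R) h, Or.inr (not_le.1 h2)⟩
  · exact Or.inr ⟨ballF_mono G A.o (Nat.le_succ R) h, Or.inl (not_le.1 h1)⟩

theorem Red_ind_and (P Q : Prop) : Red.ind P * Red.ind Q = Red.ind (P ∧ Q) := by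
  by_cases hP : P
  · by_cases hQ : Q
    · rw [Red.ind_true hP, Red.ind_true hQ, Red.ind_true ⟨hP, hQ⟩, one_mul]
    · rw [Red.ind_false hQ, Red.ind_false (fun h : P ∧ Q => hQ h.2), mul_zero]
  · rw [Red.ind_false hP, Red.ind_false (fun h : P ∧ Q => hP h.1), zero_mul]

/-- Harris' inequality for decreasing events. -/
theorem Pr_mul_le {ι : Type} [DecidableEq ι] {p : ℝ} (h0 : 0 ≤ p) (h1 : p ≤ 1) (B : Finset ι)
    {Q Q' : Finset ι → Prop} (hQ : ∀ T T' : Finset ι, T ⊆ T' → Q T' → Q T)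
    (hQ' : ∀ T T' : Finset ι, T ⊆ T' → Q' T' → Q' T) :
    Pr p B Q * Pr p B Q' ≤ Pr p B (fun T => Q T ∧ Q' T) := by
  have h := GM.harris_anti h0 h1 B (F := fun T => Red.ind (Q T)) (G := fun T => Red.ind (Q' T))
    (fun T T' hT => Red.ind_mono (hQ T T' hT)) (fun T T' hT => Red.ind_mono (hQ' T T' hT))
  simp only [Red_ind_and] at h
  exact h

/-- No exit of either kind. -/
theorem noexit_of_both {A : Act G} {k : ℕ} {f g : ℝ × ℝ} {a b : ℝ} {R : ℕ}
    (hbL : ballF G A.o k ⊆ Ls A f g a b R) {T : Finset (Sym2 V)}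
    (hT : T ⊆ reg G (Aall A f g a b R) ↑(Ls A f g a b R))
    (hg : ¬ ∃ v ∈ seedCl G k A.o (T ∩ reg G (As A f g a b R) ↑(Ls A f g a b R)),
      v ∈ As A f g a b R ∧ b < |dot g (A.P v)|)
    (hf : ¬ ∃ v ∈ seedCl G k A.o (T ∩ reg G (As A g f b a R) ↑(Ls A f g a b R)),
      v ∈ As A g f b a R ∧ a < |dot f (A.P v)|) :
    ∀ z ∈ Aall A f g a b R \ Ls A f g a b R, z ∉ seedCl G k A.o T := by
  intro z hz hzT
  have key : z ∈ Ls A f g a b R ∧
      z ∈ seedCl G k A.o (T ∩ reg G (As A f g a b R) ↑(Ls A f g a b R)) ∧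
      z ∈ seedCl G k A.o (T ∩ reg G (As A g f b a R) ↑(Ls A f g a b R)) := by
    refine seedCl_ind (Q := fun z => z ∈ Ls A f g a b R ∧
      z ∈ seedCl G k A.o (T ∩ reg G (As A f g a b R) ↑(Ls A f g a b R)) ∧
      z ∈ seedCl G k A.o (T ∩ reg G (As A g f b a R) ↑(Ls A f g a b R))) ?_ ?_ hzT
    · exact ⟨hbL (mem_ballF_self G A.o k), self_mem_seedCl _ _ _, self_mem_seedCl _ _ _⟩
    · rintro y z - ⟨hy1, hy2, hy3⟩ hyz
      rcases hyz with he | he
      · exact ⟨hbL ((mem_Ek he).2 z (Sym2.mem_mk_right y z)), seedCl_step hy2 (Or.inl he),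
          seedCl_step hy3 (Or.inl he)⟩
      · have he2 := mem_reg.1 (hT he)
        have hadj : s(y, z) ∈ G.edgeSet := he2.1.1
        have hzA : z ∈ Aall A f g a b R := he2.1.2 z (Sym2.mem_mk_right y z)
        have r1 : z ∈ As A f g a b R →
            z ∈ seedCl G k A.o (T ∩ reg G (As A f g a b R) ↑(Ls A f g a b R)) := by
          intro hzg
          refine seedCl_step hy2 (Or.inr (Finset.mem_inter.2 ⟨he, mem_reg.2 ⟨⟨hadj, ?_⟩, y,
            Sym2.mem_mk_left y z, hy1⟩⟩))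
          intro v hv
          rcases Sym2.mem_iff.1 hv with rfl | rfl
          · exact mem_As.2 (Or.inl hy1)
          · exact hzg
        have r2 : z ∈ As A g f b a R →
            z ∈ seedCl G k A.o (T ∩ reg G (As A g f b a R) ↑(Ls A f g a b R)) := by
          intro hzf
          refine seedCl_step hy3 (Or.inr (Finset.mem_inter.2 ⟨he, mem_reg.2 ⟨⟨hadj, ?_⟩, y,
            Sym2.mem_mk_left y z, hy1⟩⟩))
          intro v hv
          rcases Sym2.mem_iff.1 hv with rfl | rfl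
          · exact mem_As.2 (Or.inl (by rw [Ls_swap]; exact hy1))
          · exact hzf
        rcases mem_Aall.1 hzA with hzL | ⟨hzb, hzf | hzg⟩
        · exact ⟨hzL, r1 (mem_As.2 (Or.inl hzL)), r2 (mem_As.2 (Or.inl (by
            rw [Ls_swap]; exact hzL)))⟩
        · have hzAf : z ∈ As A g f b a R := mem_As.2 (Or.inr ⟨hzb, hzf⟩)
          exact absurd ⟨z, r2 hzAf, hzAf, hzf⟩ hf
        · have hzAg : z ∈ As A f g a b R := mem_As.2 (Or.inr ⟨hzb, hzg⟩)
          exact absurd ⟨z, r1 hzAg, hzAg, hzg⟩ hg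
  exact (Finset.mem_sdiff.1 hz).2 key.1

open Classical in
/-- Leaving through the `g`-sides or through the `f`-sides. -/
theorem exit_all_proof (A : Act G) {p : ℝ} (h0 : 0 < p) (h1 : p < 1) {k : ℕ} {ε : ℝ}
    (hB : Base A p k ε) (f g : ℝ × ℝ) (a b : ℝ) (hf : 0 < nm f)
    (hball : ∀ v ∈ ballF G A.o k, |dot f (A.P v)| ≤ a ∧ |dot g (A.P v)| ≤ b) (δ : ℝ)
    (hδ : 0 < δ) : ∃ R₀ : ℕ, ∀ R : ℕ, R₀ ≤ R →
      (1 - QR A p k f g a b R) * (1 - QR A p k g f b a R) ≤ ε + δ := by
  obtain ⟨ℓ, hax⟩ := axis_walk A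
  obtain ⟨j, hj⟩ := exists_nat_gt ((2 * a + A.C₀ * nm f * A.D₀) * 2 / nm f)
  rw [div_lt_iff₀ hf] at hj
  set n := A.D₀ + j * ℓ with hn
  obtain ⟨m₀, hm₀⟩ := exists_small h0 h1 (N := (A.Δ + 1) ^ (n + 1)) (by positivity) hδ
  refine ⟨max k (m₀ + n + 1), fun R hR => ?_⟩
  have hkR : k ≤ R := (le_max_left _ _).trans hR
  have hmR : m₀ + n + 1 ≤ R := (le_max_right _ _).trans hR
  have hbL : ballF G A.o k ⊆ Ls A f g a b R := fun v hv =>
    mem_Ls.2 ⟨ballF_mono G A.o hkR hv, hball v hv⟩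
  have hLA : Ls A f g a b R ⊆ Aall A f g a b R := fun v hv => mem_Aall.2 (Or.inl hv)
  have hAb : Aall A f g a b R ⊆ ballF G A.o (R + 1) := by
    intro v hv
    rcases mem_Aall.1 hv with h | h
    · exact ballF_mono G A.o (Nat.le_succ R) (mem_Ls.1 h).1
    · exact h.1
  set W₀ := (Ls A f g a b R).filter (fun v => G.dist v A.o ≤ R - n - 1) with hW₀
  -- the walks
  have hwalk : ∀ v ∈ W₀, ∃ (z : V) (w : G.Walk v z), z ∈ Aall A f g a b R \ Ls A f g a b R ∧
      w.length ≤ n ∧ ∀ u ∈ w.support, u ∈ Aall A f g a b R := by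
    intro v hv
    obtain ⟨hvL, hvd⟩ := Finset.mem_filter.1 hv
    obtain ⟨u, w, hw1, -, hw3⟩ := hax f v j
    have hball' : ∀ z ∈ w.support, z ∈ ballF G A.o R := by
      intro z hz
      apply mem_ballF_of_dist_le G A.conn
      have e1 : G.dist v z ≤ n :=
        (SimpleGraph.dist_le (w.takeUntil z hz)).trans ((w.length_takeUntil_le_length hz).trans hw1)
      have e2 := A.conn.dist_triangle (u := z) (v := v) (w := A.o)
      rw [SimpleGraph.dist_comm (u := z) (v := v)] at e2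
      omega
    refine ⟨u, w, Finset.mem_sdiff.2 ⟨mem_Aall_of_ball (hball' u w.end_mem_support), ?_⟩, hw1,
      fun z hz => mem_Aall_of_ball (hball' z hz)⟩
    intro huL
    have h2 := (abs_le.1 (mem_Ls.1 huL).2.1).2
    have h3 := (abs_le.1 (mem_Ls.1 hvL).2.1).1
    linarith only [hj, hw3, h2, h3]
  -- a large part of the core is occupied
  have hm : ∀ T : Finset (Sym2 V),
      (∃ v ∈ seedCl G k A.o (T ∩ edgesIn G (ballF G A.o R)), G.dist v A.o = R) →
      (∀ z ∈ Aall A f g a b R \ Ls A f g a b R,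
        z ∉ seedCl G k A.o (T ∩ reg G (Aall A f g a b R) ↑(Ls A f g a b R))) →
      R - n ≤ (W₀.filter (fun v =>
        v ∈ seedCl G k A.o (T ∩ reg G (Aall A f g a b R) ↑(Ls A f g a b R)))).card := by
    rintro T ⟨v, hv, hvR⟩ hno
    have key : ∀ y ∈ seedCl G k A.o (T ∩ edgesIn G (ballF G A.o R)), y ∈ Ls A f g a b R ∧
        y ∈ seedCl G k A.o (T ∩ reg G (Aall A f g a b R) ↑(Ls A f g a b R)) := by
      intro y hy
      refine seedCl_ind (Q := fun y => y ∈ Ls A f g a b R ∧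
        y ∈ seedCl G k A.o (T ∩ reg G (Aall A f g a b R) ↑(Ls A f g a b R))) ?_ ?_ hy
      · exact ⟨hbL (mem_ballF_self G A.o k), self_mem_seedCl _ _ _⟩
      · rintro y z - ⟨hy1, hy2⟩ hyz
        rcases hyz with he | he
        · exact ⟨hbL ((mem_Ek he).2 z (Sym2.mem_mk_right y z)), seedCl_step hy2 (Or.inl he)⟩
        · obtain ⟨heT, heE⟩ := Finset.mem_inter.1 he
          rw [mem_edgesIn] at heE
          have hzA : z ∈ Aall A f g a b R := mem_Aall_of_ball (heE.2 z (Sym2.mem_mk_right y z))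
          have hz2 : z ∈ seedCl G k A.o (T ∩ reg G (Aall A f g a b R) ↑(Ls A f g a b R)) := by
            refine seedCl_step hy2 (Or.inr (Finset.mem_inter.2 ⟨heT, mem_reg.2 ⟨⟨heE.1, ?_⟩, y,
              Sym2.mem_mk_left y z, hy1⟩⟩))
            intro v hv
            rcases Sym2.mem_iff.1 hv with rfl | rfl
            · exact hLA hy1
            · exact hzA
          refine ⟨?_, hz2⟩
          by_contra hcon
          exact hno z (Finset.mem_sdiff.2 ⟨hzA, hcon⟩) hz2
    have hd := seedCl_dist A.conn (T := T ∩ edgesIn G (ballF G A.o R))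
      (fun e he => (mem_edgesIn.1 (Finset.mem_inter.1 he).2).1) hv
    rw [hvR] at hd
    have : Nonempty V := ⟨A.o⟩
    choose! u hu hud using hd
    have hcard : (Finset.range (R - n)).card ≤ (W₀.filter (fun v =>
        v ∈ seedCl G k A.o (T ∩ reg G (Aall A f g a b R) ↑(Ls A f g a b R)))).card := by
      refine Finset.card_le_card_of_injOn u ?_ ?_
      · intro i hi
        have hi2 : i < R - n := Finset.mem_range.1 hi
        have hk := key (u i) (hu i (by omega))
        refine Finset.mem_coe.2 (Finset.mem_filter.2 ⟨Finset.mem_filter.2 ⟨hk.1, ?_⟩, hk.2⟩)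
        rw [hud i (by omega)]
        omega
      · intro i hi i' hi' hii
        have hi2 : i < R - n := Finset.mem_range.1 hi
        have hi2' : i' < R - n := Finset.mem_range.1 hi'
        have e1 := hud i (by omega)
        have e2 := hud i' (by omega)
        rw [← e1, ← e2, hii]
    rwa [Finset.card_range] at hcard
  have hbound := exit_bound A h0 h1 hB hkR (Aall A f g a b R) (Ls A f g a b R) W₀ hLA hAb hbL
    (Finset.filter_subset _ _) n hwalk (R - n) hm
  have hsmall := hm₀ (R - n) (by omega)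
  -- Harris
  set Λ := reg G (Aall A f g a b R) ↑(Ls A f g a b R) with hΛ
  set Λg := reg G (As A f g a b R) ↑(Ls A f g a b R) with hΛg
  set Λf := reg G (As A g f b a R) ↑(Ls A f g a b R) with hΛf
  have hgΛ : Λg ⊆ Λ := reg_mono (fun v hv => by
    rcases mem_As.1 hv with h | h
    · exact hLA h
    · exact mem_Aall.2 (Or.inr ⟨h.1, Or.inr h.2⟩)) (le_refl _)
  have hfΛ : Λf ⊆ Λ := reg_mono (fun v hv => by
    rcases mem_As.1 hv with h | h
    · rw [Ls_swap] at h; exact hLA h
    · exact mem_Aall.2 (Or.inr ⟨h.1, Or.inl h.2⟩)) (le_refl _)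
  set Eg : Finset (Sym2 V) → Prop := fun T => ¬ ∃ v ∈ seedCl G k A.o T,
    v ∈ As A f g a b R ∧ b < |dot g (A.P v)| with hEg
  set Ef : Finset (Sym2 V) → Prop := fun T => ¬ ∃ v ∈ seedCl G k A.o T,
    v ∈ As A g f b a R ∧ a < |dot f (A.P v)| with hEf
  have res : ∀ (B : Finset (Sym2 V)), B ⊆ Λ → ∀ Q : Finset (Sym2 V) → Prop,
      Pr p Λ (fun T => Q (T ∩ B)) = Pr p B Q := by
    intro B hB2 Q
    rw [Pr_restrict p hB2 (Q := fun T => Q (T ∩ B))
      (fun T _ => by rw [Finset.inter_assoc, Finset.inter_self])]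
    exact Pr_congr fun T hT => by rw [Finset.inter_eq_left.2 hT]
  have e1 : 1 - QR A p k f g a b R = Pr p Λ (fun T => Eg (T ∩ Λg)) := by
    rw [res Λg hgΛ Eg, hEg, Pr_not]
    rfl
  have e2 : 1 - QR A p k g f b a R = Pr p Λ (fun T => Ef (T ∩ Λf)) := by
    rw [res Λf hfΛ Ef, hEf, Pr_not]
    unfold QR
    rw [Ls_swap]
  rw [e1, e2]
  refine (Pr_mul_le h0.le h1.le Λ ?_ ?_).trans ((Pr_mono h0.le h1.le fun T hT hE => ?_).trans
    (hbound.trans (by linarith only [hsmall])))
  · rintro T T' hT hE ⟨v, hv, hv2⟩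
    exact hE ⟨v, seedCl_mono (Finset.inter_subset_inter_right hT) hv, hv2⟩
  · rintro T T' hT hE ⟨v, hv, hv2⟩
    exact hE ⟨v, seedCl_mono (Finset.inter_subset_inter_right hT) hv, hv2⟩
  · exact noexit_of_both hbL hT hE.1 hE.2

end Vale.Agent.P151.Pl.EBd
end
end

section

/-!
# A thin and long parallelogram is left through its long sides
-/

set_option autoImplicit false
set_option linter.unusedSectionVars false

noncomputable section

namespace Vale.Agent.P151.Pl

open Vale.Agent.P151 Vale.Agent.P151.Red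

variable {V : Type} [DecidableEq V] {G : SimpleGraph V} [G.LocallyFinite]

/-- The bound of `lemE` is small for `m` large. -/
theorem exit_core_small {p : ℝ} (h0 : 0 < p) (h1 : p < 1) (N : ℕ) (hN : 0 < N) {δ : ℝ} (hδ : 0 < δ) :
    ∃ m₀ : ℕ, ∀ m : ℕ, m₀ ≤ m → (1 - p ^ N) ^ (m / N) ≤ δ := by
  have hp0 : 0 < p ^ N := pow_pos h0 N
  have hp1 : p ^ N ≤ 1 := pow_le_one₀ h0.le h1.le
  obtain ⟨l, hl⟩ := exists_pow_lt_of_lt_one hδ (show 1 - p ^ N < 1 by linarith only [hp0])
  refine ⟨l * N, fun m hm => ?_⟩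
  have h2 : l ≤ m / N := (Nat.le_div_iff_mul_le hN).2 hm
  exact (pow_le_pow_of_le_one (by linarith only [hp1]) (by linarith only [hp0]) h2).trans hl.le

theorem dist_adj_le' {G : SimpleGraph V} (hG : G.Connected) {u v : V} (h : G.Adj u v) (o : V) :
    G.dist v o ≤ G.dist u o + 1 := by
  have h1 := hG.dist_triangle (u := v) (v := u) (w := o)
  have h2 : G.dist v u = 1 := SimpleGraph.dist_eq_one_iff_adj.2 h.symm
  omega

open Classical in
/-- Deterministic part: if there is no exit, and the seed cluster reaches distance `R`, then it has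
at least `m` vertices in the core. -/
theorem exit_core_det (A : Act G) {k R : ℕ} {A' L W₀ : Finset V}
    (hLA : L ⊆ A') (hW : W₀ ⊆ L)
    (ho : A.o ∈ W₀) {m : ℕ} (hmR : m ≤ R)
    (hm : ∀ u ∈ W₀, ∀ v, G.Adj u v → v ∉ W₀ → v ∈ A' \ L ∨ m ≤ G.dist v A.o)
    {T : Finset (Sym2 V)} (hreach : ∃ v ∈ seedCl G k A.o (T ∩ edgesIn G (ballF G A.o R)),
      G.dist v A.o = R)
    (hno : ∀ z ∈ A' \ L, z ∉ seedCl G k A.o (T ∩ reg G A' ↑L)) :
    m ≤ ((W₀.filter (fun v => v ∈ seedCl G k A.o (T ∩ reg G A' ↑L))).card) := by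
  set S := W₀.filter (fun v => v ∈ seedCl G k A.o (T ∩ reg G A' ↑L)) with hS
  have key : ∀ d : ℕ, d < m → ∃ u ∈ S, G.dist u A.o = d := by
    intro d hd
    by_contra hcon
    push Not at hcon
    obtain ⟨v, hv, hvR⟩ := hreach
    have hoS : A.o ∈ S := Finset.mem_filter.2 ⟨ho, seedCl_self _ _ _⟩
    have hd0 : d ≠ 0 := by
      intro h0
      exact hcon A.o hoS (by rw [h0, SimpleGraph.dist_self])
    have hsub : seedCl G k A.o (T ∩ edgesIn G (ballF G A.o R)) ⊆
        {u | u ∈ S ∧ G.dist u A.o < d} := by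
      apply seedCl_subset
      · exact ⟨hoS, by rw [SimpleGraph.dist_self]; exact Nat.pos_of_ne_zero hd0⟩
      · rintro u ⟨huS, hud⟩ v huv
        have huW : u ∈ W₀ := (Finset.mem_filter.1 huS).1
        have huC := (Finset.mem_filter.1 huS).2
        have hadj : G.Adj u v := by
          rcases Finset.mem_union.1 huv with h1 | h1
          · exact (mk_mem_edgesIn.1 h1).1
          · exact (mk_mem_edgesIn.1 (Finset.mem_inter.1 h1).2).1
        have hdv : G.dist v A.o ≤ d := (dist_adj_le' A.conn hadj A.o).trans hud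
        -- v is reached if it belongs to `A'`
        have hvC : v ∈ A' → v ∈ seedCl G k A.o (T ∩ reg G A' ↑L) := by
          intro hvA
          refine seedCl_step huC ?_
          rcases Finset.mem_union.1 huv with h1 | h1
          · exact Finset.mem_union_left _ h1
          · refine Finset.mem_union_right _ (Finset.mem_inter.2 ⟨(Finset.mem_inter.1 h1).1, ?_⟩)
            exact mem_reg.2 ⟨mk_mem_edgesIn.2 ⟨hadj, hLA (hW huW), hvA⟩, u, Sym2.mem_mk_left u v,
              Finset.mem_coe.2 (hW huW)⟩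
        by_cases hvW : v ∈ W₀
        · have hvS : v ∈ S := Finset.mem_filter.2 ⟨hvW, hvC (hLA (hW hvW))⟩
          exact ⟨hvS, lt_of_le_of_ne hdv (hcon v hvS)⟩
        · exfalso
          rcases hm u huW v hadj hvW with h1 | h1
          · exact hno v h1 (hvC (Finset.mem_sdiff.1 h1).1)
          · omega
    have := (hsub hv).2
    omega
  have : Nonempty V := ⟨A.o⟩
  choose! u huS hud using key
  have hinj : Set.InjOn u (↑(Finset.range m) : Set ℕ) := by
    intro i hi j hj hij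
    have hi' := Finset.mem_range.1 (Finset.mem_coe.1 hi)
    have hj' := Finset.mem_range.1 (Finset.mem_coe.1 hj)
    rw [← hud i hi', ← hud j hj', hij]
  have hcard : ((Finset.range m).image u).card = m := by
    rw [Finset.card_image_of_injOn hinj, Finset.card_range]
  rw [← hcard]
  apply Finset.card_le_card
  intro x hx
  obtain ⟨i, hi, rfl⟩ := Finset.mem_image.1 hx
  exact huS i (Finset.mem_range.1 hi)

/-- Common part of `exit_all` and `thin`: `L` = the domain, `A' \ L` = the allowed exits,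
`W₀` = the core. -/
theorem exit_core (A : Act G) {p : ℝ} (h0 : 0 < p) (h1 : p < 1) {k : ℕ} {ε : ℝ}
    (hB : Base A p k ε) {R : ℕ} (hkR : k ≤ R) {A' L W₀ : Finset V} (hLA : L ⊆ A')
    (hA' : A' ⊆ ballF G A.o (R + 1)) (hk : ballF G A.o k ⊆ L) (hW : W₀ ⊆ L)
    (ho : A.o ∈ W₀) {n m : ℕ} (hmR : m ≤ R)
    (hwalk : ∀ v ∈ W₀, ∃ (z : V) (w : G.Walk v z), z ∈ A' \ L ∧ w.length ≤ n ∧
      ∀ u ∈ w.support, u ∈ A')
    (hm : ∀ u ∈ W₀, ∀ v, G.Adj u v → v ∉ W₀ → v ∈ A' \ L ∨ m ≤ G.dist v A.o) :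
    1 - ε - (1 - p ^ ((A.Δ + 1) ^ (n + 1))) ^ (m / (A.Δ + 1) ^ (n + 1)) ≤
      Pr p (reg G A' ↑L) (fun T => ∃ v ∈ seedCl G k A.o T, v ∈ A' \ L) := by
  classical
  set B := edgesIn G (ballF G A.o (R + 1)) with hBdef
  set E1 := reg G A' ↑L with hE1
  set E2 := edgesIn G (ballF G A.o R) with hE2
  have hE1B : E1 ⊆ B := (reg_subset A' ↑L).trans (edgesIn_mono G hA')
  have hE2B : E2 ⊆ B := edgesIn_mono G (ballF_mono G A.o (Nat.le_succ R))
  set Q1 : Finset (Sym2 V) → Prop := fun T => ∀ z ∈ A' \ L, z ∉ seedCl G k A.o T with hQ1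
  set Q2 : Finset (Sym2 V) → Prop := fun T => ∃ v ∈ seedCl G k A.o T, G.dist v A.o = R with hQ2
  set Q3 : Finset (Sym2 V) → Prop := fun T =>
    m ≤ (W₀.filter (fun v => v ∈ seedCl G k A.o T)).card ∧ Q1 T with hQ3
  have hr1 : Pr p B (fun T => Q1 (T ∩ E1)) = Pr p E1 Q1 := by
    rw [Pr_restrict p hE1B]
    · exact Pr_congr fun T hT => by rw [Finset.inter_eq_left.2 hT]
    · intro T _
      rw [Finset.inter_assoc, Finset.inter_self]
  have hr2 : Pr p B (fun T => ¬ Q2 (T ∩ E2)) = Pr p E2 (fun T => ¬ Q2 T) := by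
    rw [Pr_restrict p hE2B]
    · exact Pr_congr fun T hT => by rw [Finset.inter_eq_left.2 hT]
    · intro T _
      rw [Finset.inter_assoc, Finset.inter_self]
  have hr3 : Pr p B (fun T => Q3 (T ∩ E1)) = Pr p E1 Q3 := by
    rw [Pr_restrict p hE1B]
    · exact Pr_congr fun T hT => by rw [Finset.inter_eq_left.2 hT]
    · intro T _
      rw [Finset.inter_assoc, Finset.inter_self]
  have hsplit : Pr p B (fun T => Q1 (T ∩ E1)) ≤
      Pr p B (fun T => ¬ Q2 (T ∩ E2)) + Pr p B (fun T => Q3 (T ∩ E1)) := by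
    refine le_trans (Pr_mono h0.le h1.le ?_) (Pr_or_le h0.le h1.le B _ _)
    intro T _ hT
    by_cases h2 : Q2 (T ∩ E2)
    · exact Or.inr ⟨exit_core_det A hLA hW ho hmR hm h2 hT, hT⟩
    · exact Or.inl h2
  have hb2 : Pr p E2 (fun T => ¬ Q2 T) ≤ ε := by
    rw [Pr_not]
    have := hB R hkR
    linarith only [this]
  have hb3 : Pr p E1 Q3 ≤
      (1 - p ^ ((A.Δ + 1) ^ (n + 1))) ^ (m / (A.Δ + 1) ^ (n + 1)) := by
    have := lemE (G := G) h0 h1 A.Δ A.deg k A.o A' L W₀ hLA hk hW n hwalk m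
    refine le_trans (le_of_eq ?_) this
    exact Pr_congr fun T _ => Iff.rfl
  have hfin : Pr p E1 (fun T => ∃ v ∈ seedCl G k A.o T, v ∈ A' \ L) = 1 - Pr p E1 Q1 := by
    rw [← Pr_not]
    refine Pr_congr fun T _ => ?_
    rw [hQ1]
    constructor
    · rintro ⟨v, hv, hvA⟩ h
      exact h v hvA hv
    · intro h
      push Not at h
      obtain ⟨z, hz, hzc⟩ := h
      exact ⟨z, hzc, hz⟩
  rw [hfin]
  rw [hr1, hr2, hr3] at hsplit
  linarith only [hsplit, hb2, hb3]

theorem mem_Ls {A : Act G} {f g : ℝ × ℝ} {a b : ℝ} {R : ℕ} {v : V} :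
    v ∈ Ls A f g a b R ↔ v ∈ ballF G A.o R ∧ |dot f (A.P v)| ≤ a ∧ |dot g (A.P v)| ≤ b := by
  unfold Ls; rw [Finset.mem_filter]

theorem mem_As {A : Act G} {f g : ℝ × ℝ} {a b : ℝ} {R : ℕ} {v : V} :
    v ∈ As A f g a b R ↔ v ∈ Ls A f g a b R ∨
      (v ∈ ballF G A.o (R + 1) ∧ b < |dot g (A.P v)|) := by
  unfold As; rw [Finset.mem_union, Finset.mem_filter]

theorem mem_As_sdiff {A : Act G} {f g : ℝ × ℝ} {a b : ℝ} {R : ℕ} {v : V} :
    v ∈ As A f g a b R \ Ls A f g a b R ↔
      v ∈ ballF G A.o (R + 1) ∧ b < |dot g (A.P v)| := by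
  rw [Finset.mem_sdiff, mem_As]
  constructor
  · rintro ⟨h1 | h1, h2⟩
    · exact absurd h1 h2
    · exact h1
  · intro h
    refine ⟨Or.inr h, fun h' => ?_⟩
    have := (mem_Ls.1 h').2.2
    linarith [h.2]

theorem mem_ballF_iff (A : Act G) {v : V} {R : ℕ} :
    v ∈ ballF G A.o R ↔ G.dist v A.o ≤ R := by
  constructor
  · intro h
    obtain ⟨w, hw⟩ := dist_le_of_mem_ballF G A.o R v h
    exact (SimpleGraph.dist_le w).trans hw
  · exact mem_ballF_of_dist_le G A.conn A.o v R

theorem dot_zero' (f : ℝ × ℝ) : dot f (0 : ℝ × ℝ) = 0 := by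
  unfold dot; simp

/-- `|dot f (P v)| ≤ C₀ nm f dist v o`. -/
theorem abs_dot_le (A : Act G) (f : ℝ × ℝ) (v : V) :
    |dot f (A.P v)| ≤ A.C₀ * nm f * G.dist v A.o := by
  have := lip_dist A f v A.o
  rwa [A.P_o, dot_zero', sub_zero] at this

theorem dist_support_le {G : SimpleGraph V} (hG : G.Connected) {v u : V} (w : G.Walk v u) {z : V}
    (hz : z ∈ w.support) (o : V) : G.dist z o ≤ G.dist v o + w.length := by
  have h1 : G.dist z v ≤ w.length := by
    rw [SimpleGraph.dist_comm]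
    exact (SimpleGraph.dist_le (w.takeUntil z hz)).trans (w.length_takeUntil_le_length hz)
  have h2 := hG.dist_triangle (u := z) (v := v) (w := o)
  omega

/-- A thin and long parallelogram is left through its long sides. -/
theorem thin (A : Act G) {p : ℝ} (h0 : 0 < p) (h1 : p < 1) {k : ℕ} {ε : ℝ}
    (hB : Base A p k ε) (w : ℝ) (hw : 0 < w) (δ : ℝ) (hδ : 0 < δ) :
    ∃ W : ℝ, 0 < W ∧ ∀ (f g : ℝ × ℝ) (a b : ℝ), 0 < nm g →
      (∀ v ∈ ballF G A.o k, |dot f (A.P v)| ≤ a ∧ |dot g (A.P v)| ≤ b) →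
      b ≤ w * nm g → W * nm f ≤ a → ∃ R : ℕ, 1 - ε - δ ≤ QR A p k f g a b R := by
  classical
  obtain ⟨ℓ, hℓ⟩ := axis_walk A
  have hC := A.C₀_pos
  obtain ⟨j, hj⟩ := exists_nat_gt (4 * w + 2 * A.C₀ * A.D₀)
  set n := A.D₀ + j * ℓ with hn
  obtain ⟨m₀, hm₀⟩ := exit_core_small h0 h1 ((A.Δ + 1) ^ (n + 1)) (by positivity) hδ
  have hWpos : 0 < A.C₀ * ((m₀ : ℝ) + n + 1) := by (clear * - hC; positivity)
  refine ⟨A.C₀ * ((m₀ : ℝ) + n + 1), hWpos, ?_⟩
  intro f g a b hg hball hbw hWa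
  have hnf : 0 ≤ nm f := nm_nonneg f
  have ho := hball A.o (mem_ballF_self G A.o k)
  set R := m₀ + n + 1 + k with hR
  refine ⟨R, ?_⟩
  set c := A.C₀ * nm f * ((n : ℝ) + 1) with hc
  have hCf : 0 ≤ A.C₀ * nm f := mul_nonneg hC.le hnf
  have hc0 : 0 ≤ c := by (clear * - hC hnf; positivity)
  have hca : c ≤ a := by
    have : 0 ≤ A.C₀ * nm f * (m₀ : ℝ) := by (clear * - hC hnf; positivity)
    have h2 : A.C₀ * ((m₀ : ℝ) + n + 1) * nm f = c + A.C₀ * nm f * (m₀ : ℝ) := by rw [hc]; ring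
    linarith only [hWa, this]
  set W₀ := (Ls A f g a b R).filter (fun v => G.dist v A.o ≤ m₀ + k ∧ |dot f (A.P v)| ≤ a - c)
    with hW₀
  have hmemW : ∀ v, v ∈ W₀ ↔ v ∈ Ls A f g a b R ∧ G.dist v A.o ≤ m₀ + k ∧
      |dot f (A.P v)| ≤ a - c := fun v => by rw [hW₀, Finset.mem_filter]
  have hkR : k ≤ R := by omega
  have hmain := exit_core A h0 h1 hB hkR (A' := As A f g a b R) (L := Ls A f g a b R)
    (W₀ := W₀) (n := n) (m := m₀)
    (fun v hv => mem_As.2 (Or.inl hv))
    (by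
      intro v hv
      rcases mem_As.1 hv with h | h
      · exact ballF_mono G A.o (Nat.le_succ R) (mem_Ls.1 h).1
      · exact h.1)
    (fun v hv => mem_Ls.2 ⟨ballF_mono G A.o hkR hv, hball v hv⟩)
    (Finset.filter_subset _ _)
    (by
      rw [hmemW]
      refine ⟨mem_Ls.2 ⟨mem_ballF_self G A.o R, ho⟩, by rw [SimpleGraph.dist_self]; omega, ?_⟩
      rw [A.P_o, dot_zero', abs_zero]
      linarith only [hca])
    (by omega)
    (by
      intro v hv
      obtain ⟨hvL, hvd, hvf⟩ := (hmemW v).1 hv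
      obtain ⟨u, q, hq1, hq2, hq3⟩ := hℓ g v j
      have hlen : q.length ≤ n := hq1
      have hlenR : (q.length : ℝ) ≤ n := by exact_mod_cast hlen
      have hsup : ∀ z ∈ q.support, z ∈ ballF G A.o R ∧ |dot f (A.P z)| ≤ a := by
        intro z hz
        refine ⟨(mem_ballF_iff A).2 ?_, ?_⟩
        · have := dist_support_le A.conn q hz A.o
          omega
        · have h2 := lip_walk A f q hz
          have h3 : A.C₀ * nm f * q.length ≤ A.C₀ * nm f * n :=
            mul_le_mul_of_nonneg_left hlenR hCf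
          have h4 : |dot f (A.P z)| ≤ |dot f (A.P z) - dot f (A.P v)| + |dot f (A.P v)| := by
            have := abs_add_le (dot f (A.P z) - dot f (A.P v)) (dot f (A.P v))
            rwa [sub_add_cancel] at this
          have h5 : c = A.C₀ * nm f * n + A.C₀ * nm f := by rw [hc]; ring
          linarith only [hCf, hvf, h2, h3, h4]
      have hmemA : ∀ z ∈ q.support, z ∈ As A f g a b R := by
        intro z hz
        obtain ⟨hz1, hz2⟩ := hsup z hz
        rw [mem_As]
        by_cases hzb : |dot g (A.P z)| ≤ b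
        · exact Or.inl (mem_Ls.2 ⟨hz1, hz2, hzb⟩)
        · exact Or.inr ⟨ballF_mono G A.o (Nat.le_succ R) hz1, not_le.1 hzb⟩
      refine ⟨u, q, ?_, hlen, hmemA⟩
      rw [mem_As_sdiff]
      refine ⟨ballF_mono G A.o (Nat.le_succ R) (hsup u q.end_mem_support).1, ?_⟩
      have hvg := (mem_Ls.1 hvL).2.2
      have hvg' := (abs_le.1 hvg).1
      refine lt_of_lt_of_le ?_ (le_abs_self _)
      refine lt_of_lt_of_le ?_ hq3
      have h6 : (4 * w + 2 * A.C₀ * A.D₀) * nm g < j * nm g := mul_lt_mul_of_pos_right hj hg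
      nlinarith only [h6, hvg', hbw])
    (by
      intro u hu v huv hv
      obtain ⟨huL, hud, huf⟩ := (hmemW u).1 hu
      have hdv : G.dist v A.o ≤ m₀ + k + 1 := (dist_adj_le' A.conn huv A.o).trans (by omega)
      have hvR : v ∈ ballF G A.o R := (mem_ballF_iff A).2 (by omega)
      have hfv : |dot f (A.P v)| ≤ a := by
        have h2 := lip_adj A f huv.symm
        have h4 : |dot f (A.P v)| ≤ |dot f (A.P v) - dot f (A.P u)| + |dot f (A.P u)| := by
          have := abs_add_le (dot f (A.P v) - dot f (A.P u)) (dot f (A.P u))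
          rwa [sub_add_cancel] at this
        have h5 : c = A.C₀ * nm f * n + A.C₀ * nm f := by rw [hc]; ring
        have h6 : 0 ≤ A.C₀ * nm f * n := by (clear * - hC hnf; positivity)
        linarith only [huf, h2, h4, h6]
      by_cases hgv : |dot g (A.P v)| ≤ b
      · right
        have hvL : v ∈ Ls A f g a b R := mem_Ls.2 ⟨hvR, hfv, hgv⟩
        by_contra hlt
        push Not at hlt
        apply hv
        rw [hmemW]
        refine ⟨hvL, by omega, ?_⟩
        have h7 := abs_dot_le A f v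
        have h8 : ((G.dist v A.o : ℕ) : ℝ) ≤ m₀ := by exact_mod_cast hlt.le
        have h9 : A.C₀ * nm f * (G.dist v A.o : ℝ) ≤ A.C₀ * nm f * m₀ :=
          mul_le_mul_of_nonneg_left h8 hCf
        have h2 : A.C₀ * ((m₀ : ℝ) + n + 1) * nm f = c + A.C₀ * nm f * (m₀ : ℝ) := by
          rw [hc]; ring
        linarith only [hWa, h7, h9]
      · left
        rw [mem_As_sdiff]
        exact ⟨ballF_mono G A.o (Nat.le_succ R) hvR, not_le.1 hgv⟩)
  have hs := hm₀ m₀ le_rfl
  have hle : Pr p (reg G (As A f g a b R) ↑(Ls A f g a b R))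
      (fun T => ∃ v ∈ seedCl G k A.o T, v ∈ As A f g a b R \ Ls A f g a b R) ≤
      QR A p k f g a b R := by
    unfold QR
    refine Pr_mono h0.le h1.le ?_
    rintro T _ ⟨v, hv, hvA⟩
    exact ⟨v, hv, (Finset.mem_sdiff.1 hvA).1, (mem_As_sdiff.1 hvA).2⟩
  linarith only [hmain, hs, hle]

end Vale.Agent.P151.Pl
end
end

section

/-!
# Exits from a parallelogram

Common part of the two proofs (`exit_bound`).  `L = Ls f g a b R`, `A'` = `L` and the allowed exits in
`ballF o (R + 1)`, `W₀` = the core.  Suppose that every `v ∈ W₀` has a walk of length `≤ n` inside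
`A'` to `A' \ L`.  All events are considered for the edges `edgesIn G (ballF o (R + 1))` (the
others are `Pr_restrict`ed).  If the seed cluster reaches distance `R` inside `ballF o R` (`Base`)
and there is no allowed exit then the seed cluster of `T ∩ reg A' L` is contained in `L` and has at
least `m` vertices in `W₀`: follow the path to distance `R` until it leaves `W₀`.
`lemE` bounds this by `(1 - p ^ N) ^ (m / N)`, `N = (Δ + 1) ^ (n + 1)`, which is small if `m` is
large.

`exit_all`: exits = all vertices of `ballF o (R + 1)` with `|f| > a` or `|g| > b`,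
`W₀ = {v ∈ L | dist v o ≤ R - n - 1}`; `n` exists by `axis_walk` (`nm f > 0`); `m = R - n - 1 - k`.
Then `P(no exit) ≤ ε + δ` for `R` large, and no exit ⊇ (no `g`-exit ∩ no `f`-exit), where a `g`-exit
is reached inside `Ls ∪ {|g| > b}`: the first vertex of the path outside `L` is an exit of one of
the two kinds.  Harris (`GM.harris_anti`).

`thin`: exits = `{|g| > b}`; `W₀ = {v ∈ L | dist v o ≤ R - n - 1, |f v| ≤ a - C₀ nm f (n + 1)}`,
`n = D₀ + j ℓ` with `j ≥ 4 w + 2 C₀ D₀ + 1` (`axis_walk` for `g` or `-g`, which has to increase from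
`≥ - b` to `> b`, `b ≤ w nm g`); a walk of length `≤ n` from `W₀` stays in `|f| ≤ a` and in
`ballF o R`.  Leaving `W₀` without a `g`-exit needs `|f| > a - C₀ nm f (n + 1)` or
distance `> R - n - 1`, hence at least `m` vertices, `m = min (R - n - 1 - k) (a / (C₀ nm f) - n - 1 - k)`.
-/

set_option autoImplicit false
set_option linter.unusedSectionVars false

noncomputable section

namespace Vale.Agent.P151.Pl

open Vale.Agent.P151 Vale.Agent.P151.Red

variable {V : Type} [DecidableEq V] {G : SimpleGraph V} [G.LocallyFinite]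

/-- Leaving through the `g`-sides or through the `f`-sides. -/
theorem exit_all (A : Act G) {p : ℝ} (h0 : 0 < p) (h1 : p < 1) {k : ℕ} {ε : ℝ}
    (hB : Base A p k ε) (f g : ℝ × ℝ) (a b : ℝ) (hf : 0 < nm f)
    (hball : ∀ v ∈ ballF G A.o k, |dot f (A.P v)| ≤ a ∧ |dot g (A.P v)| ≤ b) (δ : ℝ)
    (hδ : 0 < δ) : ∃ R₀ : ℕ, ∀ R : ℕ, R₀ ≤ R →
      (1 - QR A p k f g a b R) * (1 - QR A p k g f b a R) ≤ ε + δ :=
  EBd.exit_all_proof A h0 h1 hB f g a b hf hball δ hδ

/-! `thin` is proved in `ExitThin.lean`. -/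

end Vale.Agent.P151.Pl
end
end
end

section

section

open MeasureTheory ProbabilityTheory SimpleGraph

namespace Vale.Agent.P151

universe u
variable {V : Type u}

/-- The cluster of `x` is infinite. -/
def InfC (x : V) : Set (Set (Sym2 V)) := {ω | {y | (fromEdgeSet ω).Reachable x y}.Infinite}

end Vale.Agent.P151
end

section

open MeasureTheory ProbabilityTheory SimpleGraph Filter Topology unitInterval

namespace Vale.Agent.P151

universe u
set_option linter.unusedSectionVars false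

variable {V : Type u} [DecidableEq V]

/-- The probability that the cluster of `x` has at least `n` vertices, as a polynomial in `p`. -/
noncomputable def phiB (G : SimpleGraph V) [G.LocallyFinite] (n : ℕ) (x : V) (p : ℝ) : ℝ :=
  Ex p (edgesIn G (ballF G x n)) (big n x)

/-- trace of `ω` on a finite set of edges -/
noncomputable def trace (Λ : Finset (Sym2 V)) (ω : Set (Sym2 V)) : Finset (Sym2 V) := by
  classical
  exact Λ.filter (fun e => e ∈ ω)

lemma coe_trace (Λ : Finset (Sym2 V)) (ω : Set (Sym2 V)) :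
    ((trace Λ ω : Finset (Sym2 V)) : Set (Sym2 V)) = ω ∩ (Λ : Set (Sym2 V)) := by
  ext e
  simp [trace, and_comm]

lemma mem_trace {Λ : Finset (Sym2 V)} {ω : Set (Sym2 V)} {e : Sym2 V} :
    e ∈ trace Λ ω ↔ e ∈ Λ ∧ e ∈ ω := by
  simp [trace]

lemma cluster_coe (S : Finset (Sym2 V)) (x : V) :
    cluster (S : Set (Sym2 V)) x = (cl S x : Set V) := by
  ext y
  rw [Finset.mem_coe, mem_cl]
  rfl

lemma encard_cluster_coe (S : Finset (Sym2 V)) (x : V) :
    (cluster (S : Set (Sym2 V)) x).encard = csz S x := by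
  rw [cluster_coe, Set.encard_coe_eq_coe_finsetCard]
  rfl

lemma cluster_mono {ω ω' : Set (Sym2 V)} (h : ω ⊆ ω') (x : V) : cluster ω x ⊆ cluster ω' x := by
  intro y hy
  exact SimpleGraph.Reachable.mono (SimpleGraph.fromEdgeSet_mono h) hy

lemma cluster_closed {ω : Set (Sym2 V)} {x : V} {A : Set V} (hx : x ∈ A)
    (hA : ∀ u ∈ A, ∀ v, s(u, v) ∈ ω → v ∈ A) : cluster ω x ⊆ A := by
  intro y hy
  obtain ⟨w⟩ := hy
  have key : ∀ (a b : V) (w : (SimpleGraph.fromEdgeSet ω).Walk a b), a ∈ A → b ∈ A := by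
    intro a b w
    induction w with
    | nil => exact fun h => h
    | cons hadj _ ih =>
      intro ha
      exact ih (hA _ ha _ ((SimpleGraph.fromEdgeSet_adj _).1 hadj).1)
  exact key _ _ w hx

/-- The event of a cluster of size at least `n` is local. -/
lemma le_encard_iff (G : SimpleGraph V) [G.LocallyFinite] (hG : G.Connected) {ω : Set (Sym2 V)}
    (hω : ω ⊆ G.edgeSet) (n : ℕ) (x : V) :
    (n : ℕ∞) ≤ (cluster ω x).encard ↔ n ≤ csz (trace (edgesIn G (ballF G x n)) ω) x := by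
  set Λ := edgesIn G (ballF G x n)
  constructor
  · intro h
    by_contra hcon
    push Not at hcon
    have hsub : cluster ω x ⊆ (cl (trace Λ ω) x : Set V) := by
      apply cluster_closed (self_mem_cl _ x)
      intro u hu v huv
      rw [Finset.mem_coe, mem_cl] at hu ⊢
      have hd : G.dist x u < csz (trace Λ ω) x :=
        dist_lt_csz (fun e he => hω (mem_trace.1 he).2) hu
      have hadj : G.Adj u v := by simpa using hω huv
      have hu' : u ∈ ballF G x n :=
        mem_ballF_of_dist_le G hG x u n (by rw [SimpleGraph.dist_comm]; omega)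
      have hv' : v ∈ ballF G x n := by
        apply mem_ballF_of_dist_le G hG x v n
        rw [SimpleGraph.dist_comm]
        have h1 := hG.dist_triangle (u := x) (v := u) (w := v)
        have h2 : G.dist u v = 1 := SimpleGraph.dist_eq_one_iff_adj.2 hadj
        omega
      exact hu.trans (Cn_of_mem (mem_trace.2 ⟨mk_mem_edgesIn.2 ⟨hadj, hu', hv'⟩, huv⟩))
    have h2 := Set.encard_le_encard hsub
    rw [Set.encard_coe_eq_coe_finsetCard] at h2
    have h3 : (n : ℕ∞) ≤ (cl (trace Λ ω) x).card := h.trans h2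
    have h4 : n ≤ (cl (trace Λ ω) x).card := by exact_mod_cast h3
    unfold csz at hcon
    omega
  · intro h
    have h1 : cluster ((trace Λ ω : Finset (Sym2 V)) : Set (Sym2 V)) x ⊆ cluster ω x := by
      apply cluster_mono
      rw [coe_trace]
      exact Set.inter_subset_left
    have h2 := Set.encard_le_encard h1
    rw [encard_cluster_coe] at h2
    exact le_trans (by exact_mod_cast h) h2

/-- The event that the cluster of `x` has at least `n` vertices. -/
def bigC (n : ℕ) (x : V) : Set (Set (Sym2 V)) := {ω | (n : ℕ∞) ≤ (cluster ω x).encard}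

lemma bigC_ae (G : SimpleGraph V) [G.LocallyFinite] (hG : G.Connected) (p : I) (n : ℕ) (x : V) :
    bigC n x =ᵐ[setBernoulli G.edgeSet p]
      {ω | (n : ℕ∞) ≤ (cluster (ω ∩ (edgesIn G (ballF G x n) : Set (Sym2 V))) x).encard} := by
  have : Countable V := countable_of_connected G hG
  have : Countable (Sym2 V) := by
    unfold Sym2; infer_instance
  have h := setBernoulli_ae_subset (u := G.edgeSet) (p := p)
  filter_upwards [h] with ω hω
  apply propext
  show (n : ℕ∞) ≤ (cluster ω x).encard ↔ _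
  rw [le_encard_iff G hG hω]
  show _ ↔ (n : ℕ∞) ≤ (cluster (ω ∩ (edgesIn G (ballF G x n) : Set (Sym2 V))) x).encard
  rw [← coe_trace, encard_cluster_coe]
  exact_mod_cast Iff.rfl

lemma measureReal_bigC (G : SimpleGraph V) [G.LocallyFinite] (hG : G.Connected) (p : I) (n : ℕ)
    (x : V) : (setBernoulli G.edgeSet p).real (bigC n x) = phiB G n x p := by
  classical
  rw [measureReal_def, measure_congr (bigC_ae G hG p n x), ← measureReal_def]
  rw [setBer_inter_pred G.edgeSet p (edgesIn G (ballF G x n))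
    (fun e he => (mem_edgesIn.1 (Finset.mem_coe.1 he)).1)
    (fun s => (n : ℕ∞) ≤ (cluster s x).encard)]
  unfold phiB Ex
  rw [Finset.sum_filter]
  apply Finset.sum_congr rfl
  intro S _
  rw [encard_cluster_coe]
  unfold big
  by_cases h : n ≤ csz S x
  · have h' : (n : ℕ∞) ≤ csz S x := by exact_mod_cast h
    simp only [Nat.cast_le, h, ↓reduceIte, mul_one]
  · have h' : ¬ (n : ℕ∞) ≤ csz S x := fun hh => h (by exact_mod_cast hh)
    simp only [Nat.cast_le, h, ↓reduceIte, mul_zero]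

lemma nullMeasurableSet_bigC (G : SimpleGraph V) [G.LocallyFinite] (hG : G.Connected) (p : I)
    (n : ℕ) (x : V) : NullMeasurableSet (bigC n x) (setBernoulli G.edgeSet p) := by
  have h := (measurableSet_inter_pred (edgesIn G (ballF G x n))
    (fun s => (n : ℕ∞) ≤ (cluster s x).encard)).nullMeasurableSet
      (μ := setBernoulli G.edgeSet p)
  exact h.congr (bigC_ae G hG p n x).symm

lemma bigC_antitone (x : V) : Antitone (fun n => bigC n x) := by
  intro m n h ω hω
  have h1 : (m : ℕ∞) ≤ n := by exact_mod_cast h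
  have h2 : (n : ℕ∞) ≤ (cluster ω x).encard := hω
  exact (h1.trans h2 : (m : ℕ∞) ≤ (cluster ω x).encard)

lemma iInter_bigC (x : V) : ⋂ n, bigC n x = InfC x := by
  ext ω
  simp only [Set.mem_iInter, bigC, InfC, Set.mem_ofPred_eq]
  constructor
  · intro h hfin
    have h1 := h ((hfin.toFinset).card + 1)
    rw [show (cluster ω x).encard = hfin.toFinset.card by
      rw [← Set.encard_coe_eq_coe_finsetCard, Set.Finite.coe_toFinset]; rfl] at h1
    have h2 : hfin.toFinset.card + 1 ≤ hfin.toFinset.card := by exact_mod_cast h1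
    omega
  · intro h n
    have : (cluster ω x).encard = ⊤ := Set.encard_eq_top_iff.2 h
    rw [this]
    exact le_top

/-- The finite-volume polynomials converge to the percolation probability. -/
theorem tendsto_phiB (G : SimpleGraph V) [G.LocallyFinite] (hG : G.Connected) (p : I) (x : V) :
    Tendsto (fun n => phiB G n x p) atTop (𝓝 ((setBernoulli G.edgeSet p).real (InfC x))) := by
  have h := tendsto_measure_iInter_atTop (μ := setBernoulli G.edgeSet p)
    (s := fun n => bigC n x) (fun n => nullMeasurableSet_bigC G hG p n x) (bigC_antitone x)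
    ⟨0, measure_ne_top _ _⟩
  rw [iInter_bigC] at h
  have h2 := (ENNReal.tendsto_toReal (measure_ne_top _ _)).comp h
  refine h2.congr ?_
  intro n
  rw [← measureReal_bigC G hG]
  rfl

lemma infC_subset (x : V) : InfC x ⊆ hasInfiniteCluster V := fun _ h => ⟨x, h⟩

lemma hasInfiniteCluster_eq : hasInfiniteCluster V = ⋃ x : V, InfC x := by
  ext ω
  simp only [Set.mem_iUnion]
  rfl

lemma pc_nonneg (G : SimpleGraph V) : 0 ≤ pc G :=
  Real.sInf_nonneg fun _ hp => hp.1.1

/-- Below `pc` there is no infinite cluster, so the tails tend to `0`. -/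
theorem tendsto_phiB_zero (G : SimpleGraph V) [G.LocallyFinite] (hG : G.Connected) {p : ℝ}
    (h0 : 0 ≤ p) (h1 : p ≤ 1) (hp : p < pc G) (x : V) :
    Tendsto (fun n => phiB G n x p) atTop (𝓝 0) := by
  have h := tendsto_phiB G hG ⟨p, h0, h1⟩ x
  have hz : setBernoulli G.edgeSet (⟨p, h0, h1⟩ : I) (hasInfiniteCluster V) = 0 := by
    by_contra hne
    have hpos := pos_iff_ne_zero.2 hne
    have : pc G ≤ p := csInf_le ⟨0, fun q hq => hq.1.1⟩ ⟨⟨h0, h1⟩, hpos⟩
    linarith
  have hz2 : (setBernoulli G.edgeSet (⟨p, h0, h1⟩ : I)).real (InfC x) = 0 := by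
    rw [measureReal_def, measure_mono_null (infC_subset x) hz]
    rfl
  rw [hz2] at h
  exact h

/-- If all the tails at `p` tend to `0` along a subsequence, there is no infinite cluster. -/
theorem no_infinite_of_phiB (G : SimpleGraph V) [G.LocallyFinite] (hG : G.Connected) (p : I)
    (h : ∀ x : V, ∀ ε > 0, ∃ n, phiB G n x p < ε) :
    setBernoulli G.edgeSet p (hasInfiniteCluster V) = 0 := by
  have : Countable V := countable_of_connected G hG
  rw [hasInfiniteCluster_eq, measure_iUnion_null_iff]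
  intro x
  have h1 : ∀ ε > 0, (setBernoulli G.edgeSet p).real (InfC x) < ε := by
    intro ε hε
    obtain ⟨n, hn⟩ := h x ε hε
    rw [← measureReal_bigC G hG] at hn
    refine lt_of_le_of_lt ?_ hn
    apply measureReal_mono
    · rw [← iInter_bigC]
      exact Set.iInter_subset _ n
    · exact measure_ne_top _ _
  have h2 : (setBernoulli G.edgeSet p).real (InfC x) ≤ 0 :=
    le_of_forall_pos_lt_add fun ε hε => by simpa using h1 ε hε
  have h3 : (setBernoulli G.edgeSet p).real (InfC x) = 0 := le_antisymm h2 measureReal_nonneg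
  exact (measureReal_eq_zero_iff (measure_ne_top _ _)).1 h3

/-- At `p = 0` there is no infinite cluster. -/
theorem no_infinite_zero (G : SimpleGraph V) [G.LocallyFinite] (hG : G.Connected) (p : I)
    (hp : (p : ℝ) = 0) : setBernoulli G.edgeSet p (hasInfiniteCluster V) = 0 := by
  classical
  apply no_infinite_of_phiB G hG p
  intro x ε hε
  refine ⟨2, ?_⟩
  have : phiB G 2 x p = 0 := by
    unfold phiB Ex
    rw [hp]
    apply Finset.sum_eq_zero
    intro S _
    by_cases hS : S.card = 0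
    · have : S = ∅ := Finset.card_eq_zero.1 hS
      subst this
      have h1 : csz (∅ : Finset (Sym2 V)) x = 1 := by
        unfold csz
        rw [Finset.card_eq_one]
        refine ⟨x, ?_⟩
        ext y
        rw [mem_cl, Finset.mem_singleton]
        constructor
        · intro h
          have := Cn_closed (A := {x}) (S := (∅ : Finset (Sym2 V)))
            (by intro u _ v huv; simp at huv) rfl h
          exact this
        · rintro rfl; exact Cn.refl _ _
      unfold big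
      rw [h1]
      simp
    · rw [zero_pow hS]; simp
  rw [this]
  exact hε

end Vale.Agent.P151
end

section

/-!
# The extremal parallelogram

PROOF.  `g = (0, 1/n)`, `f s h = (1/h, -s/h)` (`h > 0`), so `nm (f s h) = (1 + |s|)/h`,
`nm g = 1/n`.  Given `ρ`, let `w = ` a large real (`1/w ≤ ρ`, `k C₀ / w ≤ 1/4`, ...), `W` from `thin`
for `w` and `δ = ε`, `n` a large real (`1/n ≤ ρ`, `k C₀/n ≤ 1/4`, `W/n ≤ 1`).
Family: the `(s, h)` with `w (1 + |s|) ≤ h` and `∃ R, 1 - √(2ε) ≤ QR (f s h) g 1 1 R`.  It is not empty: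
`s = 0`, `h` large (`thin` with `w := n`, `b = 1 = n * nm g`).  Let `I` be the infimum of the `h` of
the family (`I ≥ w > 0`) and `(s₀, h₀)` in the family with `h₀ < 3/2 I`.  For `x ∈ [-1, 1]` put
`s' = s₀ + x h₀ / n`, `f' = f s₀ h₀ - x • g = f s' h₀ = (1/2) • f s' (h₀/2)`.
`QR g f' 1 (1/2) R = QR g (f s' (h₀/2)) 1 1 R` (`QR_scale`).
If `w (1 + |s'|) ≤ h₀/2` then `(s', h₀/2)` is not in the family (`h₀/2 < I`), so
`QR (f s' (h₀/2)) g 1 1 R < 1 - √(2ε)` for all `R`, and `exit_all` with `δ = ε` gives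
`(1 - QR ..)(1 - QR g (f s' (h₀/2)) 1 1 R) ≤ 2ε` for `R` large, hence
`1 - QR g (f s' (h₀/2)) 1 1 R ≤ √(2ε)`.
Otherwise `1/2 ≤ w * nm f'`, and `thin` (with `f := g`, `g := f'`, `a = 1`, `b = 1/2`) gives
`1 - 2ε ≤ QR g f' 1 (1/2) R`, and `2ε ≤ √(2ε)` as `ε ≤ 1/2`.
-/

set_option autoImplicit false
set_option linter.unusedSectionVars false

noncomputable section

namespace Vale.Agent.P151.Pl

open Vale.Agent.P151 Vale.Agent.P151.Red

variable {V : Type} [DecidableEq V] {G : SimpleGraph V} [G.LocallyFinite]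

theorem QR_scale (A : Act G) (p : ℝ) (k : ℕ) (f g : ℝ × ℝ) (a b c : ℝ) (hc : 0 < c) (R : ℕ) :
    QR A p k f (c • g) a (c * b) R = QR A p k f g a b R := by
  have hd : ∀ v : V, dot (c • g) (A.P v) = c * dot g (A.P v) := by
    intro v
    simp only [dot, Prod.smul_fst, Prod.smul_snd, smul_eq_mul]
    ring
  have h1 : ∀ v : V, |dot (c • g) (A.P v)| ≤ c * b ↔ |dot g (A.P v)| ≤ b := by
    intro v
    rw [hd, abs_mul, abs_of_pos hc]
    exact mul_le_mul_iff_right₀ hc
  have h2 : ∀ v : V, c * b < |dot (c • g) (A.P v)| ↔ b < |dot g (A.P v)| := by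
    intro v
    rw [hd, abs_mul, abs_of_pos hc]
    exact mul_lt_mul_iff_right₀ hc
  have hL : Ls A f (c • g) a (c * b) R = Ls A f g a b R := by
    unfold Ls
    apply Finset.filter_congr
    intro v _
    rw [h1]
  have hA : As A f (c • g) a (c * b) R = As A f g a b R := by
    unfold As
    rw [hL]
    congr 1
    apply Finset.filter_congr
    intro v _
    rw [h2]
  unfold QR
  rw [hL, hA]
  apply Pr_congr
  intro T _
  constructor
  · rintro ⟨v, hv1, hv2, hv3⟩
    exact ⟨v, hv1, hv2, (h2 v).1 hv3⟩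
  · rintro ⟨v, hv1, hv2, hv3⟩
    exact ⟨v, hv1, hv2, (h2 v).2 hv3⟩

/-- The form with kernel direction `(s, 1)` and width `h`. -/
def fsh (s h : ℝ) : ℝ × ℝ := (1 / h, - s / h)

lemma nm_fsh {s h : ℝ} (hh : 0 < h) : nm (fsh s h) = (1 + |s|) / h := by
  unfold nm fsh
  simp only
  rw [abs_div, abs_div, abs_neg, abs_of_pos hh, abs_one]
  ring

lemma fsh_half {s h : ℝ} (hh : 0 < h) : (1 / 2 : ℝ) • fsh s (h / 2) = fsh s h := by
  unfold fsh
  ext
  · simp only [Prod.smul_fst, smul_eq_mul]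
    field_simp
  · simp only [Prod.smul_snd, smul_eq_mul]
    field_simp

lemma fsh_sub {s h n x : ℝ} (hh : 0 < h) (hn : 0 < n) :
    fsh s h - x • ((0, 1 / n) : ℝ × ℝ) = fsh (s + x * h / n) h := by
  unfold fsh
  ext
  · simp
  · simp only [Prod.snd_sub, Prod.smul_snd, smul_eq_mul]
    field_simp
    ring

lemma dot_ball_le (A : Act G) (f : ℝ × ℝ) {v : V} {k : ℕ} {c : ℝ} (h : v ∈ ballF G A.o k)
    (hc : A.C₀ * nm f * k ≤ c) : |dot f (A.P v)| ≤ c := by
  have h1 := lip_ball A f h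
  rw [A.P_o] at h1
  have h2 : dot f ((0 : ℝ × ℝ)) = 0 := by simp [dot]
  rw [h2, sub_zero] at h1
  exact h1.trans hc

theorem extremal (A : Act G) {p : ℝ} (h0 : 0 < p) (h1 : p < 1) {k : ℕ} {ε : ℝ} (hε : 0 < ε)
    (hε' : ε ≤ 1 / 2) (hB : Base A p k ε) (ρ : ℝ) (hρ : 0 < ρ) :
    ∃ f g : ℝ × ℝ, nm f ≤ ρ ∧ nm g ≤ ρ ∧ (∃ R : ℕ, 1 - √(2 * ε) ≤ QR A p k f g 1 1 R) ∧
      ∀ x : ℝ, |x| ≤ 1 → ∃ R : ℕ, 1 - √(2 * ε) ≤ QR A p k g (f - x • g) 1 (1 / 2) R := by
  have hC₀ := A.C₀_pos
  have hsq : 2 * ε ≤ √(2 * ε) := by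
    have h2 : 0 ≤ 2 * ε := by linarith only [hε]
    apply Real.le_sqrt_of_sq_le
    nlinarith only [hε, hε']
  set w : ℝ := 1 / ρ + 4 * (A.C₀ * k) + 1 with hw
  have hk0 : 0 ≤ A.C₀ * k := by (clear * - hC₀; positivity)
  have hw0 : 0 < w := by (clear * - hρ hC₀; positivity)
  have hwρ : 1 / w ≤ ρ := by
    rw [div_le_iff₀ hw0]
    have : 1 / ρ * ρ = 1 := by field_simp
    nlinarith only [this, hρ, hk0]
  have hwk : A.C₀ * (1 / w) * k ≤ 1 / 4 := by
    rw [show A.C₀ * (1 / w) * k = (A.C₀ * k) / w by ring, div_le_iff₀ hw0]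
    have : 0 < 1 / ρ := by positivity
    linarith only [this]
  obtain ⟨W, hW0, hW⟩ := thin A h0 h1 hB w hw0 ε hε
  set n : ℝ := w + W with hn
  have hn0 : 0 < n := by (clear * - hρ hC₀ hW0; positivity)
  have hnw : 1 / n ≤ 1 / w := one_div_le_one_div_of_le hw0 (by linarith only [hW0])
  set g : ℝ × ℝ := (0, 1 / n) with hg
  have hng : nm g = 1 / n := by
    unfold nm
    simp only [hg]
    rw [abs_zero, zero_add, abs_of_pos (by (clear * - hρ hC₀ hW0; positivity))]
  have hgk : A.C₀ * nm g * k ≤ 1 / 4 := by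
    rw [hng]
    refine le_trans ?_ hwk
    (clear * - hnw hC₀; gcongr)
  have hfk : ∀ s h : ℝ, w * (1 + |s|) ≤ h → 0 < h ∧ nm (fsh s h) ≤ 1 / w ∧
      A.C₀ * nm (fsh s h) * k ≤ 1 / 4 := by
    intro s h hsh
    have h2 : 0 < h := lt_of_lt_of_le (by (clear * - hρ hC₀; positivity)) hsh
    have h3 : nm (fsh s h) ≤ 1 / w := by
      rw [nm_fsh h2, div_le_div_iff₀ h2 hw0]
      linarith only [hsh]
    refine ⟨h2, h3, le_trans ?_ hwk⟩
    (clear * - h3 hC₀; gcongr)
  have hnmpos : ∀ s h : ℝ, 0 < h → 0 < nm (fsh s h) := by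
    intro s h hh
    rw [nm_fsh hh]
    (clear * - hh; positivity)
  -- the family
  set Hs : Set ℝ := {h | ∃ s, w * (1 + |s|) ≤ h ∧ ∃ R, 1 - √(2 * ε) ≤ QR A p k (fsh s h) g 1 1 R}
    with hHs
  have hne : Hs.Nonempty := by
    obtain ⟨W', hW'0, hW'⟩ := thin A h0 h1 hB n hn0 ε hε
    have h2 : w * (1 + |(0 : ℝ)|) ≤ w + W' := by
      rw [abs_zero]
      linarith only [hW'0]
    obtain ⟨h3, h4, h5⟩ := hfk 0 (w + W') h2
    obtain ⟨R, hR⟩ := hW' (fsh 0 (w + W')) g 1 1 (by rw [hng]; (clear * - hρ hC₀ hW0; positivity))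
      (fun v hv => ⟨dot_ball_le A _ hv (h5.trans (by norm_num)),
        dot_ball_le A _ hv (hgk.trans (by norm_num))⟩)
      (by rw [hng]; field_simp; rfl)
      (by
        rw [nm_fsh h3, abs_zero, add_zero, mul_one_div, div_le_one h3]
        linarith only [hw0])
    exact ⟨w + W', 0, h2, R, by linarith only [hsq, hR]⟩
  have hbdd : BddBelow Hs := ⟨w, by
    rintro h ⟨s, hs, _⟩
    have : 0 ≤ |s| := abs_nonneg s
    nlinarith only [hs, hw0, this]⟩
  have hI : w ≤ sInf Hs := by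
    apply le_csInf hne
    rintro h ⟨s, hs, _⟩
    have : 0 ≤ |s| := abs_nonneg s
    nlinarith only [hs, hw0, this]
  obtain ⟨h₀, hh₀, hlt⟩ := exists_lt_of_csInf_lt hne (show sInf Hs < 3 / 2 * sInf Hs by linarith only [hw0, hI])
  have hnot : h₀ / 2 ∉ Hs := by
    intro hmem
    have := csInf_le hbdd hmem
    linarith only [hw0, hI, hlt, this]
  obtain ⟨s₀, hs₀, R₀, hR₀⟩ := hh₀
  obtain ⟨hp, hn1, hn2⟩ := hfk s₀ h₀ hs₀
  refine ⟨fsh s₀ h₀, g, hn1.trans hwρ, by rw [hng]; exact hnw.trans hwρ, ⟨R₀, hR₀⟩, ?_⟩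
  intro x hx
  rw [hg, fsh_sub hp hn0, ← hg]
  set s' : ℝ := s₀ + x * h₀ / n with hs'
  have hball2 : ∀ v ∈ ballF G A.o k, |dot (fsh s' h₀) (A.P v)| ≤ 1 / 2 := by
    intro v hv
    have h2 : fsh s' h₀ = fsh s₀ h₀ - x • g := by rw [hg, fsh_sub hp hn0]
    have h3 : dot (fsh s' h₀) (A.P v) = dot (fsh s₀ h₀) (A.P v) - x * dot g (A.P v) := by
      rw [h2]
      simp only [dot, Prod.fst_sub, Prod.smul_fst, smul_eq_mul, Prod.snd_sub, Prod.smul_snd]
      ring
    have h4 := dot_ball_le A _ hv hn2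
    have h5 := dot_ball_le A _ hv hgk
    have h6 : |x * dot g (A.P v)| ≤ 1 / 4 := by
      rw [abs_mul]
      have := abs_nonneg (dot g (A.P v))
      nlinarith only [h5, hx, this]
    rw [h3]
    calc |dot (fsh s₀ h₀) (A.P v) - x * dot g (A.P v)|
        ≤ |dot (fsh s₀ h₀) (A.P v)| + |x * dot g (A.P v)| := abs_sub _ _
      _ ≤ 1 / 2 := by linarith only [h4, h6]
  by_cases hc : w * (1 + |s'|) ≤ h₀ / 2
  · obtain ⟨hq, hn3, hn4⟩ := hfk s' (h₀ / 2) hc
    have hno : ∀ R, QR A p k (fsh s' (h₀ / 2)) g 1 1 R < 1 - √(2 * ε) := by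
      intro R
      by_contra hcon
      exact hnot ⟨s', hc, R, not_lt.1 hcon⟩
    obtain ⟨R₁, hR₁⟩ := exit_all A h0 h1 hB (fsh s' (h₀ / 2)) g 1 1 (hnmpos _ _ hq)
      (fun v hv => ⟨dot_ball_le A _ hv (hn4.trans (by norm_num)),
        dot_ball_le A _ hv (hgk.trans (by norm_num))⟩) ε hε
    refine ⟨R₁, ?_⟩
    have h2 := hR₁ R₁ le_rfl
    have h3 := hno R₁
    have h4 : QR A p k g (fsh s' h₀) 1 (1 / 2) R₁ = QR A p k g (fsh s' (h₀ / 2)) 1 1 R₁ := by
      rw [← fsh_half hp]
      have := QR_scale A p k g (fsh s' (h₀ / 2)) 1 1 (1 / 2) (by norm_num) R₁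
      rw [mul_one] at this
      exact this
    rw [h4]
    by_contra hcon
    push Not at hcon
    have h5 : 0 < √(2 * ε) := by positivity
    have h6 : √(2 * ε) * √(2 * ε) = 2 * ε := Real.mul_self_sqrt (by linarith only [hε])
    nlinarith only [h2, h6, h3, hcon, hsq]
  · push Not at hc
    obtain ⟨R, hR⟩ := hW g (fsh s' h₀) 1 (1 / 2) (hnmpos _ _ hp)
      (fun v hv => ⟨dot_ball_le A _ hv (hgk.trans (by norm_num)), hball2 v hv⟩)
      (by
        rw [nm_fsh hp, mul_div_assoc', le_div_iff₀ hp]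
        linarith only [hc])
      (by
        rw [hng, mul_one_div, div_le_one hn0]
        linarith only [hw0])
    exact ⟨R, by linarith only [hsq, hR]⟩

end Vale.Agent.P151.Pl
end
end

section

/-!
# Many contacts with a line close to the `g`-sides; arcs

PROOF of `contacts`.  `D = As f g a b R`, lines `b_j = b - (I - j) ρ`, `ρ = (C₁ + C₀) nm g + ...`,
`H j = Hk A (slab g (b_j)) C n` (`Hk_nb`; for `j ≥ I` take the same formula), `I` = a natural number
with `((1-p)^(Δ N))⁻¹ ≤ I δ`.  `lemM` gives `j < I` with `P(1 ≤ out < N) ≤ δ`, `lemM_zero` (with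
`J = {b < |g|}`, `reg (As) (Ls) ⊆ edgesIn (As)`) gives `P(out = 0) ≤ 1 - QR ≤ η`.  A vertex
of `As` in or adjacent to `H j` (`j < I`) has `|g| ≤ b`, so it is in `Ls`:
`reg G (As ..) (H j) = reg G (Ls ..) (H j)` and `out` is the same for `As` and for `Ls` (a vertex of `out`
is adjacent to a vertex of `H j`).  Condition: `I ρ ≤ β`.
-/

set_option autoImplicit false
set_option linter.unusedSectionVars false

noncomputable section

namespace Vale.Agent.P151.Pl

open Vale.Agent.P151 Vale.Agent.P151.Red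

variable {V : Type} [DecidableEq V] {G : SimpleGraph V} [G.LocallyFinite]

theorem mem_Wk_slab (A : Act G) {g : ℝ × ℝ} {b : ℝ} {v : V} :
    v ∈ Wk A (slab g b) ↔ |dot g (A.P v)| ≤ b := by
  constructor
  · intro h
    have h1 := h (g, b) (by simp [slab])
    have h2 := h (-g, b) (by simp [slab])
    simp only [dot_neg_left] at h1 h2
    exact abs_le.2 ⟨by linarith, h1⟩
  · intro h c hc
    have h1 := abs_le.1 h
    rcases hc with rfl | hc
    · exact h1.2
    · rw [Set.mem_singleton_iff] at hc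
      subst hc
      show dot (-g) (A.P v) ≤ b
      rw [dot_neg_left]
      linarith

theorem Hk_slab_mono (A : Act G) {g : ℝ × ℝ} {b b' : ℝ} (hb : b ≤ b') (C : ℝ) (n : ℕ) :
    Hk A (slab g b) C n ⊆ Hk A (slab g b') C n := by
  rintro v hv ⟨u, w, hw, ⟨c, hc, hcu⟩, hz⟩
  refine hv ⟨u, w, hw, ?_, fun z hz' hW => hz z hz' ?_⟩
  · rcases hc with rfl | hc
    · exact ⟨(g, b), by simp [slab], by simp only at hcu ⊢; linarith only [hb, hcu]⟩
    · rw [Set.mem_singleton_iff] at hc
      subst hc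
      exact ⟨(-g, b), by simp [slab], by simp only at hcu ⊢; linarith only [hb, hcu]⟩
  · rw [mem_Wk_slab] at hW ⊢
    exact hW.trans hb

theorem Hk_slab_le {A : Act G} {C₁ C : ℝ} {n : ℕ} (h : PocketOK A C₁ C n) {g : ℝ × ℝ} {b : ℝ}
    {v : V} (hv : v ∈ Hk A (slab g b) C n) : |dot g (A.P v)| ≤ b + C₁ * nm g := by
  have h1 := Hk_le h hv (c := (g, b)) (by simp [slab])
  have h2 := Hk_le h hv (c := (-g, b)) (by simp [slab])
  simp only [dot_neg_left, nm_neg] at h1 h2
  exact abs_le.2 ⟨by linarith, h1⟩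

theorem Hk_slab_nb {A : Act G} {C₁ C : ℝ} {n : ℕ} (h : PocketOK A C₁ C n) {g : ℝ × ℝ} {b b' : ℝ}
    (hb : b + (C₁ + A.C₀) * nm g ≤ b') {u v : V} (hu : u ∈ Hk A (slab g b) C n)
    (huv : G.Adj u v) : |dot g (A.P v)| ≤ b' := by
  rw [← mem_Wk_slab]
  refine Hk_nb h ?_ hu huv
  intro c' hc'
  rcases hc' with rfl | hc'
  · exact ⟨(g, b), by simp [slab], rfl, hb⟩
  · rw [Set.mem_singleton_iff] at hc'
    subst hc'
    refine ⟨(-g, b), by simp [slab], rfl, ?_⟩
    simp only [nm_neg]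
    exact hb

theorem Ls_subset_As (A : Act G) (f g : ℝ × ℝ) (a b : ℝ) (R : ℕ) :
    Ls A f g a b R ⊆ As A f g a b R := Finset.subset_union_left

theorem mem_Ls_of_mem_As {A : Act G} {f g : ℝ × ℝ} {a b : ℝ} {R : ℕ} {v : V}
    (h : v ∈ As A f g a b R) (hv : |dot g (A.P v)| ≤ b) : v ∈ Ls A f g a b R := by
  rcases mem_As.1 h with h | h
  · exact h
  · exact absurd hv (not_le.2 h.2)

/-- Seen from `Hk (slab g b')`, the sets `As` and `Ls` are the same. -/
theorem reg_As_eq {A : Act G} {C₁ C : ℝ} {n : ℕ} (hP : PocketOK A C₁ C n)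
    {f g : ℝ × ℝ} {a b b' : ℝ} {R : ℕ} (hb : b' + (C₁ + A.C₀) * nm g ≤ b) :
    reg G (As A f g a b R) (Hk A (slab g b') C n) =
      reg G (Ls A f g a b R) (Hk A (slab g b') C n) := by
  have hg := nm_nonneg g
  have hC₀ := A.C₀_pos
  have hself : ∀ u ∈ Hk A (slab g b') C n, |dot g (A.P u)| ≤ b := by
    intro u hu
    have h1 := Hk_slab_le hP hu
    have h2 : (C₁ + A.C₀) * nm g = C₁ * nm g + A.C₀ * nm g := by ring
    have h3 : 0 ≤ A.C₀ * nm g := by positivity
    linarith
  ext e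
  rw [mem_reg, mem_reg]
  constructor
  · rintro ⟨he, v, hv, hvH⟩
    refine ⟨?_, v, hv, hvH⟩
    obtain ⟨u, rfl⟩ := Sym2.mem_iff_exists.1 hv
    have h1 := mk_mem_edgesIn.1 he
    exact mk_mem_edgesIn.2 ⟨h1.1, mem_Ls_of_mem_As h1.2.1 (hself v hvH),
      mem_Ls_of_mem_As h1.2.2 (Hk_slab_nb hP hb hvH h1.1)⟩
  · rintro ⟨he, v, hv, hvH⟩
    refine ⟨?_, v, hv, hvH⟩
    obtain ⟨u, rfl⟩ := Sym2.mem_iff_exists.1 hv
    have h1 := mk_mem_edgesIn.1 he
    exact mk_mem_edgesIn.2 ⟨h1.1, Ls_subset_As _ _ _ _ _ _ h1.2.1,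
      Ls_subset_As _ _ _ _ _ _ h1.2.2⟩

theorem out_As_eq {A : Act G} {f g : ℝ × ℝ} {a b : ℝ} {R k : ℕ} {H : Set V}
    (hB : ballF G A.o k ⊆ Ls A f g a b R) {T : Finset (Sym2 V)}
    (hT : T ⊆ reg G (Ls A f g a b R) H) :
    out G k A.o (As A f g a b R) H T = out G k A.o (Ls A f g a b R) H T := by
  have hsub : seedCl G k A.o T ⊆ {v | v ∈ Ls A f g a b R} := by
    apply seedCl_subset
    · exact hB (mem_ballF_self G _ k)
    · intro u _ v huv
      rcases Finset.mem_union.1 huv with h1 | h1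
      · exact hB (Ek_end h1)
      · exact (mk_mem_edgesIn.1 (mem_reg.1 (hT h1)).1).2.2
  ext v
  rw [mem_out, mem_out]
  constructor
  · rintro ⟨_, h2, h3⟩
    exact ⟨hsub h3, h2, h3⟩
  · rintro ⟨h1, h2, h3⟩
    exact ⟨Ls_subset_As _ _ _ _ _ _ h1, h2, h3⟩

/-- `E` depends on `p, A, N, C₁, C, δ, β` only: if `nm g ≤ E` then ... -/
theorem contacts (A : Act G) {p : ℝ} (h0 : 0 < p) (h1 : p < 1) (k N : ℕ) (C₁ C : ℝ) (n : ℕ)
    (hC₁ : 0 < C₁) (hP : PocketOK A C₁ C n) (δ β : ℝ) (hδ : 0 < δ) (hβ : 0 < β) :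
    ∃ E : ℝ, 0 < E ∧ ∀ (f g : ℝ × ℝ) (a b : ℝ) (R : ℕ) (η : ℝ), k ≤ R → 0 < nm g → nm g ≤ E →
      (∀ v ∈ ballF G A.o k, |dot f (A.P v)| ≤ a ∧ |dot g (A.P v)| ≤ b - β) →
      1 - η ≤ QR A p k f g a b R →
      ∃ b' : ℝ, b - β ≤ b' ∧ b' ≤ b ∧
        (∀ T ⊆ reg G (Ls A f g a b R) (Hk A (slab g b') C n),
          ∀ v ∈ out G k A.o (Ls A f g a b R) (Hk A (slab g b') C n) T,
            b' < |dot g (A.P v)|) ∧
        Pr p (reg G (Ls A f g a b R) (Hk A (slab g b') C n)) (fun T =>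
          (out G k A.o (Ls A f g a b R) (Hk A (slab g b') C n) T).card < N) ≤ η + δ := by
  classical
  have hC₀ := A.C₀_pos
  set W : ℝ := ((1 - p) ^ (A.Δ * N))⁻¹ with hW
  have hWpos : 0 < W := inv_pos.2 (pow_pos (by linarith only [h1]) _)
  obtain ⟨I, hI⟩ := exists_nat_gt (W / δ)
  have hIW : W < I * δ := by
    rw [div_lt_iff₀ hδ] at hI
    exact hI
  have hI0 : 0 < I := by
    rcases Nat.eq_zero_or_pos I with h | h
    · exfalso
      rw [h] at hIW
      simp only [Nat.cast_zero, zero_mul] at hIW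
      linarith only [hWpos, hIW]
    · exact h
  have hI0' : (0 : ℝ) < I := Nat.cast_pos.2 hI0
  have hCC : 0 < C₁ + A.C₀ := by linarith only [hC₁, hC₀]
  refine ⟨β / (I * (C₁ + A.C₀)), by (clear * - hβ hI0 hC₁ hC₀; positivity), ?_⟩
  intro f g a b R η hkR hg0 hgE hball hQ
  set ρ : ℝ := (C₁ + A.C₀) * nm g with hρ
  have hρ0 : 0 < ρ := by positivity
  have hIρ : (I : ℝ) * ρ ≤ β := by
    rw [le_div_iff₀ (by positivity)] at hgE
    calc (I : ℝ) * ρ = nm g * (I * (C₁ + A.C₀)) := by rw [hρ]; ring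
      _ ≤ β := hgE
  set bj : ℕ → ℝ := fun j => b - ((I : ℝ) - j) * ρ with hbj
  set H : ℕ → Set V := fun j => Hk A (slab g (bj j)) C n with hH
  have hbj_succ : ∀ j : ℕ, bj j + ρ = bj (j + 1) := by
    intro j
    simp only [hbj]
    push_cast
    ring
  have hbj0 : b - β ≤ bj 0 := by
    simp only [hbj, Nat.cast_zero, sub_zero]
    linarith only [hIρ]
  have hbj_mono : ∀ i j : ℕ, i ≤ j → bj i ≤ bj j := by
    intro i j hij
    simp only [hbj]
    have : (i : ℝ) ≤ j := Nat.cast_le.2 hij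
    nlinarith only [hρ0, this]
  have hbj_I : ∀ j : ℕ, j < I → bj j + ρ ≤ b := by
    intro j hj
    rw [hbj_succ]
    refine (hbj_mono (j + 1) I hj).trans ?_
    simp only [hbj, sub_self, zero_mul, sub_zero]
    exact le_rfl
  have hBL : ballF G A.o k ⊆ Ls A f g a b R := by
    intro v hv
    have := hball v hv
    exact mem_Ls.2 ⟨ballF_mono G A.o hkR hv, this.1, by linarith only [hβ, this]⟩
  have hBH : ∀ j : ℕ, ∀ v ∈ ballF G A.o k, v ∈ H j := by
    intro j v hv
    refine Wk_subset_Hk A _ C n ?_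
    rw [mem_Wk_slab]
    have h2 := (hball v hv).2
    have h3 := hbj_mono 0 j (Nat.zero_le _)
    linarith only [hbj0, h2, h3]
  have hM := lemM h0 h1 A.Δ A.deg k A.o (As A f g a b R) H
    (hBL.trans (Ls_subset_As _ _ _ _ _ _)) (hBH 0)
    (fun i j hij => Hk_slab_mono A (hbj_mono i j hij) C n)
    (fun j u hu v huv => Wk_subset_Hk A _ C n
      (mem_Wk_slab A |>.2 (Hk_slab_nb hP (hbj_succ j).le hu huv))) N I
  obtain ⟨j, hj, hjδ⟩ : ∃ j < I, Pr p (reg G (As A f g a b R) (H j))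
      (fun T => 1 ≤ (out G k A.o (As A f g a b R) (H j) T).card ∧
        (out G k A.o (As A f g a b R) (H j) T).card < N) ≤ δ := by
    by_contra hcon
    push Not at hcon
    have h3 : ∑ _j ∈ Finset.range I, δ ≤ ∑ j ∈ Finset.range I,
        Pr p (reg G (As A f g a b R) (H j))
        (fun T => 1 ≤ (out G k A.o (As A f g a b R) (H j) T).card ∧
        (out G k A.o (As A f g a b R) (H j) T).card < N) :=
      Finset.sum_le_sum fun j hj => (hcon j (Finset.mem_range.1 hj)).le
    rw [Finset.sum_const, Finset.card_range, nsmul_eq_mul] at h3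
    have h4 := h3.trans hM
    linarith only [hIW, hM, h3]
  have hbb := hbj_I j hj
  have hreg := reg_As_eq (f := f) (a := a) (R := R) hP (b' := bj j) (b := b) hbb
  have hJ : ∀ v ∈ {v : V | b < |dot g (A.P v)|}, v ∉ H j := by
    intro v hv hvH
    have h2 := Hk_slab_le hP hvH
    have h3 : ρ = C₁ * nm g + A.C₀ * nm g := by rw [hρ]; ring
    have h4 : 0 < A.C₀ * nm g := by (clear * - hC₀ hg0; positivity)
    have h5 : b < |dot g (A.P v)| := hv
    linarith only [hbb, h2, h4, h5]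
  have hZ := lemM_zero h0 h1 k A.o (As A f g a b R) (H j) {v : V | b < |dot g (A.P v)|}
    (hBL.trans (Ls_subset_As _ _ _ _ _ _)) (hBH j) hJ
  have hQ' : Pr p (edgesIn G (As A f g a b R)) (fun T => ¬ ∃ v ∈ seedCl G k A.o T,
      v ∈ As A f g a b R ∧ v ∈ {v : V | b < |dot g (A.P v)|}) ≤ η := by
    have h2 : Pr p (edgesIn G (As A f g a b R)) (fun T => ¬ ∃ v ∈ seedCl G k A.o T,
        v ∈ As A f g a b R ∧ v ∈ {v : V | b < |dot g (A.P v)|}) ≤
        Pr p (reg G (As A f g a b R) ↑(Ls A f g a b R)) (fun T => ¬ ∃ v ∈ seedCl G k A.o T,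
        v ∈ As A f g a b R ∧ v ∈ {v : V | b < |dot g (A.P v)|}) := by
      refine Pr_anti_set h0.le h1.le (reg_subset _ _) ?_
      rintro T T' hTT' hT' ⟨v, hv, hv'⟩
      exact hT' ⟨v, seedCl_mono _ _ hTT' hv, hv'⟩
    have h3 := Pr_not (p := p) (reg G (As A f g a b R) ↑(Ls A f g a b R))
      (fun T => ∃ v ∈ seedCl G k A.o T,
        v ∈ As A f g a b R ∧ v ∈ {v : V | b < |dot g (A.P v)|})
    have h4 : QR A p k f g a b R = Pr p (reg G (As A f g a b R) ↑(Ls A f g a b R))
      (fun T => ∃ v ∈ seedCl G k A.o T,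
        v ∈ As A f g a b R ∧ v ∈ {v : V | b < |dot g (A.P v)|}) := rfl
    rw [← h4] at h3
    linarith only [hQ, h2, h3]
  refine ⟨bj j, hbj0.trans (hbj_mono 0 j (Nat.zero_le _)), by linarith only [hρ0, hbb], ?_, ?_⟩
  · intro T _ v hv
    by_contra hcon
    have h2 := (mem_out.1 hv).2.1
    exact h2 (Wk_subset_Hk A _ C n ((mem_Wk_slab A).2 (not_lt.1 hcon)))
  · have h2 : Pr p (reg G (Ls A f g a b R) (H j)) (fun T =>
        (out G k A.o (Ls A f g a b R) (H j) T).card < N) =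
        Pr p (reg G (As A f g a b R) (H j)) (fun T =>
        (out G k A.o (As A f g a b R) (H j) T).card < N) := by
      rw [hreg]
      refine Pr_congr fun T hT => ?_
      rw [out_As_eq hBL hT]
    rw [h2]
    have h3 : Pr p (reg G (As A f g a b R) (H j)) (fun T =>
        (out G k A.o (As A f g a b R) (H j) T).card < N) ≤
        Pr p (reg G (As A f g a b R) (H j)) (fun T =>
        (out G k A.o (As A f g a b R) (H j) T).card = 0 ∨
        (1 ≤ (out G k A.o (As A f g a b R) (H j) T).card ∧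
        (out G k A.o (As A f g a b R) (H j) T).card < N)) := by
      refine Pr_mono h0.le h1.le fun T _ h => ?_
      rcases Nat.eq_zero_or_pos (out G k A.o (As A f g a b R) (H j) T).card with h5 | h5
      · exact Or.inl h5
      · exact Or.inr ⟨h5, h⟩
    refine h3.trans ((Pr_or_le h0.le h1.le _ _ _).trans ?_)
    exact add_le_add (hZ.trans hQ') hjδ

theorem out_mono_arc (k : ℕ) (x : V) (D : Finset V) (H : Set V) {T T' : Finset (Sym2 V)}
    (h : T ⊆ T') : out G k x D H T ⊆ out G k x D H T' := by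
  intro z hz
  have h' := mem_out.1 hz
  exact mem_out.2 ⟨h'.1, h'.2.1, seedCl_mono k x h h'.2.2⟩

theorem mem_outJ_arc {k : ℕ} {x : V} {D : Finset V} {H J : Set V} {T : Finset (Sym2 V)} {z : V} :
    z ∈ outJ G k x D H J T ↔ z ∈ out G k x D H T ∧ z ∈ J := by
  classical
  unfold outJ; rw [Finset.mem_filter]

theorem outJ_mono_arc (k : ℕ) (x : V) (D : Finset V) (H J : Set V) {T T' : Finset (Sym2 V)}
    (h : T ⊆ T') : outJ G k x D H J T ⊆ outJ G k x D H J T' := by
  intro z hz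
  have h' := mem_outJ_arc.1 hz
  exact mem_outJ_arc.2 ⟨out_mono_arc k x D H h h'.1, h'.2⟩

/-- Square root trick for the parts of the line. -/
theorem arcs {p : ℝ} (h0 : 0 < p) (h1 : p < 1) (k : ℕ) (x : V) (D : Finset V) (H : Set V)
    {κ : Type} (I : Finset κ) (J : κ → Set V) (N : ℕ) (η : ℝ)
    (hJ : ∀ T ⊆ reg G D H, ∀ v ∈ out G k x D H T, ∃ i ∈ I, v ∈ J i)
    (h : Pr p (reg G D H) (fun T => (out G k x D H T).card < I.card * N) ≤ η)
    (hI : I.Nonempty) (hN : 0 < N) :
    ∃ i ∈ I, (Pr p (reg G D H) (fun T => (outJ G k x D H (J i) T).card < N)) ^ I.card ≤ η := by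
  classical
  have hprod := GM.harris_prod h0.le h1.le (reg G D H) I
    (fun i T => ind ((outJ G k x D H (J i) T).card < N)) (fun i T => ind_nonneg _) (by
      intro i S T hST
      exact ind_mono fun h2 => lt_of_le_of_lt
        (Finset.card_le_card (outJ_mono_arc k x D H (J i) hST)) h2)
  have hle : Ex p (reg G D H)
      (fun T => ∏ i ∈ I, ind ((outJ G k x D H (J i) T).card < N)) ≤ η := by
    refine (Ex_mono h0.le h1.le ?_).trans h
    intro T hT
    by_cases hall : ∀ i ∈ I, (outJ G k x D H (J i) T).card < N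
    · have hcard : (out G k x D H T).card < I.card * N := by
        have hsub : out G k x D H T ⊆ I.biUnion (fun i => outJ G k x D H (J i) T) := by
          intro v hv
          obtain ⟨i, hi, hvi⟩ := hJ T hT v hv
          exact Finset.mem_biUnion.2 ⟨i, hi, mem_outJ_arc.2 ⟨hv, hvi⟩⟩
        calc (out G k x D H T).card ≤ ∑ i ∈ I, (outJ G k x D H (J i) T).card :=
              (Finset.card_le_card hsub).trans Finset.card_biUnion_le
          _ < ∑ _i ∈ I, N := Finset.sum_lt_sum_of_nonempty hI hall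
          _ = I.card * N := by rw [Finset.sum_const, smul_eq_mul]
      rw [ind_true hcard]
      exact Finset.prod_le_one (fun i _ => ind_nonneg _) (fun i _ => ind_le_one _)
    · push Not at hall
      obtain ⟨i, hi, hiQ⟩ := hall
      rw [Finset.prod_eq_zero hi (ind_false (not_lt.2 hiQ))]
      exact ind_nonneg _
  obtain ⟨i, hi, hmin⟩ := Finset.exists_min_image I
    (fun i => Pr p (reg G D H) (fun T => (outJ G k x D H (J i) T).card < N)) hI
  refine ⟨i, hi, ?_⟩
  rw [← Finset.prod_const]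
  refine (Finset.prod_le_prod (fun _ _ => Pr_nonneg h0.le h1.le _ _) hmin).trans ?_
  exact hprod.trans hle

end Vale.Agent.P151.Pl
end
end

section

/-!
# The two moves

PROOF of `two_moves`.  Given `η, α`: an integer `m` (cells of width `2/m`), `β > 0` with
`6 (1/m + β) + 2 β ≤ α`, `6 β + 2/m ≤ α`, ..., `ε ≤ 1/2` with `√(2ε) + δ ≤ η ^ (2m)`; `k` from
`exists_base`.  Given `N, C₁, C, n, ε₀`: `extremal` with `ρ` small: `f, g`.
(a) `contacts` (`N := 2 m N`) and `arcs` (cells: sign `σ` of `g`, `|f - ξ| ≤ 1/m`, `ξ` in a grid of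
`[-1, 1]`) for `Ls f g 1 1 R`: `σ, ξ`.  Put `f' = f - (σ ξ) • g`: on the landing cell
`|σ g - 1| ≤ β`, `|f'| ≤ 1/m + β`.
(b) `extremal` with `x = σ ξ`; `contacts` and `arcs` for `Ls g f' 1 (1/2) R'`: sign `σ'` of `f'`,
`|g - y₀| ≤ 1/m`, `|y₀| ≤ 1`: on the landing cell `|σ' f' - 1/2| ≤ β`.
`s = s₁ f' + s₂ g`, `t = t₁ f' + t₂ g` with `s₂ = 2σ`, `t₂ = -σ`, `s₁ = 2σ' (-1 - 2 σ y₀)`,
`t₁ = 2 σ' (2 + σ y₀)`: `(s, t) = (2, -1)` at `(f', g) = (0, σ)` and `(-1, 2)` at `(σ'/2, y₀)`.
`|s₁|, |t₁| ≤ 6`, `|s₂| = 2`, `|t₂| = 1`; on the domains `|f'| ≤ 2`, `|g| ≤ 1`: `|s| ≤ 14`, `|t| ≤ 13`.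
-/

set_option autoImplicit false
set_option linter.unusedSectionVars false

noncomputable section

namespace Vale.Agent.P151.Pl

open Vale.Agent.P151 Vale.Agent.P151.Red

variable {V : Type} [DecidableEq V] {G : SimpleGraph V} [G.LocallyFinite]

/-- The probability of leaving is `0` unless `k ≤ R`. -/
lemma le_of_QR_pos (A : Act G) {p : ℝ} {k : ℕ} {f g : ℝ × ℝ} {a b : ℝ} {R : ℕ}
    (hball : ∀ v ∈ ballF G A.o k, |dot g (A.P v)| ≤ b) (h : 0 < QR A p k f g a b R) : k ≤ R := by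
  by_contra hcon
  push Not at hcon
  have h0 : QR A p k f g a b R = 0 := by
    unfold QR
    rw [← Pr_false' p (reg G (As A f g a b R) ↑(Ls A f g a b R))]
    apply Pr_congr
    intro T _
    constructor
    · rintro ⟨v, _, hv2, hv3⟩
      unfold As at hv2
      rw [Finset.mem_union] at hv2
      rcases hv2 with hv2 | hv2
      · have h2 := hball v (ballF_mono G A.o (le_of_lt hcon) (mem_Ls.1 hv2).1)
        linarith only [hv3, h2]
      · have h2 := hball v (ballF_mono G A.o hcon (Finset.mem_filter.1 hv2).1)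
        linarith only [hv3, h2]
    · exact fun h => h.elim
  rw [h0] at h
  exact lt_irrefl _ h

lemma nm_pos_of_QR_pos (A : Act G) {p : ℝ} {k : ℕ} {f g : ℝ × ℝ} {a b : ℝ} {R : ℕ}
    (hb : 0 ≤ b) (h : 0 < QR A p k f g a b R) : 0 < nm g := by
  by_contra hcon
  have hz : nm g = 0 := le_antisymm (not_lt.1 hcon) (nm_nonneg g)
  have hz1 : g.1 = 0 := by
    unfold nm at hz
    have h1 := abs_nonneg g.1
    have h2 := abs_nonneg g.2
    exact abs_eq_zero.1 (by linarith only [h1, hz, h2])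
  have hz2 : g.2 = 0 := by
    unfold nm at hz
    have h1 := abs_nonneg g.1
    have h2 := abs_nonneg g.2
    exact abs_eq_zero.1 (by linarith only [h2, hz, h1])
  have h0 : QR A p k f g a b R = 0 := by
    unfold QR
    rw [← Pr_false' p (reg G (As A f g a b R) ↑(Ls A f g a b R))]
    apply Pr_congr
    intro T _
    constructor
    · rintro ⟨v, _, _, hv3⟩
      simp only [dot, hz1, hz2, zero_mul, add_zero, abs_zero] at hv3
      linarith
    · exact fun h => h.elim
  rw [h0] at h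
  exact lt_irrefl _ h

/-- The sign of a Boolean. -/
def sg (b : Bool) : ℝ := if b then 1 else -1

lemma sg_mul_self (b : Bool) : sg b * sg b = 1 := by cases b <;> simp [sg]

lemma abs_sg (b : Bool) : |sg b| = 1 := by cases b <;> simp [sg]

/-- The cells of the exit line. -/
def cellJ (A : Act G) (f g : ℝ × ℝ) (b β : ℝ) (m : ℕ) (i : Bool × ℕ) : Set V :=
  {v | |sg i.1 * dot g (A.P v) - b| ≤ β ∧ |dot f (A.P v) - (-1 + i.2 / m)| ≤ 1 / m}

lemma exists_cell {m : ℕ} (hm : 0 < m) {x : ℝ} (hx : |x| ≤ 1) :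
    ∃ i ∈ Finset.range (2 * m + 1), |x - (-1 + i / m)| ≤ 1 / (m : ℝ) := by
  have hm0 : (0 : ℝ) < m := by exact_mod_cast hm
  obtain ⟨h1, h2⟩ := abs_le.1 hx
  refine ⟨⌊(x + 1) * m⌋₊, ?_, ?_⟩
  · rw [Finset.mem_range]
    have h3 : (⌊(x + 1) * m⌋₊ : ℝ) ≤ (x + 1) * m := Nat.floor_le (by nlinarith only [h1])
    have h4 : (⌊(x + 1) * m⌋₊ : ℝ) < ((2 * m + 1 : ℕ) : ℝ) := by
      push_cast
      nlinarith only [h3, h2]
    exact_mod_cast h4
  · have h3 : (⌊(x + 1) * m⌋₊ : ℝ) ≤ (x + 1) * m := Nat.floor_le (by nlinarith only [h1])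
    have h4 : (x + 1) * m < (⌊(x + 1) * m⌋₊ : ℝ) + 1 := Nat.lt_floor_add_one _
    have h5 : (⌊(x + 1) * m⌋₊ : ℝ) / m ≤ x + 1 := by rwa [div_le_iff₀ hm0]
    have h6 : x + 1 ≤ (⌊(x + 1) * m⌋₊ : ℝ) / m + 1 / m := by
      rw [← add_div, le_div_iff₀ hm0]
      exact h4.le
    rw [abs_le]
    constructor
    · have : 0 < 1 / (m : ℝ) := by positivity
      linarith only [h5, this]
    · linarith only [h6]

/-- One cell of the exit line is reached many times with high probability. -/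
lemma move_gen (A : Act G) {p : ℝ} (h0 : 0 < p) (h1 : p < 1) (k N : ℕ) (hN : 0 < N) (C₁ C : ℝ)
    (n : ℕ) (hC₁ : 0 < C₁) (hP : PocketOK A C₁ C n) (m : ℕ) (hm : 0 < m) (β δ η : ℝ) (hβ : 0 < β)
    (hδ : 0 < δ) (hη : 0 ≤ η) :
    ∃ E : ℝ, 0 < E ∧ ∀ (f g : ℝ × ℝ) (b : ℝ) (R : ℕ) (θ : ℝ), 0 ≤ b → nm g ≤ E →
      (∀ v ∈ ballF G A.o k, |dot f (A.P v)| ≤ 1 ∧ |dot g (A.P v)| ≤ b - β) →
      1 - θ ≤ QR A p k f g 1 b R → θ < 1 → θ + δ ≤ η ^ (2 * (2 * m + 1)) →
      ∃ (i : Bool) (ξ : ℝ) (b' : ℝ), |ξ| ≤ 1 ∧ b - β ≤ b' ∧ b' ≤ b ∧ k ≤ R ∧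
        Pr p (reg G (Ls A f g 1 b R) (Hk A (slab g b') C n)) (fun T =>
          (outJ G k A.o (Ls A f g 1 b R) (Hk A (slab g b') C n)
            {v | |sg i * dot g (A.P v) - b| ≤ β ∧ |dot f (A.P v) - ξ| ≤ 1 / m} T).card < N) ≤ η := by
  obtain ⟨E, hE0, hE⟩ := contacts A h0 h1 k (2 * (2 * m + 1) * N) C₁ C n hC₁ hP δ β hδ hβ
  refine ⟨E, hE0, ?_⟩
  intro f g b R θ hb hgE hball hQ hθ hθδ
  have hQpos : 0 < QR A p k f g 1 b R := by linarith only [hQ, hθ]
  have hkR : k ≤ R := le_of_QR_pos A (fun v hv => by linarith only [hβ, (hball v hv).2]) hQpos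
  obtain ⟨b', hb1, hb2, hout, hPr⟩ := hE f g 1 b R θ hkR (nm_pos_of_QR_pos A hb hQpos) hgE hball hQ
  have hcard : ((Finset.univ : Finset Bool) ×ˢ Finset.range (2 * m + 1)).card =
      2 * (2 * m + 1) := by
    rw [Finset.card_product, Finset.card_range, Finset.card_univ, Fintype.card_bool]
  have hm0 : (0 : ℝ) < m := by exact_mod_cast hm
  obtain ⟨i, hi, hpow⟩ := arcs h0 h1 k A.o (Ls A f g 1 b R) (Hk A (slab g b') C n)
    ((Finset.univ : Finset Bool) ×ˢ Finset.range (2 * m + 1)) (cellJ A f g b β m) N (θ + δ)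
    (by
      intro T hT v hv
      have hv1 := (mem_Ls.1 ((mem_out (G := G)).1 hv).1)
      have hv2 := hout T hT v hv
      obtain ⟨j, hj, hj2⟩ := exists_cell hm hv1.2.1
      rcases le_total 0 (dot g (A.P v)) with hs | hs
      · refine ⟨(true, j), Finset.mem_product.2 ⟨Finset.mem_univ _, hj⟩, ?_, hj2⟩
        rw [abs_of_nonneg hs] at hv2
        have h3 := hv1.2.2
        rw [abs_of_nonneg hs] at h3
        simp only [sg, if_true, one_mul]
        rw [abs_le]
        constructor <;> linarith only [hb1, hv2, hβ, h3]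
      · refine ⟨(false, j), Finset.mem_product.2 ⟨Finset.mem_univ _, hj⟩, ?_, hj2⟩
        rw [abs_of_nonpos hs] at hv2
        have h3 := hv1.2.2
        rw [abs_of_nonpos hs] at h3
        simp only [sg, Bool.false_eq_true, if_false, neg_one_mul]
        rw [abs_le]
        constructor <;> linarith only [hb1, hv2, hβ, h3])
    (by rw [hcard]; exact hPr)
    ⟨(true, 0), Finset.mem_product.2 ⟨Finset.mem_univ _, Finset.mem_range.2 (by omega)⟩⟩ hN
  rw [hcard] at hpow
  refine ⟨i.1, -1 + i.2 / m, b', ?_, hb1, hb2, hkR, ?_⟩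
  · have hi2 : i.2 < 2 * m + 1 := Finset.mem_range.1 (Finset.mem_product.1 hi).2
    have hi3 : (i.2 : ℝ) ≤ 2 * m := by exact_mod_cast (Nat.lt_succ_iff.1 hi2)
    have hi4 : (i.2 : ℝ) / m ≤ 2 := by rw [div_le_iff₀ hm0]; exact hi3
    have hi5 : 0 ≤ (i.2 : ℝ) / m := by (clear * - hm; positivity)
    rw [abs_le]
    constructor <;> linarith only [hi4, hi5]
  · have h3 := hpow.trans hθδ
    exact le_of_pow_le_pow_left₀ (by omega) hη h3

lemma slab_ball (A : Act G) {g : ℝ × ℝ} {b' : ℝ} {v : V} (h : |dot g (A.P v)| ≤ b') :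
    v ∈ Wk A (slab g b') := by
  obtain ⟨h1, h2⟩ := abs_le.1 h
  intro c hc
  rcases hc with rfl | hc
  · exact h2
  · rw [Set.mem_singleton_iff] at hc
    rw [hc]
    show dot (-g) (A.P v) ≤ b'
    rw [dot_neg_left]
    linarith

lemma move_mono (A : Act G) {p η η' : ℝ} (h0 : 0 < p) (h1 : p < 1) (hη : η' ≤ η) {k N N' : ℕ}
    (hN : N ≤ N') {C : ℝ} {n : ℕ} {α : ℝ} {s t μ : ℝ × ℝ} {r : ℕ}
    (h : Move A p η' k N' C n α s t μ r) : Move A p η k N C n α s t μ r := by
  obtain ⟨D, K, h2, h3, h4, h5, h6⟩ := h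
  refine ⟨D, K, h2, h3, h4, h5, ?_⟩
  refine (Pr_mono h0.le h1.le ?_).trans (h6.trans hη)
  intro T _ hT
  exact lt_of_lt_of_le hT hN

/-- The numbers of the first landing area. -/
lemma land1 {σ ξ s₁ t₁ f g α β κ : ℝ} (hξ : |ξ| ≤ 1)
    (hs : |s₁| ≤ 6) (ht : |t₁| ≤ 6) (hβ : β ≤ α / 14) (hκ : κ ≤ α / 14)
    (h1 : |σ * g - 1| ≤ β) (h2 : |f - ξ| ≤ κ) :
    |s₁ * (f - σ * ξ * g) + 2 * σ * g - 2| ≤ α ∧ |t₁ * (f - σ * ξ * g) - σ * g - (-1)| ≤ α := by
  have hα : 0 ≤ α := by have := abs_nonneg (σ * g - 1); linarith only [hβ, h1, this]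
  have h3 : |f - σ * ξ * g| ≤ α / 7 := by
    rw [show f - σ * ξ * g = (f - ξ) - ξ * (σ * g - 1) by ring]
    refine (abs_sub _ _).trans ?_
    rw [abs_mul]
    have := abs_nonneg (σ * g - 1)
    have := abs_nonneg ξ
    (clear s₁ t₁ hs ht hα this; nlinarith)
  have h3' := abs_nonneg (f - σ * ξ * g)
  constructor
  · rw [show s₁ * (f - σ * ξ * g) + 2 * σ * g - 2 = s₁ * (f - σ * ξ * g) + 2 * (σ * g - 1) by ring]
    refine (abs_add_le _ _).trans ?_
    rw [abs_mul, abs_mul, abs_of_pos (by norm_num : (0 : ℝ) < 2)]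
    have : |s₁| * |f - σ * ξ * g| ≤ 6 * (α / 7) := by (clear * - hs h3; gcongr)
    linarith only [hβ, h1, this]
  · rw [show t₁ * (f - σ * ξ * g) - σ * g - (-1) = t₁ * (f - σ * ξ * g) - (σ * g - 1) by ring]
    refine (abs_sub _ _).trans ?_
    rw [abs_mul]
    have : |t₁| * |f - σ * ξ * g| ≤ 6 * (α / 7) := by (clear * - ht h3; gcongr)
    linarith only [hβ, h1, hα, this]

/-- The numbers of the second landing area. -/
lemma land2 {σ σ' y₀ F g α β κ : ℝ} (hσσ' : σ' * σ' = 1) (hσa : |σ| = 1) (hσa' : |σ'| = 1)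
    (hs : |2 * σ' * (-1 - 2 * σ * y₀)| ≤ 6) (ht : |2 * σ' * (2 + σ * y₀)| ≤ 6)
    (hβ : β ≤ α / 14) (hκ : κ ≤ α / 14)
    (h1 : |σ' * F - 1 / 2| ≤ β) (h2 : |g - y₀| ≤ κ) :
    |2 * σ' * (-1 - 2 * σ * y₀) * F + 2 * σ * g - (-1)| ≤ α ∧
      |2 * σ' * (2 + σ * y₀) * F - σ * g - 2| ≤ α := by
  have hα : 0 ≤ α := by have := abs_nonneg (g - y₀); linarith only [hκ, h2, this]
  have h3 : |F - σ' / 2| ≤ α / 14 := by
    have h4 : F - σ' / 2 = σ' * (σ' * F - 1 / 2) := by
      rw [mul_sub, ← mul_assoc, hσσ']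
      ring
    rw [h4, abs_mul, hσa', one_mul]
    linarith only [hβ, h1]
  have h3' := abs_nonneg (F - σ' / 2)
  constructor
  · rw [show 2 * σ' * (-1 - 2 * σ * y₀) * F + 2 * σ * g - (-1) =
      2 * σ' * (-1 - 2 * σ * y₀) * (F - σ' / 2) + 2 * σ * (g - y₀) +
      (σ' * σ' - 1) * (-1 - 2 * σ * y₀) by ring, hσσ', sub_self, zero_mul, add_zero]
    refine (abs_add_le _ _).trans ?_
    rw [abs_mul _ (F - σ' / 2), abs_mul _ (g - y₀), abs_mul 2 σ, hσa,
      abs_of_pos (by norm_num : (0 : ℝ) < 2)]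
    have : |2 * σ' * (-1 - 2 * σ * y₀)| * |F - σ' / 2| ≤ 6 * (α / 14) := by gcongr
    linarith only [hκ, h2, hα, this]
  · rw [show 2 * σ' * (2 + σ * y₀) * F - σ * g - 2 =
      2 * σ' * (2 + σ * y₀) * (F - σ' / 2) - σ * (g - y₀) +
      (σ' * σ' - 1) * (2 + σ * y₀) by ring, hσσ', sub_self, zero_mul, add_zero]
    refine (abs_sub _ _).trans ?_
    rw [abs_mul _ (F - σ' / 2), abs_mul _ (g - y₀), hσa, one_mul]
    have : |2 * σ' * (2 + σ * y₀)| * |F - σ' / 2| ≤ 6 * (α / 14) := by (clear * - ht h3; gcongr)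
    linarith only [hκ, h2, hα, this]

lemma coef_le {σ σ' y₀ : ℝ} (hσa : |σ| = 1) (hσa' : |σ'| = 1) (hy₀ : |y₀| ≤ 1) :
    |2 * σ' * (-1 - 2 * σ * y₀)| ≤ 6 ∧ |2 * σ' * (2 + σ * y₀)| ≤ 6 := by
  have hσy : |σ * y₀| ≤ 1 := by rw [abs_mul, hσa, one_mul]; exact hy₀
  obtain ⟨h3, h4⟩ := abs_le.1 hσy
  constructor
  · rw [abs_mul, abs_mul, hσa', abs_of_pos (by norm_num : (0 : ℝ) < 2)]
    have h2 : |-1 - 2 * σ * y₀| ≤ 3 := by
      rw [abs_le]
      constructor <;> linarith
    linarith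
  · rw [abs_mul, abs_mul, hσa', abs_of_pos (by norm_num : (0 : ℝ) < 2)]
    have h2 : |2 + σ * y₀| ≤ 3 := by
      rw [abs_le]
      constructor <;> linarith
    linarith

/-- The numbers of the domain. -/
lemma dom_le {σ s₁ t₁ F g : ℝ} (hσa : |σ| = 1) (hs : |s₁| ≤ 6) (ht : |t₁| ≤ 6) (hF : |F| ≤ 2)
    (hg : |g| ≤ 1) : |s₁ * F + 2 * σ * g| ≤ 15 ∧ |t₁ * F - σ * g| ≤ 15 := by
  constructor
  · refine (abs_add_le _ _).trans ?_
    rw [abs_mul, abs_mul, abs_mul, hσa, abs_of_pos (by norm_num : (0 : ℝ) < 2)]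
    have : |s₁| * |F| ≤ 6 * 2 := by (clear * - hs hF; gcongr)
    linarith
  · refine (abs_sub _ _).trans ?_
    rw [abs_mul, abs_mul, hσa]
    have : |t₁| * |F| ≤ 6 * 2 := by (clear * - ht hF; gcongr)
    linarith only [hg, this]

/-- The two moves for the forms `f, g`. -/
lemma two_moves_pre (A : Act G) {p : ℝ} (h0 : 0 < p) (h1 : p < 1) {η α : ℝ} {k N : ℕ} {C : ℝ}
    {n : ℕ} {m : ℕ} {β ε : ℝ} {f g : ℝ × ℝ} {i i' : Bool} {ξ y₀ b' b'' : ℝ} {R R' : ℕ}
    (hmα : 1 / (m : ℝ) ≤ α / 14) (hβα : β ≤ α / 14) (hβ : β ≤ 1 / 4)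
    (hξ : |ξ| ≤ 1) (hy₀ : |y₀| ≤ 1) (hkR : k ≤ R) (hkR' : k ≤ R') (hb : 1 - β ≤ b')
    (hb' : 1 / 2 - β ≤ b'')
    (hfb : ∀ v ∈ ballF G A.o k, |dot f (A.P v)| ≤ 1 / 8)
    (hgb : ∀ v ∈ ballF G A.o k, |dot g (A.P v)| ≤ 1 / 8)
    (hfε : 14 * nm f ≤ ε) (hgε : 14 * nm g ≤ ε)
    (hm1 : Pr p (reg G (Ls A f g 1 1 R) (Hk A (slab g b') C n)) (fun T =>
          (outJ G k A.o (Ls A f g 1 1 R) (Hk A (slab g b') C n)
            {v | |sg i * dot g (A.P v) - 1| ≤ β ∧ |dot f (A.P v) - ξ| ≤ 1 / m} T).card < N) ≤ η)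
    (hm2 : Pr p (reg G (Ls A g (f - (sg i * ξ) • g) 1 (1 / 2) R')
          (Hk A (slab (f - (sg i * ξ) • g) b'') C n)) (fun T =>
          (outJ G k A.o (Ls A g (f - (sg i * ξ) • g) 1 (1 / 2) R')
            (Hk A (slab (f - (sg i * ξ) • g) b'') C n)
            {v | |sg i' * dot (f - (sg i * ξ) • g) (A.P v) - 1 / 2| ≤ β ∧
              |dot g (A.P v) - y₀| ≤ 1 / m} T).card < N) ≤ η) :
    ∃ (s t : ℝ × ℝ) (r : ℕ), nm s ≤ ε ∧ nm t ≤ ε ∧
      Move A p η k N C n α s t (2, -1) r ∧ Move A p η k N C n α s t (-1, 2) r := by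
  have hf'b : ∀ v ∈ ballF G A.o k, |dot (f - (sg i * ξ) • g) (A.P v)| ≤ 1 / 4 := by
    intro v hv
    rw [show dot (f - (sg i * ξ) • g) (A.P v) = dot f (A.P v) - sg i * ξ * dot g (A.P v) by
      simp only [dot, Prod.fst_sub, Prod.snd_sub, Prod.smul_fst, Prod.smul_snd, smul_eq_mul]
      ring]
    refine (abs_sub _ _).trans ?_
    rw [abs_mul, abs_mul, abs_sg, one_mul]
    have h2 := hfb v hv
    have h3 := hgb v hv
    have : |ξ| * |dot g (A.P v)| ≤ 1 * (1 / 8) := by (clear * - hξ h3; gcongr)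
    linarith only [h2, this]
  have hnf' : 7 * nm (f - (sg i * ξ) • g) ≤ ε := by
    rw [sub_eq_add_neg]
    have h2 := nm_add_le f (-((sg i * ξ) • g))
    rw [nm_neg, nm_smul, abs_mul, abs_sg, one_mul] at h2
    have h3 := nm_nonneg g
    have : |ξ| * nm g ≤ 1 * nm g := by (clear * - hξ h3; gcongr)
    linarith only [hfε, hgε, h2, this]
  obtain ⟨hs₁, ht₁⟩ := coef_le (abs_sg i) (abs_sg i') hy₀
  have hds : ∀ v : V, dot ((2 * sg i' * (-1 - 2 * sg i * y₀)) • (f - (sg i * ξ) • g) +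
      (2 * sg i) • g) (A.P v) = 2 * sg i' * (-1 - 2 * sg i * y₀) *
        dot (f - (sg i * ξ) • g) (A.P v) + 2 * sg i * dot g (A.P v) := by
    intro v
    rw [dot_add_left, dot_smul_left, dot_smul_left]
  have hdt : ∀ v : V, dot ((2 * sg i' * (2 + sg i * y₀)) • (f - (sg i * ξ) • g) +
      (-sg i) • g) (A.P v) = 2 * sg i' * (2 + sg i * y₀) *
        dot (f - (sg i * ξ) • g) (A.P v) - sg i * dot g (A.P v) := by
    intro v
    rw [dot_add_left, dot_smul_left, dot_smul_left]
    ring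
  have hg0 := nm_nonneg g
  have hf'0 := nm_nonneg (f - (sg i * ξ) • g)
  have hdf : ∀ v : V, dot (f - (sg i * ξ) • g) (A.P v) =
      dot f (A.P v) - sg i * ξ * dot g (A.P v) := by
    intro v
    simp only [dot, Prod.fst_sub, Prod.snd_sub, Prod.smul_fst, Prod.smul_snd, smul_eq_mul]
    ring
  refine ⟨(2 * sg i' * (-1 - 2 * sg i * y₀)) • (f - (sg i * ξ) • g) + (2 * sg i) • g,
    (2 * sg i' * (2 + sg i * y₀)) • (f - (sg i * ξ) • g) + (-sg i) • g, max R R', ?_, ?_, ?_, ?_⟩
  · refine (nm_add_le _ _).trans ?_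
    rw [nm_smul, nm_smul, abs_mul 2 (sg i), abs_sg, abs_of_pos (by norm_num : (0 : ℝ) < 2)]
    have : |2 * sg i' * (-1 - 2 * sg i * y₀)| * nm (f - (sg i * ξ) • g) ≤
      6 * nm (f - (sg i * ξ) • g) := by (clear * - hs₁ hf'0; gcongr)
    linarith only [hgε, hnf', this]
  · refine (nm_add_le _ _).trans ?_
    rw [nm_smul, nm_smul, abs_neg, abs_sg]
    have : |2 * sg i' * (2 + sg i * y₀)| * nm (f - (sg i * ξ) • g) ≤
      6 * nm (f - (sg i * ξ) • g) := by (clear * - ht₁ hf'0; gcongr)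
    linarith only [hgε, hnf', hg0, this]
  · refine ⟨Ls A f g 1 1 R, slab g b', ?_, ?_, ?_, ?_, ?_⟩
    · intro v hv
      exact mem_Ls.2 ⟨ballF_mono G A.o hkR hv, (hfb v hv).trans (by norm_num),
        (hgb v hv).trans (by norm_num)⟩
    · intro v hv
      exact slab_ball A ((hgb v hv).trans (by linarith only [hβ, hb]))
    · intro v hv
      exact ballF_mono G A.o (le_max_left R R') (mem_Ls.1 hv).1
    · intro v hv
      obtain ⟨_, h2, h3⟩ := mem_Ls.1 hv
      rw [hds, hdt]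
      refine dom_le (abs_sg i) hs₁ ht₁ ?_ h3
      rw [hdf]
      refine (abs_sub _ _).trans ?_
      rw [abs_mul, abs_mul, abs_sg, one_mul]
      have : |ξ| * |dot g (A.P v)| ≤ 1 * 1 := by (clear * - hξ h3; gcongr)
      linarith only [h2, this]
    · refine (Pr_mono h0.le h1.le ?_).trans hm1
      intro T _ hT
      refine lt_of_le_of_lt (Finset.card_le_card ?_) hT
      intro v hv
      obtain ⟨hv1, hv2, hv3⟩ := mem_outJ_arc.1 hv
      refine mem_outJ_arc.2 ⟨hv1, ?_⟩
      have h4 := land1 hξ hs₁ ht₁ hβα hmα hv2 hv3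
      rw [← hdf, ← hds, ← hdt] at h4
      exact h4
  · refine ⟨Ls A g (f - (sg i * ξ) • g) 1 (1 / 2) R', slab (f - (sg i * ξ) • g) b'',
      ?_, ?_, ?_, ?_, ?_⟩
    · intro v hv
      exact mem_Ls.2 ⟨ballF_mono G A.o hkR' hv, (hgb v hv).trans (by norm_num),
        (hf'b v hv).trans (by norm_num)⟩
    · intro v hv
      exact slab_ball A ((hf'b v hv).trans (by linarith only [hβ, hb']))
    · intro v hv
      exact ballF_mono G A.o (le_max_right R R') (mem_Ls.1 hv).1
    · intro v hv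
      obtain ⟨_, h2, h3⟩ := mem_Ls.1 hv
      rw [hds, hdt]
      exact dom_le (abs_sg i) hs₁ ht₁ (h3.trans (by norm_num)) h2
    · refine (Pr_mono h0.le h1.le ?_).trans hm2
      intro T _ hT
      refine lt_of_le_of_lt (Finset.card_le_card ?_) hT
      intro v hv
      obtain ⟨hv1, hv2, hv3⟩ := mem_outJ_arc.1 hv
      refine mem_outJ_arc.2 ⟨hv1, ?_⟩
      have h4 := land2 (sg_mul_self i') (abs_sg i) (abs_sg i') hs₁ ht₁ hβα hmα hv2 hv3
      rw [← hds, ← hdt] at h4
      exact h4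

theorem two_moves (A : Act G) {p : ℝ} (h0 : 0 < p) (h1 : p < 1) (hP : Perc A p) :
    TwoMovesStmt A p := by
  intro η hη α hα
  -- constants
  obtain ⟨m, hm⟩ := exists_nat_gt (14 / α)
  have hm0 : (0 : ℝ) < m := lt_trans (by positivity) hm
  have hmpos : 0 < m := by exact_mod_cast hm0
  have hmα : 1 / (m : ℝ) ≤ α / 14 := by
    rw [div_le_div_iff₀ hm0 (by norm_num), one_mul]
    rw [div_lt_iff₀ hα] at hm
    linarith only [hm]
  obtain ⟨β, hβ0, hβα, hβ4⟩ : ∃ β : ℝ, 0 < β ∧ β ≤ α / 14 ∧ β ≤ 1 / 4 :=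
    ⟨min (α / 14) (1 / 4), lt_min (by positivity) (by norm_num), min_le_left _ _, min_le_right _ _⟩
  obtain ⟨η', hη'0, hη'1, hη'η⟩ : ∃ η' : ℝ, 0 < η' ∧ η' ≤ 1 / 2 ∧ η' ≤ η :=
    ⟨min η (1 / 2), lt_min hη (by norm_num), min_le_right _ _, min_le_left _ _⟩
  obtain ⟨δ, hδ0, hsum, hδ1⟩ : ∃ δ : ℝ, 0 < δ ∧ δ + δ ≤ η' ^ (2 * (2 * m + 1)) ∧ δ ≤ 1 / 2 := by
    have hpw : 0 < η' ^ (2 * (2 * m + 1)) := pow_pos hη'0 _
    have hpw1 : η' ^ (2 * (2 * m + 1)) ≤ 1 := pow_le_one₀ hη'0.le (by linarith only [hη'1])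
    exact ⟨η' ^ (2 * (2 * m + 1)) / 2, by positivity, by linarith only [], by linarith only [hpw1]⟩
  have hε₀0 : 0 < δ ^ 2 / 2 := by positivity
  have hsq : √(2 * (δ ^ 2 / 2)) = δ := by
    rw [show 2 * (δ ^ 2 / 2) = δ ^ 2 by ring, Real.sqrt_sq hδ0.le]
  have hε₀1 : δ ^ 2 / 2 ≤ 1 / 2 := by nlinarith only [hδ1, hδ0]
  obtain ⟨k, hk⟩ := exists_base A h0 h1 hP (δ ^ 2 / 2) hε₀0
  refine ⟨k, ?_⟩
  intro N C₁ C n hC₁ hPo ε hε
  obtain ⟨E, hE0, hE⟩ := move_gen A h0 h1 k (N + 1) (Nat.succ_pos N) C₁ C n hC₁ hPo m hmpos β δ η'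
    hβ0 hδ0 hη'0.le
  have hC₀ := A.C₀_pos
  have hk0 : (0 : ℝ) ≤ A.C₀ * k := by (clear * - hC₀; positivity)
  -- the scale
  obtain ⟨ρ, hρ0, hρE, hρε, hρk⟩ : ∃ ρ : ℝ, 0 < ρ ∧ ρ ≤ E / 2 ∧ ρ ≤ ε / 14 ∧
      A.C₀ * ρ * k ≤ 1 / 8 := by
    refine ⟨min (min (E / 2) (ε / 14)) (1 / (8 * (A.C₀ * k + 1))),
      lt_min (lt_min (by positivity) (by positivity)) (by (clear * - hC₀; positivity)),
      (min_le_left _ _).trans (min_le_left _ _), (min_le_left _ _).trans (min_le_right _ _), ?_⟩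
    have h2 := min_le_right (min (E / 2) (ε / 14)) (1 / (8 * (A.C₀ * k + 1)))
    have h3 : A.C₀ * k * min (min (E / 2) (ε / 14)) (1 / (8 * (A.C₀ * k + 1))) ≤
      A.C₀ * k * (1 / (8 * (A.C₀ * k + 1))) := by (clear * - h2 hC₀; gcongr)
    have h4 : A.C₀ * k * (1 / (8 * (A.C₀ * k + 1))) ≤ 1 / 8 := by
      rw [mul_one_div, div_le_div_iff₀ (by (clear * - hC₀; positivity)) (by norm_num)]
      linarith only []
    linarith only [h3, h4]
  obtain ⟨f, g, hf, hg, ⟨R, hR⟩, hx⟩ := extremal A h0 h1 hε₀0 hε₀1 hk ρ hρ0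
  rw [hsq] at hR hx
  have hfb : ∀ v ∈ ballF G A.o k, |dot f (A.P v)| ≤ 1 / 8 := fun v hv =>
    dot_ball_le A f hv (le_trans (by (clear * - hf hC₀; gcongr)) hρk)
  have hgb : ∀ v ∈ ballF G A.o k, |dot g (A.P v)| ≤ 1 / 8 := fun v hv =>
    dot_ball_le A g hv (le_trans (by (clear * - hg hC₀; gcongr)) hρk)
  -- first move
  obtain ⟨i, ξ, b', hξ, hb1, hb2, hkR, hmv⟩ := hE f g 1 R δ (by norm_num) (by linarith only [hρ0, hρE, hg])
    (fun v hv => ⟨(hfb v hv).trans (by norm_num), (hgb v hv).trans (by linarith only [hβ4])⟩) hR (by linarith only [hδ1])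
    hsum
  -- second move
  have hxb : |sg i * ξ| ≤ 1 := by rw [abs_mul, abs_sg, one_mul]; exact hξ
  obtain ⟨R', hR'⟩ := hx (sg i * ξ) hxb
  have hnf' : nm (f - (sg i * ξ) • g) ≤ E := by
    rw [sub_eq_add_neg]
    have h2 := nm_add_le f (-((sg i * ξ) • g))
    rw [nm_neg, nm_smul] at h2
    have h3 := nm_nonneg g
    have : |sg i * ξ| * nm g ≤ 1 * nm g := by (clear * - hxb h3; gcongr)
    linarith only [hρE, hf, hg, h2, this]
  have hf'b : ∀ v ∈ ballF G A.o k, |dot (f - (sg i * ξ) • g) (A.P v)| ≤ 1 / 4 := by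
    intro v hv
    rw [show dot (f - (sg i * ξ) • g) (A.P v) = dot f (A.P v) - sg i * ξ * dot g (A.P v) by
      simp only [dot, Prod.fst_sub, Prod.snd_sub, Prod.smul_fst, Prod.smul_snd, smul_eq_mul]
      ring]
    refine (abs_sub _ _).trans ?_
    rw [abs_mul]
    have h2 := hfb v hv
    have h3 := hgb v hv
    have : |sg i * ξ| * |dot g (A.P v)| ≤ 1 * (1 / 8) := by (clear * - hxb h3; gcongr)
    linarith only [h2, this]
  obtain ⟨i', y₀, b'', hy₀, hb1', hb2', hkR', hmv'⟩ := hE g (f - (sg i * ξ) • g) (1 / 2) R' δ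
    (by norm_num) hnf'
    (fun v hv => ⟨(hgb v hv).trans (by norm_num), (hf'b v hv).trans (by linarith only [hβ4])⟩) hR'
    (by linarith only [hδ1]) hsum
  obtain ⟨s, t, r, hs, ht, hm1, hm2⟩ := two_moves_pre A h0 h1 (η := η') (N := N + 1) (C := C)
    (n := n) (ε := ε) hmα hβα hβ4 hξ hy₀ hkR hkR' hb1 hb1' hfb hgb (by linarith only [hρε, hf]) (by linarith only [hρε, hg])
    hmv hmv'
  exact ⟨s, t, r, hs, ht, move_mono A h0 h1 hη'η (Nat.le_succ N) hm1,
    move_mono A h0 h1 hη'η (Nat.le_succ N) hm2⟩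

/-- Continuity in `p`. -/
theorem move_cont (A : Act G) {p η η' : ℝ} (hη : η < η') {k N : ℕ} {C : ℝ} {n : ℕ} {α : ℝ}
    {s t μ : ℝ × ℝ} {r : ℕ} (h : Move A p η k N C n α s t μ r) :
    ∃ δ : ℝ, 0 < δ ∧ ∀ p' : ℝ, |p' - p| < δ → Move A p' η' k N C n α s t μ r := by
  obtain ⟨D, K, h1, h2, h3, h4, h5⟩ := h
  have hc : Continuous (fun q : ℝ => Pr q (reg G D (Hk A K C n))
      (fun T => (outJ G k A.o D (Hk A K C n) (LA A s t μ α) T).card < N)) :=
    GM.continuous_Ex _ _
  have hev := hc.continuousAt.eventually (gt_mem_nhds (lt_of_le_of_lt h5 hη))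
  obtain ⟨δ, hδ, hball⟩ := Metric.eventually_nhds_iff.1 hev
  exact ⟨δ, hδ, fun p' hp' => ⟨D, K, h1, h2, h3, h4,
    (hball (by simpa [Real.dist_eq] using hp')).le⟩⟩

end Vale.Agent.P151.Pl
end
end

section

open MeasureTheory ProbabilityTheory SimpleGraph Measure unitInterval
open scoped ENNReal

namespace Vale.Agent.P151

universe u
variable {V : Type u} {ι : Type*}

end Vale.Agent.P151
end

section

/-!
# Existence of the structure `Act`
-/

set_option autoImplicit false
set_option linter.unusedSectionVars false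

noncomputable section

namespace Vale.Agent.P151.Pl

open Vale.Agent.P151 Vale.Agent.P151.Red

variable {V : Type} [DecidableEq V] {G : SimpleGraph V} [G.LocallyFinite]

omit [DecidableEq V] [G.LocallyFinite] in
theorem ea_dist_le (hG : G.Connected) (φ : G ≃g G) (u v : V) : G.dist (φ u) (φ v) ≤ G.dist u v := by
  obtain ⟨w, hw⟩ := hG.exists_walk_length_eq_dist u v
  have h1 := SimpleGraph.dist_le (w.map φ.toHom)
  rw [SimpleGraph.Walk.length_map, hw] at h1
  exact h1

/-- The linear map with `(a, b) ↦ (1, 0)`, `(c, d) ↦ (0, 1)`. -/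
def eaM (a b c d : ℝ) (v : ℝ × ℝ) : ℝ × ℝ :=
  ((d * v.1 - c * v.2) / (a * d - b * c), (a * v.2 - b * v.1) / (a * d - b * c))

theorem eaM_add (a b c d : ℝ) (u v : ℝ × ℝ) : eaM a b c d (u + v) = eaM a b c d u + eaM a b c d v := by
  unfold eaM
  ext
  · simp only [Prod.fst_add, Prod.snd_add]
    ring
  · simp only [Prod.fst_add, Prod.snd_add]
    ring

theorem eaM_zero (a b c d : ℝ) : eaM a b c d 0 = 0 := by
  unfold eaM
  ext <;> simp

theorem eaM_fst (a b c d : ℝ) (h : a * d - b * c ≠ 0) : eaM a b c d (a, b) = (1, 0) := by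
  unfold eaM
  ext
  · show (d * a - c * b) / (a * d - b * c) = 1
    rw [div_eq_one_iff_eq h]
    ring
  · show (a * b - b * a) / (a * d - b * c) = 0
    rw [mul_comm a b, sub_self, zero_div]

theorem eaM_snd (a b c d : ℝ) (h : a * d - b * c ≠ 0) : eaM a b c d (c, d) = (0, 1) := by
  unfold eaM
  ext
  · show (d * c - c * d) / (a * d - b * c) = 0
    rw [mul_comm d c, sub_self, zero_div]
  · show (a * d - b * c) / (a * d - b * c) = 1
    exact div_self h

theorem exists_act (hG : G.Connected) (Γ : Subgroup (G ≃g G)) (S : Finset V)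
    (hS : ∀ x : V, ∃ y ∈ S, ∃ φ ∈ Γ, φ y = x) (P : V → ℝ × ℝ)
    (hP : ∀ φ ∈ Γ, ∃ w : ℝ × ℝ, ∀ v : V, P (φ v) = P v + w)
    (hr : ∃ φ ∈ Γ, ∃ ψ ∈ Γ, ∃ v : V, (P (φ v) - P v).1 * (P (ψ v) - P v).2 -
      (P (φ v) - P v).2 * (P (ψ v) - P v).1 ≠ 0) (o : V) :
    ∃ A : Act G, A.o = o := by
  classical
  obtain ⟨φ₁, hφ₁, φ₂, hφ₂, v₀, hdet⟩ := hr
  have hPo : ∀ φ ∈ Γ, ∀ v : V, P (φ v) = P v + (P (φ o) - P o) := by
    intro φ hφ v
    obtain ⟨w, hw⟩ := hP φ hφ
    rw [hw v, hw o]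
    congr 1
    abel
  have e1 : P (φ₁ v₀) - P v₀ = P (φ₁ o) - P o := by
    rw [hPo φ₁ hφ₁ v₀, add_sub_cancel_left]
  have e2 : P (φ₂ v₀) - P v₀ = P (φ₂ o) - P o := by
    rw [hPo φ₂ hφ₂ v₀, add_sub_cancel_left]
  rw [e1, e2] at hdet
  set T : ℝ × ℝ → ℝ × ℝ := eaM (P (φ₁ o) - P o).1 (P (φ₁ o) - P o).2 (P (φ₂ o) - P o).1
    (P (φ₂ o) - P o).2 with hT
  have hTadd : ∀ u v, T (u + v) = T u + T v := eaM_add _ _ _ _
  have hT0 : T 0 = 0 := eaM_zero _ _ _ _
  have hT1 : T (P (φ₁ o) - P o) = (1, 0) := eaM_fst _ _ _ _ hdet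
  have hT2 : T (P (φ₂ o) - P o) = (0, 1) := eaM_snd _ _ _ _ hdet
  set P' : V → ℝ × ℝ := fun v => T (P v - P o) with hP'
  have hequi : ∀ φ ∈ Γ, ∀ v, P' (φ v) = P' v + T (P (φ o) - P o) := by
    intro φ hφ v
    simp only [hP']
    rw [← hTadd, hPo φ hφ v]
    congr 1
    abel
  -- the Lipschitz constant
  set C₀ : ℝ := 1 + ∑ y ∈ S, ∑ z ∈ G.neighborFinset y,
    (|(P' y).1 - (P' z).1| + |(P' y).2 - (P' z).2|) with hC₀
  have hlip0 : ∀ y ∈ S, ∀ z, G.Adj y z →
      |(P' y).1 - (P' z).1| + |(P' y).2 - (P' z).2| ≤ C₀ := by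
    intro y hy z hz
    have h1 : |(P' y).1 - (P' z).1| + |(P' y).2 - (P' z).2| ≤ ∑ z ∈ G.neighborFinset y,
        (|(P' y).1 - (P' z).1| + |(P' y).2 - (P' z).2|) :=
      Finset.single_le_sum (f := fun z => |(P' y).1 - (P' z).1| + |(P' y).2 - (P' z).2|)
        (fun z _ => by (clear * -; positivity)) ((G.mem_neighborFinset y z).2 hz)
    have h2 : ∑ z ∈ G.neighborFinset y, (|(P' y).1 - (P' z).1| + |(P' y).2 - (P' z).2|) ≤
        ∑ y ∈ S, ∑ z ∈ G.neighborFinset y, (|(P' y).1 - (P' z).1| + |(P' y).2 - (P' z).2|) :=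
      Finset.single_le_sum (f := fun y => ∑ z ∈ G.neighborFinset y,
        (|(P' y).1 - (P' z).1| + |(P' y).2 - (P' z).2|))
        (fun y _ => Finset.sum_nonneg fun z _ => by (clear * -; positivity)) hy
    linarith
  have hlip : ∀ u v, G.Adj u v → |(P' u).1 - (P' v).1| ≤ C₀ ∧ |(P' u).2 - (P' v).2| ≤ C₀ := by
    intro u v huv
    obtain ⟨y, hy, φ, hφ, rfl⟩ := hS u
    obtain ⟨z, rfl⟩ := φ.surjective v
    have hyz : G.Adj y z := φ.map_adj_iff.1 huv
    have h1 := hlip0 y hy z hyz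
    have h2 : P' (φ y) = P' y + T (P (φ o) - P o) := hequi φ hφ y
    have h3 : P' (φ z) = P' z + T (P (φ o) - P o) := hequi φ hφ z
    rw [h2, h3]
    have a1 := abs_nonneg ((P' y).1 - (P' z).1)
    have a2 := abs_nonneg ((P' y).2 - (P' z).2)
    constructor
    · rw [Prod.fst_add, Prod.fst_add, add_sub_add_right_eq_sub]
      linarith
    · rw [Prod.snd_add, Prod.snd_add, add_sub_add_right_eq_sub]
      linarith
  have hC₀pos : 0 < C₀ := by
    have : 0 ≤ ∑ y ∈ S, ∑ z ∈ G.neighborFinset y,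
      (|(P' y).1 - (P' z).1| + |(P' y).2 - (P' z).2|) :=
      Finset.sum_nonneg fun y _ => Finset.sum_nonneg fun z _ => by (clear * -; positivity)
    linarith
  refine ⟨{
    conn := hG
    Γ := Γ
    P := P'
    τ := fun φ => T (P (φ o) - P o)
    equi := hequi
    o := o
    P_o := by
      show T (P o - P o) = 0
      rw [sub_self, hT0]
    D₀ := S.sup fun y => G.dist y o
    dense := ?_
    C₀ := C₀
    C₀_pos := hC₀pos
    lip := hlip
    Δ := S.sup fun y => G.degree y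
    deg := ?_
    a₁ := φ₁
    a₁_mem := hφ₁
    τ_a₁ := hT1
    a₂ := φ₂
    a₂_mem := hφ₂
    τ_a₂ := hT2 }, rfl⟩
  · intro v
    obtain ⟨y, hy, φ, hφ, rfl⟩ := hS v
    refine ⟨φ, hφ, (ea_dist_le hG φ y o).trans ?_⟩
    exact Finset.le_sup (f := fun y => G.dist y o) hy
  · intro v
    obtain ⟨y, hy, φ, hφ, rfl⟩ := hS v
    have h1 : G.degree (φ y) = G.degree y := φ.degree_eq y
    rw [h1]
    exact Finset.le_sup (f := fun y => G.degree y) hy

end Vale.Agent.P151.Pl
end
end

section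

/-!
# Link between `Perc` and the infinite product measure; existence of `Act`

`perc_of_pos`: `c = P(InfC o) > 0`; almost surely `ω ⊆ G.edgeSet` and on `InfC o` the cluster of `o` in
`ω ∩ edgesIn G (ballF G o R)` contains a vertex at distance `R` (otherwise it is contained in the
ball of radius `R - 1` and closed for `ω`, so the cluster is finite); `setBer_inter_pred`.  Compare
`GM.le_cc` in `Red/LinkZd.lean`.

`pos_of_perc`: a vertex at distance `n` in the cluster of `o` in `T ⊆ edgesIn G (ballF G o n)` gives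
`n + 1 ≤ csz T o` (`dist_lt_csz`), so `c ≤ phiB G n o p` for all `n`; `tendsto_phiB`.

`exists_act`: `S` = representatives of the orbits; `D₀ = ` max of `dist y o`, `y ∈ S`; `Δ` = max of the
degrees of `y ∈ S`; `C₀` = 1 + max over `y ∈ S` and its neighbours; coordinates: `P' v = M (P v - P o)`
with the matrix `M` which maps `τ φ₁, τ φ₂` to `(1, 0), (0, 1)`.
-/

open MeasureTheory ProbabilityTheory SimpleGraph Filter Topology unitInterval

set_option autoImplicit false
set_option linter.unusedSectionVars false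

noncomputable section

namespace Vale.Agent.P151.Pl

open Vale.Agent.P151 Vale.Agent.P151.Red

variable {V : Type} [DecidableEq V] {G : SimpleGraph V} [G.LocallyFinite]

/-- An infinite cluster reaches every distance inside the ball. -/
theorem pl_infC_out (hG : G.Connected) (o : V) (R : ℕ) {ω : Set (Sym2 V)} (hω : ω ⊆ G.edgeSet)
    (h : ω ∈ InfC o) :
    ∃ v ∈ cluster (ω ∩ (edgesIn G (ballF G o R) : Set (Sym2 V))) o, G.dist v o = R := by
  by_contra hcon
  push Not at hcon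
  have hR : R ≠ 0 := by
    rintro rfl
    exact hcon o (SimpleGraph.Reachable.refl _) (SimpleGraph.dist_self)
  have hsub : cluster ω o ⊆
      {u | u ∈ cluster (ω ∩ (edgesIn G (ballF G o R) : Set (Sym2 V))) o ∧ G.dist u o < R} := by
    apply cluster_closed
    · exact ⟨SimpleGraph.Reachable.refl _, by rw [SimpleGraph.dist_self]; omega⟩
    · rintro u ⟨hu, hud⟩ v huv
      have hadj : G.Adj u v := by simpa using hω huv
      have hvd : G.dist v o ≤ R := by
        have h1 := hG.dist_triangle (u := v) (v := u) (w := o)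
        have h2 : G.dist v u = 1 := SimpleGraph.dist_eq_one_iff_adj.2 hadj.symm
        omega
      have hu' : u ∈ ballF G o R := mem_ballF_of_dist_le G hG o u R hud.le
      have hv' : v ∈ ballF G o R := mem_ballF_of_dist_le G hG o v R hvd
      have hv : v ∈ cluster (ω ∩ (edgesIn G (ballF G o R) : Set (Sym2 V))) o := by
        refine SimpleGraph.Reachable.trans hu (SimpleGraph.Adj.reachable ?_)
        rw [SimpleGraph.fromEdgeSet_adj]
        exact ⟨⟨huv, Finset.mem_coe.2 (mk_mem_edgesIn.2 ⟨hadj, hu', hv'⟩)⟩, hadj.ne⟩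
      exact ⟨hv, lt_of_le_of_ne hvd (hcon v hv)⟩
  have hfin : (cluster ω o).Finite := by
    refine (ballF G o R).finite_toSet.subset (fun v hv => ?_)
    exact mem_ballF_of_dist_le G hG o v R (hsub hv).2.le
  exact h hfin

theorem perc_of_pos (A : Act G) (p : I)
    (h : 0 < setBernoulli G.edgeSet p (InfC A.o)) : Perc A p := by
  classical
  have : Countable V := countable_of_connected G A.conn
  have : Countable (Sym2 V) := by
    unfold Sym2; infer_instance
  refine ⟨(setBernoulli G.edgeSet p).real (InfC A.o), ?_, fun R => ?_⟩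
  · rw [measureReal_def]
    exact ENNReal.toReal_pos h.ne' (measure_ne_top _ _)
  · have h1 : (setBernoulli G.edgeSet p).real (InfC A.o) ≤
        (setBernoulli G.edgeSet p).real
          {ω | ∃ v ∈ cluster (ω ∩ (edgesIn G (ballF G A.o R) : Set (Sym2 V))) A.o,
            G.dist v A.o = R} := by
      rw [measureReal_def, measureReal_def]
      apply ENNReal.toReal_mono (measure_ne_top _ _)
      apply measure_mono_ae
      filter_upwards [setBernoulli_ae_subset (u := G.edgeSet) (p := p)] with ω hω h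
      exact pl_infC_out A.conn A.o R hω h
    refine h1.trans (le_of_eq ?_)
    rw [setBer_inter_pred G.edgeSet p (edgesIn G (ballF G A.o R))
      (fun e he => (mem_edgesIn.1 (Finset.mem_coe.1 he)).1)
      (fun s => ∃ v ∈ cluster s A.o, G.dist v A.o = R)]
    unfold Pr Ex
    rw [Finset.sum_filter]
    apply Finset.sum_congr rfl
    intro S _
    unfold ind
    beta_reduce
    by_cases h : ∃ v ∈ cluster (S : Set (Sym2 V)) A.o, G.dist v A.o = R
    · rw [if_pos h, if_pos h, mul_one]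
    · rw [if_neg h, if_neg h, mul_zero]

theorem pos_of_perc (A : Act G) (p : I) (h : Perc A p) :
    0 < setBernoulli G.edgeSet p (hasInfiniteCluster V) := by
  obtain ⟨c, hc, hR⟩ := h
  have h1 : ∀ n : ℕ, c ≤ phiB G n A.o p := by
    intro n
    refine (hR n).trans ?_
    unfold phiB Pr
    refine Ex_mono p.2.1 p.2.2 ?_
    intro S hS
    unfold ind big
    by_cases h : ∃ v ∈ cluster (S : Set (Sym2 V)) A.o, G.dist v A.o = n
    · rw [if_pos h]
      obtain ⟨v, hv, hvd⟩ := h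
      have h2 : Cn S A.o v := hv
      have h3 := dist_lt_csz (G := G) (fun e he =>
        (mem_edgesIn.1 (hS he)).1) h2
      rw [SimpleGraph.dist_comm, hvd] at h3
      rw [if_pos h3.le]
    · rw [if_neg h]
      split_ifs <;> norm_num
  have h2 := ge_of_tendsto' (tendsto_phiB G A.conn p A.o) h1
  have h3 : 0 < setBernoulli G.edgeSet p (InfC A.o) := by
    rw [pos_iff_ne_zero]
    intro h0
    rw [measureReal_def, h0] at h2
    simp at h2
    linarith
  exact h3.trans_le (measure_mono (infC_subset A.o))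

/-- From the main finite volume theorem to `p_c`. -/
theorem pc_of_main (hG : G.Connected) (Γ : Subgroup (G ≃g G)) (S : Finset V)
    (hS : ∀ x : V, ∃ y ∈ S, ∃ φ ∈ Γ, φ y = x) (P : V → ℝ × ℝ)
    (hP : ∀ φ ∈ Γ, ∃ w : ℝ × ℝ, ∀ v : V, P (φ v) = P v + w)
    (hr : ∃ φ ∈ Γ, ∃ ψ ∈ Γ, ∃ v : V, (P (φ v) - P v).1 * (P (ψ v) - P v).2 -
      (P (φ v) - P v).2 * (P (ψ v) - P v).1 ≠ 0)
    (hM : ∀ A : Act G, MainStmt A) (p : I) (hp : (p : ℝ) = pc G) (hp1 : pc G < 1) :
    setBernoulli G.edgeSet p (hasInfiniteCluster V) = 0 := by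
  by_contra hne
  have hpos : 0 < setBernoulli G.edgeSet p (hasInfiniteCluster V) := pos_iff_ne_zero.2 hne
  haveI : Countable V := countable_of_connected G hG
  have hx : ∃ x : V, 0 < setBernoulli G.edgeSet p (InfC x) := by
    by_contra hcon
    push Not at hcon
    apply hne
    rw [hasInfiniteCluster_eq, measure_iUnion_null_iff]
    intro x
    exact le_antisymm (hcon x) bot_le
  obtain ⟨x, hx⟩ := hx
  obtain ⟨A, hA⟩ := exists_act hG Γ S hS P hP hr x
  have hp0 : 0 < (p : ℝ) := by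
    rcases lt_or_eq_of_le p.2.1 with h | h
    · exact h
    · exact absurd (no_infinite_zero G hG p h.symm) hne
  have hperc : Perc A p := perc_of_pos A p (by rw [hA]; exact hx)
  obtain ⟨p', h0, h1, h2⟩ := hM A p hp0 (by rw [hp]; exact hp1) hperc
  have h3 := pos_of_perc A ⟨p', h0.le, (h1.trans_le p.2.2).le⟩ h2
  have h4 : pc G ≤ p' := csInf_le ⟨0, fun _ hq => hq.1.1⟩ ⟨⟨h0.le, (h1.trans_le p.2.2).le⟩, h3⟩
  rw [← hp] at h4
  exact absurd h1 (not_lt.2 h4)

end Vale.Agent.P151.Pl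
end
end

section

/-!
# Assembly of the main finite volume theorem
-/

set_option autoImplicit false
set_option linter.unusedSectionVars false

noncomputable section

namespace Vale.Agent.P151.Pl

open Vale.Agent.P151 Vale.Agent.P151.Red

variable {V : Type} [DecidableEq V] {G : SimpleGraph V} [G.LocallyFinite]

theorem main_stmt (A : Act G) (hC : ∀ q Q : ℝ, 0 < q → q ≤ Q → Q < 1 → ChainStmt A q Q)
    (hO : ∀ Q : ℝ, 0 < Q → Q < 1 → OffsetStmt A Q)
    (hF : ∀ q Q : ℝ, 0 < q → q ≤ Q → Q < 1 → FscStmt A q Q) : MainStmt A := by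
  intro p hp0 hp1 hP
  have hq0 : 0 < p / 2 := by linarith
  have hqQ : p / 2 ≤ p := by linarith only [hp0]
  obtain ⟨η₁, hη₁, hF⟩ := hF (p / 2) p hq0 hqQ hp1
  obtain ⟨η, hη, α, hα, hC⟩ := hC (p / 2) p hq0 hqQ hp1 (min η₁ (1 / 2))
    (lt_min hη₁ (by norm_num))
  obtain ⟨k, hT⟩ := two_moves A hp0 hp1 hP (η / 2) (by linarith only [hη]) α hα
  obtain ⟨N₀, C₁', C', n', B, hC₁', hP', εF, hεF, hF⟩ := hF k
  obtain ⟨N, C₁, C, n, hC₁, hPo, εC, hεC, hC⟩ := hC k
  obtain ⟨εO, hεO, hO⟩ := hO p hp0 hp1 (min η₁ (1 / 2)) (lt_min hη₁ (by norm_num)) k N₀ C₁' C' n'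
    hC₁' hP' B
  obtain ⟨s, t, r, hs, ht, hm1, hm2⟩ := hT N C₁ C n hC₁ hPo (min εF (min εC εO))
    (lt_min hεF (lt_min hεC hεO))
  obtain ⟨r', hC⟩ := hC s t r (hs.trans ((min_le_right _ _).trans (min_le_left _ _)))
    (ht.trans ((min_le_right _ _).trans (min_le_left _ _)))
  obtain ⟨δ1, hδ1, hm1⟩ := move_cont A (show η / 2 < η by linarith only [hη]) hm1
  obtain ⟨δ2, hδ2, hm2⟩ := move_cont A (show η / 2 < η by linarith only [hη]) hm2
  set δ := min (p / 2) (min δ1 δ2) with hδ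
  have hδ0 : 0 < δ := lt_min hq0 (lt_min hδ1 hδ2)
  have hδp : δ ≤ p / 2 := min_le_left _ _
  have h1 : δ ≤ δ1 := (min_le_right _ _).trans (min_le_left _ _)
  have h2 : δ ≤ δ2 := (min_le_right _ _).trans (min_le_right _ _)
  have habs : |p - δ / 2 - p| = δ / 2 := by
    rw [show p - δ / 2 - p = -(δ / 2) by ring, abs_neg, abs_of_pos (by linarith only [hδ0])]
  have hm1 := hm1 (p - δ / 2) (by rw [habs]; linarith only [hδ1, h1])
  have hm2 := hm2 (p - δ / 2) (by rw [habs]; linarith only [hδ2, h2])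
  have hq' : p / 2 ≤ p - δ / 2 := by linarith only [hδ0, hδp]
  have hQ' : p - δ / 2 ≤ p := by linarith only [hδ0]
  have hreach := hC (p - δ / 2) hq' hQ' hm1 hm2
  refine ⟨p - δ / 2, by linarith only [hδ0, hδp], by linarith only [hδ0], ?_⟩
  obtain ⟨j₀, hj1, hj2, hj⟩ := hO s t r' (hs.trans ((min_le_right _ _).trans (min_le_right _ _)))
    (ht.trans ((min_le_right _ _).trans (min_le_right _ _))) (p - δ / 2) (by linarith only [hδ0, hδp]) hQ' hreach
  have hst : s + t ≠ 0 := by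
    intro hst
    have h3 := hreach 0 (by norm_num) s (Or.inl rfl)
    have h4 : Pr (p - δ / 2) (edgesIn G (Cor A (s + t) s 0 r')) (fun T =>
          ¬ ∃ v ∈ seedCl G k A.o T, v ∈ Cor A (s + t) s 0 r' ∧ 183 ≤ dot (s + t) (A.P v)) = 1 := by
      rw [Pr_not]
      have h5 : Pr (p - δ / 2) (edgesIn G (Cor A (s + t) s 0 r')) (fun T =>
          ∃ v ∈ seedCl G k A.o T, v ∈ Cor A (s + t) s 0 r' ∧ 183 ≤ dot (s + t) (A.P v)) = 0 := by
        rw [← Pr_false' (p - δ / 2) (edgesIn G (Cor A (s + t) s 0 r'))]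
        apply Pr_congr
        intro T _
        constructor
        · rintro ⟨v, _, _, h⟩
          rw [hst] at h
          simp only [dot, Prod.fst_zero, Prod.snd_zero, zero_mul, add_zero] at h
          norm_num at h
        · exact fun h => h.elim
      rw [h5]
      norm_num
    rw [h4] at h3
    have h6 := h3.trans (min_le_right _ _)
    norm_num at h6
  refine hF s t r' (hs.trans (min_le_left _ _)) (ht.trans (min_le_left _ _)) hst (p - δ / 2) hq' hQ'
    j₀ hj1 hj2 ?_
  intro z hz u hu e he heB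
  have h7 := hj z hz u hu e he heB
  unfold GoodOff at h7 ⊢
  refine h7.trans ?_
  have := min_le_left η₁ (1 / 2 : ℝ)
  linarith only [this]

end Vale.Agent.P151.Pl
end
end
end

section

section

/-!
# Walks, balls and independent trials (utilities for cluster B)
-/

set_option autoImplicit false
set_option linter.unusedSectionVars false

noncomputable section

namespace Vale.Agent.P151.Pl.ClB

open Vale.Agent.P151 Vale.Agent.P151.Red

section walks

variable {V : Type} [DecidableEq V] {G : SimpleGraph V} [G.LocallyFinite]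

/-- Vertices of a walk are in the ball around its first vertex. -/
theorem support_ball {z u : V} (w : G.Walk z u) {n : ℕ} (hn : w.length ≤ n) :
    ∀ a ∈ w.support, a ∈ ballF G z n := by
  intro a ha
  refine mem_ballF_of_walk G z n a (w.takeUntil a ha).reverse ?_
  rw [SimpleGraph.Walk.length_reverse]
  exact (w.length_takeUntil_le_length ha).trans hn

/-- If all the edges of a walk are open its last vertex is in the cluster of the first one. -/
theorem walk_cluster {z u : V} (w : G.Walk z u) {ω : Set (Sym2 V)} (h : ∀ e ∈ w.edges, e ∈ ω) :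
    u ∈ cluster ω z := by
  induction w with
  | nil => exact mem_cluster_self ω _
  | cons hadj q ih =>
    refine mem_cluster_trans (mem_cluster_of_edge (h _ ?_)) (ih fun e he => h e ?_)
    · simp
    · simp [he]

theorem ball_symm {a z : V} {i : ℕ} (h : a ∈ ballF G z i) : z ∈ ballF G a i := by
  obtain ⟨w, hw⟩ := dist_le_of_mem_ballF G z i a h
  exact mem_ballF_of_walk G a i z w.reverse (by rw [SimpleGraph.Walk.length_reverse]; exact hw)

theorem ball_trans {a b c : V} {i j : ℕ} (h : a ∈ ballF G b i) (h' : b ∈ ballF G c j) :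
    a ∈ ballF G c (i + j) := by
  obtain ⟨w, hw⟩ := dist_le_of_mem_ballF G b i a h
  obtain ⟨w', hw'⟩ := dist_le_of_mem_ballF G c j b h'
  exact mem_ballF_of_walk G c (i + j) a (w.append w')
    (by rw [SimpleGraph.Walk.length_append]; omega)

/-- A vertex of a ball is joined to its centre inside the ball. -/
theorem ball_walk {y v : V} {k : ℕ} (h : v ∈ ballF G y k) :
    ∃ w : G.Walk y v, w.length ≤ k ∧ (∀ a ∈ w.support, a ∈ ballF G y k) ∧
      ∀ e ∈ w.edges, e ∈ Ek G k y := by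
  obtain ⟨w, hw⟩ := dist_le_of_mem_ballF G y k v h
  have h1 : ∀ a ∈ w.reverse.support, a ∈ ballF G y k :=
    support_ball w.reverse (by rw [SimpleGraph.Walk.length_reverse]; exact hw)
  refine ⟨w.reverse, by rw [SimpleGraph.Walk.length_reverse]; exact hw, h1, ?_⟩
  intro e he
  unfold Ek
  rw [mem_edgesIn]
  refine ⟨w.reverse.edges_subset_edgeSet he, fun a ha => h1 a ?_⟩
  exact SimpleGraph.Walk.mem_support_of_mem_edges he ha

theorem ball_cluster {y v : V} {k : ℕ} (h : v ∈ ballF G y k) :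
    v ∈ cluster (↑(Ek G k y) : Set (Sym2 V)) y := by
  obtain ⟨w, _, _, hw⟩ := ball_walk h
  exact walk_cluster w fun e he => by exact_mod_cast hw e he

/-- Truncate a walk at the first vertex of `U`. -/
theorem trunc {z v : V} (w : G.Walk z v) (U : Set V) (hv : v ∈ U) :
    ∃ (u : V) (w' : G.Walk z u), u ∈ U ∧ w'.length ≤ w.length ∧
      (∀ e ∈ w'.edges, e ∈ w.edges) ∧ (∀ a ∈ w'.support, a ∈ w.support) ∧
      ∀ e ∈ w'.edges, ∃ a ∈ e, a ∉ U := by
  induction w with
  | nil => exact ⟨_, SimpleGraph.Walk.nil, hv, by simp, by simp, by simp, by simp only [SimpleGraph.Walk.edges_nil, List.not_mem_nil, IsEmpty.forall_iff, implies_true]⟩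
  | cons hadj q ih =>
    rename_i a b c
    by_cases ha : a ∈ U
    · exact ⟨a, SimpleGraph.Walk.nil, ha, by simp only [SimpleGraph.Walk.length_nil, SimpleGraph.Walk.length_cons, le_add_iff_nonneg_left, zero_le], by simp, by simp, by simp only [SimpleGraph.Walk.edges_nil, List.not_mem_nil, IsEmpty.forall_iff, implies_true]⟩
    · obtain ⟨u, w', hu, hlen, hed, hsup, hU⟩ := ih hv
      refine ⟨u, SimpleGraph.Walk.cons hadj w', hu, ?_, ?_, ?_, ?_⟩
      · simp only [SimpleGraph.Walk.length_cons]; omega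
      · intro e he
        rw [SimpleGraph.Walk.edges_cons, List.mem_cons] at he ⊢
        rcases he with he | he
        · exact Or.inl he
        · exact Or.inr (hed e he)
      · intro x hx
        rw [SimpleGraph.Walk.support_cons, List.mem_cons] at hx ⊢
        rcases hx with hx | hx
        · exact Or.inl hx
        · exact Or.inr (hsup x hx)
      · intro e he
        rw [SimpleGraph.Walk.edges_cons, List.mem_cons] at he
        rcases he with he | he
        · subst he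
          exact ⟨a, by simp, ha⟩
        · exact hU e he

/-- Size of the balls. -/
theorem card_ball_le {Δ : ℕ} (hΔ : ∀ v, G.degree v ≤ Δ) (x : V) (n : ℕ) :
    (ballF G x n).card ≤ (Δ + 1) ^ n := by
  induction n with
  | zero => rw [ballF_zero]; simp
  | succ n ih =>
    have h : ballF G x (n + 1) ⊆ ballF G x n ∪ (ballF G x n).biUnion (fun y => G.neighborFinset y) := by
      intro y hy
      rw [mem_ballF_succ] at hy
      rw [Finset.mem_union, Finset.mem_biUnion]
      rcases hy with hy | ⟨z, hz, hzy⟩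
      · exact Or.inl hy
      · exact Or.inr ⟨z, hz, by rw [SimpleGraph.mem_neighborFinset]; exact hzy⟩
    calc (ballF G x (n + 1)).card
        ≤ (ballF G x n ∪ (ballF G x n).biUnion (fun y => G.neighborFinset y)).card :=
          Finset.card_le_card h
      _ ≤ (ballF G x n).card + ((ballF G x n).biUnion (fun y => G.neighborFinset y)).card :=
          Finset.card_union_le _ _
      _ ≤ (ballF G x n).card + (ballF G x n).card * Δ := by
          gcongr
          exact Finset.card_biUnion_le_card_mul _ _ _ fun y _ => by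
            rw [SimpleGraph.card_neighborFinset_eq_degree]; exact hΔ y
      _ = (ballF G x n).card * (Δ + 1) := by ring
      _ ≤ (Δ + 1) ^ (n + 1) := by rw [pow_succ]; exact Nat.mul_le_mul_right _ ih

/-- Choice of many pairwise distant vertices. -/
theorem exists_far_subset {Δ : ℕ} (hΔ : ∀ v, G.degree v ≤ Δ) (R N' : ℕ) (Z : Finset V)
    (hZ : N' * (Δ + 1) ^ R ≤ Z.card) :
    ∃ Z' ⊆ Z, N' ≤ Z'.card ∧ ∀ a ∈ Z', ∀ b ∈ Z', a ≠ b → b ∉ ballF G a R := by
  classical
  set P : Finset (Finset V) := Z.powerset.filter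
    (fun S => ∀ a ∈ S, ∀ b ∈ S, a ≠ b → b ∉ ballF G a R) with hP
  have hPne : P.Nonempty := ⟨∅, by rw [hP, Finset.mem_filter]; simp⟩
  obtain ⟨S, hS, hmax⟩ := Finset.exists_max_image P (fun S => S.card) hPne
  rw [hP, Finset.mem_filter, Finset.mem_powerset] at hS
  refine ⟨S, hS.1, ?_, hS.2⟩
  have hcov : Z ⊆ S.biUnion (fun s => ballF G s R) := by
    intro z hz
    rw [Finset.mem_biUnion]
    by_contra hcon
    push Not at hcon
    have hzS : z ∉ S := fun h => hcon z h (mem_ballF_self G z R)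
    have h1 : insert z S ∈ P := by
      rw [hP, Finset.mem_filter, Finset.mem_powerset]
      refine ⟨Finset.insert_subset hz hS.1, ?_⟩
      intro a ha b hb hab
      rw [Finset.mem_insert] at ha hb
      rcases ha with rfl | ha <;> rcases hb with rfl | hb
      · exact absurd rfl hab
      · exact fun h => hcon b hb (ball_symm h)
      · exact hcon a ha
      · exact hS.2 a ha b hb hab
    have h2 := hmax _ h1
    rw [Finset.card_insert_of_notMem hzS] at h2
    omega
  have h3 : Z.card ≤ S.card * (Δ + 1) ^ R :=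
    (Finset.card_le_card hcov).trans
      (Finset.card_biUnion_le_card_mul _ _ _ fun y _ => card_ball_le hΔ y R)
  exact Nat.le_of_mul_le_mul_right (hZ.trans h3) (by positivity)

end walks

section trials

variable {ι κ : Type} [DecidableEq ι] [DecidableEq κ]

/-- Second moment: many disjoint small sets, few of them are open with small probability. -/
theorem few_trials {q : ℝ} (hq : 0 < q) (M L : ℕ) {δ : ℝ} (hδ : 0 < δ) :
    ∃ N' : ℕ, ∀ p : ℝ, q ≤ p → p ≤ 1 → ∀ (I : Finset κ) (W : κ → Finset ι) (B : Finset ι),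
      (∀ i ∈ I, W i ⊆ B) → (∀ i ∈ I, ∀ j ∈ I, i ≠ j → Disjoint (W i) (W j)) →
      (∀ i ∈ I, (W i).card ≤ L) → N' ≤ I.card →
      Pr p B (fun T => (I.filter (fun i => W i ⊆ T)).card < M) ≤ δ := by
  obtain ⟨N', hN'⟩ := exists_nat_ge (max (2 * (M : ℝ)) (4 / δ) / q ^ L)
  refine ⟨N', fun p hqp hp1 I W B hWB hdis hL hI => ?_⟩
  have h0 : 0 < p := lt_of_lt_of_le hq hqp
  have hq1 : q ≤ 1 := hqp.trans hp1
  have hqL : 0 < q ^ L := pow_pos hq L
  set c : κ → ℝ := fun i => p ^ (W i).card with hc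
  have hc0 : ∀ i ∈ I, q ^ L ≤ c i := by
    intro i hi
    calc q ^ L ≤ q ^ (W i).card := pow_le_pow_of_le_one hq.le hq1 (hL i hi)
      _ ≤ p ^ (W i).card := pow_le_pow_left₀ hq.le hqp _
  set μ : ℝ := ∑ i ∈ I, c i with hμ
  have hμ1 : max (2 * (M : ℝ)) (4 / δ) ≤ μ := by
    have h1 : (I.card : ℝ) * q ^ L ≤ μ := by
      rw [hμ, ← nsmul_eq_mul]
      exact Finset.card_nsmul_le_sum _ _ _ hc0
    have h2 : max (2 * (M : ℝ)) (4 / δ) ≤ N' * q ^ L := by
      rw [div_le_iff₀ hqL] at hN'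
      exact hN'
    have h3 : (N' : ℝ) * q ^ L ≤ I.card * q ^ L := by
      have : (N' : ℝ) ≤ I.card := by exact_mod_cast hI
      (clear * - this hq; gcongr)
    linarith only [h1, h2, h3]
  have hμM : 2 * (M : ℝ) ≤ μ := (le_max_left _ _).trans hμ1
  have hμδ : 4 / δ ≤ μ := (le_max_right _ _).trans hμ1
  have hμ0 : 0 < μ := lt_of_lt_of_le (by positivity) hμδ
  have e1 : ∀ x ∈ I, Ex p B (fun w => ind (W x ⊆ w)) = c x := by
    intro x hx
    have := Pr_all_open p (hWB x hx)
    unfold Pr at this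
    rw [this]
  have e2 : ∀ x ∈ I, ∀ y ∈ I, Ex p B (fun w => ind (W x ⊆ w) * ind (W y ⊆ w)) =
      c x * c y + (if x = y then c x - c x ^ 2 else 0) := by
    intro x hx y hy
    have h3 := Pr_all_open p (Finset.union_subset (hWB x hx) (hWB y hy))
    unfold Pr at h3
    have h4 : (fun w : Finset ι => ind (W x ⊆ w) * ind (W y ⊆ w)) =
        fun w => ind (W x ∪ W y ⊆ w) := by
      funext w
      rw [ind_mul_ind, Finset.union_subset_iff]
    rw [h4, h3]
    split_ifs with h
    · subst h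
      rw [Finset.union_self, hc]
      ring
    · rw [Finset.card_union_of_disjoint (hdis x hx y hy h), pow_add]
      simp only [hc]
      ring
  have e3 : Ex p B (fun w => ((∑ x ∈ I, ind (W x ⊆ w)) - μ) ^ 2) = ∑ x ∈ I, (c x - c x ^ 2) := by
    have hexp : (fun w : Finset ι => ((∑ x ∈ I, ind (W x ⊆ w)) - μ) ^ 2) =
        fun w => ((∑ x ∈ I, ∑ y ∈ I, ind (W x ⊆ w) * ind (W y ⊆ w)) -
          (2 * μ) * ∑ x ∈ I, ind (W x ⊆ w)) + μ ^ 2 := by
      funext w
      rw [← Finset.sum_mul_sum]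
      ring
    rw [hexp, Ex_add, Ex_sub, Ex_const_mul, Ex_const, Ex_sum, Ex_sum]
    have h5 : ∀ x ∈ I, Ex p B (fun w => ∑ y ∈ I, ind (W x ⊆ w) * ind (W y ⊆ w)) =
        c x * μ + (c x - c x ^ 2) := by
      intro x hx
      rw [Ex_sum, Finset.sum_congr rfl (e2 x hx), Finset.sum_add_distrib, Finset.sum_ite_eq,
        if_pos hx, ← Finset.mul_sum]
    rw [Finset.sum_congr rfl h5, Finset.sum_congr rfl e1, Finset.sum_add_distrib,
      ← Finset.sum_mul]
    rw [← hμ]
    ring
  have e4 : ∑ x ∈ I, (c x - c x ^ 2) ≤ μ := by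
    rw [hμ]
    refine Finset.sum_le_sum fun x _ => ?_
    nlinarith only []
  have h6 := markov_Ex h0.le hp1 B (fun w => ((∑ x ∈ I, ind (W x ⊆ w)) - μ) ^ 2)
    (fun _ _ => sq_nonneg _) (μ ^ 2 / 4) (by (clear * - hμ0; positivity))
  rw [e3] at h6
  have h7 : Pr p B (fun T => (I.filter (fun i => W i ⊆ T)).card < M) ≤
      Pr p B (fun w => μ ^ 2 / 4 ≤ ((∑ x ∈ I, ind (W x ⊆ w)) - μ) ^ 2) := by
    refine Pr_mono h0.le hp1 fun w _ h => ?_
    have h8 : ((I.filter (fun i => W i ⊆ w)).card : ℝ) < M := by exact_mod_cast h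
    rw [card_filter_ind] at h8
    nlinarith only [hμM, h8]
  refine h7.trans ?_
  have h8 : μ ^ 2 / 4 * Pr p B (fun w => μ ^ 2 / 4 ≤ ((∑ x ∈ I, ind (W x ⊆ w)) - μ) ^ 2) ≤ μ :=
    h6.trans e4
  have h9 : μ * (μ / 4 * Pr p B (fun w => μ ^ 2 / 4 ≤ ((∑ x ∈ I, ind (W x ⊆ w)) - μ) ^ 2)) ≤
      μ * 1 := by
    linarith only [e4, h6]
  have h10 := le_of_mul_le_mul_left h9 hμ0
  have h11 : 1 ≤ δ * (μ / 4) := by
    rw [div_le_iff₀ hδ] at hμδ
    linarith only [hμδ]
  have h12 : (0 : ℝ) ≤ Pr p B (fun w => μ ^ 2 / 4 ≤ ((∑ x ∈ I, ind (W x ⊆ w)) - μ) ^ 2) :=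
    Pr_nonneg h0.le hp1 _ _
  have h13 : μ / 4 * Pr p B (fun w => μ ^ 2 / 4 ≤ ((∑ x ∈ I, ind (W x ⊆ w)) - μ) ^ 2) ≤
      μ / 4 * δ := by linarith only [h10, h11]
  exact le_of_mul_le_mul_left h13 (by (clear * - hμ0; positivity))

end trials

end Vale.Agent.P151.Pl.ClB
end
end

section

/-!
# Cluster B: `ReachStmt`

See `Iface.lean`.  Reveal the edges of `reg \ Ek x` first; if `outJ` has many vertices, choose many
pairwise distant ones; each of them is joined by few fresh edges (outside `H` and outside the balls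
of `X`) to a ball of `X`, and these connections are disjoint and reach different balls.
-/

set_option autoImplicit false
set_option linter.unusedSectionVars false

noncomputable section

namespace Vale.Agent.P151.Pl.ClB

open Vale.Agent.P151 Vale.Agent.P151.Red

variable {V : Type} [DecidableEq V] {G : SimpleGraph V} [G.LocallyFinite]

theorem mem_reg {D : Finset V} {H : Set V} {e : Sym2 V} :
    e ∈ reg G D H ↔ e ∈ edgesIn G D ∧ ∃ v ∈ e, v ∈ H := by
  classical
  unfold reg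
  rw [Finset.mem_filter]

theorem seedCl_mono {k : ℕ} {x : V} {T T' : Finset (Sym2 V)} (h : T ⊆ T') :
    seedCl G k x T ⊆ seedCl G k x T' := by
  unfold seedCl
  refine cluster_mono ?_ x
  rw [Finset.coe_subset]
  exact Finset.union_subset_union_right h

theorem seedCl_union_seed (k : ℕ) (x : V) (T : Finset (Sym2 V)) :
    seedCl G k x (Ek G k x ∪ T) = seedCl G k x T := by
  unfold seedCl
  rw [← Finset.union_assoc, Finset.union_self]

theorem mem_outJ {k : ℕ} {x : V} {D : Finset V} {H J : Set V} {T : Finset (Sym2 V)} {z : V} :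
    z ∈ outJ G k x D H J T ↔ z ∈ D ∧ z ∉ H ∧ z ∈ seedCl G k x T ∧ z ∈ J := by
  classical
  unfold outJ out
  rw [Finset.mem_filter, Finset.mem_filter]
  tauto

theorem outJ_mono {k : ℕ} {x : V} {D : Finset V} {H J : Set V} {T T' : Finset (Sym2 V)}
    (h : T ⊆ T') : outJ G k x D H J T ⊆ outJ G k x D H J T' := by
  intro z hz
  rw [mem_outJ] at hz ⊢
  exact ⟨hz.1, hz.2.1, seedCl_mono h hz.2.2.1, hz.2.2.2⟩

theorem mem_Ek {k : ℕ} {x : V} {e : Sym2 V} :
    e ∈ Ek G k x ↔ e ∈ G.edgeSet ∧ ∀ v ∈ e, v ∈ ballF G x k := by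
  unfold Ek; rw [mem_edgesIn]

/-- An edge has an end point. -/
theorem sym2_exists_mem (e : Sym2 V) : ∃ a, a ∈ e := by
  induction e with
  | _ a b => exact ⟨a, by simp⟩

theorem Ek_disjoint {k : ℕ} {x y : V} (h : Disjoint (ballF G x k) (ballF G y k)) :
    Disjoint (Ek G k x) (Ek G k y) := by
  rw [Finset.disjoint_left]
  intro e he he'
  rw [mem_Ek] at he he'
  obtain ⟨a, ha⟩ := sym2_exists_mem e
  exact Finset.disjoint_left.1 h (he.2 a ha) (he'.2 a ha)

/-- The short connection of `z` to a ball of `X` with fresh edges. -/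
theorem conn_exists (k ℓ : ℕ) (x : V) (D : Finset V) (H J : Set V) (X : Finset V)
    (Efr : Finset (Sym2 V)) (hx : ∀ v ∈ ballF G x k, v ∈ D ∧ v ∈ H)
    (hwalk : ∀ z ∈ D, z ∈ J → z ∉ H → ∃ (v : V) (w : G.Walk z v), w.length ≤ ℓ ∧
        (∀ u ∈ w.support, u ∉ H) ∧ (∀ e ∈ w.edges, (∀ y ∈ X, e ∉ Ek G k y) → e ∈ Efr) ∧
        ∃ y ∈ X, v ∈ ballF G y k) :
    ∀ z : V, z ∈ D ∧ z ∈ J ∧ z ∉ H → ∃ (u y : V) (W : Finset (Sym2 V)), y ∈ X ∧
      u ∈ ballF G y k ∧ u ∈ ballF G z ℓ ∧ W.card ≤ ℓ ∧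
      W ⊆ ((Efr \ Ek G k x) \ X.biUnion (Ek G k)) \ (reg G D H \ Ek G k x) ∧
      (∀ ω : Set (Sym2 V), ↑W ⊆ ω → u ∈ cluster ω z) ∧
      ∀ e ∈ W, ∀ a ∈ e, a ∈ ballF G z ℓ := by
  classical
  rintro z ⟨hzD, hzJ, hzH⟩
  obtain ⟨v, w, hlen, hsupp, hed, y, hy, hvy⟩ := hwalk z hzD hzJ hzH
  obtain ⟨u, w', hu, hlen', hed', hsupp', hU⟩ := trunc w {v | ∃ y ∈ X, v ∈ ballF G y k} ⟨y, hy, hvy⟩
  obtain ⟨y', hy', huy'⟩ := hu
  have hball : ∀ a ∈ w'.support, a ∈ ballF G z ℓ := support_ball w' (hlen'.trans hlen)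
  refine ⟨u, y', w'.edges.toFinset, hy', huy', hball u w'.end_mem_support, ?_, ?_, ?_, ?_⟩
  · refine (List.toFinset_card_le _).trans ?_
    rw [SimpleGraph.Walk.length_edges]
    exact hlen'.trans hlen
  · intro e he
    rw [List.mem_toFinset] at he
    have h1 : ∀ y ∈ X, e ∉ Ek G k y := by
      intro y hy hey
      obtain ⟨a, ha, haU⟩ := hU e he
      exact haU ⟨y, hy, (mem_Ek.1 hey).2 a ha⟩
    have h2 : ∀ a ∈ e, a ∉ H := by
      intro a ha
      exact hsupp a (hsupp' a (SimpleGraph.Walk.mem_support_of_mem_edges he ha))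
    rw [Finset.mem_sdiff, Finset.mem_sdiff, Finset.mem_sdiff, Finset.mem_sdiff]
    refine ⟨⟨⟨hed e (hed' e he) h1, ?_⟩, ?_⟩, ?_⟩
    · intro h
      obtain ⟨a, ha⟩ := sym2_exists_mem e
      exact h2 a ha (hx a ((mem_Ek.1 h).2 a ha)).2
    · rw [Finset.mem_biUnion]
      rintro ⟨y, hy, hey⟩
      exact h1 y hy hey
    · rintro ⟨h, -⟩
      obtain ⟨a, ha, haH⟩ := (mem_reg.1 h).2
      exact h2 a ha haH
  · intro ω hω
    refine walk_cluster w' fun e he => hω ?_
    rw [Finset.mem_coe, List.mem_toFinset]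
    exact he
  · intro e he a ha
    rw [List.mem_toFinset] at he
    exact hball a (SimpleGraph.Walk.mem_support_of_mem_edges he ha)

theorem reachStmt (G : SimpleGraph V) [G.LocallyFinite] (Δ : ℕ) (q Q : ℝ) :
    ReachStmt G Δ q Q := by
  classical
  intro hΔ hq hQ k M ℓ δ hδ
  obtain ⟨N', hN'⟩ := few_trials (ι := Sym2 V) (κ := V) hq M ℓ hδ
  refine ⟨N' * (Δ + 1) ^ (2 * (ℓ + k)), ?_⟩
  intro p hqp hpQ x D H J X Efr η hx hX hdisj hreg hwalk hη
  have h0 : 0 < p := lt_of_lt_of_le hq hqp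
  have h1 : p < 1 := lt_of_le_of_lt hpQ hQ
  set N := N' * (Δ + 1) ^ (2 * (ℓ + k)) with hN
  set B : Finset (Sym2 V) := (Efr \ Ek G k x) \ X.biUnion (Ek G k) with hB
  set A : Finset (Sym2 V) := reg G D H \ Ek G k x with hA
  have hAB : A ⊆ B := by
    intro e he
    rw [hA, Finset.mem_sdiff] at he
    rw [hB, Finset.mem_sdiff, Finset.mem_sdiff]
    refine ⟨⟨hreg he.1, he.2⟩, ?_⟩
    rw [Finset.mem_biUnion]
    rintro ⟨y, hy, hey⟩
    obtain ⟨a, ha, haH⟩ := (mem_reg.1 he.1).2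
    exact hX y hy a ((mem_Ek.1 hey).2 a ha) haH
  have hcon := conn_exists k ℓ x D H J X Efr hx hwalk
  choose! u y W hyX huy huz hWc hWB hWω hWz using hcon
  rw [← hB, ← hA] at hWB
  set Q' : Finset (Sym2 V) → Prop := fun T => (X.filter (fun y => ∃ v ∈ ballF G y k,
    v ∈ seedCl G k x T)).card < M with hQ'
  -- restriction to `B`
  have s1 : Pr p (Efr \ Ek G k x) (fun T => (X.filter (fun y => ∃ v ∈ ballF G y k,
        v ∈ seedCl G k x (T ∩ B))).card < M) = Pr p B Q' := by
    have e1 : Pr p (Efr \ Ek G k x) (fun T => (X.filter (fun y => ∃ v ∈ ballF G y k,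
        v ∈ seedCl G k x (T ∩ B))).card < M) = Pr p B (fun T => (X.filter
        (fun y => ∃ v ∈ ballF G y k, v ∈ seedCl G k x (T ∩ B))).card < M) := by
      refine Pr_restrict p (by rw [hB]; exact Finset.sdiff_subset) fun T _ => ?_
      rw [Finset.inter_assoc, Finset.inter_self]
    rw [e1]
    refine Pr_congr fun T hT => ?_
    rw [Finset.inter_eq_left.2 hT]
  rw [s1]
  -- reveal `A` first
  have hBu : B = A ∪ (B \ A) := by rw [Finset.union_sdiff_of_subset hAB]
  have s2 : Pr p B Q' = Ex p A (fun S => Pr p (B \ A) (fun T => Q' (S ∪ T))) := by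
    conv_lhs => rw [hBu]
    exact Pr_union p Finset.disjoint_sdiff Q'
  rw [s2]
  -- the conditional probability
  have s3 : ∀ S ⊆ A, Pr p (B \ A) (fun T => Q' (S ∪ T)) ≤
      ind ((outJ G k x D H J S).card < N) + δ := by
    intro S hS
    by_cases hcard : (outJ G k x D H J S).card < N
    · rw [ind_true hcard]
      have := Pr_le_one h0.le h1.le (B \ A) (fun T => Q' (S ∪ T))
      linarith only [hδ, this]
    · rw [ind_false hcard, zero_add]
      push Not at hcard
      obtain ⟨Z', hZ'Z, hZ'N, hfar⟩ := exists_far_subset hΔ (2 * (ℓ + k)) N' _ hcard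
      have hz : ∀ z ∈ Z', z ∈ D ∧ z ∈ J ∧ z ∉ H := by
        intro z hz
        have := mem_outJ.1 (hZ'Z hz)
        exact ⟨this.1, this.2.2.2, this.2.1⟩
      have hzc : ∀ z ∈ Z', z ∈ seedCl G k x S := fun z hz => (mem_outJ.1 (hZ'Z hz)).2.2.1
      refine le_trans ?_ (hN' p hqp h1.le Z' W (B \ A) (fun z hz' => hWB z (hz z hz')) ?_
        (fun z hz' => hWc z (hz z hz')) hZ'N)
      · refine Pr_mono h0.le h1.le fun T _ hT => lt_of_le_of_lt ?_ hT
        -- injection
        refine Finset.card_le_card_of_injOn y ?_ ?_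
        · intro z hz'
          rw [Finset.mem_coe, Finset.mem_filter] at hz'
          rw [Finset.mem_coe, Finset.mem_filter]
          refine ⟨hyX z (hz z hz'.1), u z, huy z (hz z hz'.1), ?_⟩
          have g1 : z ∈ seedCl G k x (S ∪ T) := seedCl_mono Finset.subset_union_left (hzc z hz'.1)
          refine mem_cluster_trans g1 (hWω z (hz z hz'.1) _ ?_)
          rw [Finset.coe_subset]
          exact hz'.2.trans (Finset.subset_union_right.trans Finset.subset_union_right)
        · intro z hz' z' hz'' heq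
          rw [Finset.mem_coe, Finset.mem_filter] at hz' hz''
          by_contra hne
          refine hfar z hz'.1 z' hz''.1 hne ?_
          have g1 := huy z (hz z hz'.1)
          have g2 := huz z (hz z hz'.1)
          have g3 := huy z' (hz z' hz''.1)
          have g4 := huz z' (hz z' hz''.1)
          rw [← heq] at g3
          have g5 : z' ∈ ballF G (y z) (ℓ + k) := ball_trans (ball_symm g4) g3
          have g6 : z ∈ ballF G (y z) (ℓ + k) := ball_trans (ball_symm g2) g1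
          have g7 := ball_trans g5 (ball_symm g6)
          rw [two_mul]
          exact g7
      · -- disjointness
        intro z hz' z' hz'' hne
        rw [Finset.disjoint_left]
        intro e he he'
        obtain ⟨a, ha⟩ := sym2_exists_mem e
        have g1 := hWz z (hz z hz') e he a ha
        have g2 := hWz z' (hz z' hz'') e he' a ha
        refine hfar z hz' z' hz'' hne ?_
        have g3 := ball_trans (ball_symm g2) g1
        exact ballF_mono G z (by omega) g3
  have s4 : Ex p A (fun S => Pr p (B \ A) (fun T => Q' (S ∪ T))) ≤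
      Pr p A (fun S => (outJ G k x D H J S).card < N) + δ := by
    refine (Ex_mono h0.le h1.le s3).trans (le_of_eq ?_)
    rw [Ex_add, Ex_const]
    rfl
  have s5 : Pr p A (fun S => (outJ G k x D H J S).card < N) ≤
      Pr p (reg G D H) (fun T => (outJ G k x D H J T).card < N) := by
    have hdec : ∀ T T' : Finset (Sym2 V), T ⊆ T' → (outJ G k x D H J T').card < N →
        (outJ G k x D H J T).card < N := fun T T' hTT h =>
      lt_of_le_of_lt (Finset.card_le_card (outJ_mono hTT)) h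
    refine le_trans (le_of_eq ?_) (Pr_open h0.le h1.le (reg G D H) (Ek G k x) hdec)
    refine Pr_congr fun T _ => ?_
    have : outJ G k x D H J (Ek G k x ∪ T) = outJ G k x D H J T := by
      ext z
      rw [mem_outJ, mem_outJ, seedCl_union_seed]
    rw [this]
  linarith only [hη, s4, s5]

end Vale.Agent.P151.Pl.ClB
end
end

section

/-!
# Module R2: the Kozma-Nitzan inequality in the form `KNStar`

PROOF. `kozma_nitzan` with `E` = the subtype of the elements of `S ∪ B`, edge probabilities `1` on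
`S` and `p` on `B \ S`, `inc e = {v | v ∈ e}`, vertex set = the finite set of all end points, `A`
and `o` (as a subtype), `m = 1 - η`; `cl inc ω ∅ {o}` is the cluster.
-/

set_option autoImplicit false

noncomputable section

namespace Vale.Agent.P151.Red

open Vale.Agent.P151

namespace KNWrapAux

section sums

variable {ι : Type} [DecidableEq ι]

/-- The expectation when `e ∈ Λ` is kept with probability `q e`. -/
def ExQ (q : ι → ℝ) (Λ : Finset ι) (F : Finset ι → ℝ) : ℝ :=
  ∑ T ∈ Λ.powerset, (∏ e ∈ Λ, if e ∈ T then q e else 1 - q e) * F T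

theorem ExQ_empty (q : ι → ℝ) (F : Finset ι → ℝ) : ExQ q ∅ F = F ∅ := by
  simp [ExQ]

theorem ExQ_insert (q : ι → ℝ) {e : ι} {Λ : Finset ι} (he : e ∉ Λ) (F : Finset ι → ℝ) :
    ExQ q (insert e Λ) F = q e * ExQ q Λ (fun T => F (insert e T)) + (1 - q e) * ExQ q Λ F := by
  unfold ExQ
  rw [Finset.sum_powerset_insert he, Finset.mul_sum, Finset.mul_sum, add_comm]
  congr 1
  · refine Finset.sum_congr rfl fun T _ => ?_
    rw [Finset.prod_insert he, if_pos (Finset.mem_insert_self e T), mul_assoc]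
    congr 2
    refine Finset.prod_congr rfl fun x hx => ?_
    have hxe : x ≠ e := fun h => he (h ▸ hx)
    by_cases h : x ∈ T
    · rw [if_pos h, if_pos (Finset.mem_insert_of_mem h)]
    · rw [if_neg h, if_neg fun h' => (Finset.mem_insert.1 h').elim hxe h]
  · refine Finset.sum_congr rfl fun T hT => ?_
    have heT : e ∉ T := fun h => he (Finset.mem_powerset.1 hT h)
    rw [Finset.prod_insert he, if_neg heT, mul_assoc]

/-- All probabilities equal to `p`. -/
theorem ExQ_eq_Ex (q : ι → ℝ) (p : ℝ) (Λ : Finset ι) (F : Finset ι → ℝ)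
    (h : ∀ e ∈ Λ, q e = p) : ExQ q Λ F = Ex p Λ F := by
  induction Λ using Finset.induction_on generalizing F with
  | empty => rw [ExQ_empty, Ex_empty]
  | insert e Λ he ih =>
    have h' : ∀ x ∈ Λ, q x = p := fun x hx => h x (Finset.mem_insert_of_mem hx)
    rw [ExQ_insert q he, Ex_insert p he, ih _ h', ih _ h', h e (Finset.mem_insert_self e Λ)]

/-- The elements of `S` are kept. -/
theorem ExQ_open (q : ι → ℝ) (S B : Finset ι) (hd : Disjoint S B) (F : Finset ι → ℝ)
    (h : ∀ e ∈ S, q e = 1) : ExQ q (S ∪ B) F = ExQ q B (fun T => F (S ∪ T)) := by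
  induction S using Finset.induction_on generalizing F with
  | empty => simp only [Finset.empty_union]
  | insert e S he ih =>
    have hd' : Disjoint S B := Finset.disjoint_of_subset_left (Finset.subset_insert e S) hd
    have heB : e ∉ B := Finset.disjoint_left.1 hd (Finset.mem_insert_self e S)
    have h' : ∀ x ∈ S, q x = 1 := fun x hx => h x (Finset.mem_insert_of_mem hx)
    rw [Finset.insert_union, ExQ_insert q (by simp [he, heB]), ih hd' _ h',
      h e (Finset.mem_insert_self e S), one_mul, sub_self, zero_mul, add_zero]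
    simp only [Finset.insert_union]

/-- The two notions of expectation. -/
theorem KN_Ex_eq (Λ : Finset ι) (q : ι → ℝ) (g : Finset ι → ℝ) :
    KN.Ex (E := ↥Λ) (fun e => q e) (fun ω => g (ω.map (Function.Embedding.subtype _))) =
      ExQ q Λ g := by
  unfold KN.Ex KN.wt ExQ
  refine Finset.sum_nbij' (fun ω => ω.map (Function.Embedding.subtype _))
    (fun T => T.subtype (· ∈ Λ)) ?_ ?_ ?_ ?_ ?_
  · intro ω _
    rw [Finset.mem_powerset]
    intro e he
    rw [Finset.mem_map] at he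
    obtain ⟨e', _, rfl⟩ := he
    exact e'.2
  · intro T _
    exact Finset.mem_univ _
  · intro ω _
    ext e
    rw [Finset.mem_subtype, Finset.mem_map]
    constructor
    · rintro ⟨e', he', h⟩
      rwa [← Subtype.ext h]
    · exact fun h => ⟨e, h, rfl⟩
  · intro T hT
    rw [Finset.subtype_map]
    exact Finset.filter_true_of_mem fun e he => Finset.mem_powerset.1 hT he
  · intro ω _
    congr 1
    rw [← Finset.prod_coe_sort Λ]
    refine Finset.prod_congr rfl fun e _ => ?_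
    have : (e : ι) ∈ ω.map (Function.Embedding.subtype _) ↔ e ∈ ω := by
      rw [Finset.mem_map]
      constructor
      · rintro ⟨e', he', h⟩
        rwa [← Subtype.ext h]
      · exact fun h => ⟨e, h, rfl⟩
    simp only [this]

/-- The expectation with the elements of `S` open. -/
theorem KN_Ex_open (p : ℝ) (S B : Finset ι) (g : Finset ι → ℝ) :
    KN.Ex (E := ↥(S ∪ B)) (fun e => if (e : ι) ∈ S then 1 else p)
      (fun ω => g (ω.map (Function.Embedding.subtype _))) = Ex p B (fun T => g (S ∪ T)) := by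
  rw [KN_Ex_eq (S ∪ B) (fun e => if e ∈ S then 1 else p) g]
  have h1 : S ∪ B = S ∪ (B \ S) := Finset.union_sdiff_self_eq_union.symm
  rw [h1, ExQ_open _ S (B \ S) Finset.disjoint_sdiff g (fun e he => if_pos he),
    ExQ_eq_Ex _ p (B \ S) _ (fun e he => if_neg (Finset.mem_sdiff.1 he).2)]
  symm
  refine Ex_restrict p Finset.sdiff_subset fun T hT => ?_
  congr 1
  ext e
  simp only [Finset.mem_union, Finset.mem_inter, Finset.mem_sdiff]
  constructor
  · rintro (h | h)
    · exact Or.inl h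
    · by_cases hS : e ∈ S
      · exact Or.inl hS
      · exact Or.inr ⟨h, hT h, hS⟩
  · rintro (h | h)
    · exact Or.inl h
    · exact Or.inr h.1

end sums

/-- The two notions of cluster. -/
theorem image_cl {V : Type} (Λ : Finset (Sym2 V)) (W : Finset V)
    (hW : ∀ e ∈ Λ, ∀ v ∈ e, v ∈ W) (ω : Finset ↥Λ) (a : ↥W) :
    Subtype.val '' (KN.cl (fun e : ↥Λ => {v : ↥W | (v : V) ∈ (e : Sym2 V)}) ω ∅ {a}) =
      cluster (↑(ω.map (Function.Embedding.subtype _)) : Set (Sym2 V)) (a : V) := by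
  ext v
  constructor
  · rintro ⟨v', ⟨s, hs, _, hp⟩, rfl⟩
    rw [Set.mem_singleton_iff] at hs
    subst hs
    induction hp with
    | refl => exact mem_cluster_self _ _
    | @tail b c _ hstep ih =>
      obtain ⟨e, he, _, hb, hc⟩ := hstep
      by_cases hbc : (b : V) = c
      · rwa [← hbc]
      · have h := (Sym2.mem_and_mem_iff hbc).1 ⟨hb, hc⟩
        refine mem_cluster_trans ih (mem_cluster_of_edge ?_)
        rw [← h, Finset.mem_coe, Finset.mem_map]
        exact ⟨e, he, rfl⟩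
  · intro hv
    have hv' := (SimpleGraph.reachable_iff_reflTransGen _ _).1 hv
    induction hv' with
    | refl => exact ⟨a, ⟨a, rfl, fun h => h.elim, Relation.ReflTransGen.refl⟩, rfl⟩
    | @tail b c hab hstep ih =>
      obtain ⟨b', hb', rfl⟩ := ih ((SimpleGraph.reachable_iff_reflTransGen _ _).2 hab)
      obtain ⟨h1, h2⟩ := (SimpleGraph.fromEdgeSet_adj _).1 hstep
      rw [Finset.mem_coe, Finset.mem_map] at h1
      obtain ⟨e, he, h⟩ := h1
      have h3 : (e : Sym2 V) = s((b' : V), c) := h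
      have hc : c ∈ W := hW e e.2 c (by rw [h3]; exact Sym2.mem_mk_right _ _)
      refine ⟨⟨c, hc⟩, KN.cl_step _ hb' he (Set.disjoint_empty _) ?_ ?_, rfl⟩
      · show (b' : V) ∈ (e : Sym2 V)
        rw [h3]; exact Sym2.mem_mk_left _ _
      · show c ∈ (e : Sym2 V)
        rw [h3]; exact Sym2.mem_mk_right _ _

end KNWrapAux

open KNWrapAux

theorem knStar : KNStar := by
  intro V _ p hp0 hp1 S B A o F hF η hη hA
  -- the finite set of vertices
  set W : Finset V := (S ∪ B).biUnion Sym2.toFinset ∪ A ∪ {o} with hWdef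
  have hW : ∀ e ∈ S ∪ B, ∀ v ∈ e, v ∈ W := by
    intro e he v hv
    rw [hWdef]
    refine Finset.mem_union_left _ (Finset.mem_union_left _ ?_)
    exact Finset.mem_biUnion.2 ⟨e, he, Sym2.mem_toFinset.2 hv⟩
  have hAW : ∀ a ∈ A, a ∈ W := fun a ha =>
    Finset.mem_union_left _ (Finset.mem_union_right _ ha)
  have hoW : o ∈ W := Finset.mem_union_right _ (Finset.mem_singleton_self o)
  let inc : ↥(S ∪ B) → Set ↥W := fun e => {v : ↥W | (v : V) ∈ (e : Sym2 V)}
  let q : ↥(S ∪ B) → ℝ := fun e => if (e : Sym2 V) ∈ S then 1 else p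
  have hq0 : ∀ e, 0 ≤ q e := by
    intro e; simp only [q]; split_ifs <;> linarith
  have hq1 : ∀ e, q e ≤ 1 := by
    intro e; simp only [q]; split_ifs <;> linarith
  let A' : Finset ↥W := A.subtype (· ∈ W)
  let o' : ↥W := ⟨o, hoW⟩
  let F' : Set ↥W → ℝ := fun C => ind (F (Subtype.val '' C))
  have hF' : Monotone F' := fun C C' h => ind_mono (hF _ _ (Set.image_mono h))
  have hcl : ∀ (ω : Finset ↥(S ∪ B)) (a : ↥W), Subtype.val '' (KN.cl inc ω ∅ {a}) =
      cluster (↑(ω.map (Function.Embedding.subtype _)) : Set (Sym2 V)) (a : V) :=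
    fun ω a => image_cl (S ∪ B) W hW ω a
  have hEx : ∀ G : Finset (Sym2 V) → ℝ, KN.Ex q
      (fun ω => G (ω.map (Function.Embedding.subtype _))) = Ex p B (fun T => G (S ∪ T)) :=
    fun G => KN_Ex_open p S B G
  -- the two events
  have hmeet : ∀ ω : Finset ↥(S ∪ B), (∃ a ∈ A', a ∈ KN.cl inc ω ∅ {o'}) ↔
      ∃ a ∈ A, a ∈ cluster (↑(ω.map (Function.Embedding.subtype _)) : Set (Sym2 V)) o := by
    intro ω
    constructor
    · rintro ⟨a, ha, hac⟩
      refine ⟨a, Finset.mem_subtype.1 ha, ?_⟩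
      have h := hcl ω o'
      rw [show o = ((o' : ↥W) : V) from rfl, ← h]
      exact ⟨a, hac, rfl⟩
    · rintro ⟨a, ha, hac⟩
      have h := hcl ω o'
      rw [show o = ((o' : ↥W) : V) from rfl, ← h] at hac
      obtain ⟨b, hb, rfl⟩ := hac
      exact ⟨b, Finset.mem_subtype.2 ha, hb⟩
  have hFc : ∀ (ω : Finset ↥(S ∪ B)) (a : ↥W), F' (KN.cl inc ω ∅ {a}) =
      ind (F (cluster (↑(ω.map (Function.Embedding.subtype _)) : Set (Sym2 V)) (a : V))) := by
    intro ω a
    simp only [F']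
    rw [hcl ω a]
  have hkn := KN.kozma_nitzan inc q hq0 hq1 A' o' F' hF' (1 - η) (by
    intro a ha
    have e1 : KN.Ex q (fun ω => F' (KN.cl inc ω ∅ {a})) =
        Pr p B (fun T => F (cluster (↑(S ∪ T) : Set (Sym2 V)) (a : V))) := by
      simp only [hFc]
      exact hEx (fun T => ind (F (cluster (↑T : Set (Sym2 V)) (a : V))))
    rw [e1]
    have h := hA a (Finset.mem_subtype.1 ha)
    rw [Pr_not] at h
    linarith)
  have e2 : ∀ dec : ∀ ω : Finset ↥(S ∪ B), Decidable (∃ a ∈ A', a ∈ KN.cl inc ω ∅ {o'}),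
      KN.Ex q (fun ω => @ite ℝ (∃ a ∈ A', a ∈ KN.cl inc ω ∅ {o'}) (dec ω) 1 0) =
      Pr p B (fun T => ∃ a ∈ A, a ∈ cluster (↑(S ∪ T) : Set (Sym2 V)) o) := by
    intro dec
    refine Eq.trans ?_ (hEx (fun T => ind (∃ a ∈ A, a ∈ cluster (↑T : Set (Sym2 V)) o)))
    congr 1
    funext ω
    by_cases h : ∃ a ∈ A', a ∈ KN.cl inc ω ∅ {o'}
    · rw [if_pos h, ind_true ((hmeet ω).1 h)]
    · rw [if_neg h, ind_false fun h' => h ((hmeet ω).2 h')]
  have e3 : ∀ dec : ∀ ω : Finset ↥(S ∪ B), Decidable (∃ a ∈ A', a ∈ KN.cl inc ω ∅ {o'}),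
      KN.Ex q (fun ω => @ite ℝ (∃ a ∈ A', a ∈ KN.cl inc ω ∅ {o'}) (dec ω)
        (F' (KN.cl inc ω ∅ {o'})) 0) =
      Pr p B (fun T => (∃ a ∈ A, a ∈ cluster (↑(S ∪ T) : Set (Sym2 V)) o) ∧
        F (cluster (↑(S ∪ T) : Set (Sym2 V)) o)) := by
    intro dec
    refine Eq.trans ?_ (hEx (fun T => ind ((∃ a ∈ A, a ∈ cluster (↑T : Set (Sym2 V)) o) ∧
      F (cluster (↑T : Set (Sym2 V)) o))))
    congr 1
    funext ω
    by_cases h : ∃ a ∈ A', a ∈ KN.cl inc ω ∅ {o'}
    · rw [if_pos h, hFc]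
      by_cases h2 : F (cluster (↑(ω.map (Function.Embedding.subtype _)) : Set (Sym2 V)) (o' : V))
      · rw [ind_true h2, ind_true ⟨(hmeet ω).1 h, h2⟩]
      · rw [ind_false h2, ind_false fun h' => h2 h'.2]
    · rw [if_neg h, ind_false fun h' => h ((hmeet ω).2 h'.1)]
  rw [e2, e3] at hkn
  have hsplit : Pr p B (fun T => ∃ a ∈ A, a ∈ cluster (↑(S ∪ T) : Set (Sym2 V)) o) =
      Pr p B (fun T => (∃ a ∈ A, a ∈ cluster (↑(S ∪ T) : Set (Sym2 V)) o) ∧
        F (cluster (↑(S ∪ T) : Set (Sym2 V)) o)) +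
      Pr p B (fun T => (∃ a ∈ A, a ∈ cluster (↑(S ∪ T) : Set (Sym2 V)) o) ∧
        ¬ F (cluster (↑(S ∪ T) : Set (Sym2 V)) o)) := by
    unfold Pr
    rw [← Ex_add]
    refine Ex_congr p fun T _ => ?_
    by_cases h1 : ∃ a ∈ A, a ∈ cluster (↑(S ∪ T) : Set (Sym2 V)) o
    · by_cases h2 : F (cluster (↑(S ∪ T) : Set (Sym2 V)) o)
      · rw [ind_true h1, ind_true ⟨h1, h2⟩, ind_false fun h => h.2 h2, add_zero]
      · rw [ind_true h1, ind_false fun h => h2 h.2, ind_true ⟨h1, h2⟩, zero_add]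
    · rw [ind_false h1, ind_false fun h => h1 h.1, ind_false fun h => h1 h.1, add_zero]
  have hle := Pr_le_one (p := p) hp0.le hp1.le B
    (fun T => ∃ a ∈ A, a ∈ cluster (↑(S ∪ T) : Set (Sym2 V)) o)
  have hnn := Pr_nonneg (p := p) hp0.le hp1.le B
    (fun T => ∃ a ∈ A, a ∈ cluster (↑(S ∪ T) : Set (Sym2 V)) o)
  have h5 := mul_le_mul_of_nonneg_left hle hη
  linarith only [hkn, hsplit, h5]

end Vale.Agent.P151.Red
end
end

section

/-!
# Cluster B: `StepStmt`

Choose a maximal family `X ⊆ Y` with pairwise disjoint balls, apply `ReachStmt` and `oneStep`.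
-/

set_option autoImplicit false
set_option linter.unusedSectionVars false

noncomputable section

namespace Vale.Agent.P151.Pl.ClB

open Vale.Agent.P151 Vale.Agent.P151.Red

variable {V : Type} [DecidableEq V] {G : SimpleGraph V} [G.LocallyFinite]

/-- A maximal packing. -/
theorem exists_packing (k : ℕ) (Y : Finset V) :
    ∃ X ⊆ Y, (∀ y ∈ X, ∀ z ∈ X, y ≠ z → Disjoint (ballF G y k) (ballF G z k)) ∧
      ∀ y ∈ Y, ∃ z ∈ X, ∃ v, v ∈ ballF G y k ∧ v ∈ ballF G z k := by
  classical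
  set P : Finset (Finset V) := Y.powerset.filter
    (fun S => ∀ a ∈ S, ∀ b ∈ S, a ≠ b → Disjoint (ballF G a k) (ballF G b k)) with hP
  have hPne : P.Nonempty := ⟨∅, by rw [hP, Finset.mem_filter]; simp⟩
  obtain ⟨S, hS, hmax⟩ := Finset.exists_max_image P (fun S => S.card) hPne
  rw [hP, Finset.mem_filter, Finset.mem_powerset] at hS
  refine ⟨S, hS.1, hS.2, ?_⟩
  intro y hy
  by_contra hcon
  push Not at hcon
  have hyS : y ∉ S := fun h => hcon y h y (mem_ballF_self G y k) (mem_ballF_self G y k)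
  have hdis : ∀ z ∈ S, Disjoint (ballF G y k) (ballF G z k) := by
    intro z hz
    rw [Finset.disjoint_left]
    exact fun v hv => hcon z hz v hv
  have h1 : insert y S ∈ P := by
    rw [hP, Finset.mem_filter, Finset.mem_powerset]
    refine ⟨Finset.insert_subset hy hS.1, ?_⟩
    intro a ha b hb hab
    rw [Finset.mem_insert] at ha hb
    rcases ha with rfl | ha <;> rcases hb with rfl | hb
    · exact absurd rfl hab
    · exact hdis b hb
    · exact (hdis a ha).symm
    · exact hS.2 a ha b hb hab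
  have h2 := hmax _ h1
  rw [Finset.card_insert_of_notMem hyS] at h2
  omega

theorem stepStmt (G : SimpleGraph V) [G.LocallyFinite] (Δ : ℕ) (q Q : ℝ) : StepStmt G Δ q Q := by
  classical
  intro hΔ hq hQ k ℓ m θ hθ
  obtain ⟨M', hM'⟩ := exists_nat_ge (8 / (θ * q ^ m))
  set M := M' + 1 with hM
  have hqm : 0 < q ^ m := pow_pos hq m
  have hMθ : 4 / ((M : ℝ) * q ^ m) ≤ θ / 2 := by
    rw [div_le_iff₀ (by positivity)] at hM' ⊢
    rw [hM]
    push_cast
    nlinarith only [hM']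
  obtain ⟨N, hN⟩ := reachStmt G Δ q Q hΔ hq hQ k M (ℓ + k) (θ / 2) (by positivity)
  refine ⟨N, ?_⟩
  intro p hqp hpQ x D H J Y Efr η a F hF ha0 hmx hmY hx hY hreg hEY hwalk hη hfail
  have h0 : 0 < p := lt_of_lt_of_le hq hqp
  have h1 : p < 1 := lt_of_le_of_lt hpQ hQ
  obtain ⟨X, hXY, hdisj, hmaxi⟩ := exists_packing (G := G) k Y
  -- few reached balls
  have hfew := hN p hqp hpQ x D H J X Efr η hx (fun y hy => hY y (hXY hy)) hdisj hreg (by
    intro z hzD hzJ hzH
    obtain ⟨y₀, hy₀, w, hlen, hsupp, hed⟩ := hwalk z hzD hzJ hzH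
    obtain ⟨y', hy', v, hv, hv'⟩ := hmaxi y₀ hy₀
    obtain ⟨w₁, hw₁, hw₁s, hw₁e⟩ := ball_walk hv
    refine ⟨v, w.append w₁, ?_, ?_, ?_, y', hy', hv'⟩
    · rw [SimpleGraph.Walk.length_append]; omega
    · intro b hb
      rw [SimpleGraph.Walk.mem_support_append_iff] at hb
      rcases hb with hb | hb
      · exact hsupp b hb
      · exact hY y₀ hy₀ b (hw₁s b hb)
    · intro e he _
      rw [SimpleGraph.Walk.edges_append, List.mem_append] at he
      rcases he with he | he
      · exact hed e he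
      · exact hEY y₀ hy₀ (hw₁e e he)) hη
  set E := Ek G k x with hE
  set D' := (Efr \ E) \ X.biUnion (Ek G k) with hD'
  have hEXd : ∀ z ∈ X, Disjoint E (Ek G k z) := by
    intro z hz
    refine Ek_disjoint ?_
    rw [Finset.disjoint_left]
    exact fun v hv hv' => hY z (hXY hz) v hv' (hx v hv).2
  have hdisE : ∀ y ∈ X, ∀ z ∈ X, y ≠ z → Disjoint (Ek G k y) (Ek G k z) :=
    fun y hy z hz hne => Ek_disjoint (hdisj y hy z hz hne)
  have hXE : ∀ z ∈ X, Ek G k z ⊆ Efr \ E := by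
    intro z hz e he
    rw [Finset.mem_sdiff]
    exact ⟨hEY z (hXY hz) he, fun h => Finset.disjoint_left.1 (hEXd z hz) h he⟩
  have hDX : ∀ y ∈ X, Disjoint D' (Ek G k y) := by
    intro y hy
    rw [Finset.disjoint_left]
    intro e he hey
    rw [hD', Finset.mem_sdiff] at he
    exact he.2 (Finset.mem_biUnion.2 ⟨y, hy, hey⟩)
  have hunion : D' ∪ X.biUnion (Ek G k) = Efr \ E := by
    rw [hD']
    apply Finset.sdiff_union_of_subset
    intro e he
    rw [Finset.mem_biUnion] at he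
    obtain ⟨z, hz, hez⟩ := he
    exact hXE z hz hez
  have hone := oneStep knStar h0 h1 E x X (Ek G k) (fun y => (↑(ballF G y k) : Set V))
    (fun y => y) m M (by omega) hdisE (fun y hy => hmY y (hXY hy))
    (fun y _ v hv => ball_cluster (by simpa using hv)) D' D' (Finset.Subset.refl _) hDX F hF a ha0
    (by
      intro y hy
      have hset : D' ∪ (X.erase y).biUnion (Ek G k) = (Efr \ Ek G k y) \ E := by
        ext e
        simp only [hD', Finset.mem_union, Finset.mem_sdiff, Finset.mem_biUnion, Finset.mem_erase]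
        constructor
        · rintro (⟨⟨h2, h3⟩, h4⟩ | ⟨z, ⟨hzx, hz⟩, hez⟩)
          · exact ⟨⟨h2, fun h => h4 ⟨y, hy, h⟩⟩, h3⟩
          · have h5 := hXE z hz hez
            rw [Finset.mem_sdiff] at h5
            exact ⟨⟨h5.1, fun h => Finset.disjoint_left.1 (hdisE z hz y hy hzx) hez h⟩, h5.2⟩
        · rintro ⟨⟨h2, h3⟩, h4⟩
          by_cases h5 : ∃ z ∈ X, e ∈ Ek G k z
          · obtain ⟨z, hz, hez⟩ := h5
            refine Or.inr ⟨z, ⟨?_, hz⟩, hez⟩
            rintro rfl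
            exact h3 hez
          · exact Or.inl ⟨⟨h2, h4⟩, h5⟩
      rw [hset]
      have hdec : ∀ T T' : Finset (Sym2 V), T ⊆ T' →
          ¬ F (cluster (↑(Ek G k y ∪ T') : Set (Sym2 V)) y) →
          ¬ F (cluster (↑(Ek G k y ∪ T) : Set (Sym2 V)) y) := by
        intro T T' hTT h hcon
        refine h (hF _ _ (cluster_mono ?_ y) hcon)
        rw [Finset.coe_subset]
        exact Finset.union_subset_union (Finset.Subset.refl _) hTT
      have h2 := Pr_open h0.le h1.le (Efr \ Ek G k y) E hdec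
      refine le_trans (le_of_eq ?_) (h2.trans (hfail y (hXY hy)))
      apply Pr_congr
      intro T _
      have : E ∪ (Ek G k y ∪ T) = Ek G k y ∪ (E ∪ T) := by
        rw [← Finset.union_assoc, ← Finset.union_assoc, Finset.union_comm E]
      rw [this])
  rw [hunion] at hone
  have hsum := (Pr_or_le h0.le h1.le (Efr \ E) _ _).trans (add_le_add hfew hone)
  have hpm : 4 / ((M : ℝ) * p ^ m) ≤ 4 / ((M : ℝ) * q ^ m) := by
    have : q ^ m ≤ p ^ m := pow_le_pow_left₀ hq.le hqp m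
    (clear * - hq this; gcongr)
  have hfin : η + θ / 2 + (4 / ((M : ℝ) * p ^ m) + 3 * √a) ≤ η + θ + 3 * √a := by linarith only [hMθ, hpm]
  refine le_trans ?_ (hsum.trans hfin)
  unfold Fail
  refine Pr_mono h0.le h1.le ?_
  intro T _ hT
  by_cases hlt : (X.filter (fun y => ∃ v ∈ ballF G y k, v ∈ seedCl G k x (T ∩ D'))).card < M
  · exact Or.inl hlt
  · right
    refine ⟨?_, hT⟩
    refine (not_lt.1 hlt).trans (Finset.card_le_card ?_)
    intro y hy
    obtain ⟨h2, v, hv, hvc⟩ := Finset.mem_filter.1 hy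
    exact (@Finset.mem_filter _ _ (_) _ _).2 ⟨h2, v, by simpa using hv, hvc⟩

end Vale.Agent.P151.Pl.ClB
end
end

section

/-!
# Cluster B: invariance under automorphisms, positions
-/

set_option autoImplicit false
set_option linter.unusedSectionVars false

noncomputable section

namespace Vale.Agent.P151.Pl.ClB

open Vale.Agent.P151 Vale.Agent.P151.Red

section aut

variable {V : Type} [DecidableEq V] {G : SimpleGraph V} [G.LocallyFinite]

theorem ballF_image (φ : G ≃g G) (x : V) (n : ℕ) :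
    ballF G (φ x) n = (ballF G x n).image φ := by
  have key : ∀ (ψ : G ≃g G) (z y : V), y ∈ ballF G z n → ψ y ∈ ballF G (ψ z) n := by
    intro ψ z y hy
    obtain ⟨w, hw⟩ := dist_le_of_mem_ballF G z n y hy
    refine mem_ballF_of_walk G (ψ z) n (ψ y) (w.map ψ.toHom) ?_
    rw [SimpleGraph.Walk.length_map]
    exact hw
  ext y
  rw [Finset.mem_image]
  constructor
  · intro hy
    refine ⟨φ.symm y, ?_, by simp⟩
    have := key φ.symm (φ x) y hy
    simpa using this
  · rintro ⟨z, hz, rfl⟩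
    exact key φ x z hz

theorem Ek_image (φ : G ≃g G) (k : ℕ) (x : V) :
    Ek G k (φ x) = (Ek G k x).image (Sym2.map φ) := by
  unfold Ek
  rw [ballF_image, edgesIn_image]

theorem card_Ek_image (φ : G ≃g G) (k : ℕ) (x : V) :
    (Ek G k (φ x)).card = (Ek G k x).card := by
  rw [Ek_image, Finset.card_image_of_injective _ (Sym2_map_inj φ.injective)]

theorem reg_image (φ : G ≃g G) (D : Finset V) (H : Set V) :
    reg G (D.image φ) (φ '' H) = (reg G D H).image (Sym2.map φ) := by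
  ext e
  rw [mem_reg, edgesIn_image, Finset.mem_image, Finset.mem_image]
  constructor
  · rintro ⟨⟨e', he', rfl⟩, v, hv, w, hw, rfl⟩
    refine ⟨e', mem_reg.2 ⟨he', w, ?_, hw⟩, rfl⟩
    rw [Sym2.mem_map] at hv
    obtain ⟨a, ha, hav⟩ := hv
    rwa [← φ.injective hav]
  · rintro ⟨e', he', rfl⟩
    obtain ⟨h1, w, hw, hwH⟩ := mem_reg.1 he'
    exact ⟨⟨e', h1, rfl⟩, φ w, Sym2.mem_map.2 ⟨w, hw, rfl⟩, w, hwH, rfl⟩

theorem mem_seedCl_image (φ : G ≃g G) (k : ℕ) (x z : V) (T : Finset (Sym2 V)) :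
    φ z ∈ seedCl G k (φ x) (T.image (Sym2.map φ)) ↔ z ∈ seedCl G k x T := by
  unfold seedCl
  rw [Ek_image, ← Finset.image_union]
  exact Cn_image φ.injective (Ek G k x ∪ T) x z

theorem outJ_image (φ : G ≃g G) (k : ℕ) (x : V) (D : Finset V) (H J : Set V)
    (T : Finset (Sym2 V)) :
    outJ G k (φ x) (D.image φ) (φ '' H) (φ '' J) (T.image (Sym2.map φ)) =
      (outJ G k x D H J T).image φ := by
  ext z
  rw [mem_outJ, Finset.mem_image, Finset.mem_image]
  constructor
  · rintro ⟨⟨a, ha, rfl⟩, h2, h3, h4⟩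
    refine ⟨a, mem_outJ.2 ⟨ha, fun h => h2 ⟨a, h, rfl⟩, (mem_seedCl_image φ k x a T).1 h3, ?_⟩, rfl⟩
    obtain ⟨b, hb, hab⟩ := h4
    rwa [← φ.injective hab]
  · rintro ⟨a, ha, rfl⟩
    obtain ⟨h1, h2, h3, h4⟩ := mem_outJ.1 ha
    refine ⟨⟨a, h1, rfl⟩, ?_, (mem_seedCl_image φ k x a T).2 h3, ⟨a, h4, rfl⟩⟩
    rintro ⟨b, hb, hab⟩
    exact h2 (φ.injective hab ▸ hb)

/-- Translation of the probability in `Move`. -/
theorem Pr_outJ_image (φ : G ≃g G) (p : ℝ) (k N : ℕ) (x : V) (D : Finset V) (H J : Set V) :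
    Pr p (reg G (D.image φ) (φ '' H))
      (fun T => (outJ G k (φ x) (D.image φ) (φ '' H) (φ '' J) T).card < N) =
    Pr p (reg G D H) (fun T => (outJ G k x D H J T).card < N) := by
  unfold Pr
  rw [reg_image, Ex_image p _ (Sym2_map_inj φ.injective)]
  refine Ex_congr p fun T _ => ?_
  beta_reduce
  rw [outJ_image, Finset.card_image_of_injective _ φ.injective]

end aut

section pos

variable {V : Type} [DecidableEq V] {G : SimpleGraph V} [G.LocallyFinite]

theorem nm_nonneg (f : ℝ × ℝ) : 0 ≤ nm f := by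
  unfold nm; positivity

theorem dot_add_left (f g v : ℝ × ℝ) : dot (f + g) v = dot f v + dot g v := by
  unfold dot
  rw [Prod.fst_add, Prod.snd_add]
  ring

theorem dot_add_right (f v w : ℝ × ℝ) : dot f (v + w) = dot f v + dot f w := by
  unfold dot
  rw [Prod.fst_add, Prod.snd_add]
  ring

theorem dot_zero (f : ℝ × ℝ) : dot f 0 = 0 := by
  unfold dot
  simp

/-- Variation of a form along a walk. -/
theorem dot_walk (A : Act G) (f : ℝ × ℝ) {a b : V} (w : G.Walk a b) :
    |dot f (A.P a) - dot f (A.P b)| ≤ nm f * (A.C₀ * w.length) := by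
  induction w with
  | nil => simp
  | cons hadj q ih =>
    rename_i a b c
    have h1 := A.lip a b hadj
    have h2 : |dot f (A.P a) - dot f (A.P b)| ≤ nm f * A.C₀ := by
      have e : dot f (A.P a) - dot f (A.P b) = f.1 * ((A.P a).1 - (A.P b).1) +
          f.2 * ((A.P a).2 - (A.P b).2) := by
        unfold dot; ring
      rw [e]
      refine (abs_add_le _ _).trans ?_
      rw [abs_mul, abs_mul]
      unfold nm
      rw [add_mul]
      exact add_le_add (mul_le_mul_of_nonneg_left h1.1 (abs_nonneg _))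
        (mul_le_mul_of_nonneg_left h1.2 (abs_nonneg _))
    rw [SimpleGraph.Walk.length_cons]
    push_cast
    have h3 := abs_sub_le (dot f (A.P a)) (dot f (A.P b)) (dot f (A.P c))
    have h4 : nm f * (A.C₀ * ((q.length : ℝ) + 1)) = nm f * A.C₀ + nm f * (A.C₀ * q.length) := by
      ring
    rw [h4]
    linarith only [ih, h2, h3]

theorem dot_ball (A : Act G) (f : ℝ × ℝ) {a b : V} {n : ℕ} (h : a ∈ ballF G b n) :
    |dot f (A.P a) - dot f (A.P b)| ≤ nm f * (A.C₀ * n) := by
  obtain ⟨w, hw⟩ := dist_le_of_mem_ballF G b n a h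
  refine (dot_walk A f w).trans ?_
  have h1 : (w.length : ℝ) ≤ n := by exact_mod_cast hw
  have h2 := A.C₀_pos.le
  have h3 := nm_nonneg f
  gcongr

/-- The vertices of an escaping walk can escape. -/
theorem Esc_support (A : Act G) (K : Set ((ℝ × ℝ) × ℝ)) (C : ℝ) (n : ℕ) {v u : V}
    (w : G.Walk v u) (hw : w.length ≤ n) (hu : u ∈ Fk A K C) (hs : ∀ z ∈ w.support, z ∉ Wk A K) :
    ∀ a ∈ w.support, Esc A K C n a := by
  intro a ha
  refine ⟨u, w.dropUntil a ha, (w.length_dropUntil_le_length ha).trans hw, hu, ?_⟩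
  intro z hz
  exact hs z (w.support_dropUntil_subset_support ha hz)

/-- Vertices close to the far away region can escape. -/
theorem Esc_near (A : Act G) (K : Set ((ℝ × ℝ) × ℝ)) (C₁ C : ℝ) (n b : ℕ)
    (hP : PocketOK A C₁ C n) (hC : C₁ + A.C₀ * b ≤ C) {u v : V} (hu : u ∈ Fk A K C)
    (hv : v ∈ ballF G u b) : Esc A K C n v := by
  obtain ⟨c, hc, hcu⟩ := hu
  refine hP K v c hc ?_
  have h1 := (abs_le.1 (dot_ball A c.1 hv)).1
  have h2 : (C₁ + A.C₀ * b) * nm c.1 ≤ C * nm c.1 := mul_le_mul_of_nonneg_right hC (nm_nonneg _)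
  linarith

theorem Wk_subset_Hk (A : Act G) (K : Set ((ℝ × ℝ) × ℝ)) (C : ℝ) (n : ℕ) :
    Wk A K ⊆ Hk A K C n := by
  rintro v hv ⟨u, w, _, _, hs⟩
  exact hs v w.start_mem_support hv

/-- From a vertex outside `Hk` a short walk outside `Hk` leads to a point of the orbit whose ball is
outside `Hk`. -/
theorem exists_seed (A : Act G) (K : Set ((ℝ × ℝ) × ℝ)) (C₁ C : ℝ) (n k : ℕ)
    (hP : PocketOK A C₁ C n) (hC : C₁ + A.C₀ * ((A.D₀ + k : ℕ) : ℝ) ≤ C) {z : V}
    (hz : z ∉ Hk A K C n) :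
    ∃ φ ∈ A.Γ, ∃ w : G.Walk z (φ A.o), w.length ≤ n + A.D₀ ∧
      (∀ a ∈ w.support, a ∉ Hk A K C n) ∧ ∀ a ∈ ballF G (φ A.o) k, a ∉ Hk A K C n := by
  have hesc : Esc A K C n z := by
    by_contra h
    exact hz h
  obtain ⟨u, w, hw, hu, hs⟩ := hesc
  obtain ⟨φ, hφ, hd⟩ := A.dense u
  obtain ⟨w', hw'⟩ := (A.conn.preconnected u (φ A.o)).exists_walk_length_eq_dist
  have hw'D : w'.length ≤ A.D₀ := by omega
  refine ⟨φ, hφ, w.append w', ?_, ?_, ?_⟩
  · rw [SimpleGraph.Walk.length_append]; omega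
  · intro a ha
    rw [SimpleGraph.Walk.mem_support_append_iff] at ha
    rcases ha with ha | ha
    · exact fun h => h (Esc_support A K C n w hw hu hs a ha)
    · have h1 : a ∈ ballF G u (A.D₀ + k) :=
        ballF_mono G u (Nat.le_add_right _ _) (support_ball w' hw'D a ha)
      exact fun h => h (Esc_near A K C₁ C n (A.D₀ + k) hP hC hu h1)
  · intro a ha
    have h0 : φ A.o ∈ ballF G u A.D₀ := support_ball w' hw'D _ w'.end_mem_support
    have h1 : a ∈ ballF G u (A.D₀ + k) := by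
      rw [Nat.add_comm]
      exact ball_trans ha h0
    exact fun h => h (Esc_near A K C₁ C n (A.D₀ + k) hP hC hu h1)

end pos

end Vale.Agent.P151.Pl.ClB
end
end

section

/-!
# Cluster B: `ChainStmt`

Stage `i`: a seed `y` of the orbit with `l(y)` close to `i` and `|u(y) + σ| ≤ max 2 (24 - i)`
(approximately).  One move increases `l` by `1` and changes `u` by `-1` or `2`, at our choice.
-/

set_option autoImplicit false
set_option linter.unusedSectionVars false

noncomputable section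

namespace Vale.Agent.P151.Pl.ClB

open Vale.Agent.P151 Vale.Agent.P151.Red

variable {V : Type} [DecidableEq V] {G : SimpleGraph V} [G.LocallyFinite]

theorem err_nonneg' {ε₂ θ : ℝ} (h : 0 ≤ ε₂) (h' : 0 ≤ θ) (t : ℕ) : 0 ≤ err ε₂ θ t := by
  induction t with
  | zero => exact h
  | succ t ih =>
    show 0 ≤ ε₂ + θ + 3 * √(err ε₂ θ t)
    positivity

theorem err_le' (t : ℕ) : ∀ δ : ℝ, 0 < δ → ∃ c > 0, err c c t ≤ δ ∧ ∀ ε₂ θ : ℝ, ε₂ ≤ c → θ ≤ c →
    err ε₂ θ t ≤ δ := by
  induction t with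
  | zero =>
    intro δ hδ
    exact ⟨δ, hδ, le_refl δ, fun ε₂ θ h _ => h⟩
  | succ t ih =>
    intro δ hδ
    obtain ⟨c, hc, -, h⟩ := ih ((δ / 6) ^ 2) (by positivity)
    have key : ∀ ε₂ θ : ℝ, ε₂ ≤ min c (δ / 4) → θ ≤ min c (δ / 4) → err ε₂ θ (t + 1) ≤ δ := by
      intro ε₂ θ h1 h2
      have h3 := h ε₂ θ (h1.trans (min_le_left _ _)) (h2.trans (min_le_left _ _))
      have h4 : √(err ε₂ θ t) ≤ δ / 6 := by
        rw [← Real.sqrt_sq (show (0 : ℝ) ≤ δ / 6 by positivity)]
        exact Real.sqrt_le_sqrt h3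
      have h5 := h1.trans (min_le_right _ _)
      have h6 := h2.trans (min_le_right _ _)
      show ε₂ + θ + 3 * √(err ε₂ θ t) ≤ δ
      linarith only [h4, h5, h6]
    exact ⟨min c (δ / 4), lt_min hc (by positivity), key _ _ le_rfl le_rfl, key⟩

/-- The position of a seed at stage `i` of the chain. -/
def Pos (A : Act G) (l u : ℝ × ℝ) (σ : ℤ) (b : ℕ) (i : ℕ) (y : V) : Prop :=
  (∃ φ ∈ A.Γ, y = φ A.o) ∧ y ∈ ballF G A.o (i * b) ∧
    |dot l (A.P y) - i| ≤ i * (1 / 1000 : ℝ) ∧
    |dot u (A.P y) + σ| ≤ max 2 (24 - (i : ℝ)) + i * (1 / 2000 : ℝ)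

/-- The corridor contains the vertices whose coordinates are within `15.1` of those of the seed. -/
theorem cor_of_pos (A : Act G) (s t u : ℝ × ℝ) (hu : u = s ∨ u = t) (σ : ℤ) (b r' i : ℕ)
    (hi : i ≤ 184) {y : V} (hy : Pos A (s + t) u σ b i y) {v : V} (hv : v ∈ ballF G A.o r')
    (hs : |dot s (A.P v) - dot s (A.P y)| ≤ 151 / 10)
    (ht : |dot t (A.P v) - dot t (A.P y)| ≤ 151 / 10) : v ∈ Cor A (s + t) u σ r' := by
  classical
  obtain ⟨-, -, h1, h2⟩ := hy
  have hi' : (i : ℝ) ≤ 184 := by exact_mod_cast hi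
  have hi0 : (0 : ℝ) ≤ i := Nat.cast_nonneg i
  have hum : |dot u (A.P v) - dot u (A.P y)| ≤ 151 / 10 := by
    rcases hu with rfl | rfl
    · exact hs
    · exact ht
  have hl : |dot (s + t) (A.P v) - dot (s + t) (A.P y)| ≤ 302 / 10 := by
    rw [dot_add_left, dot_add_left]
    have := abs_add_le (dot s (A.P v) - dot s (A.P y)) (dot t (A.P v) - dot t (A.P y))
    have e : dot s (A.P v) + dot t (A.P v) - (dot s (A.P y) + dot t (A.P y)) =
      dot s (A.P v) - dot s (A.P y) + (dot t (A.P v) - dot t (A.P y)) := by ring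
    rw [e]
    linarith only [hs, ht, this]
  unfold Cor
  rw [Finset.mem_filter]
  rw [abs_le] at h1 hl
  have hU : |dot u (A.P v) + σ| ≤ |dot u (A.P y) + σ| + 151 / 10 := by
    have e : dot u (A.P v) + σ = (dot u (A.P y) + σ) + (dot u (A.P v) - dot u (A.P y)) := by ring
    rw [e]
    exact (abs_add_le _ _).trans (by linarith only [hum])
  have hmax : max 2 (24 - (i : ℝ)) ≤ 24 := max_le (by norm_num) (by linarith only [])
  refine ⟨hv, ?_, ?_, ?_, ?_⟩
  · linarith only [h2, hi', hU, hmax]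
  · linarith only [h1, hl]
  · linarith only [h1, hi', hl]
  · intro h60
    have hi29 : (22 : ℝ) ≤ i := by
      linarith only [h1, hl, h60]
    have hmax' : max 2 (24 - (i : ℝ)) ≤ 2 := max_le (by norm_num) (by linarith only [h1, hl, h60])
    linarith only [h2, hi', hU, hmax']

/-- Choice of the move. -/
theorem choose_move (A : Act G) (p η : ℝ) (k N : ℕ) (C : ℝ) (n : ℕ) (α : ℝ)
    (s t : ℝ × ℝ) (r : ℕ) (h1 : Move A p η k N C n α s t (2, -1) r)
    (h2 : Move A p η k N C n α s t (-1, 2) r) (u : ℝ × ℝ) (hu : u = s ∨ u = t) (c : ℝ)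
    (hc : c = -1 ∨ c = 2) :
    ∃ μ : ℝ × ℝ, Move A p η k N C n α s t μ r ∧
      ∀ v ∈ LA A s t μ α, |dot (s + t) (A.P v) - 1| ≤ 2 * α ∧ |dot u (A.P v) - c| ≤ α := by
  have key : ∀ (v : V) (a b : ℝ), a + b = 1 → |dot s (A.P v) - a| ≤ α → |dot t (A.P v) - b| ≤ α →
      |dot (s + t) (A.P v) - 1| ≤ 2 * α := by
    intro v a b hab ha hb
    rw [dot_add_left]
    have e : dot s (A.P v) + dot t (A.P v) - 1 = (dot s (A.P v) - a) + (dot t (A.P v) - b) := by
      linarith only [hab]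
    rw [e]
    exact (abs_add_le _ _).trans (by linarith)
  rcases hu with rfl | rfl <;> rcases hc with rfl | rfl
  · exact ⟨(-1, 2), h2, fun v hv => ⟨key v (-1) 2 (by norm_num) hv.1 hv.2, hv.1⟩⟩
  · exact ⟨(2, -1), h1, fun v hv => ⟨key v 2 (-1) (by norm_num) hv.1 hv.2, hv.1⟩⟩
  · exact ⟨(2, -1), h1, fun v hv => ⟨key v 2 (-1) (by norm_num) hv.1 hv.2, hv.2⟩⟩
  · exact ⟨(-1, 2), h2, fun v hv => ⟨key v (-1) 2 (by norm_num) hv.1 hv.2, hv.2⟩⟩

/-- Equivariance of the forms. -/
theorem dot_equi (A : Act G) (f : ℝ × ℝ) {φ : G ≃g G} (hφ : φ ∈ A.Γ) (v : V) :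
    dot f (A.P (φ v)) = dot f (A.P v) + dot f (A.P (φ A.o)) := by
  rw [A.equi φ hφ v, A.equi φ hφ A.o, A.P_o, zero_add, dot_add_right]

/-- Greedy rule for the lateral coordinate. -/
theorem lateral (i : ℕ) (X d c : ℝ) (hX : |X| ≤ max 2 (24 - (i : ℝ)) + i * (1 / 2000 : ℝ))
    (hc : c = if 0 ≤ X then -1 else 2) (hd : |d - c| ≤ 1 / 2000) :
    |X + d| ≤ max 2 (24 - ((i + 1 : ℕ) : ℝ)) + ((i + 1 : ℕ) : ℝ) * (1 / 2000 : ℝ) := by
  push_cast
  have hi0 : (0 : ℝ) ≤ i := Nat.cast_nonneg i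
  have h2 : (2 : ℝ) ≤ max 2 (24 - ((i : ℝ) + 1)) := le_max_left _ _
  have h3 : max 2 (24 - (i : ℝ)) - 1 ≤ max 2 (24 - ((i : ℝ) + 1)) := by
    rcases le_total (2 : ℝ) (24 - (i : ℝ)) with h | h
    · rw [max_eq_right h]
      refine le_trans (le_of_eq ?_) (le_max_right _ _)
      ring
    · rw [max_eq_left h]
      linarith only [h2]
  rw [abs_le] at hX hd ⊢
  split_ifs at hc with h0
  · subst hc
    constructor
    · linarith only [h2, h0, hd]
    · linarith [hd.2, hX.2]
  · subst hc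
    push Not at h0
    constructor
    · linarith only [hX, h3, hd]
    · linarith only [h2, hd, h0]

theorem map_support_mem (φ : G ≃g G) {a b : V} (w : G.Walk a b) {x : V}
    (hx : x ∈ (w.map φ.toHom).support) : ∃ y ∈ w.support, φ y = x := by
  rw [SimpleGraph.Walk.support_map, List.mem_map] at hx
  exact hx

theorem chain_stage (A : Act G) {q Q : ℝ} (hq : 0 < q) (hQ : Q < 1) (k n N b r : ℕ) (c C₁ C : ℝ)
    (hc : 0 < c) (hn : PocketOK A C₁ C n) (hC : C₁ + A.C₀ * ((A.D₀ + k : ℕ) : ℝ) ≤ C)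
    (hb : b = r + n + A.D₀ + k) (s t : ℝ × ℝ)
    (hsm : ∀ f : ℝ × ℝ, f = s ∨ f = t → ∀ m' : ℕ, m' ≤ n + A.D₀ + k →
      nm f * (A.C₀ * (m' : ℝ)) ≤ 1 / 4000)
    (p : ℝ) (hqp : q ≤ p) (hpQ : p ≤ Q)
    (hm1 : Move A p c k N C n (1 / 4000) s t (2, -1) r)
    (hm2 : Move A p c k N C n (1 / 4000) s t (-1, 2) r) (σ : ℤ) (u : ℝ × ℝ) (hu : u = s ∨ u = t)
    (F : Set V → Prop) (hF : ∀ B B' : Set V, B ⊆ B' → F B → F B')
    (hstep : ∀ (x : V) (D : Finset V) (H J : Set V) (Y : Finset V) (Efr : Finset (Sym2 V))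
      (η a : ℝ) (F : Set V → Prop), (∀ B B' : Set V, B ⊆ B' → F B → F B') → 0 ≤ a →
      (Ek G k x).card = (Ek G k A.o).card → (∀ y ∈ Y, (Ek G k y).card = (Ek G k A.o).card) →
      (∀ v ∈ ballF G x k, v ∈ D ∧ v ∈ H) →
      (∀ y ∈ Y, ∀ v ∈ ballF G y k, v ∉ H) →
      reg G D H ⊆ Efr → (∀ y ∈ Y, Ek G k y ⊆ Efr) →
      (∀ z ∈ D, z ∈ J → z ∉ H → ∃ y ∈ Y, ∃ w : G.Walk z y, w.length ≤ n + A.D₀ ∧
        (∀ u ∈ w.support, u ∉ H) ∧ ∀ e ∈ w.edges, e ∈ Efr) →
      Pr p (reg G D H) (fun T => (outJ G k x D H J T).card < N) ≤ η →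
      (∀ y ∈ Y, Fail G p Efr F k y ≤ a) →
      Fail G p Efr F k x ≤ η + c + 3 * √a)
    (i : ℕ) (hi : i + 1 ≤ 184) (a : ℝ) (ha : 0 ≤ a)
    (hnext : ∀ y, Pos A (s + t) u σ b (i + 1) y →
      Fail G p (edgesIn G (Cor A (s + t) u σ (185 * b))) F k y ≤ a)
    (y : V) (hy : Pos A (s + t) u σ b i y) :
    Fail G p (edgesIn G (Cor A (s + t) u σ (185 * b))) F k y ≤ c + c + 3 * √a := by
  classical
  set Cr := Cor A (s + t) u σ (185 * b) with hCr
  have hPos := hy
  obtain ⟨⟨φ, hφ, rfl⟩, hyb, hyl, hyu⟩ := hy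
  obtain ⟨μ, ⟨D, K, hkD, hkW, hDr, hD15, hPr⟩, hμ⟩ := choose_move A p c k N C n (1 / 4000) s t r
    hm1 hm2 u hu (if 0 ≤ dot u (A.P (φ A.o)) + σ then -1 else 2) (by split_ifs <;> simp)
  set H := Hk A K C n with hH
  set J := LA A s t μ (1 / 4000) with hJ
  set Y : Finset V := (ballF G A.o ((i + 1) * b)).filter
    (fun y' => Pos A (s + t) u σ b (i + 1) y' ∧ ∀ a ∈ ballF G y' k, a ∉ φ '' H) with hY
  have hmemY : ∀ y', y' ∈ Y ↔ y' ∈ ballF G A.o ((i + 1) * b) ∧ Pos A (s + t) u σ b (i + 1) y' ∧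
      ∀ a ∈ ballF G y' k, a ∉ φ '' H := by
    intro y'
    rw [hY, Finset.mem_filter]
  -- vertices near the seed are in the corridor
  have hcor : ∀ v₀ : V, v₀ ∈ ballF G A.o b → |dot s (A.P v₀)| ≤ 151 / 10 →
      |dot t (A.P v₀)| ≤ 151 / 10 → φ v₀ ∈ Cr := by
    intro v₀ h1 h2 h3
    refine cor_of_pos A s t u hu σ b (185 * b) i (by omega) hPos ?_ ?_ ?_
    · have h4 : φ v₀ ∈ ballF G (φ A.o) b := by
        rw [ballF_image]; exact Finset.mem_image_of_mem _ h1
      refine ballF_mono G A.o ?_ (ball_trans h4 hyb)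
      nlinarith only [hi]
    · rw [dot_equi A s hφ]
      have e : dot s (A.P v₀) + dot s (A.P (φ A.o)) - dot s (A.P (φ A.o)) = dot s (A.P v₀) := by
        ring
      rw [e]; exact h2
    · rw [dot_equi A t hφ]
      have e : dot t (A.P v₀) + dot t (A.P (φ A.o)) - dot t (A.P (φ A.o)) = dot t (A.P v₀) := by
        ring
      rw [e]; exact h3
  have hDCr : D.image φ ⊆ Cr := by
    intro v hv
    obtain ⟨v₀, hv₀, rfl⟩ := Finset.mem_image.1 hv
    refine hcor v₀ (ballF_mono G A.o (by omega) (hDr hv₀)) ?_ ?_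
    · linarith only [(hD15 v₀ hv₀).1]
    · linarith only [(hD15 v₀ hv₀).2]
  refine hstep (φ A.o) (D.image φ) (φ '' H) (φ '' J) Y (edgesIn G Cr) c a F hF ha
    (card_Ek_image φ k A.o) ?_ ?_ ?_ ?_ ?_ ?_ ?_ ?_
  · -- sizes
    intro y' hy'
    obtain ⟨⟨ψ, -, rfl⟩, -⟩ := ((hmemY y').1 hy').2.1
    exact card_Ek_image ψ k A.o
  · -- the ball of the seed
    intro v hv
    rw [ballF_image] at hv
    obtain ⟨v₀, hv₀, rfl⟩ := Finset.mem_image.1 hv
    exact ⟨Finset.mem_image_of_mem _ (hkD hv₀), v₀, Wk_subset_Hk A K C n (hkW v₀ hv₀), rfl⟩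
  · exact fun y' hy' => ((hmemY y').1 hy').2.2
  · -- `reg`
    intro e he
    exact edgesIn_mono G hDCr (mem_reg.1 he).1
  · -- the balls of `Y` are in the corridor
    intro y' hy'
    have hP' := ((hmemY y').1 hy').2.1
    have hb' := ((hmemY y').1 hy').1
    unfold Ek
    refine edgesIn_mono G ?_
    intro v hv
    refine cor_of_pos A s t u hu σ b (185 * b) (i + 1) hi hP' ?_ ?_ ?_
    · refine ballF_mono G A.o ?_ (ball_trans hv hb')
      have : (i + 1) * b ≤ 184 * b := Nat.mul_le_mul_right _ hi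
      omega
    · have h1 := dot_ball A s hv
      have h2 := hsm s (Or.inl rfl) k (by omega)
      linarith only [h1, h2]
    · have h1 := dot_ball A t hv
      have h2 := hsm t (Or.inr rfl) k (by omega)
      linarith only [h1, h2]
  · -- the walks
    intro z hzD hzJ hzH
    obtain ⟨z₀, hz₀D, rfl⟩ := Finset.mem_image.1 hzD
    have hz₀J : z₀ ∈ J := by
      obtain ⟨z₁, hz₁, heq⟩ := hzJ
      rwa [← φ.injective heq]
    have hz₀H : z₀ ∉ H := fun h => hzH ⟨z₀, h, rfl⟩
    obtain ⟨ψ, hψ, w, hw, hws, hwb⟩ := exists_seed A K C₁ C n k hn hC hz₀H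
    -- vertices of the walk
    have hnear : ∀ a ∈ w.support, a ∈ ballF G A.o b ∧ |dot s (A.P a)| ≤ 151 / 10 ∧
        |dot t (A.P a)| ≤ 151 / 10 := by
      intro a ha
      have h1 : a ∈ ballF G z₀ (n + A.D₀) := support_ball w hw a ha
      refine ⟨ballF_mono G A.o (by omega) (ball_trans h1 (hDr hz₀D)), ?_, ?_⟩
      · have h2 := dot_ball A s h1
        have h3 := hsm s (Or.inl rfl) (n + A.D₀) (by omega)
        have h4 := (hD15 z₀ hz₀D).1
        have h5 := abs_sub_abs_le_abs_sub (dot s (A.P a)) (dot s (A.P z₀))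
        linarith only [h2, h3, h4, h5]
      · have h2 := dot_ball A t h1
        have h3 := hsm t (Or.inr rfl) (n + A.D₀) (by omega)
        have h4 := (hD15 z₀ hz₀D).2
        have h5 := abs_sub_abs_le_abs_sub (dot t (A.P a)) (dot t (A.P z₀))
        linarith only [h2, h3, h4, h5]
    have hend : ψ A.o ∈ ballF G z₀ (n + A.D₀) := support_ball w hw _ w.end_mem_support
    have hds := (dot_ball A s hend).trans (hsm s (Or.inl rfl) (n + A.D₀) (by omega))
    have hdt := (dot_ball A t hend).trans (hsm t (Or.inr rfl) (n + A.D₀) (by omega))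
    have hdu : |dot u (A.P (ψ A.o)) - dot u (A.P z₀)| ≤ 1 / 4000 := by
      rcases hu with rfl | rfl
      · exact hds
      · exact hdt
    obtain ⟨hμl, hμu⟩ := hμ z₀ hz₀J
    have hy'b : φ (ψ A.o) ∈ ballF G A.o ((i + 1) * b) := by
      have h1 : ψ A.o ∈ ballF G A.o b :=
        ballF_mono G A.o (by omega) (ball_trans hend (hDr hz₀D))
      have h2 : φ (ψ A.o) ∈ ballF G (φ A.o) b := by
        rw [ballF_image]; exact Finset.mem_image_of_mem _ h1
      refine ballF_mono G A.o ?_ (ball_trans h2 hyb)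
      nlinarith only []
    refine ⟨φ (ψ A.o), (hmemY _).2 ⟨hy'b, ⟨⟨φ * ψ, A.Γ.mul_mem hφ hψ, rfl⟩, hy'b, ?_, ?_⟩, ?_⟩,
      w.map φ.toHom, ?_, ?_, ?_⟩
    · -- forward coordinate
      rw [dot_equi A (s + t) hφ]
      push_cast
      have e : dot (s + t) (A.P (ψ A.o)) + dot (s + t) (A.P (φ A.o)) - ((i : ℝ) + 1) =
          (dot (s + t) (A.P z₀) - 1) + (dot (s + t) (A.P (φ A.o)) - i) +
          ((dot s (A.P (ψ A.o)) - dot s (A.P z₀)) + (dot t (A.P (ψ A.o)) - dot t (A.P z₀))) := by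
        rw [dot_add_left, dot_add_left, dot_add_left]; ring
      rw [e]
      have h1 := abs_add_le ((dot (s + t) (A.P z₀) - 1) + (dot (s + t) (A.P (φ A.o)) - i))
        ((dot s (A.P (ψ A.o)) - dot s (A.P z₀)) + (dot t (A.P (ψ A.o)) - dot t (A.P z₀)))
      have h2 := abs_add_le (dot (s + t) (A.P z₀) - 1) (dot (s + t) (A.P (φ A.o)) - i)
      have h3 := abs_add_le (dot s (A.P (ψ A.o)) - dot s (A.P z₀))
        (dot t (A.P (ψ A.o)) - dot t (A.P z₀))
      linarith only [hyl, hds, hdt, hμl, h1, h2, h3]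
    · -- lateral coordinate
      rw [dot_equi A u hφ]
      have h1 : |dot u (A.P (ψ A.o)) - (if 0 ≤ dot u (A.P (φ A.o)) + σ then -1 else 2)| ≤
          1 / 2000 := by
        have e : dot u (A.P (ψ A.o)) - (if 0 ≤ dot u (A.P (φ A.o)) + σ then (-1 : ℝ) else 2) =
            (dot u (A.P (ψ A.o)) - dot u (A.P z₀)) +
            (dot u (A.P z₀) - (if 0 ≤ dot u (A.P (φ A.o)) + σ then (-1 : ℝ) else 2)) := by ring
        rw [e]
        exact (abs_add_le _ _).trans (by linarith only [hdu, hμu])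
      have h2 := lateral i (dot u (A.P (φ A.o)) + σ) (dot u (A.P (ψ A.o))) _ hyu rfl h1
      have e : dot u (A.P (ψ A.o)) + dot u (A.P (φ A.o)) + (σ : ℝ) =
          dot u (A.P (φ A.o)) + σ + dot u (A.P (ψ A.o)) := by ring
      rw [e]
      exact h2
    · -- the ball of the new seed
      intro a ha
      rw [ballF_image] at ha
      obtain ⟨a₀, ha₀, rfl⟩ := Finset.mem_image.1 ha
      rintro ⟨a₁, ha₁, heq⟩
      exact hwb a₀ ha₀ (φ.injective heq ▸ ha₁)
    · rw [SimpleGraph.Walk.length_map]; exact hw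
    · intro x hx
      obtain ⟨x₀, hx₀, rfl⟩ := map_support_mem φ w hx
      rintro ⟨a₁, ha₁, heq⟩
      exact hws x₀ hx₀ (φ.injective heq ▸ ha₁)
    · intro e he
      rw [mem_edgesIn]
      refine ⟨(w.map φ.toHom).edges_subset_edgeSet he, fun x hx => ?_⟩
      obtain ⟨x₀, hx₀, rfl⟩ := map_support_mem φ w (SimpleGraph.Walk.mem_support_of_mem_edges he hx)
      exact hcor x₀ (hnear x₀ hx₀).1 (hnear x₀ hx₀).2.1 (hnear x₀ hx₀).2.2
  · rw [Pr_outJ_image]; exact hPr
  · intro y' hy'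
    exact hnext y' ((hmemY y').1 hy').2.1

/-- `ChainStmt`. -/
theorem chainStmt (A : Act G) (q Q : ℝ) (hq : 0 < q) (hQ : Q < 1)
    (hpock : ∃ C₁ : ℝ, 0 < C₁ ∧ ∀ C : ℝ, ∃ n : ℕ, PocketOK A C₁ C n) : ChainStmt A q Q := by
  classical
  intro η₁ hη₁
  obtain ⟨c, hc, hcc, -⟩ := err_le' 184 η₁ hη₁
  refine ⟨c, hc, 1 / 4000, by norm_num, fun k => ?_⟩
  obtain ⟨C₁, hC₁, hpock⟩ := hpock
  obtain ⟨n, hn⟩ := hpock (C₁ + A.C₀ * ((A.D₀ + k : ℕ) : ℝ))
  set C := C₁ + A.C₀ * ((A.D₀ + k : ℕ) : ℝ) with hC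
  obtain ⟨N, hN⟩ := stepStmt G A.Δ q Q A.deg hq hQ k (n + A.D₀) (Ek G k A.o).card c hc
  have hC₀ := A.C₀_pos
  have hden : (0 : ℝ) < 4000 * (A.C₀ * ((n + A.D₀ + k : ℕ) : ℝ) + 1) := by (clear * - hC₀; positivity)
  refine ⟨N, C₁, C, n, hC₁, hn, 1 / (4000 * (A.C₀ * ((n + A.D₀ + k : ℕ) : ℝ) + 1)),
    by (clear * - hC₀; positivity), ?_⟩
  intro s t r hs ht
  set b := r + n + A.D₀ + k with hb
  refine ⟨185 * b, ?_⟩
  intro p hqp hpQ hm1 hm2 σ hσ u hu
  have h0 : 0 < p := lt_of_lt_of_le hq hqp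
  have h1 : p < 1 := lt_of_le_of_lt hpQ hQ
  have hsm : ∀ f : ℝ × ℝ, f = s ∨ f = t → ∀ m' : ℕ, m' ≤ n + A.D₀ + k →
      nm f * (A.C₀ * (m' : ℝ)) ≤ 1 / 4000 := by
    intro f hf m' hm'
    have hfe : nm f ≤ 1 / (4000 * (A.C₀ * ((n + A.D₀ + k : ℕ) : ℝ) + 1)) := by
      rcases hf with rfl | rfl
      · exact hs
      · exact ht
    have hm'' : (m' : ℝ) ≤ ((n + A.D₀ + k : ℕ) : ℝ) := by exact_mod_cast hm'
    have h2 : A.C₀ * (m' : ℝ) ≤ A.C₀ * ((n + A.D₀ + k : ℕ) : ℝ) + 1 := by
      have := mul_le_mul_of_nonneg_left hm'' hC₀.le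
      linarith only [this]
    have h3 : 0 ≤ A.C₀ * (m' : ℝ) := by (clear * - hC₀; positivity)
    calc nm f * (A.C₀ * (m' : ℝ))
        ≤ (1 / (4000 * (A.C₀ * ((n + A.D₀ + k : ℕ) : ℝ) + 1))) *
          (A.C₀ * ((n + A.D₀ + k : ℕ) : ℝ) + 1) :=
          mul_le_mul hfe h2 h3 (by (clear * - hC₀; positivity))
      _ = 1 / 4000 := by
          (clear * - hC₀; field_simp)
  set Cr := Cor A (s + t) u σ (185 * b) with hCr
  set F : Set V → Prop := fun B => ∃ v ∈ B, v ∈ Cr ∧ 183 ≤ dot (s + t) (A.P v) with hF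
  have hFm : ∀ B B' : Set V, B ⊆ B' → F B → F B' := by
    rintro B B' hBB ⟨v, hv, hv'⟩
    exact ⟨v, hBB hv, hv'⟩
  have main : ∀ j i : ℕ, i + j = 184 → ∀ y, Pos A (s + t) u σ b i y →
      Fail G p (edgesIn G Cr) F k y ≤ err c c j := by
    intro j
    induction j with
    | zero =>
      intro i hij y hy
      have hi : i = 184 := by omega
      subst hi
      have hyF : ∀ T : Finset (Sym2 V), F (seedCl G k y T) := by
        intro T
        refine ⟨y, mem_cluster_self _ y, ?_, ?_⟩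
        · refine cor_of_pos A s t u hu σ b (185 * b) 184 le_rfl hy ?_ (by (clear * -; norm_num)) (by norm_num)
          exact ballF_mono G A.o (by omega) hy.2.1
        · have := (abs_le.1 hy.2.2.1).1
          push_cast at this
          linarith only [this]
      have : Fail G p (edgesIn G Cr) F k y = 0 := by
        unfold Fail
        rw [← Pr_false' p (edgesIn G Cr \ Ek G k y)]
        refine Pr_congr fun T _ => ?_
        simp [hyF T]
      rw [this]
      exact hc.le
    | succ j ih =>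
      intro i hij y hy
      exact chain_stage A hq hQ k n N b r c C₁ C hc hn le_rfl hb s t hsm p hqp hpQ hm1 hm2 σ u hu F
        hFm (hN p hqp hpQ) i (by omega) (err c c j) (err_nonneg' hc.le hc.le j)
        (fun y' hy' => ih (i + 1) (by omega) y' hy') y hy
  have hPos0 : Pos A (s + t) u σ b 0 A.o := by
    refine ⟨⟨1, A.Γ.one_mem, rfl⟩, ?_, ?_, ?_⟩
    · rw [zero_mul]; exact mem_ballF_self G A.o 0
    · rw [A.P_o, dot_zero]; simp
    · rw [A.P_o, dot_zero]
      have : (|(σ : ℝ)|) ≤ 24 := by exact_mod_cast hσ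
      simp only [zero_add, Nat.cast_zero, sub_zero, zero_mul, add_zero]
      exact this.trans (le_max_right _ _)
  have hfin := (main 184 0 (by norm_num) A.o hPos0).trans hcc
  refine le_trans ?_ hfin
  unfold Fail
  refine Pr_anti_set h0.le h1.le Finset.sdiff_subset ?_
  intro T T' hTT h h'
  exact h (hFm _ _ (seedCl_mono hTT) h')

end Vale.Agent.P151.Pl.ClB
end
end

section

/-!
# Cluster C, basic facts: linear forms along walks, filled half planes, automorphisms, packings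
-/

set_option autoImplicit false
set_option linter.unusedSectionVars false

noncomputable section

namespace Vale.Agent.P151.Pl.C

open Vale.Agent.P151 Vale.Agent.P151.Red Vale.Agent.P151.Pl

theorem dot_add (f v w : ℝ × ℝ) : dot f (v + w) = dot f v + dot f w := by
  unfold dot
  rw [Prod.fst_add, Prod.snd_add]
  ring

theorem add_dot (f g v : ℝ × ℝ) : dot (f + g) v = dot f v + dot g v := by
  unfold dot
  rw [Prod.fst_add, Prod.snd_add]
  ring

theorem dot_zero (f : ℝ × ℝ) : dot f 0 = 0 := by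
  unfold dot
  rw [Prod.fst_zero, Prod.snd_zero]
  ring

theorem nm_nonneg (f : ℝ × ℝ) : 0 ≤ nm f := by
  unfold nm
  positivity

theorem nm_add_le (f g : ℝ × ℝ) : nm (f + g) ≤ nm f + nm g := by
  unfold nm
  rw [Prod.fst_add, Prod.snd_add]
  have h1 := abs_add_le f.1 g.1
  have h2 := abs_add_le f.2 g.2
  linarith

variable {V : Type} [DecidableEq V] {G : SimpleGraph V} [G.LocallyFinite]

theorem dot_adj (A : Act G) (f : ℝ × ℝ) {u v : V} (h : G.Adj u v) :
    |dot f (A.P u) - dot f (A.P v)| ≤ A.C₀ * nm f := by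
  obtain ⟨h1, h2⟩ := A.lip u v h
  have h3 : dot f (A.P u) - dot f (A.P v) =
      f.1 * ((A.P u).1 - (A.P v).1) + f.2 * ((A.P u).2 - (A.P v).2) := by
    unfold dot
    ring
  rw [h3]
  refine (abs_add_le _ _).trans ?_
  rw [abs_mul, abs_mul]
  unfold nm
  have h4 := mul_le_mul_of_nonneg_left h1 (abs_nonneg f.1)
  have h5 := mul_le_mul_of_nonneg_left h2 (abs_nonneg f.2)
  linarith only [h4, h5]

theorem dot_walk (A : Act G) (f : ℝ × ℝ) {u v : V} (w : G.Walk u v) :
    |dot f (A.P u) - dot f (A.P v)| ≤ A.C₀ * nm f * w.length := by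
  induction w with
  | nil =>
    rw [sub_self, abs_zero, SimpleGraph.Walk.length_nil]
    norm_num
  | @cons a b c h q ih =>
    rw [SimpleGraph.Walk.length_cons]
    have h1 := dot_adj A f h
    have h2 : dot f (A.P a) - dot f (A.P c) =
      (dot f (A.P a) - dot f (A.P b)) + (dot f (A.P b) - dot f (A.P c)) := by ring
    rw [h2]
    refine (abs_add_le _ _).trans ?_
    push_cast
    linarith only [ih, h1]

/-- Variation of a linear form between vertices at distance at most `k`. -/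
theorem dot_dist (A : Act G) (f : ℝ × ℝ) {u v : V} {k : ℕ} (h : G.dist u v ≤ k) :
    |dot f (A.P u) - dot f (A.P v)| ≤ A.C₀ * nm f * k := by
  obtain ⟨w, hw⟩ := A.conn.exists_walk_length_eq_dist u v
  refine (dot_walk A f w).trans ?_
  rw [hw]
  have h1 : 0 ≤ A.C₀ * nm f := mul_nonneg A.C₀_pos.le (nm_nonneg f)
  have h2 : ((G.dist u v : ℕ) : ℝ) ≤ k := by exact_mod_cast h
  exact mul_le_mul_of_nonneg_left h2 h1

theorem mem_ball (A : Act G) {x v : V} {k : ℕ} : v ∈ ballF G x k ↔ G.dist v x ≤ k :=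
  Vale.Agent.P151.mem_ballF_iff A.conn

theorem mem_Wk_hp {A : Act G} {l : ℝ × ℝ} {τ : ℝ} {v : V} :
    v ∈ Wk A (hp l τ) ↔ dot l (A.P v) ≤ τ := by
  unfold Wk hp
  simp only [Set.mem_singleton_iff, forall_eq, Set.mem_ofPred_eq]

theorem mem_Fk_hp {A : Act G} {l : ℝ × ℝ} {τ C : ℝ} {v : V} :
    v ∈ Fk A (hp l τ) C ↔ τ + C * nm l < dot l (A.P v) := by
  unfold Fk hp
  simp

theorem Wk_subset_Hk (A : Act G) (K : Set ((ℝ × ℝ) × ℝ)) (C : ℝ) (n : ℕ) :
    Wk A K ⊆ Hk A K C n := by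
  intro v hv hE
  obtain ⟨u, w, _, _, h⟩ := hE
  exact h v w.start_mem_support hv

/-- No vertex of an escape walk is in the filled region. -/
theorem support_not_Hk {A : Act G} {K : Set ((ℝ × ℝ) × ℝ)} {C : ℝ} {n : ℕ} {v u : V}
    (w : G.Walk v u) (hw : w.length ≤ n) (hu : u ∈ Fk A K C) (h : ∀ z ∈ w.support, z ∉ Wk A K) :
    ∀ z ∈ w.support, z ∉ Hk A K C n := by
  intro z hz hH
  apply hH
  refine ⟨u, w.dropUntil z hz, ?_, hu, fun y hy => h y (w.support_dropUntil_subset_support hz hy)⟩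
  exact (w.length_dropUntil_le_length hz).trans hw

theorem Hk_le {A : Act G} {C₁ C : ℝ} {n : ℕ} (hP : PocketOK A C₁ C n) {l : ℝ × ℝ} {τ : ℝ} {v : V}
    (hv : v ∈ Hk A (hp l τ) C n) : dot l (A.P v) ≤ τ + C₁ * nm l := by
  by_contra hc
  exact hv (hP (hp l τ) v (l, τ) rfl (not_le.1 hc))

/-! ### Automorphisms -/

theorem tau_eq (A : Act G) {φ : G ≃g G} (hφ : φ ∈ A.Γ) : A.τ φ = A.P (φ A.o) := by
  rw [A.equi φ hφ, A.P_o, zero_add]

theorem P_aut (A : Act G) {φ : G ≃g G} (hφ : φ ∈ A.Γ) (f : ℝ × ℝ) (v : V) :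
    dot f (A.P (φ v)) = dot f (A.P v) + dot f (A.P (φ A.o)) := by
  rw [A.equi φ hφ v, dot_add, tau_eq A hφ]

theorem P_inv (A : Act G) {φ : G ≃g G} (hφ : φ ∈ A.Γ) (f : ℝ × ℝ) :
    dot f (A.P (φ⁻¹ A.o)) = - dot f (A.P (φ A.o)) := by
  have h1 := P_aut A hφ f (φ⁻¹ A.o)
  have h2 : φ (φ⁻¹ A.o) = A.o := φ.apply_symm_apply A.o
  rw [h2, A.P_o, dot_zero] at h1
  linarith only [h1]

theorem esc_aut (A : Act G) {φ : G ≃g G} (hφ : φ ∈ A.Γ) {l : ℝ × ℝ} {τ C : ℝ} {n : ℕ} {v : V}
    (h : Esc A (hp l τ) C n v) : Esc A (hp l (τ + dot l (A.P (φ A.o)))) C n (φ v) := by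
  obtain ⟨u, w, hw, hu, hs⟩ := h
  refine ⟨φ u, w.map φ.toHom, ?_, ?_, ?_⟩
  · rw [SimpleGraph.Walk.length_map]
    exact hw
  · rw [mem_Fk_hp] at hu ⊢
    rw [P_aut A hφ l u]
    linarith only [hu]
  · intro z hz
    rw [SimpleGraph.Walk.support_map, List.mem_map] at hz
    obtain ⟨y, hy, rfl⟩ := hz
    have h1 := hs y hy
    rw [mem_Wk_hp] at h1 ⊢
    have h2 := P_aut A hφ l y
    have h3 : (φ.toHom y : V) = φ y := rfl
    rw [h3, h2]
    linarith only [h1]

theorem mem_Hk_aut (A : Act G) {φ : G ≃g G} (hφ : φ ∈ A.Γ) {l : ℝ × ℝ} {τ C : ℝ} {n : ℕ} {v : V} :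
    φ v ∈ Hk A (hp l (τ + dot l (A.P (φ A.o)))) C n ↔ v ∈ Hk A (hp l τ) C n := by
  constructor
  · intro h h1
    exact h (esc_aut A hφ h1)
  · intro h h1
    apply h
    have h2 := esc_aut A (A.Γ.inv_mem hφ) h1
    rw [P_inv A hφ, add_neg_cancel_right] at h2
    have h3 : φ⁻¹ (φ v) = v := φ.symm_apply_apply v
    rwa [h3] at h2

theorem ball_aut (A : Act G) (φ : G ≃g G) (x : V) (k : ℕ) :
    ballF G (φ x) k = (ballF G x k).image φ := by
  ext v
  rw [mem_ball A, Finset.mem_image]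
  constructor
  · intro h
    refine ⟨φ.symm v, ?_, φ.apply_symm_apply v⟩
    rw [mem_ball A, ← dist_aut A.conn φ, φ.apply_symm_apply]
    exact h
  · rintro ⟨u, hu, rfl⟩
    rw [dist_aut A.conn φ]
    exact (mem_ball A).1 hu

theorem map_inj (φ : G ≃g G) : Function.Injective (Sym2.map φ : Sym2 V → Sym2 V) :=
  Sym2.map.injective φ.injective

theorem edgesIn_aut (φ : G ≃g G) (D : Finset V) :
    edgesIn G (D.image φ) = (edgesIn G D).image (Sym2.map φ) := by
  ext e
  rw [Finset.mem_image]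
  constructor
  · intro h
    induction e with
    | _ a b =>
      rw [mk_mem_edgesIn] at h
      obtain ⟨hab, ha, hb⟩ := h
      obtain ⟨a', ha', rfl⟩ := Finset.mem_image.1 ha
      obtain ⟨b', hb', rfl⟩ := Finset.mem_image.1 hb
      refine ⟨s(a', b'), ?_, rfl⟩
      rw [mk_mem_edgesIn]
      exact ⟨φ.map_adj_iff.1 hab, ha', hb'⟩
  · rintro ⟨e', he', rfl⟩
    induction e' with
    | _ a b =>
      rw [mk_mem_edgesIn] at he'
      rw [Sym2.map_mk, mk_mem_edgesIn]
      exact ⟨φ.map_adj_iff.2 he'.1, Finset.mem_image_of_mem _ he'.2.1,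
        Finset.mem_image_of_mem _ he'.2.2⟩

theorem Ek_aut (A : Act G) (φ : G ≃g G) (k : ℕ) (x : V) :
    Ek G k (φ x) = (Ek G k x).image (Sym2.map φ) := by
  unfold Ek
  rw [ball_aut A, edgesIn_aut]

theorem card_Ek_aut (A : Act G) (φ : G ≃g G) (k : ℕ) (x : V) :
    (Ek G k (φ x)).card = (Ek G k x).card := by
  rw [Ek_aut A, Finset.card_image_of_injective _ (map_inj φ)]

theorem seedCl_aut (A : Act G) (φ : G ≃g G) (k : ℕ) (x v : V) (T : Finset (Sym2 V)) :
    φ v ∈ seedCl G k (φ x) (T.image (Sym2.map φ)) ↔ v ∈ seedCl G k x T := by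
  unfold seedCl
  rw [Ek_aut A, ← Finset.image_union]
  exact cluster_equiv φ.toEquiv (Ek G k x ∪ T) x v

theorem reg_aut (φ : G ≃g G) (D : Finset V) {H H' : Set V} (hH : ∀ v, φ v ∈ H' ↔ v ∈ H) :
    reg G (D.image φ) H' = (reg G D H).image (Sym2.map φ) := by
  classical
  ext e
  unfold reg
  rw [Finset.mem_filter, edgesIn_aut, Finset.mem_image, Finset.mem_image]
  constructor
  · rintro ⟨⟨e', he', rfl⟩, v, hv, hvH⟩
    refine ⟨e', ?_, rfl⟩
    rw [Finset.mem_filter]
    refine ⟨he', ?_⟩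
    rw [Sym2.mem_map] at hv
    obtain ⟨u, hu, rfl⟩ := hv
    exact ⟨u, hu, (hH u).1 hvH⟩
  · rintro ⟨e', he', rfl⟩
    rw [Finset.mem_filter] at he'
    obtain ⟨he', u, hu, huH⟩ := he'
    exact ⟨⟨e', he', rfl⟩, φ u, Sym2.mem_map.2 ⟨u, hu, rfl⟩, (hH u).2 huH⟩

theorem out_aut (A : Act G) (φ : G ≃g G) (k : ℕ) (x : V) (D : Finset V) {H H' : Set V}
    (hH : ∀ v, φ v ∈ H' ↔ v ∈ H) (T : Finset (Sym2 V)) :
    out G k (φ x) (D.image φ) H' (T.image (Sym2.map φ)) = (out G k x D H T).image φ := by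
  classical
  ext z
  unfold out
  rw [Finset.mem_filter, Finset.mem_image, Finset.mem_image]
  constructor
  · rintro ⟨⟨v, hv, rfl⟩, h1, h2⟩
    refine ⟨v, ?_, rfl⟩
    rw [Finset.mem_filter]
    exact ⟨hv, fun h => h1 ((hH v).2 h), (seedCl_aut A φ k x v T).1 h2⟩
  · rintro ⟨v, hv, rfl⟩
    rw [Finset.mem_filter] at hv
    exact ⟨⟨v, hv.1, rfl⟩, fun h => hv.2.1 ((hH v).1 h), (seedCl_aut A φ k x v T).2 hv.2.2⟩

theorem Pr_aut (φ : G ≃g G) (p : ℝ) (B : Finset (Sym2 V)) (Q : Finset (Sym2 V) → Prop) :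
    Pr p (B.image (Sym2.map φ)) Q = Pr p B (fun T => Q (T.image (Sym2.map φ))) :=
  Ex_image_inj (map_inj φ) p B _

/-- The translated corridor. -/
theorem goodOff_aut (A : Act G) {φ : G ≃g G} (hφ : φ ∈ A.Γ) {p η₁ : ℝ} {k N₀ : ℕ} {C : ℝ} {n : ℕ}
    {l u : ℝ × ℝ} {σ : ℤ} {r : ℕ} {τ : ℝ} (h : GoodOff A p η₁ k N₀ C n l u σ r τ) :
    Pr p (reg G ((Cor A l u σ r).image φ) (Hk A (hp l (τ + dot l (A.P (φ A.o)))) C n))
      (fun T => (out G k (φ A.o) ((Cor A l u σ r).image φ)
        (Hk A (hp l (τ + dot l (A.P (φ A.o)))) C n) T).card < N₀) ≤ 2 * η₁ := by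
  rw [reg_aut φ _ (fun v => mem_Hk_aut A hφ), Pr_aut]
  refine le_trans (le_of_eq ?_) h
  apply Pr_congr
  intro T _
  rw [out_aut A φ k A.o _ (fun v => mem_Hk_aut A hφ), Finset.card_image_of_injective _ φ.injective]

/-! ### Packings -/

/-- Pairwise disjoint balls. -/
def Pck (G : SimpleGraph V) [G.LocallyFinite] (k : ℕ) (X : Finset V) : Prop :=
  ∀ y ∈ X, ∀ z ∈ X, y ≠ z → Disjoint (ballF G y k) (ballF G z k)

open Classical in
theorem exists_packing (G : SimpleGraph V) [G.LocallyFinite] (k : ℕ) (Y : Finset V) :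
    ∃ X ⊆ Y, Pck G k X ∧ ∀ y ∈ Y, ∃ z ∈ X, ¬ Disjoint (ballF G y k) (ballF G z k) := by
  have hne : (Y.powerset.filter (Pck G k)).Nonempty := by
    refine ⟨∅, ?_⟩
    rw [Finset.mem_filter]
    exact ⟨Finset.empty_mem_powerset _, fun y hy => absurd hy (Finset.notMem_empty y)⟩
  obtain ⟨X, hX, hmax⟩ := Finset.exists_max_image _ Finset.card hne
  rw [Finset.mem_filter, Finset.mem_powerset] at hX
  refine ⟨X, hX.1, hX.2, ?_⟩
  intro y hy
  by_contra hc
  push Not at hc
  have hyX : y ∉ X := by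
    intro h
    have h1 := hc y h
    exact Finset.disjoint_left.1 h1 (mem_ballF_self G y k) (mem_ballF_self G y k)
  have h2 : insert y X ∈ Y.powerset.filter (Pck G k) := by
    rw [Finset.mem_filter, Finset.mem_powerset]
    refine ⟨Finset.insert_subset hy hX.1, ?_⟩
    intro a ha b hb hab
    rw [Finset.mem_insert] at ha hb
    rcases ha with rfl | ha
    · rcases hb with rfl | hb
      · exact absurd rfl hab
      · exact hc b hb
    · rcases hb with rfl | hb
      · exact (hc a ha).symm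
      · exact hX.2 a ha b hb hab
  have h3 := hmax _ h2
  rw [Finset.card_insert_of_notMem hyX] at h3
  omega

end Vale.Agent.P151.Pl.C
end
end

section

/-!
# Cluster C: the blocks of the exploration

Blocks = squares of side `j₀` in the coordinates `(s, t)`; `lin b` = coordinate growing in the
direction `b`.
-/

set_option autoImplicit false
set_option linter.unusedSectionVars false
set_option linter.dupNamespace false

noncomputable section

namespace Vale.Agent.P151.Pl.C

open Vale.Agent.P151 Vale.Agent.P151.Red Vale.Agent.P151.Pl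

/-- The parameters of the exploration. -/
structure Par where
  s : ℝ × ℝ
  t : ℝ × ℝ
  j₀ : ℝ
  B : ℝ
  C : ℝ
  C₁ : ℝ
  k : ℕ
  n : ℕ
  r : ℕ
  r₁ : ℕ

/-- The coordinate which grows in the direction `b`. -/
def lin (π : Par) (b : Bool) : ℝ × ℝ := if b then π.t else π.s

/-- The centre of the block `w`, coordinate `lin b`. -/
def cen (π : Par) (w : ℕ × ℕ) (b : Bool) : ℝ := π.j₀ * (if b then (w.2 : ℝ) else w.1)

/-- The level of a block. -/
def lev (w : ℕ × ℕ) : ℕ := w.1 + w.2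

theorem lev_nxt (w : ℕ × ℕ) (b : Bool) : lev (nxt w b) = lev w + 1 := by
  cases b <;> simp [lev, nxt] <;> omega

theorem dot_lin (π : Par) (b : Bool) (v : ℝ × ℝ) :
    dot (lin π b) v + dot (lin π (!b)) v = dot (π.s + π.t) v := by
  rw [add_dot]
  cases b
  · simp [lin]
  · simp [lin, add_comm]

theorem cen_add (π : Par) (w : ℕ × ℕ) (b : Bool) :
    cen π w b + cen π w (!b) = π.j₀ * (lev w : ℝ) := by
  unfold cen lev
  cases b <;> simp <;> ring

theorem cen_nxt_self (π : Par) (w : ℕ × ℕ) (b : Bool) :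
    cen π (nxt w b) b = cen π w b + π.j₀ := by
  unfold cen nxt
  cases b <;> simp <;> ring

theorem cen_nxt_not (π : Par) (w : ℕ × ℕ) (b : Bool) :
    cen π (nxt w b) (!b) = cen π w (!b) := by
  unfold cen nxt
  cases b <;> simp

variable {V : Type} [DecidableEq V] {G : SimpleGraph V} [G.LocallyFinite]

/-- The square of the block `w`. -/
def cell (A : Act G) (π : Par) (w : ℕ × ℕ) : Set V :=
  {v | ∀ b, cen π w b - π.j₀ / 2 ≤ dot (lin π b) (A.P v) ∧
    dot (lin π b) (A.P v) < cen π w b + π.j₀ / 2}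

theorem cell_disj {A : Act G} {π : Par} (hj : 0 < π.j₀) {w w' : ℕ × ℕ} (h : w ≠ w') {v : V}
    (hv : v ∈ cell A π w) (hv' : v ∈ cell A π w') : False := by
  apply h
  have key : ∀ (a b : ℕ) (x : ℝ), π.j₀ * a - π.j₀ / 2 ≤ x → x < π.j₀ * a + π.j₀ / 2 →
      π.j₀ * b - π.j₀ / 2 ≤ x → x < π.j₀ * b + π.j₀ / 2 → a = b := by
    intro a b x h1 h2 h3 h4
    by_contra hab
    rcases lt_or_gt_of_ne hab with h5 | h5
    · have h6 : (a : ℝ) + 1 ≤ b := by exact_mod_cast h5
      nlinarith only [h2, h3, hj, h6]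
    · have h6 : (b : ℝ) + 1 ≤ a := by exact_mod_cast h5
      nlinarith only [h1, h4, hj, h6]
  have e1 := hv false
  have e1' := hv' false
  have e2 := hv true
  have e2' := hv' true
  unfold cen at e1 e1' e2 e2'
  simp only [Bool.false_eq_true, if_false, if_true] at e1 e1' e2 e2'
  exact Prod.ext (key _ _ _ e1.1 e1.2 e1'.1 e1'.2) (key _ _ _ e2.1 e2.2 e2'.1 e2'.2)

open Classical in
/-- The edges of the block `w`. -/
def EE (A : Act G) (π : Par) (w : ℕ × ℕ) : Finset (Sym2 V) :=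
  (edgesIn G (ballF G A.o (π.r₁ * (lev w + 1)))).filter (fun e => (Quot.out e).1 ∈ cell A π w)

theorem mem_EE {A : Act G} {π : Par} {w : ℕ × ℕ} {e : Sym2 V} :
    e ∈ EE A π w ↔ (e ∈ G.edgeSet ∧ ∀ v ∈ e, G.dist v A.o ≤ π.r₁ * (lev w + 1)) ∧
      (Quot.out e).1 ∈ cell A π w := by
  classical
  unfold EE
  rw [Finset.mem_filter, mem_edgesIn]
  simp only [mem_ball A]

theorem out_mem (e : Sym2 V) : (Quot.out e).1 ∈ e := Sym2.out_fst_mem e

theorem EE_disj {A : Act G} {π : Par} (hj : 0 < π.j₀) {w w' : ℕ × ℕ} (h : w ≠ w') :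
    Disjoint (EE A π w) (EE A π w') := by
  rw [Finset.disjoint_left]
  intro e he he'
  exact cell_disj hj h (mem_EE.1 he).2 (mem_EE.1 he').2

/-- A possible centre of a seed of the block `w`. -/
structure St (A : Act G) (π : Par) (w : ℕ × ℕ) (x : V) : Prop where
  ex : ∃ φ ∈ A.Γ, φ A.o = x
  zone : ∀ b, |dot (lin π b) (A.P x) - cen π w b| ≤ 22
  lo : π.j₀ * (lev w : ℝ) ≤ dot (π.s + π.t) (A.P x)
  hi : dot (π.s + π.t) (A.P x) ≤ π.j₀ * (lev w : ℝ) + π.B * nm (π.s + π.t)
  dist : G.dist x A.o ≤ π.r₁ * lev w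

/-- The line before the seeds of the block `w`. -/
def HH (A : Act G) (π : Par) (j : ℕ) : Set V := Hk A (hp (π.s + π.t) (π.j₀ * (j : ℝ))) π.C π.n

open Classical in
/-- The possible seeds of the block `w`. -/
def Cand (A : Act G) (π : Par) (w : ℕ × ℕ) : Finset V :=
  (ballF G A.o (π.r₁ * lev w)).filter (fun x => St A π w x ∧
    ∀ v ∈ ballF G x π.k, v ∉ HH A π (lev w))

theorem mem_Cand {A : Act G} {π : Par} {w : ℕ × ℕ} {x : V} :
    x ∈ Cand A π w ↔ St A π w x ∧ ∀ v ∈ ballF G x π.k, v ∉ HH A π (lev w) := by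
  classical
  unfold Cand
  rw [Finset.mem_filter]
  constructor
  · exact fun h => h.2
  · intro h
    exact ⟨(mem_ball A).2 h.1.dist, h⟩

/-- The seeds of the block `w`. -/
def XX (A : Act G) (π : Par) (w : ℕ × ℕ) : Finset V :=
  (exists_packing G π.k (Cand A π w)).choose

theorem XX_subset {A : Act G} {π : Par} {w : ℕ × ℕ} : XX A π w ⊆ Cand A π w :=
  (exists_packing G π.k (Cand A π w)).choose_spec.1

theorem XX_pck {A : Act G} {π : Par} {w : ℕ × ℕ} : Pck G π.k (XX A π w) :=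
  (exists_packing G π.k (Cand A π w)).choose_spec.2.1

theorem XX_max {A : Act G} {π : Par} {w : ℕ × ℕ} {y : V} (hy : y ∈ Cand A π w) :
    ∃ z ∈ XX A π w, ¬ Disjoint (ballF G y π.k) (ballF G z π.k) :=
  (exists_packing G π.k (Cand A π w)).choose_spec.2.2 y hy

theorem ball_conn (G : SimpleGraph V) [G.LocallyFinite] (k : ℕ) : ∀ (x z : V) (q : G.Walk z x),
    q.length ≤ k → z ∈ cluster (↑(Ek G k x) : Set (Sym2 V)) x := by
  intro x z q
  induction q with
  | nil => intro _; exact mem_cluster_self _ _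
  | @cons a b c hab q ih =>
    intro hq
    rw [SimpleGraph.Walk.length_cons] at hq
    refine mem_cluster_trans (ih (by omega)) (mem_cluster_of_edge ?_)
    rw [Finset.mem_coe]
    unfold Ek
    rw [mk_mem_edgesIn]
    exact ⟨hab.symm, mem_ballF_of_walk G _ _ _ q (by omega),
      mem_ballF_of_walk G _ _ _ (SimpleGraph.Walk.cons hab q)
        (by rw [SimpleGraph.Walk.length_cons]; omega)⟩

/-- The data of the exploration. -/
def bd (A : Act G) (π : Par) (M : ℕ) : BD V V where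
  o := A.o
  E w := EE A π w
  X w _ := XX A π w
  Eb x := Ek G π.k x
  bx x := ↑(ballF G x π.k)
  rp x := x
  N := (Ek G π.k A.o).card
  M := M

/-- The conditions on the parameters. -/
structure Par.Ok (A : Act G) (π : Par) : Prop where
  j_lo : 180 ≤ π.j₀
  j_hi : π.j₀ ≤ 181
  C₁_pos : 0 < π.C₁
  pocket : PocketOK A π.C₁ π.C π.n
  hC : π.C₁ + A.C₀ * (π.k + A.D₀) ≤ π.C
  hB : π.C₁ + A.C₀ * (1 + π.n + A.D₀) ≤ π.B
  small : ∀ b, A.C₀ * nm (lin π b) * (π.n + A.D₀ + π.k + 1 : ℕ) ≤ 1 / 4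
  smallB : π.B * nm (π.s + π.t) ≤ 1 / 4
  hr₁ : π.r₁ = π.r + (π.n + A.D₀ + π.k)
  hkr : π.k ≤ π.r

theorem nm_st (π : Par) : nm (π.s + π.t) ≤ nm (lin π false) + nm (lin π true) := by
  have h := nm_add_le π.s π.t
  simpa only [lin, Bool.false_eq_true, ↓reduceIte, ge_iff_le] using h

theorem var_lin {A : Act G} {π : Par} (h : π.Ok A) (b : Bool) {u v : V} {d : ℕ}
    (hd : d ≤ π.n + A.D₀ + π.k + 1) (huv : G.dist u v ≤ d) :
    |dot (lin π b) (A.P u) - dot (lin π b) (A.P v)| ≤ 1 / 4 := by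
  refine (dot_dist A _ (huv.trans hd)).trans (h.small b)

theorem var_l {A : Act G} {π : Par} (h : π.Ok A) {u v : V} {d : ℕ}
    (hd : d ≤ π.n + A.D₀ + π.k + 1) (huv : G.dist u v ≤ d) :
    |dot (π.s + π.t) (A.P u) - dot (π.s + π.t) (A.P v)| ≤ 1 / 2 := by
  rw [← dot_lin π false, ← dot_lin π false]
  have h1 := abs_le.1 (var_lin h false hd huv)
  have h2 := abs_le.1 (var_lin h (!false) hd huv)
  rw [abs_le]
  constructor <;> linarith only [h1, h2]

theorem seed_subset {A : Act G} {π : Par} (h : π.Ok A) {w : ℕ × ℕ} {x : V} (hx : St A π w x) :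
    Ek G π.k x ⊆ EE A π w := by
  intro e he
  unfold Ek at he
  rw [mem_edgesIn] at he
  rw [mem_EE]
  refine ⟨⟨he.1, fun v hv => ?_⟩, ?_⟩
  · have h1 := (mem_ball A).1 (he.2 v hv)
    have h2 := hx.dist
    have h3 := A.conn.dist_triangle (u := v) (v := x) (w := A.o)
    have h4 := h.hr₁
    calc G.dist v A.o ≤ G.dist v x + G.dist x A.o := h3
      _ ≤ π.r₁ + π.r₁ * lev w := by omega
      _ = π.r₁ * (lev w + 1) := by ring
  · intro b
    have h1 := (mem_ball A).1 (he.2 _ (out_mem e))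
    have h2 := abs_le.1 (var_lin h b (by omega) h1)
    have h3 := abs_le.1 (hx.zone b)
    have h4 := h.j_lo
    constructor <;> linarith only [h2, h3, h4]

theorem ok_bd {A : Act G} {π : Par} (h : π.Ok A) {M : ℕ} (hM : 0 < M) : (bd A π M).Ok where
  M_pos := hM
  disjoint u v huv := EE_disj (by linarith only [h.j_lo]) huv
  seed_subset w a x hx := seed_subset h (mem_Cand.1 (XX_subset hx)).1
  seed_disjoint w a x hx y hy hxy := by
    have h1 := XX_pck x hx y hy hxy
    rw [Finset.disjoint_left]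
    intro e he he'
    have he1 : e ∈ Ek G π.k x := he
    have he2 : e ∈ Ek G π.k y := he'
    unfold Ek at he1 he2
    rw [mem_edgesIn] at he1 he2
    exact Finset.disjoint_left.1 h1 (he1.2 _ (out_mem e)) (he2.2 _ (out_mem e))
  seed_card w a x hx := by
    obtain ⟨φ, _, rfl⟩ := (mem_Cand.1 (XX_subset hx)).1.ex
    exact card_Ek_aut A φ π.k A.o
  seed_conn w a x hx v hv := by
    have h1 : v ∈ ballF G x π.k := hv
    obtain ⟨w', hw'⟩ := dist_le_of_mem_ballF G x π.k v h1
    exact ball_conn G π.k x v w' hw'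

end Vale.Agent.P151.Pl.C
end
end

section

/-!
# Cluster C: steering from a seed of a block to the seeds of the next block
-/

set_option autoImplicit false
set_option linter.unusedSectionVars false

noncomputable section

namespace Vale.Agent.P151.Pl.C

open Vale.Agent.P151 Vale.Agent.P151.Red Vale.Agent.P151.Pl

variable {V : Type} [DecidableEq V] {G : SimpleGraph V} [G.LocallyFinite]

/-- The vertex `v` is in the corridor between the blocks `w` and `nxt w b`. -/
def Nr (A : Act G) (π : Par) (w : ℕ × ℕ) (b : Bool) (v : V) : Prop :=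
  |dot (lin π (!b)) (A.P v) - cen π w (!b)| ≤ 41 ∧
    -32 ≤ dot (π.s + π.t) (A.P v) - π.j₀ * (lev w : ℝ) ∧
    dot (π.s + π.t) (A.P v) - π.j₀ * (lev w : ℝ) ≤ 221

theorem cell_of {A : Act G} {π : Par} {w : ℕ × ℕ} {v : V} (b : Bool)
    (h1 : cen π w b - π.j₀ / 2 ≤ dot (lin π b) (A.P v) ∧
      dot (lin π b) (A.P v) < cen π w b + π.j₀ / 2)
    (h2 : cen π w (!b) - π.j₀ / 2 ≤ dot (lin π (!b)) (A.P v) ∧
      dot (lin π (!b)) (A.P v) < cen π w (!b) + π.j₀ / 2) : v ∈ cell A π w := by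
  intro b'
  cases b <;> cases b'
  · exact h1
  · exact h2
  · exact h2
  · exact h1

theorem cells_of_Nr {A : Act G} {π : Par} (h : π.Ok A) {w : ℕ × ℕ} {b : Bool} {v : V}
    (hv : Nr A π w b v) : v ∈ cell A π w ∨ v ∈ cell A π (nxt w b) := by
  obtain ⟨h1, h2, h3⟩ := hv
  have h1' := abs_le.1 h1
  have h4 := dot_lin π b (A.P v)
  have h5 := cen_add π w b
  have h6 := h.j_lo
  by_cases hc : dot (lin π b) (A.P v) < cen π w b + π.j₀ / 2
  · left
    refine cell_of b ⟨?_, hc⟩ ⟨?_, ?_⟩ <;> linarith only [h1', h6, h2, h4, h5]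
  · right
    push Not at hc
    apply cell_of b
    · rw [cen_nxt_self]
      constructor <;> linarith only [h3, h1', h4, h5, h6, hc]
    · rw [cen_nxt_not]
      constructor <;> linarith only [h1', h6]

theorem edge_mem {A : Act G} {π : Par} (h : π.Ok A) {w : ℕ × ℕ} {b : Bool} {e : Sym2 V}
    (he : e ∈ G.edgeSet) (hd : ∀ v ∈ e, G.dist v A.o ≤ π.r₁ * (lev w + 1))
    (hN : Nr A π w b (Quot.out e).1) : e ∈ EE A π w ∪ EE A π (nxt w b) := by
  rw [Finset.mem_union, mem_EE, mem_EE]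
  rcases cells_of_Nr h hN with hc | hc
  · exact Or.inl ⟨⟨he, hd⟩, hc⟩
  · right
    refine ⟨⟨he, fun v hv => (hd v hv).trans ?_⟩, hc⟩
    rw [lev_nxt]
    exact Nat.mul_le_mul_left _ (Nat.le_succ _)

theorem dist_support {z v : V} (q : G.Walk z v) {u : V} (hu : u ∈ q.support) :
    G.dist z u ≤ q.length :=
  (SimpleGraph.dist_le (q.takeUntil u hu)).trans (q.length_takeUntil_le_length hu)

/-- From a contact with the line there is a short walk to a seed of the next block. -/
theorem contact {A : Act G} {π : Par} (h : π.Ok A) {w : ℕ × ℕ} {b : Bool} {z y : V}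
    (hz1 : |dot (lin π (!b)) (A.P z) - cen π w (!b)| ≤ 41 / 2)
    (hzd : G.dist z A.o ≤ π.r₁ * lev w + π.r) (hz : z ∉ HH A π (lev w + 1))
    (hy : y ∈ HH A π (lev w + 1)) (hyz : G.Adj y z) :
    ∃ (v : V) (q : G.Walk z v), q.length ≤ π.n + A.D₀ + π.k ∧
      (∀ u ∈ q.support, u ∉ HH A π (lev w + 1)) ∧ ∃ y' ∈ XX A π (nxt w b), v ∈ ballF G y' π.k := by
  have hτ : ((lev w + 1 : ℕ) : ℝ) = (lev w : ℝ) + 1 := by push_cast; ring
  set τ : ℝ := π.j₀ * ((lev w + 1 : ℕ) : ℝ) with hτdef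
  have hzlo : τ < dot (π.s + π.t) (A.P z) := by
    by_contra hc
    exact hz (Wk_subset_Hk A _ _ _ (mem_Wk_hp.2 (not_lt.1 hc)))
  have hzhi : dot (π.s + π.t) (A.P z) ≤ τ + (π.C₁ + A.C₀) * nm (π.s + π.t) := by
    have h1 := Hk_le h.pocket hy
    have h2 := abs_le.1 (dot_adj A (π.s + π.t) hyz)
    linarith only [h1, h2]
  have hE : Esc A (hp (π.s + π.t) τ) π.C π.n z := not_not.1 hz
  obtain ⟨u, w₁, hw₁, hu, hs⟩ := hE
  obtain ⟨φ, hφ, hd⟩ := A.dense u
  obtain ⟨w₂, hw₂⟩ := A.conn.exists_walk_length_eq_dist u (φ A.o)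
  have hu' := mem_Fk_hp.1 hu
  have hfar : ∀ v, G.dist u v ≤ A.D₀ + π.k → v ∉ HH A π (lev w + 1) := by
    intro v hv hH
    have h1 := Hk_le h.pocket hH
    have h2 := abs_le.1 (dot_dist A (π.s + π.t) hv)
    have h3 := mul_le_mul_of_nonneg_right h.hC (nm_nonneg (π.s + π.t))
    push_cast at h2
    linarith only [hu', h1, h3, h2]
  have hzc : G.dist z (φ A.o) ≤ π.n + A.D₀ := by
    have h1 := A.conn.dist_triangle (u := z) (v := u) (w := φ A.o)
    have h2 := SimpleGraph.dist_le w₁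
    omega
  have hc : φ A.o ∈ Cand A π (nxt w b) := by
    rw [mem_Cand, lev_nxt]
    have hball : ∀ v ∈ ballF G (φ A.o) π.k, v ∉ HH A π (lev w + 1) := by
      intro v hv
      apply hfar
      have h1 := (mem_ball A).1 hv
      rw [SimpleGraph.dist_comm] at h1
      have h2 := A.conn.dist_triangle (u := u) (v := φ A.o) (w := v)
      omega
    refine ⟨?_, hball⟩
    have hlo : τ < dot (π.s + π.t) (A.P (φ A.o)) := by
      by_contra hcon
      exact hball _ (mem_ballF_self G _ _) (Wk_subset_Hk A _ _ _ (mem_Wk_hp.2 (not_lt.1 hcon)))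
    have hhi : dot (π.s + π.t) (A.P (φ A.o)) ≤ τ + π.B * nm (π.s + π.t) := by
      have h2 := abs_le.1 (dot_dist A (π.s + π.t) hzc)
      have h3 := mul_le_mul_of_nonneg_right h.hB (nm_nonneg (π.s + π.t))
      push_cast at h2
      linarith only [hzhi, h3, h2]
    have hlat := abs_le.1 (var_lin h (!b) (by omega) hzc)
    have hz1' := abs_le.1 hz1
    have hsB := h.smallB
    have hlat2 : |dot (lin π (!b)) (A.P (φ A.o)) - cen π w (!b)| ≤ 21 := by
      rw [abs_le]
      constructor <;> linarith only [hlat, hz1']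
    have hlat2' := abs_le.1 hlat2
    have hsum := dot_lin π b (A.P (φ A.o))
    have hcen := cen_add π w b
    have hfor : |dot (lin π b) (A.P (φ A.o)) - cen π (nxt w b) b| ≤ 22 := by
      rw [cen_nxt_self, abs_le]
      rw [hτdef, hτ] at hlo hhi
      constructor <;> linarith only [hhi, hlat, hz1', hsB, hsum, hcen, hlo]
    refine ⟨⟨φ, hφ, rfl⟩, ?_, ?_, ?_, ?_⟩
    · intro b'
      by_cases hb : b' = b
      · rw [hb]
        exact hfor
      · have hb' : b' = !b := by cases b <;> cases b' <;> simp_all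
        rw [hb', cen_nxt_not]
        linarith only [hlat2]
    · rw [lev_nxt]
      exact hlo.le
    · rw [lev_nxt]
      exact hhi
    · rw [lev_nxt]
      have h1 := A.conn.dist_triangle (u := φ A.o) (v := z) (w := A.o)
      rw [SimpleGraph.dist_comm] at hzc
      have h2 := h.hr₁
      calc G.dist (φ A.o) A.o ≤ π.r₁ + π.r₁ * lev w := by omega
        _ = π.r₁ * (lev w + 1) := by ring
  obtain ⟨y', hy', hnd⟩ := XX_max hc
  rw [Finset.not_disjoint_iff] at hnd
  obtain ⟨v, hv, hv'⟩ := hnd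
  obtain ⟨w₃, hw₃⟩ := dist_le_of_mem_ballF G _ _ _ hv
  refine ⟨v, w₁.append (w₂.append w₃.reverse), ?_, ?_, y', hy', hv'⟩
  · rw [SimpleGraph.Walk.length_append, SimpleGraph.Walk.length_append,
      SimpleGraph.Walk.length_reverse]
    omega
  · intro x hx
    rw [SimpleGraph.Walk.mem_support_append_iff, SimpleGraph.Walk.mem_support_append_iff] at hx
    rcases hx with hx | hx | hx
    · exact support_not_Hk w₁ hw₁ hu hs x hx
    · apply hfar
      have h1 := dist_support w₂ hx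
      omega
    · apply hfar
      have h1 := dist_support w₃.reverse hx
      rw [SimpleGraph.Walk.length_reverse] at h1
      have h2 := A.conn.dist_triangle (u := u) (v := φ A.o) (w := x)
      omega

open Classical in
/-- The conclusion of the packing statement for fixed parameters. -/
def ReachC (G : SimpleGraph V) [G.LocallyFinite] (p δ : ℝ) (k M ℓ N : ℕ) : Prop :=
    ∀ (x : V) (D : Finset V) (H J : Set V) (X : Finset V) (Efr : Finset (Sym2 V)) (η : ℝ),
      (∀ v ∈ ballF G x k, v ∈ D ∧ v ∈ H) →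
      (∀ y ∈ X, ∀ v ∈ ballF G y k, v ∉ H) →
      (∀ y ∈ X, ∀ z ∈ X, y ≠ z → Disjoint (ballF G y k) (ballF G z k)) →
      reg G D H ⊆ Efr →
      (∀ z ∈ D, z ∈ J → z ∉ H → ∃ (v : V) (w : G.Walk z v), w.length ≤ ℓ ∧
        (∀ u ∈ w.support, u ∉ H) ∧ (∀ e ∈ w.edges, (∀ y ∈ X, e ∉ Ek G k y) → e ∈ Efr) ∧
        ∃ y ∈ X, v ∈ ballF G y k) →
      Pr p (reg G D H) (fun T => (outJ G k x D H J T).card < N) ≤ η →
      Pr p (Efr \ Ek G k x) (fun T => (X.filter (fun y => ∃ v ∈ ballF G y k,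
        v ∈ seedCl G k x (T ∩ ((Efr \ Ek G k x) \ X.biUnion (Ek G k))))).card < M) ≤ η + δ

/-- The contacts are adjacent to the filled region. -/
theorem out_adj {k : ℕ} {x : V} {D : Finset V} {H : Set V} (hball : ∀ v ∈ ballF G x k, v ∈ H)
    {T : Finset (Sym2 V)} (hT : T ⊆ reg G D H) {z : V} (hz : z ∈ out G k x D H T) :
    ∃ y ∈ H, G.Adj y z := by
  classical
  unfold out at hz
  rw [Finset.mem_filter] at hz
  obtain ⟨_, hzH, hzc⟩ := hz
  have hzc' := mem_cluster_symm hzc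
  obtain ⟨q⟩ := hzc'
  cases q with
  | nil => exact absurd (hball _ (mem_ballF_self G _ _)) hzH
  | @cons _ y _ hzy _ =>
    rw [SimpleGraph.fromEdgeSet_adj] at hzy
    obtain ⟨he, _⟩ := hzy
    rw [Finset.mem_coe, Finset.mem_union] at he
    rcases he with he | he
    · unfold Ek at he
      rw [mk_mem_edgesIn] at he
      exact absurd (hball _ he.2.1) hzH
    · have he2 := hT he
      unfold reg at he2
      rw [Finset.mem_filter, mk_mem_edgesIn] at he2
      obtain ⟨⟨hadj, _, _⟩, v, hv, hvH⟩ := he2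
      rw [Sym2.mem_iff] at hv
      rcases hv with rfl | rfl
      · exact absurd hvH hzH
      · exact ⟨v, hvH, hadj.symm⟩

theorem dot_small {A : Act G} {π : Par} (h : π.Ok A) {v : V} (hv : v ∈ ballF G A.o π.k) :
    (∀ b, |dot (lin π b) (A.P v)| ≤ 1 / 4) ∧ |dot (π.s + π.t) (A.P v)| ≤ 1 / 2 := by
  have h1 := (mem_ball A).1 hv
  constructor
  · intro b
    have h2 := var_lin h b (by omega) h1
    rwa [A.P_o, dot_zero, sub_zero] at h2
  · have h2 := var_l h (by omega) h1
    rwa [A.P_o, dot_zero, sub_zero] at h2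

theorem mem_Cor {A : Act G} {l u : ℝ × ℝ} {σ : ℤ} {r : ℕ} {v : V} :
    v ∈ Cor A l u σ r ↔ G.dist v A.o ≤ r ∧ |dot u (A.P v) + σ| ≤ 40 ∧ -31 ≤ dot l (A.P v) ∧
    dot l (A.P v) ≤ 220 ∧ (60 ≤ dot l (A.P v) → |dot u (A.P v) + σ| ≤ 20) := by
  classical
  unfold Cor
  rw [Finset.mem_filter, mem_ball A]

/-- **Steering**: from a seed of the block `w` one reaches many seeds of the next block. -/
theorem steerAt {A : Act G} {π : Par} (h : π.Ok A) {p δ η₁ : ℝ} {M N : ℕ}
    (hR : ReachC G p δ π.k M (π.n + A.D₀ + π.k) N)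
    (hG : ∀ σ : ℤ, |σ| ≤ 24 → ∀ b, ∀ e : ℝ, 0 ≤ e → e ≤ π.B * nm (π.s + π.t) →
      GoodOff A p η₁ π.k (N + 1) π.C π.n (π.s + π.t) (lin π b) σ π.r (π.j₀ - e))
    (h0 : 0 ≤ p) (h1 : p ≤ 1) {w : ℕ × ℕ} {x : V} (hx : St A π w x) (b : Bool) :
    Pr p (((bd A π M).E w ∪ (bd A π M).fr (nxt w b) b) \ Ek G π.k x)
      (fun T => ¬ (bd A π M).Meets (nxt w b) b
        (cluster (↑(Ek G π.k x ∪ T) : Set (Sym2 V)) x)) ≤ 2 * η₁ + δ := by
  classical
  obtain ⟨φ, hφ, rfl⟩ := hx.ex
  -- the lateral displacement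
  obtain ⟨a, ha⟩ : ∃ a, a = dot (lin π (!b)) (A.P (φ A.o)) - cen π w (!b) := ⟨_, rfl⟩
  have hzone := hx.zone (!b)
  rw [← ha] at hzone
  have hround := abs_sub_round a
  obtain ⟨σ, hσdef⟩ : ∃ σ, σ = round a := ⟨_, rfl⟩
  rw [← hσdef] at hround
  have hround' := abs_le.1 hround
  have hzone' := abs_le.1 hzone
  have hσ : |σ| ≤ 24 := by
    rw [abs_le]
    constructor
    · have : (-24 : ℝ) ≤ σ := by linarith only [hround', hzone']
      exact_mod_cast this
    · have : (σ : ℝ) ≤ 24 := by linarith only [hround', hzone']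
      exact_mod_cast this
  -- the offset
  obtain ⟨e, he⟩ : ∃ e, e = dot (π.s + π.t) (A.P (φ A.o)) - π.j₀ * (lev w : ℝ) := ⟨_, rfl⟩
  have he0 : 0 ≤ e := by linarith only [he, hx.lo]
  have heB : e ≤ π.B * nm (π.s + π.t) := by linarith only [he, hx.hi]
  have hsB := h.smallB
  have hj := h.j_lo
  have hj' := h.j_hi
  have hτ : π.j₀ - e + dot (π.s + π.t) (A.P (φ A.o)) = π.j₀ * ((lev w + 1 : ℕ) : ℝ) := by
    rw [he]
    push_cast
    ring
  have hgo := goodOff_aut A hφ (hG σ hσ (!b) e he0 heB)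
  rw [hτ] at hgo
  have hHH : Hk A (hp (π.s + π.t) (π.j₀ * ((lev w + 1 : ℕ) : ℝ))) π.C π.n = HH A π (lev w + 1) := rfl
  rw [hHH] at hgo
  obtain ⟨D, hD⟩ : ∃ D, D = (Cor A (π.s + π.t) (lin π (!b)) σ π.r).image φ := ⟨_, rfl⟩
  rw [← hD] at hgo
  -- the vertices of the corridor
  have hmem : ∀ v ∈ D, |dot (lin π (!b)) (A.P v) - cen π w (!b)| ≤ 81 / 2 ∧
      -31 ≤ dot (π.s + π.t) (A.P v) - π.j₀ * (lev w : ℝ) ∧
      dot (π.s + π.t) (A.P v) - π.j₀ * (lev w : ℝ) ≤ 220 + 1 / 4 ∧
      G.dist v A.o ≤ π.r₁ * lev w + π.r ∧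
      (61 ≤ dot (π.s + π.t) (A.P v) - π.j₀ * (lev w : ℝ) →
        |dot (lin π (!b)) (A.P v) - cen π w (!b)| ≤ 41 / 2) := by
    intro v hv
    rw [hD, Finset.mem_image] at hv
    obtain ⟨v', hv', rfl⟩ := hv
    rw [mem_Cor] at hv'
    obtain ⟨c1, c2, c3, c4, c5⟩ := hv'
    have c2' := abs_le.1 c2
    rw [P_aut A hφ (lin π (!b)) v', P_aut A hφ (π.s + π.t) v']
    refine ⟨?_, ?_, ?_, ?_, ?_⟩
    · rw [abs_le]
      constructor <;> linarith only [ha, hround', c2']
    · linarith only [he, he0, c3]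
    · linarith only [he, heB, hsB, c4]
    · have d1 := A.conn.dist_triangle (u := φ v') (v := φ A.o) (w := A.o)
      rw [dist_aut A.conn φ] at d1
      have d2 := hx.dist
      omega
    · intro hl
      have c6 := abs_le.1 (c5 (by linarith only [he, heB, hsB, hl]))
      rw [abs_le]
      constructor <;> linarith only [ha, hround', c6]
  -- the first seed is in the corridor
  have hball : ∀ v ∈ ballF G (φ A.o) π.k, v ∈ D ∧ v ∈ HH A π (lev w + 1) := by
    intro v hv
    rw [ball_aut A, Finset.mem_image] at hv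
    obtain ⟨v', hv', rfl⟩ := hv
    obtain ⟨d1, d2⟩ := dot_small h hv'
    have d1' := abs_le.1 (d1 (!b))
    have d2' := abs_le.1 d2
    constructor
    · rw [hD]
      apply Finset.mem_image_of_mem
      rw [mem_Cor]
      refine ⟨((mem_ball A).1 hv').trans h.hkr, ?_, by linarith only [d2'], by linarith only [d2'],
        fun hc => by linarith only [d2', hc]⟩
      rw [abs_le]
      constructor <;>
        linarith only [hround', hzone', d1']
    · apply Wk_subset_Hk
      rw [mem_Wk_hp, P_aut A hφ (π.s + π.t) v', ← hτ]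
      linarith only [heB, hsB, hj, d2']
  -- the walks
  have hnr : ∀ v v' : V, |dot (lin π (!b)) (A.P v) - cen π w (!b)| ≤ 81 / 2 →
      -31 ≤ dot (π.s + π.t) (A.P v) - π.j₀ * (lev w : ℝ) →
      dot (π.s + π.t) (A.P v) - π.j₀ * (lev w : ℝ) ≤ 220 + 1 / 4 →
      G.dist v v' ≤ π.n + A.D₀ + π.k → Nr A π w b v' := by
    intro v v' c1 c2 c3 c4
    have d1 := abs_le.1 (var_lin h (!b) (by omega) c4)
    have d2 := abs_le.1 (var_l h (by omega) c4)
    have c1' := abs_le.1 c1
    refine ⟨?_, by linarith only [c2, d2], by linarith only [c3, d2]⟩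
    rw [abs_le]
    constructor <;> linarith only [d1, c1']
  have hr₁ := h.hr₁
  have hrr : ∀ v v' : V, G.dist v A.o ≤ π.r₁ * lev w + π.r → G.dist v v' ≤ π.n + A.D₀ + π.k →
      G.dist v' A.o ≤ π.r₁ * (lev w + 1) := by
    intro v v' c1 c2
    have d1 := A.conn.dist_triangle (u := v') (v := v) (w := A.o)
    rw [SimpleGraph.dist_comm (u := v') (v := v)] at d1
    calc G.dist v' A.o ≤ π.r₁ * lev w + π.r₁ := by omega
      _ = π.r₁ * (lev w + 1) := by ring
  have hreg : reg G D (HH A π (lev w + 1)) ⊆ EE A π w ∪ EE A π (nxt w b) := by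
    intro f hf
    unfold reg at hf
    rw [Finset.mem_filter, mem_edgesIn] at hf
    obtain ⟨⟨hfG, hfD⟩, _⟩ := hf
    apply edge_mem h hfG
    · intro v hv
      exact hrr v v (hmem v (hfD v hv)).2.2.2.1 (by rw [SimpleGraph.dist_self]; exact Nat.zero_le _)
    · obtain ⟨c1, c2, c3, c4, _⟩ := hmem _ (hfD _ (out_mem f))
      exact hnr _ _ c1 c2 c3 (by rw [SimpleGraph.dist_self]; exact Nat.zero_le _)
  have key := hR (φ A.o) D (HH A π (lev w + 1)) {z | ∃ y ∈ HH A π (lev w + 1), G.Adj y z}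
    (XX A π (nxt w b)) (EE A π w ∪ EE A π (nxt w b)) (2 * η₁) hball ?_ XX_pck hreg ?_ ?_
  · -- conclusion
    have hA : ((EE A π w ∪ EE A π (nxt w b)) \ Ek G π.k (φ A.o)) \
        (XX A π (nxt w b)).biUnion (Ek G π.k) =
        ((bd A π M).E w ∪ (bd A π M).fr (nxt w b) b) \ Ek G π.k (φ A.o) := by
      have hsub : (XX A π (nxt w b)).biUnion (Ek G π.k) ⊆ EE A π (nxt w b) := by
        rw [Finset.biUnion_subset]
        intro y hy
        exact seed_subset h (mem_Cand.1 (XX_subset hy)).1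
      have hdis := EE_disj (A := A) (π := π) (by linarith only [hj]) (BD.nxt_ne w b).symm
      ext f
      show _ ↔ f ∈ (EE A π w ∪ (EE A π (nxt w b) \ (XX A π (nxt w b)).biUnion (Ek G π.k))) \
        Ek G π.k (φ A.o)
      rw [Finset.mem_sdiff, Finset.mem_sdiff, Finset.mem_union, Finset.mem_sdiff,
        Finset.mem_union, Finset.mem_sdiff]
      constructor
      · rintro ⟨⟨hf1, hf2⟩, hf3⟩
        refine ⟨?_, hf2⟩
        rcases hf1 with hf1 | hf1
        · exact Or.inl hf1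
        · exact Or.inr ⟨hf1, hf3⟩
      · rintro ⟨hf1, hf2⟩
        rcases hf1 with hf1 | hf1
        · exact ⟨⟨Or.inl hf1, hf2⟩, fun hc => Finset.disjoint_left.1 hdis hf1 (hsub hc)⟩
        · exact ⟨⟨Or.inr hf1.1, hf2⟩, hf1.2⟩
    rw [hA] at key
    have hsub2 : ((bd A π M).E w ∪ (bd A π M).fr (nxt w b) b) \ Ek G π.k (φ A.o) ⊆
        (EE A π w ∪ EE A π (nxt w b)) \ Ek G π.k (φ A.o) := by
      rw [← hA]
      exact Finset.sdiff_subset
    refine le_trans (le_of_eq ?_) key
    rw [Pr_restrict p hsub2 (fun T hT => by rw [Finset.inter_assoc, Finset.inter_self])]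
    apply Pr_congr
    intro T hT
    rw [Finset.inter_eq_left.2 hT, not_iff_comm, Nat.not_lt]
    have hcd : ∀ (s t : Finset V), (∀ y, y ∈ s ↔ y ∈ t) → (M ≤ s.card ↔ M ≤ t.card) := by
      intro s t hst
      rw [Finset.ext hst]
    unfold BD.Meets
    apply hcd
    intro y
    rw [Finset.mem_filter, Finset.mem_filter]
    exact Iff.rfl
  · intro y hy v hv
    have h2 := (mem_Cand.1 (XX_subset hy)).2 v hv
    rwa [lev_nxt] at h2
  · rintro z hzD ⟨y, hyH, hyz⟩ hzH
    obtain ⟨c1, c2, c3, c4, c5⟩ := hmem z hzD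
    have hzlo : π.j₀ * ((lev w + 1 : ℕ) : ℝ) < dot (π.s + π.t) (A.P z) := by
      by_contra hc
      exact hzH (Wk_subset_Hk A _ _ _ (mem_Wk_hp.2 (not_lt.1 hc)))
    push_cast at hzlo
    obtain ⟨v, q, hq, hqH, y', hy', hv⟩ := contact (b := b) h (c5 (by linarith only [hj, hzlo])) c4 hzH hyH hyz
    refine ⟨v, q, hq, hqH, ?_, y', hy', hv⟩
    intro f hf _
    have hfv : ∀ u ∈ f, u ∈ q.support := by
      intro u hu
      induction f with
      | _ f1 f2 =>
        rw [Sym2.mem_iff] at hu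
        rcases hu with rfl | rfl
        · exact q.fst_mem_support_of_mem_edges hf
        · exact q.snd_mem_support_of_mem_edges hf
    have hfd : ∀ u ∈ f, G.dist z u ≤ π.n + A.D₀ + π.k := fun u hu =>
      (dist_support q (hfv u hu)).trans hq
    exact edge_mem h (q.edges_subset_edgeSet hf) (fun u hu => hrr z u c4 (hfd u hu))
      (hnr z _ c1 c2 c3 (hfd _ (out_mem f)))
  · refine le_trans (Pr_mono h0 h1 ?_) hgo
    intro T hT hcard
    have hout : outJ G π.k (φ A.o) D (HH A π (lev w + 1))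
        {z | ∃ y ∈ HH A π (lev w + 1), G.Adj y z} T = out G π.k (φ A.o) D (HH A π (lev w + 1)) T := by
      unfold outJ
      rw [Finset.filter_eq_self]
      intro z hz
      exact out_adj (fun v hv => (hball v hv).2) hT hz
    rw [hout] at hcard
    omega

end Vale.Agent.P151.Pl.C
end
end

section

/-!
# Cluster C: the finite size criterion
-/

set_option autoImplicit false
set_option linter.unusedSectionVars false

noncomputable section

namespace Vale.Agent.P151.Pl.C

open Vale.Agent.P151 Vale.Agent.P151.Red Vale.Agent.P151.Pl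

variable {V : Type} [DecidableEq V] {G : SimpleGraph V} [G.LocallyFinite]

theorem Pr_mono_set {ι : Type} [DecidableEq ι] {p : ℝ} (h0 : 0 ≤ p) (h1 : p ≤ 1)
    {A B : Finset ι} (hAB : A ⊆ B) {Q : Finset ι → Prop} (hQ : ∀ T T' : Finset ι, T ⊆ T' → Q T → Q T') :
    Pr p A Q ≤ Pr p B Q := by
  have h2 := Pr_anti_set h0 h1 hAB (Q := fun T => ¬ Q T) (fun T T' h h' h'' => h' (hQ T T' h h''))
  rw [Pr_not, Pr_not] at h2
  linarith

theorem Pr_true {ι : Type} [DecidableEq ι] (p : ℝ) (B : Finset ι) {Q : Finset ι → Prop}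
    (hQ : ∀ T, Q T) : Pr p B Q = 1 := by
  have h : Pr p B Q = Pr p B (fun T => ¬ (fun _ => False) T) :=
    Pr_congr fun T _ => ⟨fun _ h => h, fun _ => hQ T⟩
  rw [h, Pr_not, Pr_false', sub_zero]

/-- Stopping a path at the distance `R`. -/
theorem stop_at (hG : G.Connected) (o : V) (R : ℕ) {T : Finset (Sym2 V)}
    (hT : ∀ e ∈ T, e ∈ G.edgeSet) : ∀ (a v : V)
    (q : (SimpleGraph.fromEdgeSet (↑T : Set (Sym2 V))).Walk a v),
    a ∈ cluster (↑(T ∩ edgesIn G (ballF G o R)) : Set (Sym2 V)) o → G.dist a o ≤ R →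
    R ≤ G.dist v o →
    ∃ v' ∈ cluster (↑(T ∩ edgesIn G (ballF G o R)) : Set (Sym2 V)) o, G.dist v' o = R := by
  intro a v q
  induction q with
  | @nil a => exact fun h1 h2 h3 => ⟨a, h1, le_antisymm h2 h3⟩
  | @cons a b c hab q ih =>
    intro h1 h2 h3
    rcases h2.lt_or_eq with h4 | h4
    · rw [SimpleGraph.fromEdgeSet_adj] at hab
      have h5 : s(a, b) ∈ G.edgeSet := hT _ (Finset.mem_coe.1 hab.1)
      have h6 : G.Adj b a := (G.mem_edgeSet.1 h5).symm
      have h7 : G.dist b o ≤ R := by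
        have h8 := hG.dist_triangle (u := b) (v := a) (w := o)
        have h9 : G.dist b a ≤ 1 := by
          have := SimpleGraph.dist_le (SimpleGraph.Walk.cons h6 SimpleGraph.Walk.nil)
          simpa using this
        omega
      refine ih (mem_cluster_trans h1 (mem_cluster_of_edge ?_)) h7 h3
      rw [Finset.mem_coe, Finset.mem_inter, mk_mem_edgesIn]
      exact ⟨hab.1, h6.symm, mem_ballF_of_dist_le G hG _ _ _ h4.le,
        mem_ballF_of_dist_le G hG _ _ _ h7⟩
    · exact ⟨a, h1, h4⟩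

/-- Reaching distance `R` in any finite set of edges is less likely than in the ball. -/
theorem Pr_far (hG : G.Connected) (o : V) (R : ℕ) {p : ℝ} (h0 : 0 ≤ p) (h1 : p ≤ 1)
    {B : Finset (Sym2 V)} (hB : ∀ e ∈ B, e ∈ G.edgeSet) :
    Pr p B (fun T => ∃ v ∈ cluster (↑T : Set (Sym2 V)) o, R ≤ G.dist v o) ≤
      Pr p (edgesIn G (ballF G o R))
        (fun T => ∃ v ∈ cluster (↑T : Set (Sym2 V)) o, G.dist v o = R) := by
  set E := edgesIn G (ballF G o R) with hE
  set Q : Finset (Sym2 V) → Prop :=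
    fun T => ∃ v ∈ cluster (↑T : Set (Sym2 V)) o, G.dist v o = R with hQ
  have hmono : ∀ T T' : Finset (Sym2 V), T ⊆ T' → Q T → Q T' := by
    rintro T T' h ⟨v, hv, hd⟩
    exact ⟨v, cluster_mono (by exact_mod_cast h) _ hv, hd⟩
  calc Pr p B (fun T => ∃ v ∈ cluster (↑T : Set (Sym2 V)) o, R ≤ G.dist v o)
      ≤ Pr p B (fun T => Q (T ∩ E)) := by
        refine Pr_mono h0 h1 ?_
        rintro T hT ⟨v, ⟨q⟩, hd⟩
        exact stop_at hG o R (fun e he => hB e (hT he)) o v q (mem_cluster_self _ _)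
          (by rw [SimpleGraph.dist_self]; exact Nat.zero_le _) hd
    _ = Pr p (B ∩ E) (fun T => Q (T ∩ E)) := by
        refine Pr_restrict p Finset.inter_subset_left ?_
        intro T hT
        have h2 : T ∩ (B ∩ E) ∩ E = T ∩ E := by
          ext e
          simp only [Finset.mem_inter]
          constructor
          · rintro ⟨⟨a1, _⟩, a3⟩
            exact ⟨a1, a3⟩
          · rintro ⟨a1, a3⟩
            exact ⟨⟨a1, hT a1, a3⟩, a3⟩
        rw [h2]
    _ ≤ Pr p (B ∩ E) Q := Pr_mono h0 h1 fun T _ h => hmono _ _ Finset.inter_subset_left h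
    _ ≤ Pr p E Q := Pr_mono_set h0 h1 Finset.inter_subset_right hmono

theorem far_cell {A : Act G} {π : Par} {w : ℕ × ℕ} {v : V} (hv : v ∈ cell A π w) :
    π.j₀ * (lev w : ℝ) - π.j₀ ≤ dot (π.s + π.t) (A.P v) := by
  have h1 := (hv false).1
  have h2 := (hv (!false)).1
  have h3 := dot_lin π false (A.P v)
  have h4 := cen_add π w false
  linarith

/-- The blocks of a high level are far away. -/
theorem far_of_level {A : Act G} {π : Par} (h : π.Ok A) {M R : ℕ} {w : ℕ × ℕ} (a : Bool)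
    (hw : w.1 + w.2 = R + 1) {v : V}
    (hv : (∃ x ∈ (bd A π M).X w a, v ∈ (bd A π M).bx x) ∨ (∃ e ∈ (bd A π M).E w, v ∈ e)) :
    R ≤ G.dist v A.o := by
  have hlev : (lev w : ℝ) = R + 1 := by
    have : lev w = R + 1 := hw
    rw [this]
    push_cast
    ring
  have hj := h.j_lo
  have hR : (0 : ℝ) ≤ R := Nat.cast_nonneg _
  have key : 180 * (R : ℝ) - 1 / 2 ≤ dot (π.s + π.t) (A.P v) := by
    rcases hv with ⟨x, hx, hvx⟩ | ⟨e, he, hve⟩
    · have h1 := (mem_Cand.1 (XX_subset hx)).1.lo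
      have h2 : v ∈ ballF G x π.k := hvx
      have h3 := abs_le.1 (var_l h (by omega) ((mem_ball A).1 h2))
      rw [hlev] at h1
      nlinarith only [hj, h1, h3]
    · have he' : e ∈ EE A π w := he
      obtain ⟨⟨heG, hed⟩, hc⟩ := mem_EE.1 he'
      have h1 := far_cell hc
      rw [hlev] at h1
      have h2 : G.dist v (Quot.out e).1 ≤ 1 := by
        have hm := out_mem e
        generalize (Quot.out e).1 = z at hm
        induction e with
        | _ a b =>
          rw [SimpleGraph.mem_edgeSet] at heG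
          rw [Sym2.mem_iff] at hve hm
          have h9 : ∀ {x y : V}, G.Adj x y → G.dist x y ≤ 1 := by
            intro x y hxy
            have := SimpleGraph.dist_le (SimpleGraph.Walk.cons hxy SimpleGraph.Walk.nil)
            simpa using this
          rcases hve with rfl | rfl <;> rcases hm with rfl | rfl
          · rw [SimpleGraph.dist_self]; exact Nat.zero_le _
          · exact h9 heG
          · exact h9 heG.symm
          · rw [SimpleGraph.dist_self]; exact Nat.zero_le _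
      have h3 := abs_le.1 (var_l h (by omega) h2)
      nlinarith only [h1, h3, hj]
  have h4 : |dot (π.s + π.t) (A.P v) - dot (π.s + π.t) (A.P A.o)| ≤
      A.C₀ * nm (π.s + π.t) * (G.dist v A.o) := dot_dist A _ le_rfl
  rw [A.P_o, dot_zero, sub_zero] at h4
  have h5 : A.C₀ * nm (π.s + π.t) ≤ 1 / 2 := by
    have h6 := h.small false
    have h7 := h.small true
    have h8 := nm_st π
    have h9 := A.C₀_pos
    have h10 := nm_nonneg (lin π false)
    have h11 := nm_nonneg (lin π true)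
    have h12 : (1 : ℝ) ≤ ((π.n + A.D₀ + π.k + 1 : ℕ) : ℝ) := by exact_mod_cast Nat.le_add_left _ _
    have h13 : A.C₀ * nm (lin π false) * 1 ≤
        A.C₀ * nm (lin π false) * ((π.n + A.D₀ + π.k + 1 : ℕ) : ℝ) :=
      mul_le_mul_of_nonneg_left h12 (by (clear * - h9 h10; positivity))
    have h14 : A.C₀ * nm (lin π true) * 1 ≤
        A.C₀ * nm (lin π true) * ((π.n + A.D₀ + π.k + 1 : ℕ) : ℝ) :=
      mul_le_mul_of_nonneg_left h12 (by positivity)
    have h15 := mul_le_mul_of_nonneg_left h8 h9.le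
    linarith only [h6, h7, h13, h14, h15]
  have h6 : (0 : ℝ) ≤ (G.dist v A.o : ℝ) := Nat.cast_nonneg _
  have h7 := (abs_le.1 h4).2
  have h8 : A.C₀ * nm (π.s + π.t) * (G.dist v A.o : ℝ) ≤ 1 / 2 * (G.dist v A.o : ℝ) :=
    mul_le_mul_of_nonneg_right h5 h6
  rcases Nat.eq_zero_or_pos R with h9 | h9
  · omega
  · have h10 : (1 : ℝ) ≤ R := by exact_mod_cast h9
    have h11 : (R : ℝ) ≤ (G.dist v A.o : ℝ) := by linarith only [key, h7, h8, h10]
    exact_mod_cast h11

theorem st_zero {A : Act G} {π : Par} (h : π.Ok A) : St A π (0, 0) A.o where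
  ex := ⟨1, A.Γ.one_mem, rfl⟩
  zone b := by
    rw [A.P_o, dot_zero]
    unfold cen
    cases b <;> simp only [Bool.false_eq_true, ↓reduceIte, CharP.cast_eq_zero, mul_zero, sub_self, abs_zero, Nat.ofNat_nonneg]
  lo := by
    rw [A.P_o, dot_zero]
    simp [lev]
  hi := by
    rw [A.P_o, dot_zero]
    have h1 := h.hB
    have h2 := nm_nonneg (π.s + π.t)
    have h3 := h.C₁_pos
    have h4 := A.C₀_pos
    have h5 : (0 : ℝ) ≤ π.n := Nat.cast_nonneg _
    have h6 : (0 : ℝ) ≤ A.D₀ := Nat.cast_nonneg _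
    have h7 : 0 ≤ π.B := by nlinarith only [h1, h3, h4]
    simp only [lev, add_zero, CharP.cast_eq_zero, mul_zero, zero_add, ge_iff_le]
    positivity
  dist := by
    rw [SimpleGraph.dist_self]
    exact Nat.zero_le _

theorem small_eps {C₀ B K : ℝ} (hC : 0 < C₀) (hB : 0 < B) (hK : 0 < K) :
    ∃ ε : ℝ, 0 < ε ∧ C₀ * ε * K ≤ 1 / 4 ∧ B * (2 * ε) ≤ 1 / 4 := by
  refine ⟨min (1 / (4 * C₀ * K)) (1 / (8 * B)), by positivity, ?_, ?_⟩
  · have h1 : min (1 / (4 * C₀ * K)) (1 / (8 * B)) ≤ 1 / (4 * C₀ * K) := min_le_left _ _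
    calc C₀ * min (1 / (4 * C₀ * K)) (1 / (8 * B)) * K
        ≤ C₀ * (1 / (4 * C₀ * K)) * K := by gcongr
      _ = 1 / 4 := by field_simp
  · have h1 : min (1 / (4 * C₀ * K)) (1 / (8 * B)) ≤ 1 / (8 * B) := min_le_right _ _
    calc B * (2 * min (1 / (4 * C₀ * K)) (1 / (8 * B)))
        ≤ B * (2 * (1 / (8 * B))) := by gcongr
      _ = 1 / 4 := by field_simp; norm_num

/-- **Cluster C: the finite size criterion.** -/
theorem fscStmt (KN : KNStar) (A : Act G) {q Q : ℝ} (hq : 0 < q) (hQ : Q < 1)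
    (hpo : ∃ C₁ : ℝ, 0 < C₁ ∧ ∀ C : ℝ, ∃ n : ℕ, PocketOK A C₁ C n)
    (hR : ReachStmt G A.Δ q Q) : FscStmt A q Q := by
  classical
  -- numerical constants
  obtain ⟨ρ, hρdef⟩ : ∃ ρ : ℝ, ρ = ((1 / 13122) ^ 2 / 12) ^ 2 := ⟨_, rfl⟩
  have hρ : 0 < ρ := by rw [hρdef]; norm_num
  have hρ1 : ρ ≤ 1 / 13122 / 4 := by rw [hρdef]; norm_num
  have hsq : √ρ = (1 / 13122) ^ 2 / 12 := by
    rw [hρdef, Real.sqrt_sq (by norm_num)]
  refine ⟨ρ / 4, by positivity, fun k => ?_⟩
  obtain ⟨m, hm⟩ : ∃ m, m = (Ek G k A.o).card := ⟨_, rfl⟩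
  have hqm : 0 < q ^ m := pow_pos hq m
  obtain ⟨M, hM⟩ := exists_nat_gt (4 / ((1 / 13122) ^ 2 / 4 * q ^ m))
  have hM0 : (0 : ℝ) < M := lt_trans (by positivity) hM
  have hMpos : 0 < M := by exact_mod_cast hM0
  have hMq : 4 / ((M : ℝ) * q ^ m) ≤ (1 / 13122) ^ 2 / 4 := by
    rw [div_lt_iff₀ (by positivity)] at hM
    rw [div_le_iff₀ (by positivity)]
    linarith only [hM]
  obtain ⟨C₁, hC₁, hP⟩ := hpo
  obtain ⟨n, hn⟩ := hP (C₁ + A.C₀ * (k + A.D₀))
  obtain ⟨N, hN⟩ := hR A.deg hq hQ k M (n + A.D₀ + k) (ρ / 2) (by positivity)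
  have hC₀ := A.C₀_pos
  have hBpos : 0 < C₁ + A.C₀ * (1 + n + A.D₀) := by (clear * - hC₁ hC₀; positivity)
  obtain ⟨ε, hε, hε1, hε2⟩ := small_eps hC₀ hBpos
    (K := ((n + A.D₀ + k + 1 : ℕ) : ℝ)) (by (clear * -; positivity))
  refine ⟨N + 1, C₁, C₁ + A.C₀ * (k + A.D₀), n, C₁ + A.C₀ * (1 + n + A.D₀), hC₁, hn, ε, hε, ?_⟩
  intro s t r hs ht _ p hqp hpQ j₀ hj hj' hG
  have h0 : 0 < p := hq.trans_le hqp
  have h1 : p < 1 := hpQ.trans_lt hQ
  have hK0 : (0 : ℝ) ≤ ((n + A.D₀ + k + 1 : ℕ) : ℝ) := Nat.cast_nonneg _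
  have hs' : A.C₀ * nm s * ((n + A.D₀ + k + 1 : ℕ) : ℝ) ≤ 1 / 4 :=
    le_trans (mul_le_mul_of_nonneg_right (mul_le_mul_of_nonneg_left hs hC₀.le) hK0) hε1
  have ht' : A.C₀ * nm t * ((n + A.D₀ + k + 1 : ℕ) : ℝ) ≤ 1 / 4 :=
    le_trans (mul_le_mul_of_nonneg_right (mul_le_mul_of_nonneg_left ht hC₀.le) hK0) hε1
  have hst : nm (s + t) ≤ 2 * ε := (nm_add_le s t).trans (by linarith only [hs, ht])
  have hB' : (C₁ + A.C₀ * (1 + n + A.D₀)) * nm (s + t) ≤ 1 / 4 :=
    le_trans (mul_le_mul_of_nonneg_left hst hBpos.le) hε2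
  have hB0 : 0 ≤ (C₁ + A.C₀ * (1 + n + A.D₀)) * nm (s + t) := mul_nonneg hBpos.le (nm_nonneg _)
  -- the radius of the corridors
  have hkr : k ≤ r := by
    by_contra hlt
    push Not at hlt
    have h2 := hG 0 (by norm_num) s (Or.inl rfl) 0 le_rfl hB0
    unfold GoodOff at h2
    rw [Pr_true] at h2
    · linarith only [hρdef, h2]
    · intro T
      have h3 : out G k A.o (Cor A (s + t) s 0 r)
          (Hk A (hp (s + t) (j₀ - 0)) (C₁ + A.C₀ * (k + A.D₀)) n) T = ∅ := by
        unfold out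
        rw [Finset.filter_eq_empty_iff]
        rintro z hz ⟨hzH, _⟩
        apply hzH
        apply Wk_subset_Hk
        rw [mem_Wk_hp]
        have h4 : G.dist z A.o ≤ n + A.D₀ + k + 1 := by
          have := (mem_Cor.1 hz).1
          omega
        have h5 := (abs_le.1 (dot_dist A s h4)).2
        have h6 := (abs_le.1 (dot_dist A t h4)).2
        rw [A.P_o, dot_zero, sub_zero] at h5 h6
        rw [add_dot]
        linarith only [hj, hs', ht', h5, h6]
      rw [h3, Finset.card_empty]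
      exact Nat.succ_pos _
  let π : Par := ⟨s, t, j₀, C₁ + A.C₀ * (1 + n + A.D₀), C₁ + A.C₀ * (k + A.D₀), C₁, k, n, r,
    r + (n + A.D₀ + k)⟩
  have hπ : π.Ok A :=
    { j_lo := hj
      j_hi := hj'
      C₁_pos := hC₁
      pocket := hn
      hC := le_rfl
      hB := le_rfl
      small := by
        intro b
        cases b
        · exact hs'
        · exact ht'
      smallB := hB'
      hr₁ := rfl
      hkr := hkr }
  have hReach : ReachC G p (ρ / 2) π.k M (π.n + A.D₀ + π.k) N := hN p hqp hpQ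
  have hGood : ∀ σ : ℤ, |σ| ≤ 24 → ∀ b, ∀ e : ℝ, 0 ≤ e → e ≤ π.B * nm (π.s + π.t) →
      GoodOff A p (ρ / 4) π.k (N + 1) π.C π.n (π.s + π.t) (lin π b) σ π.r (π.j₀ - e) := by
    intro σ hσ b e he he'
    cases b
    · exact hG σ hσ s (Or.inl rfl) e he he'
    · exact hG σ hσ t (Or.inr rfl) e he he'
  have hρρ : 2 * (ρ / 4) + ρ / 2 = ρ := by ring
  have hOk := ok_bd (M := M) hπ hMpos
  have hSteer : (bd A π M).Steer p ρ := by
    intro w a b x hx
    have h2 := steerAt hπ hReach hGood h0.le h1.le (mem_Cand.1 (XX_subset hx)).1 b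
    rw [hρρ] at h2
    exact h2
  have hStart : (bd A π M).SteerStart p ρ (Ek G π.k A.o) := by
    intro b
    have h2 := steerAt hπ hReach hGood h0.le h1.le (st_zero hπ) b
    rw [hρρ] at h2
    exact h2
  have hγ : 1 / 13122 + 2 * (4 / (((bd A π M).M : ℝ) * p ^ (bd A π M).N) + 3 * √ρ) /
      (1 / 13122) ≤ 1 / 6561 := by
    have h2 : 4 / (((bd A π M).M : ℝ) * p ^ (bd A π M).N) ≤ (1 / 13122) ^ 2 / 4 := by
      refine le_trans ?_ hMq
      show 4 / ((M : ℝ) * p ^ (Ek G k A.o).card) ≤ _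
      rw [← hm]
      have h3 : q ^ m ≤ p ^ m := pow_le_pow_left₀ hq.le hqp m
      (clear * - hMpos hq h3; gcongr)
    rw [hsq, div_div_eq_mul_div]
    linarith only [h2]
  have hc : 0 < 1 / 2 * (p ^ (Ek G π.k A.o).card * (1 - 2 * ρ / (1 / 13122))) := by
    have h2 : 0 < p ^ (Ek G π.k A.o).card := pow_pos h0 _
    have h3 : 0 < 1 - 2 * ρ / (1 / 13122) := by
      rw [div_div_eq_mul_div]
      linarith only [hρdef]
    (clear * - h0 h3; positivity)
  refine ⟨_, hc, fun R => ?_⟩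
  obtain ⟨n', hn'⟩ := BD.abs_far KN h0 h1 hOk ρ hρ.le hSteer (Ek G π.k A.o)
    (seed_subset hπ (st_zero hπ)) hStart (1 / 13122) (by norm_num) hγ R
  refine hn'.trans (le_trans (Pr_mono h0.le h1.le ?_) (Pr_far A.conn A.o R h0.le h1.le ?_))
  · rintro T _ ⟨w, a, hw, v, hv, hv2⟩
    exact ⟨v, hv, far_of_level hπ a hw hv2⟩
  · intro e he
    unfold AD.Rs AD.Rg at he
    rw [Finset.mem_biUnion] at he
    obtain ⟨j, _, he⟩ := he
    have he2 : e ∈ EE A π (Nat.unpair j) := he
    exact (mem_EE.1 he2).1.1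

end Vale.Agent.P151.Pl.C
end
end

section

/-!
# The choice of the distance of the lines (Lemma M + pigeonhole)
-/

set_option autoImplicit false
set_option linter.unusedSectionVars false

noncomputable section

namespace Vale.Agent.P151.Pl

open Vale.Agent.P151 Vale.Agent.P151.Red

variable {V : Type} [DecidableEq V] {G : SimpleGraph V} [G.LocallyFinite]

theorem Hk_hp_mono {A : Act G} {l : ℝ × ℝ} {τ τ' : ℝ} (h : τ ≤ τ') (C : ℝ) (n : ℕ) :
    Hk A (hp l τ) C n ⊆ Hk A (hp l τ') C n := by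
  intro v hv hesc
  apply hv
  obtain ⟨u, w, hw, ⟨c, hc, hcu⟩, hs⟩ := hesc
  refine ⟨u, w, hw, ⟨(l, τ), rfl, ?_⟩, ?_⟩
  · have : c = (l, τ') := hc
    subst this
    simp only at hcu ⊢
    linarith only [h, hcu]
  · intro z hz hzW
    apply hs z hz
    intro c hc
    have : c = (l, τ') := hc
    subst this
    have := hzW (l, τ) rfl
    simp only at this ⊢
    linarith only [h, this]

theorem mem_Wk_hp {A : Act G} {l : ℝ × ℝ} {τ : ℝ} {v : V} (h : dot l (A.P v) ≤ τ) :
    v ∈ Wk A (hp l τ) := by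
  intro c hc
  have : c = (l, τ) := hc
  subst this
  exact h

theorem Hk_hp_nb {A : Act G} {C₁ C : ℝ} {n : ℕ} (h : PocketOK A C₁ C n) {l : ℝ × ℝ} {τ τ' : ℝ}
    (hτ : τ + (C₁ + A.C₀) * nm l ≤ τ') {u v : V} (hu : u ∈ Hk A (hp l τ) C n)
    (huv : G.Adj u v) : v ∈ Hk A (hp l τ') C n := by
  apply Wk_subset_Hk
  refine Hk_nb h ?_ hu huv
  intro c' hc'
  have : c' = (l, τ') := hc'
  subst this
  exact ⟨(l, τ), rfl, rfl, hτ⟩

theorem dot_P_o (A : Act G) (f : ℝ × ℝ) : dot f (A.P A.o) = 0 := by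
  rw [A.P_o]; simp [dot]

theorem dot_le_ball (A : Act G) (f : ℝ × ℝ) {v : V} {k : ℕ} (h : v ∈ ballF G A.o k) :
    |dot f (A.P v)| ≤ A.C₀ * nm f * k := by
  have := lip_ball A f h
  rwa [dot_P_o, sub_zero] at this

/-- If the offset is bad then there are often a few contacts. -/
theorem contacts_of_bad {A : Act G} {p η₁ : ℝ} (hp0 : 0 < p) (hp1 : p < 1) {k N₀ : ℕ}
    {C₁ C : ℝ} {n : ℕ} (hpk : PocketOK A C₁ C n) {l u : ℝ × ℝ} {σ : ℤ} {r : ℕ} {τ : ℝ}
    (hball : ballF G A.o k ⊆ Cor A l u σ r) (hdot : ∀ v ∈ ballF G A.o k, dot l (A.P v) ≤ τ)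
    (hτ : τ + C₁ * nm l ≤ 182)
    (hyp : Pr p (edgesIn G (Cor A l u σ r)) (fun T =>
          ¬ ∃ v ∈ seedCl G k A.o T, v ∈ Cor A l u σ r ∧ 183 ≤ dot l (A.P v)) ≤ η₁)
    (hbad : ¬ GoodOff A p η₁ k N₀ C n l u σ r τ) :
    η₁ ≤ Pr p (reg G (Cor A l u σ r) (Hk A (hp l τ) C n))
        (fun T => 1 ≤ (out G k A.o (Cor A l u σ r) (Hk A (hp l τ) C n) T).card ∧
          (out G k A.o (Cor A l u σ r) (Hk A (hp l τ) C n) T).card < N₀) := by
  set D := Cor A l u σ r with hD
  set H := Hk A (hp l τ) C n with hH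
  have hHball : ∀ v ∈ ballF G A.o k, v ∈ H := fun v hv =>
    Wk_subset_Hk A _ C n (mem_Wk_hp (hdot v hv))
  have hz := lemM_zero hp0 hp1 k A.o D H {v | 183 ≤ dot l (A.P v)} hball hHball
    (by
      intro v hv hvH
      have h5 := Hk_le hpk hvH (c := (l, τ)) rfl
      have h7 : (183 : ℝ) ≤ dot l (A.P v) := hv
      simp only at h5
      linarith only [hτ, h5, h7])
  have hz2 : Pr p (reg G D H) (fun T => (out G k A.o D H T).card = 0) ≤ η₁ := hz.trans hyp
  have hgt : 2 * η₁ < Pr p (reg G D H) (fun T => (out G k A.o D H T).card < N₀) := by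
    unfold GoodOff at hbad
    exact not_le.1 hbad
  have hor : Pr p (reg G D H) (fun T => (out G k A.o D H T).card < N₀) ≤
      Pr p (reg G D H) (fun T => (out G k A.o D H T).card = 0) +
      Pr p (reg G D H) (fun T => 1 ≤ (out G k A.o D H T).card ∧
        (out G k A.o D H T).card < N₀) := by
    refine le_trans (Pr_mono hp0.le hp1.le ?_) (Pr_or_le hp0.le hp1.le _ _ _)
    intro T _ hT
    rcases Nat.eq_zero_or_pos (out G k A.o D H T).card with h | h
    · exact Or.inl h
    · exact Or.inr ⟨h, hT⟩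
  linarith only [hz2, hgt, hor]

/-- Lemma M for a sequence of parallel lines. -/
theorem lemM_lines {A : Act G} {p Q : ℝ} (hp0 : 0 < p) (hpQ : p ≤ Q) (hQ : Q < 1) {k : ℕ}
    (N₀ : ℕ) {C₁ C : ℝ} {n : ℕ} (hpk : PocketOK A C₁ C n) (hC₁ : 0 < C₁) {l u : ℝ × ℝ} {σ : ℤ}
    {r : ℕ} (hball : ballF G A.o k ⊆ Cor A l u σ r) (tt : ℕ → ℝ)
    (hdot : ∀ v ∈ ballF G A.o k, dot l (A.P v) ≤ tt 0)
    (hstep : ∀ i, tt i + (C₁ + A.C₀) * nm l ≤ tt (i + 1)) (I : ℕ) :
    ∑ i ∈ Finset.range I, Pr p (reg G (Cor A l u σ r) (Hk A (hp l (tt i)) C n))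
        (fun T => 1 ≤ (out G k A.o (Cor A l u σ r) (Hk A (hp l (tt i)) C n) T).card ∧
          (out G k A.o (Cor A l u σ r) (Hk A (hp l (tt i)) C n) T).card < N₀) ≤
      ((1 - Q) ^ (A.Δ * N₀))⁻¹ := by
  have hC₀ := A.C₀_pos
  have hμ0 : 0 ≤ nm l := nm_nonneg l
  have hmono : Monotone tt := by
    refine monotone_nat_of_le_succ fun i => ?_
    have h1 := hstep i
    have h2 : 0 ≤ (C₁ + A.C₀) * nm l := mul_nonneg (by linarith) hμ0
    linarith
  have h1 := lemM hp0 (lt_of_le_of_lt hpQ hQ) A.Δ A.deg k A.o (Cor A l u σ r)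
    (fun i => Hk A (hp l (tt i)) C n) hball
    (fun v hv => Wk_subset_Hk A _ C n (mem_Wk_hp (hdot v hv)))
    (fun i j hij => Hk_hp_mono (hmono hij) C n)
    (fun j u hu v huv => Hk_hp_nb hpk (hstep j) hu huv) N₀ I
  refine h1.trans ?_
  have hQ1 : 0 < 1 - Q := by linarith only [hQ]
  have hpos : 0 < (1 - Q) ^ (A.Δ * N₀) := pow_pos hQ1 _
  have hle : (1 - Q) ^ (A.Δ * N₀) ≤ (1 - p) ^ (A.Δ * N₀) :=
    pow_le_pow_left₀ hQ1.le (by linarith) _
  exact inv_anti₀ hpos hle

/-- If the radius is too small the line is not reached. -/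
theorem le_radius {A : Act G} {p η₁ : ℝ} (hp0 : 0 < p) (hp1 : p < 1) (hη1 : η₁ < 1) {k : ℕ}
    {l u : ℝ × ℝ} {σ : ℤ} {r : ℕ} (hl : A.C₀ * nm l * k ≤ 1)
    (hyp : Pr p (edgesIn G (Cor A l u σ r)) (fun T =>
          ¬ ∃ v ∈ seedCl G k A.o T, v ∈ Cor A l u σ r ∧ 183 ≤ dot l (A.P v)) ≤ η₁) : k ≤ r := by
  by_contra hcon
  rw [not_le] at hcon
  rw [Pr_not] at hyp
  have h2 : Pr p (edgesIn G (Cor A l u σ r)) (fun T =>
      ∃ v ∈ seedCl G k A.o T, v ∈ Cor A l u σ r ∧ 183 ≤ dot l (A.P v)) ≤ 0 := by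
    rw [← Pr_false' p (edgesIn G (Cor A l u σ r))]
    refine Pr_mono hp0.le hp1.le ?_
    rintro T _ ⟨v, _, hv, hv2⟩
    have hv3 : v ∈ ballF G A.o k := by
      have h3 : v ∈ ballF G A.o r := by
        unfold Cor at hv
        exact (Finset.mem_filter.1 hv).1
      exact ballF_mono G A.o hcon.le h3
    have h4 := dot_le_ball A l hv3
    have h6 := (abs_le.1 h4).2
    linarith only [hl, hv2, h6]
  linarith only [hη1, hyp, h2]

/-- The ball is in the corridor. -/
theorem ball_subset_Cor {A : Act G} {k r : ℕ} (hkr : k ≤ r) {l u : ℝ × ℝ}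
    (hl : A.C₀ * nm l * k ≤ 1) (hu : A.C₀ * nm u * k ≤ 1) {σ : ℤ} (hσ : |σ| ≤ 24) :
    ballF G A.o k ⊆ Cor A l u σ r := by
  intro v hv
  unfold Cor
  rw [Finset.mem_filter]
  have h1 := (dot_le_ball A u hv).trans hu
  have h2 := (dot_le_ball A l hv).trans hl
  have h3 : |(σ : ℝ)| ≤ 24 := by exact_mod_cast hσ
  have h5 := abs_le.1 h2
  refine ⟨ballF_mono G A.o hkr hv, ?_, ?_, ?_, ?_⟩
  · have := abs_add_le (dot u (A.P v)) (σ : ℝ)
    linarith only [h1, h3, this]
  · linarith only [h5]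
  · linarith [h5.2]
  · intro h4
    linarith only [h5, h4]

/-- Pigeonhole. -/
theorem pigeon {κ : Type} (S : Finset κ) (F : κ → ℕ → ℝ) {η₁ W c : ℝ} (hη : 0 < η₁)
    (hS : (S.card : ℝ) ≤ c) (hW : 0 ≤ W) (K : ℕ) (hK : c * W / η₁ < K)
    (h1 : ∀ q ∈ S, ∑ i ∈ Finset.range (K + 1), F q i ≤ W)
    (h0 : ∀ q ∈ S, ∀ i, 0 ≤ F q i)
    (h2 : ∀ i ∈ Finset.range (K + 1), ∃ q ∈ S, η₁ ≤ F q i) : False := by
  have hlow : ∀ i ∈ Finset.range (K + 1), η₁ ≤ ∑ q ∈ S, F q i := by
    intro i hi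
    obtain ⟨q, hq, hqi⟩ := h2 i hi
    exact hqi.trans (Finset.single_le_sum (f := fun q => F q i) (fun q hq => h0 q hq i) hq)
  have hsum : ((K : ℝ) + 1) * η₁ ≤ c * W := by
    have h1' := Finset.card_nsmul_le_sum (Finset.range (K + 1)) _ η₁ hlow
    rw [Finset.card_range, nsmul_eq_mul] at h1'
    push_cast at h1'
    refine h1'.trans ?_
    rw [Finset.sum_comm]
    refine (Finset.sum_le_card_nsmul _ _ W h1).trans ?_
    rw [nsmul_eq_mul]
    exact mul_le_mul_of_nonneg_right hS hW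
  rw [div_lt_iff₀ hη] at hK
  have : ((K : ℝ) + 1) * η₁ = K * η₁ + η₁ := by ring
  linarith

/-- The constants. -/
theorem offset_const {B C₁ C₀ : ℝ} (hC₁ : 0 < C₁) (hC₀ : 0 < C₀) (K k : ℕ) : ∃ ε : ℝ, 0 < ε ∧
    (∀ μ : ℝ, 0 ≤ μ → μ ≤ 2 * ε → (K + 1) * ((|B| + C₁ + C₀) * μ) ≤ 1 ∧ |B| * μ ≤ 1 ∧
      C₁ * μ ≤ 1 ∧ C₀ * μ * k ≤ 1) := by
  have hk0 : (0 : ℝ) ≤ k := Nat.cast_nonneg k
  have hK0 : (0 : ℝ) ≤ K := Nat.cast_nonneg K
  have hB := abs_nonneg B
  set M : ℝ := (|B| + C₁ + C₀) * (K + 1) * (k + 1) with hM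
  have hb1 : 0 < |B| + C₁ + C₀ := by positivity
  have hMpos : 0 < M := by (clear * - hC₁ hC₀; positivity)
  refine ⟨1 / (2 * M), by (clear * - hC₁ hC₀; positivity), ?_⟩
  intro μ hμ0 hμ
  have hμM : M * μ ≤ 1 := by
    calc M * μ ≤ M * (2 * (1 / (2 * M))) := mul_le_mul_of_nonneg_left hμ hMpos.le
      _ = 1 := by field_simp
  have e1 : (|B| + C₁ + C₀) * (K + 1) ≤ M := by
    rw [hM]
    exact le_mul_of_one_le_right (by (clear * - hC₁ hC₀; positivity)) (by linarith only [])
  have e2 : |B| + C₁ + C₀ ≤ (|B| + C₁ + C₀) * (K + 1) :=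
    le_mul_of_one_le_right hb1.le (by linarith only [])
  have e3 : C₀ * k ≤ M := by
    have h1 : C₀ ≤ (|B| + C₁ + C₀) * (K + 1) := le_trans (by linarith only [hC₁, hB]) e2
    rw [hM]
    exact mul_le_mul h1 (by linarith only []) hk0 (by (clear * - hC₁ hC₀; positivity))
  refine ⟨?_, ?_, ?_, ?_⟩
  · calc (K + 1) * ((|B| + C₁ + C₀) * μ) = ((|B| + C₁ + C₀) * (K + 1)) * μ := by ring
      _ ≤ M * μ := mul_le_mul_of_nonneg_right e1 hμ0
      _ ≤ 1 := hμM
  · refine le_trans (mul_le_mul_of_nonneg_right ?_ hμ0) hμM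
    linarith only [hC₁, hC₀, e1, e2]
  · refine le_trans (mul_le_mul_of_nonneg_right ?_ hμ0) hμM
    linarith only [hC₀, hB, e1, e2]
  · calc C₀ * μ * k = (C₀ * k) * μ := by ring
      _ ≤ M * μ := mul_le_mul_of_nonneg_right e3 hμ0
      _ ≤ 1 := hμM

theorem offset (A : Act G) {Q : ℝ} (hQ : Q < 1) : OffsetStmt A Q := by
  classical
  intro η₁ hη k N₀ C₁ C n hC₁ hpk B
  have hC₀ := A.C₀_pos
  set W : ℝ := ((1 - Q) ^ (A.Δ * N₀))⁻¹ with hW
  have hQ1 : 0 < 1 - Q := by linarith
  have hW0 : 0 < W := inv_pos.2 (pow_pos hQ1 _)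
  obtain ⟨K, hK⟩ := exists_nat_gt (98 * W / η₁)
  obtain ⟨ε, hε, hcst⟩ := offset_const (B := B) hC₁ hC₀ K k
  refine ⟨ε, hε, ?_⟩
  intro s t r hs ht p hp0 hpQ hyp
  have hp1 : p < 1 := lt_of_le_of_lt hpQ hQ
  -- the trivial case
  by_cases hη1 : 1 ≤ 2 * η₁
  · refine ⟨180, le_rfl, by norm_num, ?_⟩
    intro σ _ u _ e _ _
    exact (Pr_le_one hp0.le hp1.le _ _).trans hη1
  rw [not_le] at hη1
  set l := s + t with hl
  set μ := nm l with hμ
  have hμ0 : 0 ≤ μ := nm_nonneg l
  have hμ2 : μ ≤ 2 * ε := by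
    have := nm_add_le s t
    rw [← hl, ← hμ] at this
    linarith only [hs, ht, this]
  obtain ⟨c1, c2, c3, c4⟩ := hcst μ hμ0 hμ2
  have hs4 := (hcst (nm s) (nm_nonneg s) (by linarith only [hε, hs])).2.2.2
  have ht4 := (hcst (nm t) (nm_nonneg t) (by linarith only [hε, ht])).2.2.2
  have hkr : k ≤ r := le_radius hp0 hp1 (by linarith only [hη1]) c4 (hyp 0 (by norm_num) s (Or.inl rfl))
  have hball : ∀ σ : ℤ, |σ| ≤ 24 → ∀ u : ℝ × ℝ, u = s ∨ u = t →
      ballF G A.o k ⊆ Cor A l u σ r := by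
    intro σ hσ u hu
    refine ball_subset_Cor hkr c4 ?_ hσ
    rcases hu with rfl | rfl
    · exact hs4
    · exact ht4
  set h' : ℝ := (|B| + C₁ + A.C₀) * μ with hh'
  have hh'0 : 0 ≤ h' := by (clear * - hC₁ hC₀ hμ0; positivity)
  by_contra hcon
  push Not at hcon
  set uu : Bool → ℝ × ℝ := fun b => if b then s else t with huu
  have huu' : ∀ b, uu b = s ∨ uu b = t := by
    intro b; cases b
    · exact Or.inr rfl
    · exact Or.inl rfl
  have hgoal : ∀ q : ℤ × Bool, ∀ i : ℕ, ∃ e : ℝ, 0 ≤ e ∧ e ≤ |B| * μ ∧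
      ((∃ e', 0 ≤ e' ∧ e' ≤ B * μ ∧
        ¬ GoodOff A p η₁ k N₀ C n l (uu q.2) q.1 r (180 + i * h' - e')) →
        ¬ GoodOff A p η₁ k N₀ C n l (uu q.2) q.1 r (180 + i * h' - e)) := by
    intro q i
    by_cases h : ∃ e', 0 ≤ e' ∧ e' ≤ B * μ ∧
        ¬ GoodOff A p η₁ k N₀ C n l (uu q.2) q.1 r (180 + i * h' - e')
    · obtain ⟨e', h1, h2, h3⟩ := h
      exact ⟨e', h1, h2.trans (mul_le_mul_of_nonneg_right (le_abs_self B) hμ0), fun _ => h3⟩
    · exact ⟨0, le_rfl, mul_nonneg (abs_nonneg B) hμ0, fun h' => absurd h' h⟩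
  choose ee hee0 heeB heebad using hgoal
  set tt : ℤ × Bool → ℕ → ℝ := fun q i => 180 + i * h' - ee q i with htt
  have hstep : ∀ q i, tt q i + (C₁ + A.C₀) * μ ≤ tt q (i + 1) := by
    intro q i
    have h1 := hee0 q i
    have h2 := heeB q (i + 1)
    simp only [htt]
    push_cast
    have h3 : h' = |B| * μ + (C₁ + A.C₀) * μ := by rw [hh']; ring
    have h4 : ((i : ℝ) + 1) * h' = i * h' + h' := by ring
    rw [h4]
    linarith only [h1, h2]
  have htt0 : ∀ q i, 179 ≤ tt q i := by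
    intro q i
    have h1 := heeB q i
    have h3 : 0 ≤ (i : ℝ) * h' := mul_nonneg (Nat.cast_nonneg i) hh'0
    simp only [htt]
    linarith only [c2, h1, h3]
  have hiK : ∀ i ∈ Finset.range (K + 1), (i : ℝ) * h' ≤ 1 := by
    intro i hi
    have h2 : (i : ℝ) ≤ K + 1 := by
      have h3 : i ≤ K + 1 := (Finset.mem_range.1 hi).le
      exact_mod_cast h3
    exact (mul_le_mul_of_nonneg_right h2 hh'0).trans c1
  have htt1 : ∀ q, ∀ i ∈ Finset.range (K + 1), tt q i + C₁ * μ ≤ 182 := by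
    intro q i hi
    have h1 := hee0 q i
    have h2 := hiK i hi
    simp only [htt]
    linarith only [c3, h1, h2]
  have hdot : ∀ q i, ∀ v ∈ ballF G A.o k, dot l (A.P v) ≤ tt q i := by
    intro q i v hv
    have h2 := (dot_le_ball A l hv).trans c4
    have h3 := (abs_le.1 h2).2
    have h4 := htt0 q i
    linarith only [h3, h4]
  refine pigeon ((Finset.Icc (-24 : ℤ) 24) ×ˢ (Finset.univ : Finset Bool))
    (fun q i => Pr p (reg G (Cor A l (uu q.2) q.1 r) (Hk A (hp l (tt q i)) C n))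
        (fun T => 1 ≤ (out G k A.o (Cor A l (uu q.2) q.1 r) (Hk A (hp l (tt q i)) C n) T).card ∧
          (out G k A.o (Cor A l (uu q.2) q.1 r) (Hk A (hp l (tt q i)) C n) T).card < N₀))
    hη (c := 98) ?_ hW0.le K hK ?_ ?_ ?_
  · rw [Finset.card_product]
    simp
  · intro q hq
    rw [Finset.mem_product, Finset.mem_Icc] at hq
    exact lemM_lines hp0 hpQ hQ N₀ hpk hC₁ (hball q.1 (abs_le.2 hq.1) (uu q.2) (huu' q.2))
      (tt q) (hdot q 0) (hstep q) (K + 1)
  · intro q _ i
    exact Pr_nonneg hp0.le hp1.le _ _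
  · intro i hi
    have h4 : 0 ≤ (i : ℝ) * h' := mul_nonneg (Nat.cast_nonneg i) hh'0
    have h5 := hiK i hi
    obtain ⟨σ, hσ, u, hu, e, he0, heB, hng⟩ := hcon (180 + i * h') (by linarith only [h4]) (by linarith only [h5])
    obtain ⟨b, rfl⟩ : ∃ b, u = uu b := by
      rcases hu with rfl | rfl
      · exact ⟨true, rfl⟩
      · exact ⟨false, rfl⟩
    refine ⟨(σ, b), ?_, ?_⟩
    · rw [Finset.mem_product, Finset.mem_Icc]
      exact ⟨abs_le.1 hσ, Finset.mem_univ _⟩
    · exact contacts_of_bad hp0 hp1 hpk (hball σ hσ (uu b) (huu' b)) (hdot (σ, b) i)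
        (htt1 (σ, b) i hi) (hyp σ hσ (uu b) (huu' b))
        (heebad (σ, b) i ⟨e, he0, heB, hng⟩)

end Vale.Agent.P151.Pl
end
end
end

section

section

/-!
# Nilpotent groups with abelianisation of rank at most one

`rank_two_or_cyclic`: a finitely generated nilpotent group has a homomorphism to `ℤ × ℤ` with two
elements with independent images, or a cyclic subgroup of finite index.
-/

set_option autoImplicit false

open Subgroup
open scoped commutatorElement

namespace Vale.Agent.P151.Pl.Nilp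

universe u

section

variable {G : Type u} [Group G]

/-- Powers of a central commutator. -/
theorem central_comm_pow {a g c : G} (hc : ∀ x : G, c * x = x * c) (h : a * g = c * g * a) (n : ℕ) :
    a ^ n * g = c ^ n * g * a ^ n := by
  induction n with
  | zero => simp
  | succ n ih =>
    rw [pow_succ a n, mul_assoc, h]
    rw [show a ^ n * (c * g * a) = (a ^ n * c) * g * a by group]
    rw [← hc (a ^ n), mul_assoc c (a ^ n) g, ih, pow_succ' c n]
    group

/-- Finitely many commutators if the center has finite index. -/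
theorem finite_commutatorSet (h : (center G).FiniteIndex) : Finite (commutatorSet G) := by
  let f : (G ⧸ center G) × (G ⧸ center G) → G := fun x => ⁅x.1.out, x.2.out⁆
  have hsub : commutatorSet G ⊆ Set.range f := by
    rintro x ⟨g, h, rfl⟩
    refine ⟨(QuotientGroup.mk g, QuotientGroup.mk h), ?_⟩
    obtain ⟨z, hz⟩ := QuotientGroup.mk_out_eq_mul (center G) g
    obtain ⟨z', hz'⟩ := QuotientGroup.mk_out_eq_mul (center G) h
    show ⁅(QuotientGroup.mk g : G ⧸ center G).out, (QuotientGroup.mk h : G ⧸ center G).out⁆ =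
      ⁅g, h⁆
    rw [hz, hz']
    have k1 : ∀ x : G, x * (z : G) = z * x := Subgroup.mem_center_iff.1 z.2
    have k2 : ∀ x : G, x * (z' : G) = z' * x := Subgroup.mem_center_iff.1 z'.2
    rw [commutatorElement_def, commutatorElement_def, mul_inv_rev, mul_inv_rev]
    have k3 : h * (z : G)⁻¹ = (z : G)⁻¹ * h := by
      have := k1 h
      calc h * (z : G)⁻¹ = (z : G)⁻¹ * (z * h) * (z : G)⁻¹ := by group
        _ = (z : G)⁻¹ * (h * z) * (z : G)⁻¹ := by rw [this]
        _ = _ := by group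
    calc g * (z : G) * (h * (z' : G)) * ((z : G)⁻¹ * g⁻¹) * ((z' : G)⁻¹ * h⁻¹)
        = g * z * h * (z' * ((z : G)⁻¹ * g⁻¹)) * (z' : G)⁻¹ * h⁻¹ := by group
      _ = g * z * h * ((z : G)⁻¹ * g⁻¹ * z') * (z' : G)⁻¹ * h⁻¹ := by rw [← k2]
      _ = g * (z * (h * (z : G)⁻¹)) * g⁻¹ * h⁻¹ := by group
      _ = g * (z * ((z : G)⁻¹ * h)) * g⁻¹ * h⁻¹ := by rw [k3]
      _ = g * h * g⁻¹ * h⁻¹ := by group
  exact (Set.finite_range f).subset hsub

/-- If `a` is central modulo the center and the kernel of `g ↦ ⁅a, g⁆` has finite index then a power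
of `a` is central. -/
theorem exists_pow_center (t : G) (m : ℕ) (hU : (zpowers t ⊔ commutator G).FiniteIndex)
    (haZ : ∀ g : G, ∃ c ∈ center G, t ^ m * g = c * g * t ^ m) :
    ∃ e : ℕ, 0 < e ∧ (t ^ m) ^ e ∈ center G := by
  set a := t ^ m with ha
  choose c hcZ hc using haZ
  have hcc : ∀ g x : G, c g * x = x * c g := fun g x =>
    ((Subgroup.mem_center_iff.1 (hcZ g)) x).symm
  have hcg : ∀ g, c g = a * g * a⁻¹ * g⁻¹ := by
    intro g
    have := hc g
    calc c g = (c g * g * a) * a⁻¹ * g⁻¹ := by group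
      _ = _ := by rw [← this]
  have hcmul : ∀ g h, c (g * h) = c g * c h := by
    intro g h
    have e1 : a * (g * h) = c g * c h * (g * h) * a := by
      calc a * (g * h) = (a * g) * h := by group
        _ = c g * g * (a * h) := by rw [hc g]; group
        _ = c g * (g * c h) * h * a := by rw [hc h]; group
        _ = c g * c h * (g * h) * a := by rw [← hcc h g]; group
    rw [hcg (g * h), e1]
    group
  have hcone : c 1 = 1 := by rw [hcg]; group
  let φ : G →* G :=
    { toFun := c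
      map_one' := hcone
      map_mul' := hcmul }
  have hφ : ∀ g, g ∈ φ.ker ↔ c g = 1 := fun g => MonoidHom.mem_ker
  have hcinv : ∀ g, c g⁻¹ = (c g)⁻¹ := fun g => map_inv φ g
  have hUK : zpowers t ⊔ commutator G ≤ φ.ker := by
    refine sup_le ?_ (by
      rw [commutator_def, Subgroup.commutator_le]
      intro g _ h _
      rw [hφ, commutatorElement_def, hcmul, hcmul, hcmul, hcinv, hcinv, hcc g (c h)]
      group)
    rw [Subgroup.zpowers_le, hφ, hcg, ha]
    have : t ^ m * t = t * t ^ m := (pow_succ t m).symm.trans (pow_succ' t m)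
    rw [this]
    group
  have hK : φ.ker.FiniteIndex := Subgroup.finiteIndex_of_le hUK
  refine ⟨φ.ker.index, Nat.pos_of_ne_zero hK.index_ne_zero, ?_⟩
  have hce : ∀ g, c g ^ φ.ker.index = 1 := by
    intro g
    have h3 : g ^ φ.ker.index ∈ φ.ker := φ.ker.pow_index_mem g
    rw [hφ] at h3
    have h5 : ∀ n : ℕ, c (g ^ n) = c g ^ n := by
      intro n
      induction n with
      | zero => rw [pow_zero, pow_zero, hcone]
      | succ n ih => rw [pow_succ, hcmul, ih, pow_succ]
    rw [← h5]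
    exact h3
  rw [Subgroup.mem_center_iff]
  intro g
  have h3 := central_comm_pow (hcc g) (hc g) φ.ker.index
  rw [hce, one_mul] at h3
  exact h3.symm

/-- Reduction of exponents. -/
theorem zpow_reduce (x : G) (n : ℕ) (hn : 0 < n) (hx : x ^ n = 1) (k : ℤ) :
    ∃ j : Fin n, x ^ k = x ^ (j : ℕ) := by
  have hne : ((n : ℕ) : ℤ) ≠ 0 := by exact_mod_cast hn.ne'
  have h3 := Int.emod_nonneg k hne
  have hpos : (0 : ℤ) < ((n : ℕ) : ℤ) := by exact_mod_cast hn
  have h4 := Int.emod_lt_of_pos k hpos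
  refine ⟨⟨(k % (n : ℤ)).toNat, by omega⟩, ?_⟩
  calc x ^ k = x ^ (k % (n : ℤ) + (n : ℤ) * (k / (n : ℤ))) := by rw [Int.emod_add_mul_ediv]
    _ = x ^ (k % (n : ℤ)) := by
        rw [zpow_add, zpow_mul, zpow_natCast, hx, one_zpow, mul_one]
    _ = x ^ ((k % (n : ℤ)).toNat) := by
        conv_lhs => rw [← Int.toNat_of_nonneg h3]
        rw [zpow_natCast]

/-- Decomposition of an element with respect to `zpowers t ⊔ commutator G`. -/
theorem decomp (t g : G) : ∃ (k : ℤ) (w : G), w ∈ commutator G ∧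
    g = (QuotientGroup.mk g : G ⧸ (zpowers t ⊔ commutator G)).out * t ^ k * w := by
  obtain ⟨u, hu⟩ := QuotientGroup.mk_out_eq_mul (zpowers t ⊔ commutator G) g
  have hu2 : ((u : G)⁻¹) ∈ zpowers t ⊔ commutator G := Subgroup.inv_mem _ u.2
  rw [Subgroup.mem_sup_of_normal_right] at hu2
  obtain ⟨y, hy, w, hw, hyw⟩ := hu2
  obtain ⟨k, rfl⟩ := Subgroup.mem_zpowers_iff.1 hy
  refine ⟨k, w, hw, ?_⟩
  rw [hu, mul_assoc, hyw]
  group

theorem center_finiteIndex_step (t : G) (hU : (zpowers t ⊔ commutator G).FiniteIndex)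
    (hC : (center (G ⧸ center G)).FiniteIndex) : (center G).FiniteIndex := by
  set q : G →* G ⧸ center G := QuotientGroup.mk' (center G) with hq
  have hqs : Function.Surjective q := QuotientGroup.mk'_surjective (center G)
  have hker : ∀ x : G, q x = 1 ↔ x ∈ center G := by
    intro x
    rw [hq, QuotientGroup.mk'_apply, QuotientGroup.eq_one_iff]
  set m := (center (G ⧸ center G)).index with hm
  have hm0 : 0 < m := Nat.pos_of_ne_zero hC.index_ne_zero
  obtain ⟨e, he0, haec⟩ := exists_pow_center t m hU (by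
    intro g
    have h3 : q (t ^ m) ∈ center (G ⧸ center G) := by
      rw [map_pow]
      exact (center (G ⧸ center G)).pow_index_mem (q t)
    refine ⟨t ^ m * g * (t ^ m)⁻¹ * g⁻¹, ?_, by group⟩
    rw [← hker]
    have h4 := (Subgroup.mem_center_iff.1 h3) (q g)
    rw [map_mul, map_mul, map_mul, map_inv, map_inv, ← h4]
    group)
  have hfc := finite_commutatorSet hC
  have hSchur : Finite (commutator (G ⧸ center G)) := inferInstance
  have hme : 0 < m * e := Nat.mul_pos hm0 he0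
  let F : (G ⧸ (zpowers t ⊔ commutator G)) × Fin (m * e) × commutator (G ⧸ center G) →
      G ⧸ center G := fun x => q x.1.out * q t ^ (x.2.1 : ℕ) * (x.2.2 : G ⧸ center G)
  have hF : Function.Surjective F := by
    intro y
    obtain ⟨g, rfl⟩ := hqs y
    obtain ⟨k, w, hw, hg⟩ := decomp t g
    obtain ⟨j, hj⟩ := zpow_reduce (q t) (m * e) hme (by
      have := (hker ((t ^ m) ^ e)).2 haec
      rw [← pow_mul, map_pow] at this
      exact this) k
    have hwq : q w ∈ commutator (G ⧸ center G) := by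
      have h5 : q w ∈ (commutator G).map q := ⟨w, hw, rfl⟩
      rw [commutator_def, Subgroup.map_commutator] at h5
      rw [commutator_def]
      exact Subgroup.commutator_mono le_top le_top h5
    refine ⟨(QuotientGroup.mk g, j, ⟨q w, hwq⟩), ?_⟩
    show q (QuotientGroup.mk g : G ⧸ (zpowers t ⊔ commutator G)).out * q t ^ (j : ℕ) * q w = q g
    rw [← hj]
    conv_rhs => rw [hg]
    rw [map_mul, map_mul, map_zpow]
  have hfinal : Finite (G ⧸ center G) := Finite.of_surjective F hF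
  exact Subgroup.finiteIndex_of_finite_quotient

end

theorem center_finiteIndex (G : Type u) [Group G] [Group.IsNilpotent G] :
    ∀ t : G, (zpowers t ⊔ commutator G).FiniteIndex → (center G).FiniteIndex := by
  refine Group.nilpotent_center_quotient_ind (P := fun G _ _ =>
    ∀ t : G, (zpowers t ⊔ commutator G).FiniteIndex → (center G).FiniteIndex) G ?_ ?_
  · intro G _ _ t _
    infer_instance
  · intro G _ _ ih t hU
    refine center_finiteIndex_step t hU (ih (QuotientGroup.mk' (center G) t) ?_)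
    set q : G →* G ⧸ center G := QuotientGroup.mk' (center G) with hq
    have hqs : Function.Surjective q := QuotientGroup.mk'_surjective (center G)
    have h2 : (zpowers t ⊔ commutator G).map q ≤ zpowers (q t) ⊔ commutator (G ⧸ center G) := by
      rw [Subgroup.map_sup, MonoidHom.map_zpowers]
      refine sup_le_sup_left ?_ _
      rw [commutator_def, commutator_def, Subgroup.map_commutator]
      exact Subgroup.commutator_mono le_top le_top
    have h3 : ((zpowers t ⊔ commutator G).map q).FiniteIndex := by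
      refine ⟨fun h0 => ?_⟩
      have h4 := (zpowers t ⊔ commutator G).index_map_dvd hqs
      rw [h0, zero_dvd_iff] at h4
      exact hU.index_ne_zero h4
    exact Subgroup.finiteIndex_of_le h2

/-- A nilpotent group with a virtually cyclic abelianisation is virtually cyclic. -/
theorem zpowers_finiteIndex (G : Type u) [Group G] [Group.IsNilpotent G] (t : G)
    (hU : (zpowers t ⊔ commutator G).FiniteIndex) : (zpowers t).FiniteIndex := by
  have hC := center_finiteIndex G t hU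
  have hfc := finite_commutatorSet hC
  have hSchur : Finite (commutator G) := inferInstance
  let F : (G ⧸ (zpowers t ⊔ commutator G)) × commutator G → G ⧸ zpowers t :=
    fun x => QuotientGroup.mk (x.1.out * (x.2 : G))
  have hF : Function.Surjective F := by
    intro y
    obtain ⟨g, rfl⟩ := QuotientGroup.mk_surjective y
    obtain ⟨k, w, hw, hg⟩ := decomp t g
    refine ⟨(QuotientGroup.mk g, ⟨t ^ k * w * (t ^ k)⁻¹, ?_⟩), ?_⟩
    · exact (inferInstance : (commutator G).Normal).conj_mem w hw (t ^ k)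
    · show (QuotientGroup.mk ((QuotientGroup.mk g : G ⧸ (zpowers t ⊔ commutator G)).out *
        (t ^ k * w * (t ^ k)⁻¹)) : G ⧸ zpowers t) = QuotientGroup.mk g
      rw [QuotientGroup.eq, Subgroup.mem_zpowers_iff]
      refine ⟨k, ?_⟩
      generalize (QuotientGroup.mk g : G ⧸ (zpowers t ⊔ commutator G)).out = o at hg
      rw [hg]
      group
  have hfinal : Finite (G ⧸ zpowers t) := Finite.of_surjective F hF
  exact Subgroup.finiteIndex_of_finite_quotient

/-- A finitely generated commutative group has two independent homomorphisms to `ℤ` or is virtually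
cyclic. -/
theorem comm_rank_two_or_cyclic (A : Type u) [CommGroup A] [Group.FG A] :
    (∃ (f : A →* Multiplicative ℤ × Multiplicative ℤ), Function.Surjective f) ∨
      ∃ t : A, (zpowers t).FiniteIndex := by
  classical
  obtain ⟨ι, j, _, _, p, hp, e, ⟨f⟩⟩ := CommGroup.equiv_free_prod_prod_multiplicative_zmod A
  by_cases hj : Nontrivial j
  · left
    obtain ⟨a, b, hab⟩ := hj
    refine ⟨((Pi.evalMonoidHom (fun _ : j => Multiplicative ℤ) a).prod
      (Pi.evalMonoidHom (fun _ : j => Multiplicative ℤ) b)).comp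
      ((MonoidHom.fst _ _).comp f.toMonoidHom), ?_⟩
    rintro ⟨x, y⟩
    refine ⟨f.symm (fun i => if i = a then x else y, 1), ?_⟩
    simp only [MulEquiv.toMonoidHom_eq_coe, MonoidHom.coe_comp, MonoidHom.coe_fst, MonoidHom.coe_coe, Function.comp_apply, MulEquiv.apply_symm_apply, MonoidHom.prod_apply, Pi.evalMonoidHom_apply, ↓reduceIte, hab.symm]
  · right
    rw [not_nontrivial_iff_subsingleton] at hj
    refine ⟨f.symm (fun _ => Multiplicative.ofAdd 1, 1), ?_⟩
    have hfin : Finite ((i : ι) → Multiplicative (ZMod (p i ^ e i))) := by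
      have : ∀ i, NeZero (p i ^ e i) := fun i => ⟨pow_ne_zero _ (hp i).ne_zero⟩
      have : ∀ i, Finite (Multiplicative (ZMod (p i ^ e i))) := fun i => by
        have := ‹∀ i, NeZero (p i ^ e i)› i
        infer_instance
      infer_instance
    let F : ((i : ι) → Multiplicative (ZMod (p i ^ e i))) →
        A ⧸ zpowers (f.symm (fun _ => Multiplicative.ofAdd 1, 1)) :=
      fun y => QuotientGroup.mk (f.symm (1, y))
    have hF : Function.Surjective F := by
      intro z
      obtain ⟨a, rfl⟩ := QuotientGroup.mk_surjective z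
      refine ⟨(f a).2, ?_⟩
      show (QuotientGroup.mk (f.symm (1, (f a).2)) : A ⧸ _) = QuotientGroup.mk a
      rw [QuotientGroup.eq, Subgroup.mem_zpowers_iff]
      have hk : ∃ k : ℤ, ∀ i, (f a).1 i = (Multiplicative.ofAdd (1 : ℤ)) ^ k := by
        by_cases hne : Nonempty j
        · obtain ⟨i₀⟩ := hne
          refine ⟨Multiplicative.toAdd ((f a).1 i₀), fun i => ?_⟩
          rw [Subsingleton.elim i i₀, ← ofAdd_zsmul]
          simp
        · exact ⟨0, fun i => absurd ⟨i⟩ hne⟩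
      obtain ⟨k, hk⟩ := hk
      refine ⟨k, ?_⟩
      apply f.injective
      rw [map_zpow, map_mul, map_inv, MulEquiv.apply_symm_apply, MulEquiv.apply_symm_apply]
      ext i
      · simp only [Prod.pow_mk, one_zpow, Pi.pow_apply, toAdd_zpow, toAdd_ofAdd, Int.zsmul_eq_mul, mul_one, Prod.inv_mk, inv_one, Prod.fst_mul, Pi.mul_apply, Pi.one_apply, hk i, one_mul]
      · simp only [Prod.pow_mk, one_zpow, Pi.one_apply, toAdd_one, Prod.inv_mk, inv_one, Prod.snd_mul, Pi.mul_apply, Pi.inv_apply, inv_mul_cancel]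
    have hfinal := Finite.of_surjective F hF
    exact Subgroup.finiteIndex_of_finite_quotient

/-- A finitely generated nilpotent group maps onto `ℤ × ℤ` or is virtually cyclic. -/
theorem rank_two_or_cyclic (N : Type u) [Group N] [Group.IsNilpotent N] [Group.FG N] :
    (∃ (f : N →* Multiplicative ℤ × Multiplicative ℤ), Function.Surjective f) ∨
      ∃ t : N, (zpowers t).FiniteIndex := by
  have hfg : Group.FG (Abelianization N) :=
    Group.fg_of_surjective (QuotientGroup.mk'_surjective (commutator N) :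
      Function.Surjective (Abelianization.of (G := N)))
  rcases comm_rank_two_or_cyclic (Abelianization N) with ⟨f, hf⟩ | ⟨t, ht⟩
  · left
    refine ⟨f.comp Abelianization.of, ?_⟩
    rw [MonoidHom.coe_comp]
    exact hf.comp (QuotientGroup.mk'_surjective (commutator N))
  · right
    obtain ⟨t, rfl⟩ := (QuotientGroup.mk'_surjective (commutator N) :
      Function.Surjective (Abelianization.of (G := N))) t
    refine ⟨t, zpowers_finiteIndex N t ?_⟩
    have h1 : ((zpowers (Abelianization.of t)).comap (Abelianization.of (G := N))).FiniteIndex := by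
      refine ⟨?_⟩
      have hs : Function.Surjective (Abelianization.of (G := N)) :=
        QuotientGroup.mk'_surjective (commutator N)
      have := Subgroup.index_comap_of_surjective (f := Abelianization.of (G := N))
        (zpowers (Abelianization.of t)) hs
      rw [this]
      exact ht.index_ne_zero
    refine Subgroup.finiteIndex_of_le (H := (zpowers (Abelianization.of t)).comap
      (Abelianization.of (G := N))) ?_
    intro g hg
    rw [Subgroup.mem_comap] at hg
    obtain ⟨k, hk⟩ := Subgroup.mem_zpowers_iff.1 hg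
    rw [Subgroup.mem_sup_of_normal_right]
    refine ⟨t ^ k, Subgroup.zpow_mem_zpowers t k, (t ^ k)⁻¹ * g, ?_, by group⟩
    rw [← Abelianization.ker_of, MonoidHom.mem_ker, map_mul, map_inv, map_zpow, hk]
    group

end Vale.Agent.P151.Pl.Nilp
end
end

section

section

/-!
# No percolation at `p_c` for graphs with an equivariant map of rank two
-/

open MeasureTheory ProbabilityTheory SimpleGraph unitInterval

set_option autoImplicit false
set_option linter.unusedSectionVars false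

namespace Vale.Agent.P151.Pl

open Vale.Agent.P151 Vale.Agent.P151.Red

variable {V : Type} [DecidableEq V] {G : SimpleGraph V} [G.LocallyFinite]

theorem main_stmt_all (A : Act G) : MainStmt A :=
  main_stmt A (fun q Q hq _ hQ => ClB.chainStmt A q Q hq hQ (exists_pocket A))
    (fun _ _ hQ => offset A hQ)
    (fun q Q hq _ hQ => C.fscStmt knStar A hq hQ (exists_pocket A) (ClB.reachStmt G A.Δ q Q))

theorem no_perc_at_pc (hG : G.Connected) (Γ : Subgroup (G ≃g G)) (S : Finset V)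
    (hS : ∀ x : V, ∃ y ∈ S, ∃ φ ∈ Γ, φ y = x) (P : V → ℝ × ℝ)
    (hP : ∀ φ ∈ Γ, ∃ w : ℝ × ℝ, ∀ v : V, P (φ v) = P v + w)
    (hr : ∃ φ ∈ Γ, ∃ ψ ∈ Γ, ∃ v : V, (P (φ v) - P v).1 * (P (ψ v) - P v).2 -
      (P (φ v) - P v).2 * (P (ψ v) - P v).1 ≠ 0)
    (p : I) (hp : (p : ℝ) = pc G) (hp1 : pc G < 1) :
    setBernoulli G.edgeSet p (hasInfiniteCluster V) = 0 :=
  pc_of_main hG Γ S hS P hP hr main_stmt_all p hp hp1

end Vale.Agent.P151.Pl
end

section

/-!
# Groups acting through a virtually nilpotent group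

`no_perc_nilpotent`: `Γ` acts on `G` with finitely many orbits, `f : Γ → H` onto a finitely generated
virtually nilpotent group, the kernel of `f` has finite orbits and the stabilisers have finite
images (Trofimov's theorem gives such an `f` for every quasi-transitive graph of polynomial growth;
for a Cayley graph of `H` take `f = id`).
-/

open MeasureTheory ProbabilityTheory SimpleGraph unitInterval

set_option autoImplicit false
set_option linter.unusedSectionVars false

namespace Vale.Agent.P151.Pl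

open Vale.Agent.P151 Vale.Agent.P151.Red

section Orbits

variable {V : Type} {G : SimpleGraph V}

/-- A subgroup of finite index has finitely many orbits. -/
theorem orbits_finiteIndex (Γ : Subgroup (G ≃g G)) (S : Finset V)
    (hS : ∀ x : V, ∃ y ∈ S, ∃ φ ∈ Γ, φ y = x) (L : Subgroup Γ) (hL : L.FiniteIndex) :
    ∃ S' : Finset V, ∀ x : V, ∃ y ∈ S', ∃ γ : L, ((γ : Γ) : G ≃g G) y = x := by
  classical
  have := hL
  have : Finite (Γ ⧸ L) := Subgroup.finite_quotient_of_finiteIndex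
  have : Fintype (Γ ⧸ L) := Fintype.ofFinite _
  refine ⟨(Finset.univ : Finset (Γ ⧸ L)).biUnion (fun c => S.image (fun y =>
    (((c.out)⁻¹ : Γ) : G ≃g G) y)), fun x => ?_⟩
  obtain ⟨y, hy, φ, hφ, rfl⟩ := hS x
  set c : Γ ⧸ L := QuotientGroup.mk (⟨φ, hφ⟩ : Γ)⁻¹ with hc
  have h1 : (c.out)⁻¹ * (⟨φ, hφ⟩ : Γ)⁻¹ ∈ L := by
    rw [← QuotientGroup.eq, ← hc]
    exact Quotient.out_eq' c
  have h2 : (⟨φ, hφ⟩ : Γ) * c.out ∈ L := by
    have := L.inv_mem h1
    rwa [mul_inv_rev, inv_inv, inv_inv] at this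
  refine ⟨(((c.out)⁻¹ : Γ) : G ≃g G) y, ?_, ⟨_, h2⟩, ?_⟩
  · rw [Finset.mem_biUnion]
    exact ⟨c, Finset.mem_univ _, Finset.mem_image_of_mem _ hy⟩
  · have h3 : ((⟨φ, hφ⟩ : Γ) * c.out) * (c.out)⁻¹ = ⟨φ, hφ⟩ := by group
    have h4 : ((((⟨φ, hφ⟩ : Γ) * c.out : Γ) : G ≃g G) * (((c.out)⁻¹ : Γ) : G ≃g G)) = φ := by
      rw [← Subgroup.coe_mul, h3]
    conv_rhs => rw [← h4]
    rfl

/-- An equivariant map with values in `ℤ`. -/
theorem exists_equi (Γ : Subgroup (G ≃g G)) (L : Subgroup Γ) (F : L →* Multiplicative ℤ)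
    (hst : ∀ (γ : L) (v : V), ((γ : Γ) : G ≃g G) v = v → F γ = 1) :
    ∃ P : V → ℤ, ∀ (φ : L) (v : V), P (((φ : Γ) : G ≃g G) v) = P v + (F φ).toAdd := by
  classical
  let s : Setoid V :=
    { r := fun x y => ∃ γ : L, ((γ : Γ) : G ≃g G) x = y
      iseqv :=
        { refl := fun x => ⟨1, rfl⟩
          symm := by
            rintro x y ⟨γ, rfl⟩
            refine ⟨γ⁻¹, ?_⟩
            exact ((γ : Γ) : G ≃g G).symm_apply_apply x
          trans := by
            rintro x y z ⟨γ, rfl⟩ ⟨δ, rfl⟩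
            exact ⟨δ * γ, rfl⟩ } }
  let rep : V → V := fun x => (Quotient.mk s x).out
  have hrep : ∀ x, ∃ γ : L, ((γ : Γ) : G ≃g G) (rep x) = x := by
    intro x
    exact Quotient.exact (Quotient.out_eq (Quotient.mk s x))
  choose γ hγ using hrep
  refine ⟨fun x => (F (γ x)).toAdd, fun φ v => ?_⟩
  have h1 : rep (((φ : Γ) : G ≃g G) v) = rep v := by
    have : Quotient.mk s (((φ : Γ) : G ≃g G) v) = Quotient.mk s v :=
      Quotient.sound (s.symm ⟨φ, rfl⟩)
    show (Quotient.mk s (((φ : Γ) : G ≃g G) v)).out = (Quotient.mk s v).out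
    rw [this]
  have h2 : (((φ * γ v)⁻¹ * γ (((φ : Γ) : G ≃g G) v) : L) : Γ).1 (rep v) = rep v := by
    have h3 := hγ (((φ : Γ) : G ≃g G) v)
    rw [h1] at h3
    show (((φ * γ v : L) : Γ) : G ≃g G).symm (((γ (((φ : Γ) : G ≃g G) v) : L) : Γ).1 (rep v)) = rep v
    rw [h3]
    have h4 : (((φ * γ v : L) : Γ) : G ≃g G) (rep v) = ((φ : Γ) : G ≃g G) v := by
      show ((φ : Γ) : G ≃g G) (((γ v : Γ) : G ≃g G) (rep v)) = _
      rw [hγ v]
    rw [← h4]
    exact (((φ * γ v : L) : Γ) : G ≃g G).symm_apply_apply _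
  have h5 := hst _ _ h2
  rw [map_mul, map_inv, inv_mul_eq_one, map_mul] at h5
  show (F (γ (((φ : Γ) : G ≃g G) v))).toAdd = (F (γ v)).toAdd + (F φ).toAdd
  rw [← h5, toAdd_mul, add_comm]

end Orbits

variable {V : Type} [DecidableEq V] {G : SimpleGraph V} [G.LocallyFinite]

/-- The case of rank two. -/
theorem rank_two_case (hG : G.Connected) (Γ : Subgroup (G ≃g G)) (S : Finset V)
    (hS : ∀ x : V, ∃ y ∈ S, ∃ φ ∈ Γ, φ y = x) (L : Subgroup Γ) (hL : L.FiniteIndex)
    (F : L →* Multiplicative ℤ × Multiplicative ℤ) (hF : Function.Surjective F)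
    (hst : ∀ (γ : L) (v : V), ((γ : Γ) : G ≃g G) v = v → F γ = 1)
    (p : I) (hp : (p : ℝ) = pc G) (hpc : pc G < 1) :
    setBernoulli G.edgeSet p (hasInfiniteCluster V) = 0 := by
  obtain ⟨S', hS'⟩ := orbits_finiteIndex Γ S hS L hL
  obtain ⟨P₁, hP₁⟩ := exists_equi Γ L ((MonoidHom.fst _ _).comp F)
    (fun γ v h => by rw [MonoidHom.comp_apply, hst γ v h, map_one])
  obtain ⟨P₂, hP₂⟩ := exists_equi Γ L ((MonoidHom.snd _ _).comp F)
    (fun γ v h => by rw [MonoidHom.comp_apply, hst γ v h, map_one])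
  obtain ⟨o⟩ := hG.nonempty
  obtain ⟨φ, hφ⟩ := hF (Multiplicative.ofAdd 1, 1)
  obtain ⟨ψ, hψ⟩ := hF (1, Multiplicative.ofAdd 1)
  refine no_perc_at_pc hG (L.map Γ.subtype) S' ?_ (fun v => ((P₁ v : ℝ), (P₂ v : ℝ))) ?_ ?_ p hp hpc
  · intro x
    obtain ⟨y, hy, γ, hγ⟩ := hS' x
    exact ⟨y, hy, ((γ : Γ) : G ≃g G), Subgroup.mem_map.2 ⟨γ, γ.2, rfl⟩, hγ⟩
  · intro θ hθ
    obtain ⟨γ, hγ, rfl⟩ := Subgroup.mem_map.1 hθ
    refine ⟨(((F ⟨γ, hγ⟩).1.toAdd : ℤ), ((F ⟨γ, hγ⟩).2.toAdd : ℤ)), fun v => ?_⟩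
    have h1 := hP₁ ⟨γ, hγ⟩ v
    have h2 := hP₂ ⟨γ, hγ⟩ v
    apply Prod.ext
    · show ((P₁ ((γ : G ≃g G) v) : ℤ) : ℝ) = (P₁ v : ℝ) + (((F ⟨γ, hγ⟩).1.toAdd : ℤ) : ℝ)
      rw [← Int.cast_add]
      exact congrArg _ h1
    · show ((P₂ ((γ : G ≃g G) v) : ℤ) : ℝ) = (P₂ v : ℝ) + (((F ⟨γ, hγ⟩).2.toAdd : ℤ) : ℝ)
      rw [← Int.cast_add]
      exact congrArg _ h2
  · refine ⟨((φ : Γ) : G ≃g G), Subgroup.mem_map.2 ⟨φ, φ.2, rfl⟩, ((ψ : Γ) : G ≃g G),
      Subgroup.mem_map.2 ⟨ψ, ψ.2, rfl⟩, o, ?_⟩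
    have a1 := hP₁ φ o
    have a2 := hP₂ φ o
    have b1 := hP₁ ψ o
    have b2 := hP₂ ψ o
    rw [MonoidHom.comp_apply, hφ] at a1 a2
    rw [MonoidHom.comp_apply, hψ] at b1 b2
    simp only [MonoidHom.coe_fst, MonoidHom.coe_snd, toAdd_ofAdd, toAdd_one, add_zero] at a1 a2 b1 b2
    show (((P₁ (((φ : Γ) : G ≃g G) o) : ℤ) : ℝ) - P₁ o) * (((P₂ (((ψ : Γ) : G ≃g G) o) : ℤ) : ℝ) - P₂ o)
      - (((P₂ (((φ : Γ) : G ≃g G) o) : ℤ) : ℝ) - P₂ o) *
        (((P₁ (((ψ : Γ) : G ≃g G) o) : ℤ) : ℝ) - P₁ o) ≠ 0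
    rw [a1, a2, b1, b2]
    push_cast
    norm_num

/-! ### Disjoint cuts of bounded size -/

theorem Pr_empty_eq {ι : Type} [DecidableEq ι] (p : ℝ) (A : Finset ι) :
    Pr p A (fun S => S = ∅) = (1 - p) ^ A.card := by
  unfold Pr Ex
  rw [Finset.sum_eq_single ∅]
  · have h1 : (fun T : Finset ι => ind (T = ∅)) ∅ = 1 := ind_true rfl
    rw [h1]
    simp
  · intro S _ hS
    have h1 : (fun T : Finset ι => ind (T = ∅)) S = 0 := ind_false hS
    rw [h1, mul_zero]
  · intro h
    exact absurd (Finset.empty_mem_powerset A) h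

theorem Pr_cuts {ι : Type} [DecidableEq ι] {p : ℝ} (h0 : 0 ≤ p) (h1 : p ≤ 1) (m : ℕ)
    (D : ℕ → Finset ι) (hD : ∀ i j, i < j → Disjoint (D i) (D j)) (hm : ∀ i, (D i).card ≤ m) :
    ∀ (N : ℕ) (B : Finset ι), Pr p B (fun T => ∀ n < N, ∃ e ∈ T, e ∈ D n) ≤
      (1 - (1 - p) ^ m) ^ N := by
  intro N
  induction N with
  | zero =>
    intro B
    rw [pow_zero]
    exact Pr_le_one h0 h1 B _
  | succ N ih =>
    intro B
    have hq : 0 ≤ 1 - (1 - p) ^ m := by
      have : (1 - p) ^ m ≤ 1 := pow_le_one₀ (by linarith) (by linarith)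
      linarith
    have hB : B = (B ∩ D N) ∪ (B \ D N) := by
      ext x
      by_cases h : x ∈ D N <;> simp [h]
    have hd : Disjoint (B ∩ D N) (B \ D N) :=
      Finset.disjoint_of_subset_left Finset.inter_subset_right Finset.disjoint_sdiff
    rw [hB, Pr_union p hd]
    calc Ex p (B ∩ D N) (fun S => Pr p (B \ D N)
          (fun T => ∀ n < N + 1, ∃ e ∈ S ∪ T, e ∈ D n))
        ≤ Ex p (B ∩ D N) (fun S => (1 - (1 - p) ^ m) ^ N * ind (¬ S = ∅)) := by
          apply Ex_mono h0 h1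
          intro S hS
          by_cases hSe : S = ∅
          · rw [ind_false (not_not.2 hSe), mul_zero, ← Pr_false' p (B \ D N)]
            apply Pr_mono h0 h1
            intro T hT h
            obtain ⟨e, he, heD⟩ := h N (Nat.lt_succ_self N)
            rw [hSe, Finset.empty_union] at he
            exact (Finset.mem_sdiff.1 (hT he)).2 heD
          · rw [ind_true hSe, mul_one]
            refine le_trans (Pr_mono h0 h1 ?_) (ih (B \ D N))
            intro T hT h n hn
            obtain ⟨e, he, heD⟩ := h n (hn.trans (Nat.lt_succ_self N))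
            rcases Finset.mem_union.1 he with he | he
            · exact absurd heD (Finset.disjoint_right.1 (hD n N hn)
                (Finset.mem_inter.1 (hS he)).2)
            · exact ⟨e, he, heD⟩
      _ = (1 - (1 - p) ^ m) ^ N * (1 - (1 - p) ^ (B ∩ D N).card) := by
          rw [Ex_const_mul]
          congr 1
          rw [← Pr_empty_eq, ← Pr_not]
          rfl
      _ ≤ (1 - (1 - p) ^ m) ^ N * (1 - (1 - p) ^ m) := by
          apply mul_le_mul_of_nonneg_left _ (pow_nonneg hq N)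
          have h2 : (B ∩ D N).card ≤ m :=
            (Finset.card_le_card Finset.inter_subset_right).trans (hm N)
          have h3 : (1 - p) ^ m ≤ (1 - p) ^ (B ∩ D N).card :=
            pow_le_pow_of_le_one (by linarith only [h1]) (by linarith) h2
          linarith
      _ = (1 - (1 - p) ^ m) ^ (N + 1) := by rw [pow_succ]

theorem real_infC_le (hG : G.Connected) (p : I) (o : V) (R : ℕ) :
    (setBernoulli G.edgeSet p).real (InfC o) ≤ Pr p (edgesIn G (ballF G o R))
      (fun T => ∃ v ∈ cluster (↑T : Set (Sym2 V)) o, G.dist v o = R) := by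
  classical
  have : Countable V := countable_of_connected G hG
  have : Countable (Sym2 V) := by
    unfold Sym2; infer_instance
  have h1 : (setBernoulli G.edgeSet p).real (InfC o) ≤
      (setBernoulli G.edgeSet p).real
        {ω | ∃ v ∈ cluster (ω ∩ (edgesIn G (ballF G o R) : Set (Sym2 V))) o,
          G.dist v o = R} := by
    rw [measureReal_def, measureReal_def]
    apply ENNReal.toReal_mono (measure_ne_top _ _)
    apply measure_mono_ae
    filter_upwards [setBernoulli_ae_subset (u := G.edgeSet) (p := p)] with ω hω h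
    exact pl_infC_out hG o R hω h
  refine h1.trans (le_of_eq ?_)
  rw [setBer_inter_pred G.edgeSet p (edgesIn G (ballF G o R))
    (fun e he => (mem_edgesIn.1 (Finset.mem_coe.1 he)).1)
    (fun s => ∃ v ∈ cluster s o, G.dist v o = R)]
  unfold Pr Ex
  rw [Finset.sum_filter]
  apply Finset.sum_congr rfl
  intro S _
  unfold ind
  beta_reduce
  by_cases h : ∃ v ∈ cluster (S : Set (Sym2 V)) o, G.dist v o = R
  · rw [if_pos h, if_pos h, mul_one]
  · rw [if_neg h, if_neg h, mul_zero]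

/-- The edge `e` crosses the level `a`. -/
def Cross (h : V → ℤ) (a : ℤ) (e : Sym2 V) : Prop := ∃ u ∈ e, ∃ v ∈ e, h u < a ∧ a ≤ h v

theorem cross_near {h : V → ℤ} {C : ℕ} (hlip : ∀ u v, G.Adj u v → |h u - h v| ≤ C) {a b : ℤ}
    {e : Sym2 V} (he : e ∈ G.edgeSet) (ha : Cross h a e) (hb : Cross h b e) :
    a - b < 2 * (C : ℤ) + 1 ∧ b - a < 2 * (C : ℤ) + 1 := by
  obtain ⟨u, hu, v, hv, h1, h2⟩ := ha
  obtain ⟨u', hu', v', hv', h3, h4⟩ := hb
  induction e with
  | _ x y =>
    have h5 := abs_le.1 (hlip x y he)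
    rw [Sym2.mem_iff] at hu hv hu' hv'
    rcases hu with rfl | rfl <;> rcases hv with rfl | rfl <;> rcases hu' with rfl | rfl <;>
      rcases hv' with rfl | rfl <;> omega

/-- **Graphs with two ends**: no infinite cluster for `p < 1`. -/
theorem two_ended (hG : G.Connected) (h : V → ℤ) (hfin : ∀ a b : ℤ, {x | a ≤ h x ∧ h x ≤ b}.Finite)
    (C : ℕ) (hlip : ∀ u v, G.Adj u v → |h u - h v| ≤ C) (m : ℕ)
    (hcut : ∀ j : ℤ, ∃ D : Finset (Sym2 V), D.card ≤ m ∧
      ∀ u v, G.Adj u v → h u < j → j ≤ h v → s(u, v) ∈ D) (p : I) (hp : (p : ℝ) < 1) :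
    setBernoulli G.edgeSet p (hasInfiniteCluster V) = 0 := by
  classical
  have hcount : Countable V := countable_of_connected G hG
  rw [hasInfiniteCluster_eq, measure_iUnion_null_iff]
  intro o
  have hp0 : (0 : ℝ) ≤ p := p.2.1
  choose D hDm hD using hcut
  -- the cuts around `o`
  obtain ⟨L, hL⟩ : ∃ L : ℤ, L = 2 * C + 1 := ⟨_, rfl⟩
  have hL0 : 0 < L := by omega
  let E : ℕ → Finset (Sym2 V) := fun n =>
    (D (h o + L * (n + 1)) ∪ D (h o - L * (n + 1))).filter (fun e => e ∈ G.edgeSet ∧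
      (Cross h (h o + L * (n + 1)) e ∨ Cross h (h o - L * (n + 1)) e))
  have hEm : ∀ n, (E n).card ≤ 2 * m := by
    intro n
    refine (Finset.card_filter_le _ _).trans ((Finset.card_union_le _ _).trans ?_)
    have h1 := hDm (h o + L * (n + 1))
    have h2 := hDm (h o - L * (n + 1))
    omega
  have hEd : ∀ i j, i < j → Disjoint (E i) (E j) := by
    intro i j hij
    rw [Finset.disjoint_left]
    intro e he he'
    obtain ⟨_, heG, h1⟩ := Finset.mem_filter.1 he
    obtain ⟨_, _, h2⟩ := Finset.mem_filter.1 he'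
    have hij' : (i : ℤ) + 1 ≤ j := by exact_mod_cast hij
    have h3 : L * ((i : ℤ) + 1) + L ≤ L * ((j : ℤ) + 1) := by nlinarith only [hL, hij]
    have h4 : 0 ≤ L * ((i : ℤ) + 1) := by (clear * - hL0; positivity)
    rcases h1 with h1 | h1 <;> rcases h2 with h2 | h2 <;>
      have h5 := cross_near hlip heG h1 h2 <;> omega
  -- the bound
  have hbound : ∀ N : ℕ, (setBernoulli G.edgeSet p).real (InfC o) ≤
      (1 - (1 - (p : ℝ)) ^ (2 * m)) ^ N := by
    intro N
    have hf := hfin (h o - L * N) (h o + L * N)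
    obtain ⟨R, hR⟩ := exists_ballF_superset G hG o hf.toFinset
    refine (real_infC_le hG p o (R + 1)).trans (le_trans (Pr_mono hp0 hp.le ?_)
      (Pr_cuts hp0 hp.le (2 * m) E hEd hEm N _))
    rintro T hT ⟨v, hv, hvd⟩ n hn
    by_contra hcon
    push Not at hcon
    have hsub : cluster (↑T : Set (Sym2 V)) o ⊆
        {x | h o - L * (n + 1) ≤ h x ∧ h x < h o + L * (n + 1)} := by
      apply cluster_closed
      · constructor
        · have : 0 ≤ L * ((n : ℤ) + 1) := by (clear * - hL0; positivity)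
          omega
        · have : 0 < L * ((n : ℤ) + 1) := by (clear * - hL0; positivity)
          omega
      · rintro u ⟨hu1, hu2⟩ w huw
        have huw' : s(u, w) ∈ T := huw
        have hadj : G.Adj u w := (mem_edgesIn.1 (hT huw')).1
        constructor
        · by_contra hc
          push Not at hc
          apply hcon _ huw'
          rw [Finset.mem_filter]
          refine ⟨Finset.mem_union_right _ ?_, hadj, Or.inr ⟨w, Sym2.mem_mk_right _ _, u,
            Sym2.mem_mk_left _ _, hc, hu1⟩⟩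
          rw [Sym2.eq_swap]
          exact hD _ w u hadj.symm hc hu1
        · by_contra hc
          push Not at hc
          apply hcon _ huw'
          rw [Finset.mem_filter]
          refine ⟨Finset.mem_union_left _ ?_, hadj, Or.inl ⟨u, Sym2.mem_mk_left _ _, w,
            Sym2.mem_mk_right _ _, hu2, hc⟩⟩
          exact hD _ u w hadj hu2 hc
    have h1 := hsub hv
    have hn' : (n : ℤ) + 1 ≤ N := by exact_mod_cast hn
    have h2 : L * ((n : ℤ) + 1) ≤ L * N := mul_le_mul_of_nonneg_left hn' hL0.le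
    have h3 : v ∈ hf.toFinset := by
      rw [Set.Finite.mem_toFinset]
      exact ⟨by have := h1.1; omega, by have := h1.2; omega⟩
    have h4 := (Vale.Agent.P151.mem_ballF_iff hG).1 (hR h3)
    omega
  have hx0 : 0 ≤ 1 - (1 - (p : ℝ)) ^ (2 * m) := by
    have : (1 - (p : ℝ)) ^ (2 * m) ≤ 1 := pow_le_one₀ (by linarith) (by linarith)
    linarith
  have hx1 : 1 - (1 - (p : ℝ)) ^ (2 * m) < 1 := by
    have : 0 < (1 - (p : ℝ)) ^ (2 * m) := pow_pos (by linarith) _
    linarith
  have hlim := tendsto_pow_atTop_nhds_zero_of_lt_one hx0 hx1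
  have h1 : (setBernoulli G.edgeSet p).real (InfC o) ≤ 0 := ge_of_tendsto' hlim hbound
  have h2 : (setBernoulli G.edgeSet p).real (InfC o) = 0 := le_antisymm h1 measureReal_nonneg
  rw [measureReal_def, ENNReal.toReal_eq_zero_iff] at h2
  exact h2.resolve_right (measure_ne_top _ _)

/-! ### Virtually cyclic groups -/

section Cyclic

variable {H : Type} [Group H]

theorem finOrder_of_stab (Γ : Subgroup (G ≃g G)) (f : Γ →* H)
    (hst : ∀ v : V, (f '' {φ : Γ | (φ : G ≃g G) v = v}).Finite) {γ : Γ} {v : V}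
    (h : (γ : G ≃g G) v = v) : IsOfFinOrder (f γ) := by
  by_contra hc
  have hinj := injective_pow_iff_not_isOfFinOrder.2 hc
  have hpow : ∀ n : ℕ, ((γ ^ n : Γ) : G ≃g G) v = v := by
    intro n
    induction n with
    | zero => rfl
    | succ n ih =>
      have h1 : ((γ ^ (n + 1) : Γ) : G ≃g G) v = ((γ ^ n : Γ) : G ≃g G) ((γ : G ≃g G) v) := by
        rw [pow_succ]
        rfl
      rw [h1, h, ih]
  apply Set.infinite_range_of_injective hinj
  apply (hst v).subset
  rintro x ⟨n, rfl⟩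
  exact ⟨γ ^ n, hpow n, map_pow f γ n⟩

theorem fiber_finite (Γ : Subgroup (G ≃g G)) (f : Γ →* H)
    (hker : ∀ v : V, {x : V | ∃ φ : Γ, f φ = 1 ∧ (φ : G ≃g G) v = x}.Finite) (y : V) (k : H) :
    {x : V | ∃ φ : Γ, f φ = k ∧ (φ : G ≃g G) y = x}.Finite := by
  by_cases hk : ∃ φ₀ : Γ, f φ₀ = k
  · obtain ⟨φ₀, hφ₀⟩ := hk
    apply ((hker y).image (φ₀ : G ≃g G)).subset
    rintro x ⟨φ, hφ, rfl⟩
    refine ⟨((φ₀⁻¹ * φ : Γ) : G ≃g G) y, ⟨φ₀⁻¹ * φ, ?_, rfl⟩, ?_⟩
    · rw [map_mul, map_inv, hφ₀, hφ, inv_mul_cancel]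
    · have h1 : ((φ₀ : Γ) : G ≃g G) (((φ₀⁻¹ * φ : Γ) : G ≃g G) y) =
          ((φ₀ * (φ₀⁻¹ * φ) : Γ) : G ≃g G) y := rfl
      rw [h1, mul_inv_cancel_left]
  · apply Set.finite_empty.subset
    rintro x ⟨φ, hφ, _⟩
    exact absurd ⟨φ, hφ⟩ hk

/-- The virtually cyclic case. -/
theorem cyclic_case (hG : G.Connected) (Γ : Subgroup (G ≃g G)) (S : Finset V)
    (hS : ∀ x : V, ∃ y ∈ S, ∃ φ ∈ Γ, φ y = x) (f : Γ →* H) (hf : Function.Surjective f)
    (t : H) (ht : (Subgroup.zpowers t).FiniteIndex)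
    (hst : ∀ v : V, (f '' {φ : Γ | (φ : G ≃g G) v = v}).Finite)
    (hker : ∀ v : V, {x : V | ∃ φ : Γ, f φ = 1 ∧ (φ : G ≃g G) v = x}.Finite)
    (p : I) (hp : (p : ℝ) < 1) :
    setBernoulli G.edgeSet p (hasInfiniteCluster V) = 0 := by
  classical
  by_cases hord : IsOfFinOrder t
  · -- `V` is finite
    have hHf : Finite H := by
      have h1 : Finite (Subgroup.zpowers t) := by
        exact hord.finite_zpowers
      have h2 : Finite (H ⧸ Subgroup.zpowers t) := Subgroup.finite_quotient_of_finiteIndex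
      exact Finite.of_equiv _ (Subgroup.groupEquivQuotientProdSubgroup (s := Subgroup.zpowers t)).symm
    have hV : (Set.univ : Set V).Finite := by
      have h1 : (⋃ y ∈ S, ⋃ k : H, {x : V | ∃ φ : Γ, f φ = k ∧ (φ : G ≃g G) y = x}).Finite := by
        apply Set.Finite.biUnion S.finite_toSet
        intro y _
        apply Set.finite_iUnion
        intro k
        exact fiber_finite Γ f hker y k
      apply h1.subset
      intro x _
      obtain ⟨y, hy, φ, hφ, rfl⟩ := hS x
      rw [Set.mem_iUnion₂]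
      refine ⟨y, hy, ?_⟩
      rw [Set.mem_iUnion]
      exact ⟨f ⟨φ, hφ⟩, ⟨φ, hφ⟩, rfl, rfl⟩
    have hE : hasInfiniteCluster V = ∅ := by
      rw [Set.eq_empty_iff_forall_notMem]
      rintro ω ⟨x, hx⟩
      exact hx (hV.subset (Set.subset_univ _))
    rw [hE, measure_empty]
  · have hinj := injective_zpow_iff_not_isOfFinOrder.2 hord
    -- the subgroup of finite index and its homomorphism
    have hLfi : ((Subgroup.zpowers t).comap f).FiniteIndex := by
      refine ⟨?_⟩
      rw [Subgroup.index_comap_of_surjective _ hf]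
      exact ht.index_ne_zero
    have hj : ∀ γ : (Subgroup.zpowers t).comap f, ∃ j : ℤ, t ^ j = f γ := fun γ =>
      Subgroup.mem_zpowers_iff.1 (Subgroup.mem_comap.1 γ.2)
    choose j hj using hj
    let F : (Subgroup.zpowers t).comap f →* Multiplicative ℤ :=
      MonoidHom.mk' (fun γ => Multiplicative.ofAdd (j γ)) (by
        intro a b
        rw [← ofAdd_add]
        congr 1
        apply hinj
        show t ^ j (a * b) = t ^ (j a + j b)
        rw [hj, zpow_add, hj, hj, ← map_mul]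
        rfl)
    have hFj : ∀ γ, (F γ).toAdd = j γ := fun γ => rfl
    have hst' : ∀ (γ : (Subgroup.zpowers t).comap f) (v : V),
        ((γ : Γ) : G ≃g G) v = v → F γ = 1 := by
      intro γ v hγ
      obtain ⟨n, hn, hn1⟩ := isOfFinOrder_iff_pow_eq_one.1 (finOrder_of_stab Γ f hst hγ)
      rw [← hj γ, ← zpow_natCast, ← zpow_mul] at hn1
      have h1 : j γ * (n : ℤ) = 0 := by
        apply hinj
        show t ^ (j γ * (n : ℤ)) = t ^ (0 : ℤ)
        rw [hn1, zpow_zero]
      have h2 : j γ = 0 := by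
        rcases mul_eq_zero.1 h1 with h | h
        · exact h
        · have : n = 0 := by exact_mod_cast h
          omega
      show Multiplicative.ofAdd (j γ) = 1
      rw [h2]
      rfl
    obtain ⟨h, hh⟩ := exists_equi Γ _ F hst'
    obtain ⟨S', hS'⟩ := orbits_finiteIndex Γ S hS _ hLfi
    have hh' : ∀ (φ : (Subgroup.zpowers t).comap f) (v : V),
        h (((φ : Γ) : G ≃g G) v) = h v + j φ := hh
    have hfin : ∀ a b : ℤ, {x | a ≤ h x ∧ h x ≤ b}.Finite := by
      intro a b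
      have h1 : (⋃ y ∈ S', ⋃ i ∈ Finset.Icc (a - h y) (b - h y),
          {x : V | ∃ φ : Γ, f φ = t ^ i ∧ (φ : G ≃g G) y = x}).Finite := by
        apply Set.Finite.biUnion S'.finite_toSet
        intro y _
        apply Set.Finite.biUnion (Finset.finite_toSet _)
        intro i _
        exact fiber_finite Γ f hker y _
      apply h1.subset
      rintro x ⟨hx1, hx2⟩
      obtain ⟨y, hy, γ, rfl⟩ := hS' x
      rw [hh'] at hx1 hx2
      rw [Set.mem_iUnion₂]
      refine ⟨y, hy, ?_⟩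
      rw [Set.mem_iUnion₂]
      refine ⟨j γ, ?_, (γ : Γ), (hj γ).symm, rfl⟩
      rw [Finset.mem_Icc]
      constructor <;> omega
    obtain ⟨C, hC⟩ : ∃ C : ℕ, ∀ y ∈ S', ∀ x, G.Adj y x → (h y - h x).natAbs ≤ C := by
      refine ⟨S'.sup (fun y => (G.neighborFinset y).sup (fun x => (h y - h x).natAbs)), ?_⟩
      intro y hy x hx
      have h1 : (h y - h x).natAbs ≤ (G.neighborFinset y).sup (fun x => (h y - h x).natAbs) :=
        Finset.le_sup (f := fun x => (h y - h x).natAbs) ((G.mem_neighborFinset y x).2 hx)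
      exact h1.trans (Finset.le_sup
        (f := fun y => (G.neighborFinset y).sup (fun x => (h y - h x).natAbs)) hy)
    have hlip : ∀ u v, G.Adj u v → |h u - h v| ≤ C := by
      intro u v huv
      obtain ⟨y, hy, γ, rfl⟩ := hS' u
      obtain ⟨x, rfl⟩ : ∃ x, ((γ : Γ) : G ≃g G) x = v :=
        ⟨((γ : Γ) : G ≃g G).symm v, ((γ : Γ) : G ≃g G).apply_symm_apply v⟩
      have h1 : G.Adj y x := ((γ : Γ) : G ≃g G).map_adj_iff.1 huv
      rw [hh', hh', add_sub_add_right_eq_sub, Int.abs_eq_natAbs]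
      exact_mod_cast hC y hy x h1
    refine two_ended hG h hfin C hlip (edgesIn G (hfin (-C) C).toFinset).card ?_ p hp
    intro i
    obtain ⟨φ, hφ⟩ := hf (t ^ i)
    have hφL : φ ∈ (Subgroup.zpowers t).comap f := by
      rw [Subgroup.mem_comap, hφ]
      exact Subgroup.zpow_mem_zpowers t i
    have hi : j ⟨φ, hφL⟩ = i := by
      apply hinj
      show t ^ j ⟨φ, hφL⟩ = t ^ i
      rw [hj, ← hφ]
    refine ⟨(edgesIn G (hfin (-C) C).toFinset).image (Sym2.map (φ : G ≃g G)),
      Finset.card_image_le, ?_⟩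
    intro u v huv hu hv
    obtain ⟨u', rfl⟩ : ∃ x, (φ : G ≃g G) x = u :=
      ⟨(φ : G ≃g G).symm u, (φ : G ≃g G).apply_symm_apply u⟩
    obtain ⟨v', rfl⟩ : ∃ x, (φ : G ≃g G) x = v :=
      ⟨(φ : G ≃g G).symm v, (φ : G ≃g G).apply_symm_apply v⟩
    have h1 := abs_le.1 (hlip _ _ huv)
    have h2 : h ((φ : G ≃g G) u') = h u' + i := by
      have := hh' ⟨φ, hφL⟩ u'
      rw [hi] at this
      exact this
    have h3 : h ((φ : G ≃g G) v') = h v' + i := by
      have := hh' ⟨φ, hφL⟩ v'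
      rw [hi] at this
      exact this
    rw [h2, h3] at h1
    rw [h2] at hu
    rw [h3] at hv
    rw [Finset.mem_image]
    refine ⟨s(u', v'), ?_, rfl⟩
    rw [mk_mem_edgesIn, Set.Finite.mem_toFinset, Set.Finite.mem_toFinset]
    refine ⟨(φ : G ≃g G).map_adj_iff.1 huv, ⟨?_, ?_⟩, ⟨?_, ?_⟩⟩ <;> omega

end Cyclic

/-- **No percolation at `p_c` for graphs with a quasi-transitive action through a virtually
nilpotent group.** -/
theorem no_perc_nilpotent (hG : G.Connected) (Γ : Subgroup (G ≃g G)) (S : Finset V)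
    (hS : ∀ x : V, ∃ y ∈ S, ∃ φ ∈ Γ, φ y = x) {H : Type} [Group H] [Group.FG H] (f : Γ →* H)
    (hf : Function.Surjective f) (hN : ∃ K : Subgroup H, K.FiniteIndex ∧ Group.IsNilpotent K)
    (hst : ∀ v : V, (f '' {φ : Γ | (φ : G ≃g G) v = v}).Finite)
    (hker : ∀ v : V, {x : V | ∃ φ : Γ, f φ = 1 ∧ (φ : G ≃g G) v = x}.Finite)
    (hpc : pc G < 1) (p : I) (hp : (p : ℝ) = pc G) :
    setBernoulli G.edgeSet p (hasInfiniteCluster V) = 0 := by
  obtain ⟨K, hK, hKn⟩ := hN
  have hfg : Group.FG K := Subgroup.fg_of_index_ne_zero K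
  rcases Nilp.rank_two_or_cyclic K with ⟨g, hg⟩ | ⟨t, ht⟩
  · refine rank_two_case hG Γ S hS (K.comap f) ⟨?_⟩ (g.comp (f.subgroupComap K)) ?_ ?_ p hp hpc
    · rw [Subgroup.index_comap_of_surjective _ hf]
      exact hK.index_ne_zero
    · exact hg.comp (f.subgroupComap_surjective_of_surjective K hf)
    · intro γ v hγ
      obtain ⟨n, hn, hn1⟩ := isOfFinOrder_iff_pow_eq_one.1 (finOrder_of_stab Γ f hst hγ)
      have h1 : (f.subgroupComap K γ) ^ n = 1 := by
        apply Subtype.ext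
        exact hn1
      have h2 : ((g.comp (f.subgroupComap K)) γ) ^ n = 1 := by
        rw [MonoidHom.comp_apply, ← map_pow, h1, map_one]
      have key : ∀ a : Multiplicative ℤ, a ^ n = 1 → a = 1 := by
        intro a ha
        have h3 : n • a.toAdd = 0 := by
          rw [← toAdd_pow, ha]
          rfl
        rw [nsmul_eq_mul] at h3
        have h4 : a.toAdd = 0 := by
          rcases mul_eq_zero.1 h3 with h | h
          · have : n = 0 := by exact_mod_cast h
            omega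
          · exact h
        exact h4
      exact Prod.ext (key _ (congrArg Prod.fst h2)) (key _ (congrArg Prod.snd h2))
  · refine cyclic_case hG Γ S hS f hf (t : H) ⟨?_⟩ hst hker p (by rw [hp]; exact hpc)
    have h1 : Subgroup.zpowers (t : H) = (Subgroup.zpowers t).map K.subtype := by
      rw [MonoidHom.map_zpowers]
      rfl
    rw [h1, Subgroup.index_map_subtype]
    exact mul_ne_zero ht.index_ne_zero hK.index_ne_zero

end Vale.Agent.P151.Pl
end

section

/-!
# The lattice `ℤ^d`: connected, locally finite, `p_c < 1`, and its translations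
-/

open MeasureTheory ProbabilityTheory SimpleGraph

set_option autoImplicit false

namespace Vale.Agent.P151.ZdT

open Vale.Agent.P151

variable {d : ℕ} (G : SimpleGraph (Fin d → ℤ)) (hadj : ∀ x y, G.Adj x y ↔ ∑ i, |x i - y i| = 1)

include hadj

theorem adj_step (x : Fin d → ℤ) (i : Fin d) (s : ℤ) (hs : |s| = 1) :
    G.Adj (Function.update x i (x i - s)) x := by
  rw [hadj, Finset.sum_eq_single i]
  · rw [Function.update_self]
    rw [show x i - s - x i = -s by ring, abs_neg, hs]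
  · intro j _ hj
    rw [Function.update_of_ne hj]
    simp
  · intro h
    exact absurd (Finset.mem_univ _) h

theorem reach_zero (n : ℕ) : ∀ x : Fin d → ℤ, ∑ i, (x i).natAbs ≤ n → G.Reachable 0 x := by
  induction n with
  | zero =>
    intro x hx
    have h0 : ∀ i, x i = 0 := by
      intro i
      have h1 : (x i).natAbs ≤ ∑ i, (x i).natAbs :=
        Finset.single_le_sum (f := fun i => (x i).natAbs) (fun j _ => Nat.zero_le _)
          (Finset.mem_univ i)
      omega
    have : x = 0 := funext h0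
    rw [this]
  | succ n ih =>
    intro x hx
    by_cases h0 : ∀ i, x i = 0
    · have : x = 0 := funext h0
      rw [this]
    · push Not at h0
      obtain ⟨i, hi⟩ := h0
      have hs : ∃ s : ℤ, |s| = 1 ∧ (x i - s).natAbs < (x i).natAbs := by
        rcases lt_or_gt_of_ne hi with h | h
        · exact ⟨-1, by norm_num, by omega⟩
        · exact ⟨1, by norm_num, by omega⟩
      obtain ⟨s, hs1, hs2⟩ := hs
      set y := Function.update x i (x i - s) with hy
      have hyx := adj_step G hadj x i s hs1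
      have hlt : ∑ j, (y j).natAbs < ∑ j, (x j).natAbs := by
        apply Finset.sum_lt_sum
        · intro j _
          by_cases hj : j = i
          · subst hj
            rw [hy, Function.update_self]
            exact hs2.le
          · rw [hy, Function.update_of_ne hj]
        · exact ⟨i, Finset.mem_univ _, by rw [hy, Function.update_self]; exact hs2⟩
      exact (ih y (by omega)).trans hyx.reachable

theorem connected : G.Connected := by
  have : Nonempty (Fin d → ℤ) := ⟨0⟩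
  refine ⟨fun x y => ?_⟩
  exact (reach_zero G hadj _ x le_rfl).symm.trans (reach_zero G hadj _ y le_rfl)

theorem neighborSet_finite (x : Fin d → ℤ) : (G.neighborSet x).Finite := by
  refine (Set.finite_Icc (x - 1) (x + 1)).subset ?_
  intro y hy
  have h := (hadj x y).1 hy
  have h1 : ∀ i, |x i - y i| ≤ 1 := by
    intro i
    rw [← h]
    exact Finset.single_le_sum (f := fun i => |x i - y i|) (fun j _ => abs_nonneg _)
      (Finset.mem_univ i)
  constructor
  · intro i
    have := abs_le.1 (h1 i)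
    simp only [Pi.sub_apply, Pi.one_apply]
    linarith [this.1, this.2]
  · intro i
    have := abs_le.1 (h1 i)
    simp only [Pi.add_apply, Pi.one_apply]
    linarith [this.1, this.2]

/-- Translation by `a`. -/
def tr (a : Fin d → ℤ) : G ≃g G where
  toEquiv := Equiv.addRight a
  map_rel_iff' := by
    intro x y
    rw [hadj, hadj]
    have : ∀ i, (Equiv.addRight a x) i - (Equiv.addRight a y) i = x i - y i := by
      intro i
      simp
    simp only [this]

omit hadj in
/-- The translations in the automorphism group. -/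
def Tr : Subgroup (G ≃g G) where
  carrier := {φ | ∃ a : Fin d → ℤ, ∀ v, φ v = v + a}
  mul_mem' := by
    rintro φ ψ ⟨a, ha⟩ ⟨b, hb⟩
    refine ⟨b + a, fun v => ?_⟩
    show φ (ψ v) = _
    rw [hb, ha, add_assoc]
  one_mem' := ⟨0, fun v => by simp⟩
  inv_mem' := by
    rintro φ ⟨a, ha⟩
    refine ⟨-a, fun v => ?_⟩
    show φ.symm v = _
    rw [φ.symm_apply_eq, ha]
    abel

theorem tr_mem (a : Fin d → ℤ) : tr G hadj a ∈ Tr G := ⟨a, fun _ => rfl⟩

theorem transitive : ∃ S : Finset (Fin d → ℤ), ∀ x, ∃ y ∈ S, ∃ φ ∈ Tr G, φ y = x :=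
  ⟨{0}, fun x => ⟨0, Finset.mem_singleton_self _, tr G hadj x, tr_mem G hadj x, by
    show (0 : Fin d → ℤ) + x = x
    simp⟩⟩

end Vale.Agent.P151.ZdT

namespace Vale.Agent.P151.ZdT

open Vale.Agent.P151

variable {m : ℕ} (G : SimpleGraph (Fin (m + 2) → ℤ))

theorem proj_tr : ∀ φ ∈ Tr G, ∃ w : ℝ × ℝ, ∀ v : Fin (m + 2) → ℤ,
    (((φ v) 0 : ℝ), ((φ v) 1 : ℝ)) = (((v 0 : ℤ) : ℝ), ((v 1 : ℤ) : ℝ)) + w := by
  rintro φ ⟨a, ha⟩
  refine ⟨((a 0 : ℝ), (a 1 : ℝ)), fun v => ?_⟩
  rw [ha]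
  ext <;> simp

variable (hadj : ∀ x y, G.Adj x y ↔ ∑ i, |x i - y i| = 1)

include hadj in
theorem two_tr : ∃ φ ∈ Tr G, ∃ ψ ∈ Tr G, ∃ v : Fin (m + 2) → ℤ,
    (((φ v) 0 : ℝ) - (v 0 : ℝ)) * (((ψ v) 1 : ℝ) - (v 1 : ℝ)) -
      (((φ v) 1 : ℝ) - (v 1 : ℝ)) * (((ψ v) 0 : ℝ) - (v 0 : ℝ)) ≠ 0 := by
  refine ⟨tr G hadj (Pi.single 0 1), tr_mem G hadj _, tr G hadj (Pi.single 1 1), tr_mem G hadj _,
    0, ?_⟩
  have e1 : (tr G hadj (Pi.single 1 1)) 0 = (0 : Fin (m + 2) → ℤ) + Pi.single 1 1 := rfl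
  have e0 : (tr G hadj (Pi.single 0 1)) 0 = (0 : Fin (m + 2) → ℤ) + Pi.single 0 1 := rfl
  rw [e0, e1]
  have h01 : (0 : Fin (m + 2)) ≠ 1 := by
    intro h
    exact absurd (congrArg Fin.val h) (by simp)
  simp

/-- The vertex of the coordinate plane with coordinates `w`. -/
def qd (m : ℕ) (w : ℕ × ℕ) : Fin (m + 2) → ℤ :=
  fun i => if i = 0 then (w.1 : ℤ) else if i = 1 then (w.2 : ℤ) else 0

theorem qd_zero (w : ℕ × ℕ) : qd m w 0 = w.1 := by simp [qd]

theorem qd_one (w : ℕ × ℕ) : qd m w 1 = w.2 := by simp [qd]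

theorem qd_injective : Function.Injective (qd m) := by
  intro a b h
  have h0 := congrFun h 0
  have h1 := congrFun h 1
  rw [qd_zero, qd_zero] at h0
  rw [qd_one, qd_one] at h1
  exact Prod.ext (by exact_mod_cast h0) (by exact_mod_cast h1)

include hadj in
theorem qd_adj {u w : ℕ × ℕ} (h : Red.OP.ChildN u w) : G.Adj (qd m u) (qd m w) := by
  rcases h with h | h <;> rw [h]
  · rw [hadj, Finset.sum_eq_single 0]
    · rw [qd_zero, qd_zero]
      push_cast
      rw [show (u.1 : ℤ) - (u.1 + 1) = -1 by ring]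
      norm_num
    · intro i _ hi
      simp [qd, hi]
    · intro h
      exact absurd (Finset.mem_univ _) h
  · rw [hadj, Finset.sum_eq_single 1]
    · rw [qd_one, qd_one]
      push_cast
      rw [show (u.2 : ℤ) - (u.2 + 1) = -1 by ring]
      norm_num
    · intro i _ hi
      by_cases h0 : i = 0
      · subst h0
        simp [qd]
      · simp [qd, hi, h0]
    · intro h
      exact absurd (Finset.mem_univ _) h

include hadj in
theorem pc_lt_one : pc G < 1 := by
  classical
  exact Red.PL.pc_lt_one_of_quadrant (qd m) G qd_injective (fun _ _ h => qd_adj G hadj h)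

end Vale.Agent.P151.ZdT

namespace Vale.Agent.P151.ZdT

open Vale.Agent.P151

/-- `p_c < 1` and no percolation at `p_c` on `ℤ^d`, `d = m + 2`. -/
theorem no_perc {m : ℕ} (G : SimpleGraph (Fin (m + 2) → ℤ))
    (hadj : ∀ x y, G.Adj x y ↔ ∑ i, |x i - y i| = 1) :
    pc G < 1 ∧ ∀ p : unitInterval, (p : ℝ) = pc G →
      setBernoulli G.edgeSet p (hasInfiniteCluster (Fin (m + 2) → ℤ)) = 0 := by
  classical
  have hpc := pc_lt_one G hadj
  let _ : G.LocallyFinite := fun x => (neighborSet_finite G hadj x).fintype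
  obtain ⟨S, hS⟩ := transitive G hadj
  exact ⟨hpc, fun p hp => Pl.no_perc_at_pc (connected G hadj) (Tr G) S hS
    (fun v => ((v 0 : ℝ), (v 1 : ℝ))) (proj_tr G) (two_tr G hadj) p hp hpc⟩

end Vale.Agent.P151.ZdT
end
end

section

section

namespace Vale.Agent.P151

open Real Filter

/-- The analytic input of the bootstrap argument. -/
structure Boot (pc p0 : ℝ) (F : ℕ → ℝ → ℝ) (κ : ℝ → ℕ → ℝ) (V : ℕ → ℝ) (θ c C : ℝ) :
    Prop where
  hp0 : p0 < pc
  hθ : 0 < θ
  hc : 0 < c
  hC : 0 < C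
  F_nonneg : ∀ n p, p0 ≤ p → p < pc → 0 ≤ F n p
  F_mono : ∀ n p q, p0 ≤ p → p ≤ q → q < pc → F n p ≤ F n q
  F_lim : ∀ p, p0 ≤ p → p < pc → ∀ ε > 0, ∃ n, F n p < ε
  κ_pow : ∀ p (r k : ℕ), p0 ≤ p → p < pc → (κ p r) ^ k ≤ κ p (k * r)
  κ_one : ∀ p, p0 ≤ p → p < pc → c ≤ κ p 1
  T1 : ∀ (n : ℕ) p, p0 ≤ p → p < pc → θ - C * √n * (pc - p) ≤ F n p
  T2 : ∀ p q (N m : ℕ), p0 ≤ p → p < q → q < pc → 1 ≤ (N : ℝ) * (F N p) ^ 2 →
    (m : ℝ) ^ 4 ≤ c * N → c * (q - p) ≤ F m q
  T3 : ∀ p' p (n N r : ℕ), p0 ≤ p' → p' ≤ p → p < pc → 1 ≤ n →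
    κ p' r * ((c * F n p) ^ 2 - κ p r) ≤ C * (N / √n) + F (N + 1) p'
  Vol : ∀ p (r N : ℕ), p0 ≤ p → p < pc → 1 ≤ N → V r * κ p r ≤ N + V r * F N p
  grow : ∀ r : ℕ, exp (c * √r) ≤ V r

/-- Above volume `16 ^ s` the tail is below the inverse square root. -/
def SubC (F : ℕ → ℝ → ℝ) (p : ℝ) (s : ℕ) : Prop :=
  ∀ N : ℕ, 16 ^ s ≤ N → (N : ℝ) * (F N p) ^ 2 < 1

/-- The first subcritical scale. -/
noncomputable def Ysc (F : ℕ → ℝ → ℝ) (p : ℝ) : ℕ := sInf {s | 1 ≤ s ∧ SubC F p s}

variable {pc p0 : ℝ} {F : ℕ → ℝ → ℝ} {κ : ℝ → ℕ → ℝ} {V : ℕ → ℝ} {θ c C : ℝ}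

theorem SubC.mono {p : ℝ} {s s' : ℕ} (h : SubC F p s) (hs : s ≤ s') : SubC F p s' :=
  fun N hN => h N (le_trans (Nat.pow_le_pow_right (by norm_num) hs) hN)

theorem exists_subC (h : Boot pc p0 F κ V θ c C) {p : ℝ} (hp : p0 ≤ p) (hp' : p < pc) :
    ∃ s, 1 ≤ s ∧ SubC F p s := by
  by_contra hcon
  push Not at hcon
  set q := (p + pc) / 2 with hq
  have hpq : p < q := by rw [hq]; linarith only [hp']
  have hqc : q < pc := by rw [hq]; linarith only [hp']
  obtain ⟨m, hm⟩ := h.F_lim q (by linarith) hqc (c * (q - p))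
    (mul_pos h.hc (by linarith only [hpq]))
  obtain ⟨s, hs⟩ : ∃ s : ℕ, (m : ℝ) ^ 4 / c < (16 : ℝ) ^ s :=
    pow_unbounded_of_one_lt _ (by norm_num)
  have hns := hcon (s + 1) (by omega)
  unfold SubC at hns
  push Not at hns
  obtain ⟨N, hN, hN1⟩ := hns
  have := h.T2 p q N m hp hpq hqc hN1 (by
    rw [div_lt_iff₀ h.hc] at hs
    have h1 : ((16 : ℝ)) ^ s ≤ N := by
      have h2 : ((16 ^ (s + 1) : ℕ) : ℝ) ≤ N := by exact_mod_cast hN
      push_cast at h2
      have h3 : (16 : ℝ) ^ s ≤ 16 ^ (s + 1) := pow_le_pow_right₀ (by norm_num) (by omega)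
      linarith only [h2, h3]
    have := mul_le_mul_of_nonneg_left h1 h.hc.le
    linarith only [hs, this])
  linarith only [hm, this]

theorem Ysc_spec (h : Boot pc p0 F κ V θ c C) {p : ℝ} (hp : p0 ≤ p) (hp' : p < pc) :
    1 ≤ Ysc F p ∧ SubC F p (Ysc F p) :=
  Nat.sInf_mem (s := {s | 1 ≤ s ∧ SubC F p s}) (exists_subC h hp hp')

theorem Ysc_le {p : ℝ} {s : ℕ} (hs : 1 ≤ s) (h : SubC F p s) : Ysc F p ≤ s :=
  Nat.sInf_le ⟨hs, h⟩

theorem not_subC {p : ℝ} {s : ℕ} (hs : s < Ysc F p) (hs1 : 1 ≤ s) : ¬ SubC F p s := by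
  intro h
  have := Ysc_le hs1 h
  omega

theorem lt_Ysc (h : Boot pc p0 F κ V θ c C) {p : ℝ} (hp : p0 ≤ p) (hp' : p < pc) {s : ℕ}
    (hs : ¬ SubC F p s) : s < Ysc F p := by
  by_contra hcon
  exact hs ((Ysc_spec h hp hp').2.mono (by omega))

theorem Ysc_mono (h : Boot pc p0 F κ V θ c C) {p q : ℝ} (hp : p0 ≤ p) (hpq : p ≤ q)
    (hq : q < pc) : Ysc F p ≤ Ysc F q := by
  obtain ⟨h1, h2⟩ := Ysc_spec h (hp.trans hpq) hq
  refine Ysc_le h1 fun N hN => lt_of_le_of_lt ?_ (h2 N hN)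
  have := h.F_mono N p q hp hpq hq
  have := h.F_nonneg N p hp (lt_of_le_of_lt hpq hq)
  gcongr

theorem subC_lt {p : ℝ} {s : ℕ} (h : SubC F p s) :
    F (16 ^ s + 1) p ≤ (1 / 4 : ℝ) ^ s := by
  have h1 := h (16 ^ s + 1) (by omega)
  by_contra hcon
  push Not at hcon
  have h2 : ((1 / 4 : ℝ) ^ s) ^ 2 ≤ (F (16 ^ s + 1) p) ^ 2 := by gcongr
  have h3 : (16 : ℝ) ^ s * ((1 / 4 : ℝ) ^ s) ^ 2 = 1 := by
    rw [← pow_mul, mul_comm s 2, pow_mul, ← mul_pow]; norm_num
  have h4 : (16 : ℝ) ^ s ≤ ((16 ^ s + 1 : ℕ) : ℝ) := by push_cast; linarith only []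
  have h5 : (16 : ℝ) ^ s * ((1 / 4 : ℝ) ^ s) ^ 2 ≤
      ((16 ^ s + 1 : ℕ) : ℝ) * (F (16 ^ s + 1) p) ^ 2 := by
    apply mul_le_mul h4 h2 (by positivity) (by positivity)
  linarith only [h1, h3, h5]

/-- Step (A): connections at `p'` boost connections at `p`. -/
theorem stepA (h : Boot pc p0 F κ V θ c C) {c3 : ℕ} (hc3 : C + 1 < 2 ^ c3) {p' p : ℝ}
    (hp' : p0 ≤ p') (hpp : p' ≤ p) (hp : p < pc) {s f k t r : ℕ}
    (hY : Ysc F p' ≤ s) (hκ : (1 / 2 : ℝ) ^ t ≤ κ p' r) (hk : k * t ≤ s)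
    (hf : 2 * f + 1 + c3 ≤ s) (hF : (1 / 2 : ℝ) ^ f ≤ c * F (2 ^ (32 * s)) p) :
    (1 / 2 : ℝ) ^ (2 * f + 1) ≤ κ p (k * r) := by
  by_contra hcon
  push Not at hcon
  have hsub : SubC F p' s := (Ysc_spec h hp' (lt_of_le_of_lt hpp hp)).2.mono hY
  have h3 := h.T3 p' p (2 ^ (32 * s)) (16 ^ s) (k * r) hp' hpp hp Nat.one_le_two_pow
  have hsq : √((2 ^ (32 * s) : ℕ) : ℝ) = 2 ^ (16 * s) := by
    have : (((2 : ℕ) ^ (32 * s) : ℕ) : ℝ) = ((2 : ℝ) ^ (16 * s)) ^ 2 := by
      push_cast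
      rw [← pow_mul]; congr 1; ring
    rw [this, Real.sqrt_sq (by positivity)]
  rw [hsq] at h3
  have hFN := subC_lt hsub
  have hK : (1 / 2 : ℝ) ^ s ≤ κ p' (k * r) := by
    calc (1 / 2 : ℝ) ^ s ≤ (1 / 2 : ℝ) ^ (k * t) :=
          pow_le_pow_of_le_one (by norm_num) (by norm_num) hk
      _ = ((1 / 2 : ℝ) ^ t) ^ k := by rw [← pow_mul, mul_comm]
      _ ≤ (κ p' r) ^ k := by (clear * - hκ; gcongr)
      _ ≤ κ p' (k * r) := h.κ_pow p' r k hp' (lt_of_le_of_lt hpp hp)
  have hsq2 : (1 / 2 : ℝ) ^ (2 * f) ≤ (c * F (2 ^ (32 * s)) p) ^ 2 := by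
    rw [mul_comm 2 f, pow_mul]; (clear * - hF; gcongr)
  have hu : (1 / 2 : ℝ) ^ (2 * f + 1) ≤ (c * F (2 ^ (32 * s)) p) ^ 2 - κ p (k * r) := by
    have : (1 / 2 : ℝ) ^ (2 * f + 1) + (1 / 2 : ℝ) ^ (2 * f + 1) = (1 / 2 : ℝ) ^ (2 * f) := by
      rw [pow_succ]; ring
    linarith only [hcon, hsq2, this]
  have hprod : (1 / 2 : ℝ) ^ s * (1 / 2 : ℝ) ^ (2 * f + 1) ≤
      κ p' (k * r) * ((c * F (2 ^ (32 * s)) p) ^ 2 - κ p (k * r)) :=
    mul_le_mul hK hu (by positivity) (le_trans (by positivity) hK)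
  have hN : ((16 ^ s : ℕ) : ℝ) / 2 ^ (16 * s) ≤ (1 / 4 : ℝ) ^ s := by
    rw [div_le_iff₀ (by positivity), pow_mul, ← mul_pow]
    push_cast
    gcongr
    norm_num
  have hfin : (1 / 2 : ℝ) ^ s * (1 / 2 : ℝ) ^ (2 * f + 1) ≤ (C + 1) * (1 / 4 : ℝ) ^ s := by
    have := mul_le_mul_of_nonneg_left hN h.hC.le
    linarith only [h3, hFN, hprod, this]
  have h4 : (1 / 4 : ℝ) ^ s = (1 / 2 : ℝ) ^ s * (1 / 2 : ℝ) ^ s := by
    rw [← mul_pow]; norm_num
  have h5 : (1 / 2 : ℝ) ^ (2 * f + 1) ≤ (C + 1) * (1 / 2 : ℝ) ^ s := by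
    rw [h4] at hfin
    have hpos : (0 : ℝ) < (1 / 2 : ℝ) ^ s := by positivity
    have : (1 / 2 : ℝ) ^ s * (1 / 2 : ℝ) ^ (2 * f + 1) ≤
      (1 / 2 : ℝ) ^ s * ((C + 1) * (1 / 2 : ℝ) ^ s) := by linarith only [hfin]
    exact le_of_mul_le_mul_left this hpos
  have h6 : (1 / 2 : ℝ) ^ s ≤ (1 / 2 : ℝ) ^ (2 * f + 1) * (1 / 2 : ℝ) ^ c3 := by
    rw [← pow_add]
    exact pow_le_pow_of_le_one (by norm_num) (by norm_num) hf
  have h7 : (C + 1) * (1 / 2 : ℝ) ^ s ≤
      (C + 1) * ((1 / 2 : ℝ) ^ (2 * f + 1) * (1 / 2 : ℝ) ^ c3) :=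
    mul_le_mul_of_nonneg_left h6 (by linarith only [h.hC])
  have h8 : (C + 1) * (1 / 2 : ℝ) ^ c3 < 1 := by
    rw [one_div, inv_pow, ← div_eq_mul_inv, div_lt_one (by positivity)]
    exact hc3
  have h9 : (0 : ℝ) < (1 / 2 : ℝ) ^ (2 * f + 1) := by positivity
  nlinarith only [h5, h7, h8, h9]

/-- Step (B): near `pc` the tail at moderate volumes is at least `θ / 2`. -/
theorem stepB (h : Boot pc p0 F κ V θ c C) {sθ : ℕ} (hsθ : C * (1 / 2 : ℝ) ^ sθ ≤ θ / 2)
    {p : ℝ} (hp : p0 ≤ p) (hp' : p < pc) {s : ℕ} (hs : sθ ≤ s)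
    (hx : pc - p ≤ (1 / 2 : ℝ) ^ (17 * s)) : θ / 2 ≤ F (2 ^ (32 * s)) p := by
  have h1 := h.T1 (2 ^ (32 * s)) p hp hp'
  have hsq : √((2 ^ (32 * s) : ℕ) : ℝ) = 2 ^ (16 * s) := by
    have : (((2 : ℕ) ^ (32 * s) : ℕ) : ℝ) = ((2 : ℝ) ^ (16 * s)) ^ 2 := by
      push_cast
      rw [← pow_mul]; congr 1; ring
    rw [this, Real.sqrt_sq (by positivity)]
  rw [hsq] at h1
  have h2 : C * 2 ^ (16 * s) * (pc - p) ≤ C * (1 / 2 : ℝ) ^ s := by
    have h3 : (2 : ℝ) ^ (16 * s) * (1 / 2 : ℝ) ^ (17 * s) = (1 / 2 : ℝ) ^ s := by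
      rw [pow_mul, pow_mul, ← mul_pow]; norm_num
    calc C * 2 ^ (16 * s) * (pc - p) ≤ C * 2 ^ (16 * s) * (1 / 2 : ℝ) ^ (17 * s) := by
          apply mul_le_mul_of_nonneg_left hx
          have := h.hC; positivity
      _ = C * (1 / 2 : ℝ) ^ s := by rw [mul_assoc, h3]
  have h3 : C * (1 / 2 : ℝ) ^ s ≤ C * (1 / 2 : ℝ) ^ sθ := by
    apply mul_le_mul_of_nonneg_left _ h.hC.le
    exact pow_le_pow_of_le_one (by norm_num) (by norm_num) hs
  linarith

/-- Step (C): above a percolating scale at `a` the tail at `q` is of order `q - a`. -/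
theorem stepC (h : Boot pc p0 F κ V θ c C) {s2 : ℕ} (hs2 : 1 ≤ c * (16 : ℝ) ^ s2)
    {a q : ℝ} (ha : p0 ≤ a) (haq : a < q) (hq : q < pc) {s : ℕ} (hs : s2 ≤ s) (hs1 : 1 ≤ s)
    (hY : 33 * s < Ysc F a) : c * (q - a) ≤ F (2 ^ (32 * s)) q := by
  have hn := not_subC hY (by omega)
  unfold SubC at hn
  push Not at hn
  obtain ⟨N, hN, hN1⟩ := hn
  refine h.T2 a q N (2 ^ (32 * s)) ha haq hq hN1 ?_
  have h1 : ((16 : ℝ)) ^ (33 * s) ≤ N := by exact_mod_cast hN
  have h2 : (((2 ^ (32 * s) : ℕ) : ℝ)) ^ 4 = (16 : ℝ) ^ (32 * s) := by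
    push_cast
    rw [show (16 : ℝ) = 2 ^ 4 by norm_num, ← pow_mul, ← pow_mul]
    congr 1; ring
  rw [h2]
  have h3 : (16 : ℝ) ^ (33 * s) = (16 : ℝ) ^ s * (16 : ℝ) ^ (32 * s) := by
    rw [← pow_add]; congr 1; ring
  have h4 : (16 : ℝ) ^ s2 ≤ 16 ^ s := pow_le_pow_right₀ (by norm_num) hs
  have hc := h.hc
  have h5 : 1 ≤ c * (16 : ℝ) ^ s := le_trans hs2 (mul_le_mul_of_nonneg_left h4 hc.le)
  have h6 : (16 : ℝ) ^ (32 * s) ≤ c * (16 : ℝ) ^ s * (16 : ℝ) ^ (32 * s) := by
    have : (0 : ℝ) < (16 : ℝ) ^ (32 * s) := by positivity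
    nlinarith only [h5, this]
  calc (16 : ℝ) ^ (32 * s) ≤ c * (16 : ℝ) ^ s * (16 : ℝ) ^ (32 * s) := h6
    _ = c * (16 : ℝ) ^ (33 * s) := by rw [h3]; ring
    _ ≤ c * N := mul_le_mul_of_nonneg_left h1 hc.le

/-- The volume bound on the speed of connections. -/
theorem stepV (h : Boot pc p0 F κ V θ c C) {p : ℝ} (hp : p0 ≤ p) (hp' : p < pc)
    {r t : ℕ} (ht : 1 ≤ t) (htY : t ≤ Ysc F p) (hκ : (1 / 2 : ℝ) ^ t ≤ κ p r) :
    (r : ℝ) ≤ 72 / c ^ 2 * t * Ysc F p := by
  obtain ⟨hY1, hYS⟩ := Ysc_spec h hp hp'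
  set Y := Ysc F p with hY
  set k := Y / t with hk
  have hkt : k * t ≤ Y := Nat.div_mul_le_self Y t
  have hk2 : Y ≤ 2 * (k * t) := by
    have h1 : 1 ≤ k := (Nat.one_le_div_iff (by omega)).2 htY
    have h2 : Y < (k + 1) * t := by
      have h3 := Nat.div_add_mod Y t
      have h4 := Nat.mod_lt Y (show 0 < t by omega)
      rw [← hk] at h3
      nlinarith only [h3, h4]
    nlinarith only [h2, h1]
  have hK : (1 / 2 : ℝ) ^ Y ≤ κ p (k * r) := by
    calc (1 / 2 : ℝ) ^ Y ≤ (1 / 2 : ℝ) ^ (k * t) :=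
          pow_le_pow_of_le_one (by norm_num) (by norm_num) hkt
      _ = ((1 / 2 : ℝ) ^ t) ^ k := by rw [← pow_mul, mul_comm]
      _ ≤ (κ p r) ^ k := by gcongr
      _ ≤ κ p (k * r) := h.κ_pow p r k hp hp'
  have hW := h.Vol p (k * r) (16 ^ Y) hp hp' (Nat.one_le_pow _ _ (by norm_num))
  have hWpos : 0 < V (k * r) := lt_of_lt_of_le (exp_pos _) (h.grow _)
  have hFN : F (16 ^ Y) p ≤ (1 / 4 : ℝ) ^ Y := by
    have h1 := hYS (16 ^ Y) le_rfl
    by_contra hcon
    push Not at hcon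
    have h2 : ((1 / 4 : ℝ) ^ Y) ^ 2 ≤ (F (16 ^ Y) p) ^ 2 := by (clear * - hcon; gcongr)
    have h3 : (16 : ℝ) ^ Y * ((1 / 4 : ℝ) ^ Y) ^ 2 = 1 := by
      rw [← pow_mul, mul_comm Y 2, pow_mul, ← mul_pow]; norm_num
    have h5 : (16 : ℝ) ^ Y * ((1 / 4 : ℝ) ^ Y) ^ 2 ≤
        ((16 ^ Y : ℕ) : ℝ) * (F (16 ^ Y) p) ^ 2 := by
      push_cast
      exact mul_le_mul_of_nonneg_left h2 (by positivity)
    linarith only [h1, h3, h5]
  have h4 : (1 / 4 : ℝ) ^ Y = (1 / 2 : ℝ) ^ Y * (1 / 2 : ℝ) ^ Y := by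
    rw [← mul_pow]; norm_num
  have hhalf : (1 / 2 : ℝ) ^ Y ≤ 1 / 2 := by
    calc (1 / 2 : ℝ) ^ Y ≤ (1 / 2 : ℝ) ^ 1 :=
          pow_le_pow_of_le_one (by norm_num) (by norm_num) hY1
      _ = 1 / 2 := by norm_num
  have hpos : (0 : ℝ) < (1 / 2 : ℝ) ^ Y := by positivity
  have hW2 : V (k * r) * (1 / 2 : ℝ) ^ Y * (1 / 2) ≤ 16 ^ Y := by
    have h5 : V (k * r) * (1 / 2 : ℝ) ^ Y ≤ V (k * r) * κ p (k * r) :=
      mul_le_mul_of_nonneg_left hK hWpos.le
    have h6 : V (k * r) * F (16 ^ Y) p ≤ V (k * r) * ((1 / 2 : ℝ) ^ Y * (1 / 2)) := by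
      apply mul_le_mul_of_nonneg_left _ hWpos.le
      rw [h4] at hFN
      exact hFN.trans (mul_le_mul_of_nonneg_left hhalf hpos.le)
    push_cast at hW
    linarith only [h5, h6, hW]
  have hW3 : V (k * r) ≤ 64 ^ Y := by
    have h5 : (32 : ℝ) ^ Y * (1 / 2 : ℝ) ^ Y = 16 ^ Y := by
      rw [← mul_pow]; norm_num
    have h6 : V (k * r) ≤ 2 * 32 ^ Y := by
      have : V (k * r) * (1 / 2 : ℝ) ^ Y ≤ 2 * 32 ^ Y * (1 / 2 : ℝ) ^ Y := by
        rw [mul_assoc 2, h5]; linarith only [hW2]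
      exact le_of_mul_le_mul_right this hpos
    have h7 : (2 : ℝ) * 32 ^ Y ≤ 64 ^ Y := by
      have : (64 : ℝ) ^ Y = 2 ^ Y * 32 ^ Y := by rw [← mul_pow]; norm_num
      rw [this]
      have h8 : (2 : ℝ) ^ 1 ≤ 2 ^ Y := pow_le_pow_right₀ (by norm_num) hY1
      have : (0 : ℝ) < 32 ^ Y := by positivity
      nlinarith only [hWpos, h8, h6]
    linarith only [h6, h7]
  have hexp : c * √((k * r : ℕ) : ℝ) ≤ 6 * Y := by
    have h5 : exp (c * √((k * r : ℕ) : ℝ)) ≤ exp (6 * Y) := by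
      refine (h.grow (k * r)).trans (hW3.trans ?_)
      rw [mul_comm, Real.exp_nat_mul]
      gcongr
      have : (2 : ℝ) ≤ exp 1 := by have := Real.exp_one_gt_d9; linarith only [this]
      calc (64 : ℝ) = 2 ^ 6 := by norm_num
        _ ≤ (exp 1) ^ 6 := by (clear * - this; gcongr)
        _ = exp 6 := by rw [← Real.exp_nat_mul]; norm_num
    exact Real.exp_le_exp.1 h5
  have hc := h.hc
  have hsq : c ^ 2 * ((k * r : ℕ) : ℝ) ≤ 36 * Y ^ 2 := by
    have h5 : (c * √((k * r : ℕ) : ℝ)) ^ 2 ≤ (6 * Y) ^ 2 := by (clear * - hc hexp; gcongr)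
    rw [mul_pow, Real.sq_sqrt (by (clear * -; positivity))] at h5
    linarith only [h5]
  have hk3 : (Y : ℝ) ≤ 2 * (k * t) := by exact_mod_cast hk2
  have htpos : (0 : ℝ) < t := by exact_mod_cast ht
  have hYpos : (0 : ℝ) < Y := by exact_mod_cast hY1
  push_cast at hsq
  have h10 : c ^ 2 * r * Y ≤ 72 * t * Y * Y := by
    have h11 : c ^ 2 * r * Y ≤ c ^ 2 * r * (2 * (k * t)) := by
      apply mul_le_mul_of_nonneg_left hk3; (clear * - hc; positivity)
    have h12 : c ^ 2 * r * (2 * (k * t)) = 2 * t * (c ^ 2 * (k * r)) := by ring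
    have h13 : 2 * t * (c ^ 2 * (k * r)) ≤ 2 * t * (36 * (Y : ℝ) ^ 2) := by
      apply mul_le_mul_of_nonneg_left hsq; positivity
    nlinarith only [h11, h13]
  have h14 : c ^ 2 * r ≤ 72 * t * Y := le_of_mul_le_mul_right h10 hYpos
  rw [div_mul_eq_mul_div, div_mul_eq_mul_div, le_div_iff₀ (by positivity)]
  linarith only [h14]

/-- The family of available connection statements. -/
def Fam (F : ℕ → ℝ → ℝ) (κ : ℝ → ℕ → ℝ) (p1 pc p : ℝ) (r t : ℕ) : Prop :=
  p1 ≤ p ∧ p < pc ∧ 1 ≤ t ∧ t ≤ Ysc F p ∧ (1 / 2 : ℝ) ^ t ≤ κ p r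

theorem exists_near_max (h : Boot pc p0 F κ V θ c C) {p1 : ℝ} (hp1 : p0 ≤ p1)
    {p2 : ℝ} {t2 : ℕ} (h2 : Fam F κ p1 pc p2 1 t2) :
    ∃ (p' : ℝ) (r' t' : ℕ), Fam F κ p1 pc p' r' t' ∧ 0 < r' ∧
      ∀ (p : ℝ) (r t : ℕ), Fam F κ p1 pc p r t →
        r * (t' * Ysc F p') ≤ 2 * r' * (t * Ysc F p) := by
  set S : Set ℝ := {x | ∃ (p : ℝ) (r t : ℕ), Fam F κ p1 pc p r t ∧
    x = (r : ℝ) / (t * Ysc F p)} with hS
  have hpos : ∀ {p : ℝ} {r t : ℕ}, Fam F κ p1 pc p r t → (0 : ℝ) < t * Ysc F p := by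
    intro p r t hf
    obtain ⟨-, -, ht, htY, -⟩ := hf
    have h1 : (0 : ℝ) < t := by exact_mod_cast ht
    have h2 : (0 : ℝ) < Ysc F p := by exact_mod_cast (by omega : 0 < Ysc F p)
    (clear * - ht h2; positivity)
  have hbdd : BddAbove S := by
    refine ⟨72 / c ^ 2, ?_⟩
    rintro x ⟨p, r, t, hf, rfl⟩
    have hp := hpos hf
    rw [div_le_iff₀ hp]
    obtain ⟨h1, h2, h3, h4, h5⟩ := hf
    have := stepV h (hp1.trans h1) h2 h3 h4 h5
    linarith only [this]
  have hmem : (1 : ℝ) / (t2 * Ysc F p2) ∈ S := ⟨p2, 1, t2, h2, by simp⟩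
  have hw : 0 < sSup S := lt_of_lt_of_le (by have := hpos h2; (clear * - this; positivity)) (le_csSup hbdd hmem)
  obtain ⟨x, ⟨p', r', t', hf', rfl⟩, hx⟩ := exists_lt_of_lt_csSup ⟨_, hmem⟩
    (show sSup S / 2 < sSup S by linarith only [hw])
  have hp' := hpos hf'
  have hr' : 0 < r' := by
    rcases Nat.eq_zero_or_pos r' with h0 | h0
    · subst h0; simp only [CharP.cast_eq_zero, zero_div] at hx; linarith only [hw, hx]
    · exact h0
  refine ⟨p', r', t', hf', hr', fun p r t hf => ?_⟩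
  have hp := hpos hf
  have h1 : (r : ℝ) / (t * Ysc F p) ≤ sSup S := le_csSup hbdd ⟨p, r, t, hf, rfl⟩
  have h3 : (r : ℝ) / (t * Ysc F p) ≤ 2 * ((r' : ℝ) / (t' * Ysc F p')) := by linarith
  rw [div_le_iff₀ hp] at h3
  have h4 : (r : ℝ) * (t' * Ysc F p') ≤ 2 * r' * (t * Ysc F p) := by
    have := mul_le_mul_of_nonneg_right h3 hp'.le
    have e : 2 * ((r' : ℝ) / (t' * Ysc F p')) * (t * Ysc F p) * (t' * Ysc F p') =
      2 * r' * (t * Ysc F p) := by
      have h5 := div_mul_cancel₀ (r' : ℝ) hp'.ne'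
      calc 2 * ((r' : ℝ) / (t' * Ysc F p')) * (t * Ysc F p) * (t' * Ysc F p')
          = 2 * ((r' : ℝ) / (t' * Ysc F p') * (t' * Ysc F p')) * (t * Ysc F p) := by ring
        _ = 2 * r' * (t * Ysc F p) := by rw [h5]
    linarith only [this, e]
  exact_mod_cast h4

theorem big_Y (h : Boot pc p0 F κ V θ c C) {sθ : ℕ} (hsθ : C * (1 / 2 : ℝ) ^ sθ ≤ θ / 2)
    (hsθ' : 1 ≤ (2 : ℝ) ^ sθ * (θ / 2) ^ 2)
    {p : ℝ} (hp : p0 ≤ p) (hp' : p < pc) {s : ℕ} (hs : sθ ≤ s)
    (hx : pc - p ≤ (1 / 2 : ℝ) ^ (17 * s)) : s < Ysc F p := by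
  apply lt_Ysc h hp hp'
  intro hsub
  have h1 := stepB h hsθ hp hp' hs hx
  have h2 := hsub (2 ^ (32 * s)) (by
    rw [show 16 = 2 ^ 4 by norm_num, ← pow_mul]
    exact Nat.pow_le_pow_right (by norm_num) (by omega))
  have hθ := h.hθ
  have h3 : (θ / 2) ^ 2 ≤ (F (2 ^ (32 * s)) p) ^ 2 := by (clear * - hθ h1; gcongr)
  have h4 : (2 : ℝ) ^ sθ ≤ ((2 ^ (32 * s) : ℕ) : ℝ) := by
    push_cast
    exact pow_le_pow_right₀ (by norm_num) (by omega)
  have h5 := mul_le_mul h4 h3 (by positivity) (by positivity)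
  (clear * - hsθ' h2 h5; linarith)

/-- The constants and the near maximizer, bundled for the final argument. -/
structure FinSt (pc p0 : ℝ) (F : ℕ → ℝ → ℝ) (κ : ℝ → ℕ → ℝ) (V : ℕ → ℝ) (θ c C : ℝ)
    (c3 sθ s2 T0 cf : ℕ) (p1 p' : ℝ) (r' t' : ℕ) : Prop where
  hb : Boot pc p0 F κ V θ c C
  hc3 : C + 1 < 2 ^ c3
  hsθ : C * (1 / 2 : ℝ) ^ sθ ≤ θ / 2
  hsθ' : 1 ≤ (2 : ℝ) ^ sθ * (θ / 2) ^ 2
  hs2 : 1 ≤ c * (16 : ℝ) ^ s2
  hT0 : (1 / 2 : ℝ) ^ T0 ≤ c * (θ / 2)
  hcf : (1 / 2 : ℝ) ^ cf ≤ c * c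
  hp1 : p0 ≤ p1
  hfam : Fam F κ p1 pc p' r' t'
  hr' : 0 < r'
  hmax : ∀ (p : ℝ) (r t : ℕ), Fam F κ p1 pc p r t →
    r * (t' * Ysc F p') ≤ 2 * r' * (t * Ysc F p)
  big : c3 + sθ + s2 + (2 * T0 + 1) ≤ Ysc F p'

variable {c3 sθ s2 T0 cf : ℕ} {p1 p' : ℝ} {r' t' : ℕ}

/-- The basic connection statement at every `p` close to `pc`. -/
theorem FinSt.base (h : FinSt pc p0 F κ V θ c C c3 sθ s2 T0 cf p1 p' r' t') {p : ℝ}
    (hpp : p' ≤ p) (hp : p < pc) {i : ℕ} (hi : 17 * (Ysc F p' + 1) ≤ i)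
    (hx : pc - p ≤ (1 / 2 : ℝ) ^ i) :
    (1 / 2 : ℝ) ^ (2 * T0 + 1) ≤ κ p (i / 17 / t' * r') ∧ i ≤ 68 * (i / 17 / t' * t') := by
  obtain ⟨h1, h2, h3, h4, h5⟩ := h.hfam
  have hbig := h.big
  set s := i / 17 with hs
  have hs1 : Ysc F p' + 1 ≤ s := by omega
  have hkt : s / t' * t' ≤ s := Nat.div_mul_le_self s t'
  refine ⟨?_, ?_⟩
  · apply stepA h.hb h.hc3 (h.hp1.trans h1) hpp hp (s := s) (by omega) h5 hkt (by omega)
    have hB := stepB h.hb h.hsθ (h.hp1.trans (h1.trans hpp)) hp (s := s) (by omega)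
      (hx.trans (pow_le_pow_of_le_one (by norm_num) (by norm_num) (by omega)))
    exact h.hT0.trans (mul_le_mul_of_nonneg_left hB h.hb.hc.le)
  · have h6 : 1 ≤ s / t' := (Nat.one_le_div_iff (by omega)).2 (by omega)
    have h7 : s < (s / t' + 1) * t' := by
      have h8 := Nat.div_add_mod s t'
      have h9 := Nat.mod_lt s (show 0 < t' by omega)
      nlinarith only [h8, h9]
    have h8 : s ≤ 2 * (s / t' * t') := by nlinarith only [h7, h6]
    omega

theorem FinSt.stepa (h : FinSt pc p0 F κ V θ c C c3 sθ s2 T0 cf p1 p' r' t') {p : ℝ}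
    (hpp : p' ≤ p) (hp : p < pc) {i : ℕ} (hi : 17 * (Ysc F p' + 1) ≤ i)
    (hx : pc - p ≤ (1 / 2 : ℝ) ^ i) :
    i * Ysc F p' ≤ 136 * (2 * T0 + 1) * Ysc F p := by
  obtain ⟨hb1, hb2⟩ := h.base hpp hp hi hx
  obtain ⟨h1, h2, h3, h4, h5⟩ := h.hfam
  have hmono := Ysc_mono h.hb (h.hp1.trans h1) hpp hp
  have hbig := h.big
  have hm := h.hmax p _ (2 * T0 + 1) ⟨h1.trans hpp, hp, by omega, by omega, hb1⟩
  set k := i / 17 / t' with hk
  set Y' := Ysc F p'
  set Y := Ysc F p
  have hr' := h.hr'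
  have hm2 : k * (t' * Y') ≤ 2 * ((2 * T0 + 1) * Y) := by
    have e1 : k * r' * (t' * Y') = r' * (k * (t' * Y')) := by ring
    have e2 : 2 * r' * ((2 * T0 + 1) * Y) = r' * (2 * ((2 * T0 + 1) * Y)) := by ring
    rw [e1, e2] at hm
    exact Nat.le_of_mul_le_mul_left hm hr'
  calc i * Y' ≤ 68 * (k * t') * Y' := Nat.mul_le_mul_right _ hb2
    _ = 68 * (k * (t' * Y')) := by ring
    _ ≤ 68 * (2 * ((2 * T0 + 1) * Y)) := Nat.mul_le_mul_left _ hm2
    _ = 136 * (2 * T0 + 1) * Y := by ring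

/-- The point `pc - (1/2)^i` lies to the right of `p'`. -/
theorem FinSt.right (h : FinSt pc p0 F κ V θ c C c3 sθ s2 T0 cf p1 p' r' t') {i : ℕ}
    (hi : 17 * (Ysc F p' + 1) ≤ i) : p' ≤ pc - (1 / 2 : ℝ) ^ i := by
  obtain ⟨h1, h2, h3, h4, h5⟩ := h.hfam
  by_contra hcon
  push Not at hcon
  have hbig := h.big
  have h6 : pc - p' ≤ (1 / 2 : ℝ) ^ (17 * Ysc F p') := by
    have : (1 / 2 : ℝ) ^ i ≤ (1 / 2 : ℝ) ^ (17 * Ysc F p') :=
      pow_le_pow_of_le_one (by norm_num) (by norm_num) (by omega)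
    linarith only [hcon, this]
  have := big_Y h.hb h.hsθ h.hsθ' (h.hp1.trans h1) h2 (s := Ysc F p') (by omega) h6
  omega

/-- Passing from a point `p` to a later point `b`, using a percolating scale of `a`. -/
theorem FinSt.link (h : FinSt pc p0 F κ V θ c C c3 sθ s2 T0 cf p1 p' r' t') {p a b : ℝ}
    (hp : p0 ≤ p) (hpb : p ≤ b) (ha : p0 ≤ a) (hab : a < b) (hb : b < pc)
    {R t s m : ℕ} (hκ : (1 / 2 : ℝ) ^ t ≤ κ p R) (hY : Ysc F p ≤ s)
    (hba : (1 / 2 : ℝ) ^ m ≤ b - a) (hs : 33 * s < Ysc F a)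
    (hs3 : 2 * (m + cf) + 1 + c3 ≤ s) (hs2 : s2 ≤ s) :
    (1 / 2 : ℝ) ^ (2 * (m + cf) + 1) ≤ κ b (s / t * R) := by
  apply stepA h.hb h.hc3 hp hpb hb hY hκ (Nat.div_mul_le_self s t) hs3
  have h1 := stepC h.hb h.hs2 ha hab hb hs2 (by omega) hs
  have hc := h.hb.hc
  calc (1 / 2 : ℝ) ^ (m + cf) = (1 / 2 : ℝ) ^ cf * (1 / 2 : ℝ) ^ m := by
        rw [pow_add, mul_comm]
    _ ≤ (c * c) * (b - a) := by
        apply mul_le_mul h.hcf hba (by positivity) (by positivity)
    _ = c * (c * (b - a)) := by ring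
    _ ≤ c * F (2 ^ (32 * s)) b := mul_le_mul_of_nonneg_left h1 hc.le

theorem aux_div {s t : ℕ} (ht : 1 ≤ t) (hts : t ≤ s) : s ≤ 2 * (s / t * t) := by
  have h6 : 1 ≤ s / t := (Nat.one_le_div_iff (by omega)).2 hts
  have h8 := Nat.div_add_mod s t
  have h9 := Nat.mod_lt s (show 0 < t by omega)
  nlinarith only [h8, h9, h6]

theorem aux_lin {i l cf c3 : ℕ} (hi : 1 ≤ i) :
    2 * (i + l + 2 + cf) + 1 + c3 ≤ (1 + l) * i * (13 + 2 * cf + c3) := by
  have h1 : i ≤ (1 + l) * i := by nlinarith only []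
  have h2 : 1 + l ≤ (1 + l) * i := by nlinarith only [hi]
  set x := (1 + l) * i
  have h3 : 1 ≤ x := by omega
  have h4 : 2 * cf + c3 ≤ x * (2 * cf + c3) := Nat.le_mul_of_pos_left _ h3
  have h5 : x * (13 + 2 * cf + c3) = 13 * x + x * (2 * cf + c3) := by ring
  omega

theorem aux_pow (n : ℕ) : (n + 5) ^ 2 ≤ 64 ^ (n + 2) := by
  induction n with
  | zero => norm_num
  | succ n ih =>
    have h1 : 64 ^ (n + 1 + 2) = 64 * 64 ^ (n + 2) := by ring
    have h2 : (n + 1 + 5) ^ 2 ≤ 64 * (n + 5) ^ 2 := by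
      have h3 : (n + 1 + 5) ^ 2 ≤ (2 * (n + 5)) ^ 2 :=
        Nat.pow_le_pow_left (by omega) 2
      have h4 : (2 * (n + 5)) ^ 2 = 4 * (n + 5) ^ 2 := by ring
      omega
    rw [h1]
    exact h2.trans (Nat.mul_le_mul_left _ ih)

theorem FinSt.claim (h : FinSt pc p0 F κ V θ c C c3 sθ s2 T0 cf p1 p' r' t')
    (hB : 2 ^ 35 * ((2 * T0 + 1) ^ 2 * (13 + 2 * cf + c3) ^ 2) ≤ Ysc F p')
    {i'' i : ℕ} (hi'' : 17 * (Ysc F p' + 1) ≤ i'') (hii : i'' ≤ i)
    (hY : 64 * Ysc F (pc - (1 / 2 : ℝ) ^ i'') < Ysc F (pc - (1 / 2 : ℝ) ^ i)) :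
    i'' * Ysc F p' ≤ 1148928 * ((2 * T0 + 1) * (13 + 2 * cf + c3)) * i := by
  have hbig := h.big
  have hfam := h.hfam
  obtain ⟨hf1, hf2, hf3, hf4, hf5⟩ := hfam
  have hp0 : p0 ≤ p' := h.hp1.trans hf1
  set Y' := Ysc F p' with hY'
  have hi0 : 17 * (Y' + 1) ≤ i := hi''.trans hii
  set T := 2 * T0 + 1 with hT
  set D := 13 + 2 * cf + c3 with hD
  have hi1 : 1 ≤ i := by omega
  have hT1 : 1 ≤ T := by omega
  have hD1 : 13 ≤ D := by omega
  set a : ℕ → ℝ := fun l => pc - (1 / 2 : ℝ) ^ (i + 1) - (1 / 2 : ℝ) ^ (i + 1 + l) with ha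
  have ha0 : a 0 = pc - (1 / 2 : ℝ) ^ i := by
    simp only [ha, add_zero, pow_succ]; ring
  have hdiff : ∀ l, a (l + 1) - a l = (1 / 2 : ℝ) ^ (i + l + 2) := by
    intro l
    simp only [ha]
    rw [show i + 1 + (l + 1) = i + 1 + l + 1 by ring, show i + l + 2 = i + 1 + l + 1 by ring,
      pow_succ (1 / 2 : ℝ) (i + 1 + l)]
    ring
  have hlt : ∀ l, a l < a (l + 1) := by
    intro l
    have h1 := hdiff l
    have : (0 : ℝ) < (1 / 2 : ℝ) ^ (i + l + 2) := by positivity
    linarith only [h1, this]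
  have hmonoa : Monotone a := monotone_nat_of_le_succ fun l => (hlt l).le
  have hpa : ∀ l, p' ≤ a l := by
    intro l
    have h1 := h.right hi0
    rw [← ha0] at h1
    exact h1.trans (hmonoa (Nat.zero_le l))
  have hac : ∀ l, a l < pc := by
    intro l
    simp only [ha]
    have h1 : (0 : ℝ) < (1 / 2 : ℝ) ^ (i + 1) := by positivity
    have h2 : (0 : ℝ) < (1 / 2 : ℝ) ^ (i + 1 + l) := by positivity
    linarith only [h1, h2]
  have hax : ∀ l, pc - a l ≤ (1 / 2 : ℝ) ^ i := by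
    intro l
    have := hmonoa (Nat.zero_le l)
    rw [ha0] at this
    linarith only [this]
  have hzmono : ∀ {l l' : ℕ}, l ≤ l' → Ysc F (a l) ≤ Ysc F (a l') := fun hl =>
    Ysc_mono h.hb (hp0.trans (hpa _)) (hmonoa hl) (hac _)
  set z : ℕ → ℕ := fun l => Ysc F (a l) with hz
  have hz1 : ∀ l, 1 ≤ z l := fun l => (Ysc_spec h.hb (hp0.trans (hpa l)) (hac l)).1
  have hex : ∃ j, z (j + 1) ≤ 64 * z j := by
    by_contra hcon
    push Not at hcon
    have h1 : ∀ j, j < z j := by
      intro j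
      induction j with
      | zero => have := hz1 0; omega
      | succ n ih => have := hcon n; omega
    have hb1 : pc - (1 / 2 : ℝ) ^ (i + 1) < pc := by
      have : (0 : ℝ) < (1 / 2 : ℝ) ^ (i + 1) := by positivity
      linarith only [this]
    have h2 : ∀ j, z j ≤ Ysc F (pc - (1 / 2 : ℝ) ^ (i + 1)) := by
      intro j
      apply Ysc_mono h.hb (hp0.trans (hpa j)) _ hb1
      simp only [ha]
      have : (0 : ℝ) < (1 / 2 : ℝ) ^ (i + 1 + j) := by positivity
      linarith only [this]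
    have h3 := h1 (Ysc F (pc - (1 / 2 : ℝ) ^ (i + 1)))
    have h4 := h2 (Ysc F (pc - (1 / 2 : ℝ) ^ (i + 1)))
    omega
  obtain ⟨j, hj, hjmin⟩ : ∃ j, z (j + 1) ≤ 64 * z j ∧ ∀ l < j, 64 * z l < z (l + 1) := by
    classical
    refine ⟨Nat.find hex, Nat.find_spec hex, fun l hl => ?_⟩
    have := Nat.find_min hex hl
    omega
  have hpow : ∀ l, l ≤ j → 64 ^ l * z 0 ≤ z l := by
    intro l
    induction l with
    | zero => intro _; simp
    | succ n ih =>
      intro hn
      have h1 := ih (by omega)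
      have h2 := hjmin n (by omega)
      calc 64 ^ (n + 1) * z 0 = 64 * (64 ^ n * z 0) := by ring
        _ ≤ 64 * z n := Nat.mul_le_mul_left _ h1
        _ ≤ z (n + 1) := h2.le
  have hstep0 : i * Y' ≤ 136 * T * z 0 := h.stepa (hpa 0) (hac 0) hi0 (hax 0)
  set s : ℕ → ℕ := fun l => (z l - 1) / 33 with hs
  have hs33 : ∀ l, 33 * s l < z l := by
    intro l
    have := hz1 l
    simp only [hs]
    omega
  have hsz : ∀ l, z l ≤ 33 * s l + 33 := by
    intro l
    simp only [hs]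
    omega
  have hYTD : 8976 * (T * D) ≤ Y' := by
    refine le_trans ?_ hB
    have h1 : T * D ≤ T ^ 2 * D ^ 2 := by
      calc T * D = (T * D) * 1 := by ring
        _ ≤ (T * D) * (T * D) := Nat.mul_le_mul_left _ (Nat.mul_pos (by omega) (by omega))
        _ = T ^ 2 * D ^ 2 := by ring
    exact Nat.mul_le_mul (by norm_num) h1
  have hkey : ∀ l, l ≤ j → 64 ^ l * (i * Y') ≤ 136 * T * z l := by
    intro l hl
    calc 64 ^ l * (i * Y') ≤ 64 ^ l * (136 * T * z 0) := Nat.mul_le_mul_left _ hstep0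
      _ = 136 * T * (64 ^ l * z 0) := by ring
      _ ≤ 136 * T * z l := Nat.mul_le_mul_left _ (hpow l hl)
  have hsl : ∀ l, l ≤ j → (1 + l) * i * D ≤ s l := by
    intro l hl
    have h1 := hkey l hl
    have h2 : 4488 * T * (2 * (64 ^ l * i * D)) ≤ 4488 * T * (s l + 1) := by
      calc 4488 * T * (2 * (64 ^ l * i * D)) = 64 ^ l * (i * (8976 * (T * D))) := by ring
        _ ≤ 64 ^ l * (i * Y') :=
          Nat.mul_le_mul_left _ (Nat.mul_le_mul_left _ hYTD)
        _ ≤ 136 * T * z l := h1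
        _ ≤ 136 * T * (33 * s l + 33) := Nat.mul_le_mul_left _ (hsz l)
        _ = 4488 * T * (s l + 1) := by ring
    have h3 : 2 * (64 ^ l * i * D) ≤ s l + 1 :=
      Nat.le_of_mul_le_mul_left h2 (by (clear * - hex; omega))
    have h4 : 1 + l ≤ 64 ^ l := by
      have := Nat.lt_pow_self (n := l) (show 1 < 64 by norm_num)
      omega
    have h5 : (1 + l) * i * D ≤ 64 ^ l * i * D := by (clear * - h4; gcongr)
    have h6 : 1 ≤ 64 ^ l * i * D := by
      have : 0 < 64 ^ l * i * D := by (clear * - hi1; positivity)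
      omega
    (clear * - hex h3 h5 h6; omega)
  have hs1 : ∀ l, l ≤ j → i ≤ s l := by
    intro l hl
    refine le_trans ?_ (hsl l hl)
    calc i = 1 * i * 1 := by ring
      _ ≤ (1 + l) * i * D := by gcongr <;> omega
  have hlin : ∀ l, l ≤ j → 2 * (i + l + 2 + cf) + 1 + c3 ≤ s l := fun l hl =>
    (aux_lin hi1).trans (hsl l hl)
  have hz66 : ∀ l, l ≤ j → z l ≤ 66 * s l := by
    intro l hl
    have := hs1 l hl
    have := hsz l
    omega
  have hr' := h.hr'
  rcases Nat.lt_or_ge j 4 with hj4 | hj4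
  · -- few doublings: one step suffices
    have hp'' : pc - (1 / 2 : ℝ) ^ i'' ≤ a 0 := by
      rw [ha0]
      have : (1 / 2 : ℝ) ^ i ≤ (1 / 2 : ℝ) ^ i'' :=
        pow_le_pow_of_le_one (by (clear * -; norm_num)) (by norm_num) hii
      linarith only [this]
    have hp''2 : p' ≤ pc - (1 / 2 : ℝ) ^ i'' := h.right hi''
    have hb0 := h.base hp''2 (lt_of_le_of_lt hp'' (hac 0)) hi'' (by linarith only [])
    obtain ⟨hb1, hb2⟩ := hb0
    have hzj0 := hzmono (Nat.zero_le j)
    have hY2 : 64 * Ysc F (pc - (1 / 2 : ℝ) ^ i'') < z 0 := by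
      simp only [hz]; rw [ha0]; exact hY
    have hYs : Ysc F (pc - (1 / 2 : ℝ) ^ i'') ≤ s j := by
      have : z 0 ≤ z j := hzj0
      simp only [hs]
      (clear * - hex hY2 this; omega)
    have hl := h.link (hp0.trans hp''2) (hp''.trans (hmonoa (Nat.zero_le (j + 1))))
      (hp0.trans (hpa j)) (hlt j) (hac (j + 1)) hb1 hYs (m := i + j + 2) (hdiff j).ge
      (hs33 j) (hlin j le_rfl) (by have := hs1 j le_rfl; omega)
    set t2 := 2 * (i + j + 2 + cf) + 1 with ht2
    have hlj := hlin j le_rfl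
    have h33 := hs33 j
    have hzz : z j ≤ z (j + 1) := hzmono (Nat.le_succ j)
    have hm := h.hmax (a (j + 1)) _ t2 ⟨hf1.trans (hpa _), hac _, by omega,
      (show t2 ≤ z (j + 1) by (clear * - hex hlj h33 hzz; omega)), hl⟩
    set kb := i'' / 17 / t' with hkb
    set k1 := s j / T with hk1
    have hm2 : k1 * (kb * (t' * Y')) ≤ 2 * (t2 * z (j + 1)) := by
      have e1 : k1 * (kb * r') * (t' * Y') = r' * (k1 * (kb * (t' * Y'))) := by ring
      have e2 : 2 * r' * (t2 * z (j + 1)) = r' * (2 * (t2 * z (j + 1))) := by ring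
      have hm' : k1 * (kb * r') * (t' * Y') ≤ 2 * r' * (t2 * z (j + 1)) := hm
      rw [e1, e2] at hm'
      exact Nat.le_of_mul_le_mul_left hm' hr'
    have hsj : s j ≤ 2 * (k1 * T) := aux_div hT1 (by have := hs1 j le_rfl; omega)
    have hz2 : z (j + 1) ≤ 64 * (66 * s j) :=
      hj.trans (Nat.mul_le_mul_left _ (hz66 j le_rfl))
    have hsjpos : 0 < s j := by have := hs1 j le_rfl; omega
    have h10 : s j * (i'' * Y') ≤ s j * (1148928 * T * t2) := by
      calc s j * (i'' * Y') ≤ (2 * (k1 * T)) * ((68 * (kb * t')) * Y') := by (clear * - hsj hb2; gcongr)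
        _ = 136 * T * (k1 * (kb * (t' * Y'))) := by ring
        _ ≤ 136 * T * (2 * (t2 * z (j + 1))) := Nat.mul_le_mul_left _ hm2
        _ ≤ 136 * T * (2 * (t2 * (64 * (66 * s j)))) := by (clear * - hz2; gcongr)
        _ = s j * (1148928 * T * t2) := by ring
    have h11 := Nat.le_of_mul_le_mul_left h10 hsjpos
    have h12 : t2 ≤ D * i := by
      have h13 : 2 * cf + c3 ≤ (2 * cf + c3) * i := Nat.le_mul_of_pos_right _ (by omega)
      have h14 : D * i = 13 * i + (2 * cf + c3) * i := by rw [hD]; ring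
      (clear * - hi1 hex hj4 h13 h14; omega)
    calc i'' * Y' ≤ 1148928 * T * t2 := h11
      _ ≤ 1148928 * T * (D * i) := Nat.mul_le_mul_left _ h12
      _ = 1148928 * (T * D) * i := by ring
  · -- many doublings: two steps give a contradiction
    exfalso
    obtain ⟨n, rfl⟩ : ∃ n, j = n + 4 := ⟨j - 4, by omega⟩
    obtain ⟨hb1, hb2⟩ := h.base (hpa 0) (hac 0) hi0 (hax 0)
    have hpw := hpow (n + 2) (by omega)
    have hY2 : Ysc F (a 0) ≤ s (n + 2) := by
      have h1 : 64 * z 0 ≤ z (n + 2) := by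
        refine le_trans ?_ hpw
        have : 64 ≤ 64 ^ (n + 2) := by
          calc 64 = 64 ^ 1 := by norm_num
            _ ≤ 64 ^ (n + 2) := Nat.pow_le_pow_right (by norm_num) (by omega)
        exact Nat.mul_le_mul_right _ this
      have h2 := hz1 0
      show z 0 ≤ s (n + 2)
      simp only [hs]
      (clear * - hex h1 h2; omega)
    have hl1 := h.link (hp0.trans (hpa 0)) (hmonoa (Nat.zero_le (n + 2 + 1)))
      (hp0.trans (hpa (n + 2))) (hlt (n + 2)) (hac (n + 2 + 1)) hb1 hY2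
      (m := i + (n + 2) + 2) (hdiff (n + 2)).ge
      (hs33 (n + 2)) (hlin (n + 2) (by omega)) (by have := hs1 (n + 2) (by omega); omega)
    set t1 := 2 * (i + (n + 2) + 2 + cf) + 1 with ht1
    have hY3 : Ysc F (a (n + 2 + 1)) ≤ s (n + 4) := by
      have h1 := hjmin (n + 3) (by omega)
      have h2 := hz1 (n + 3)
      show z (n + 3) ≤ s (n + 4)
      have h3 : 64 * z (n + 3) < z (n + 4) := h1
      simp only [hs]
      (clear * - hex h2 h3; omega)
    have hl2 := h.link (hp0.trans (hpa (n + 2 + 1)))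
      (hmonoa (show n + 2 + 1 ≤ n + 4 + 1 by omega))
      (hp0.trans (hpa (n + 4))) (hlt (n + 4)) (hac (n + 4 + 1)) hl1 hY3
      (m := i + (n + 4) + 2) (hdiff (n + 4)).ge
      (hs33 (n + 4)) (hlin (n + 4) le_rfl) (by have := hs1 (n + 4) le_rfl; omega)
    set t2 := 2 * (i + (n + 4) + 2 + cf) + 1 with ht2
    have hlj := hlin (n + 4) le_rfl
    have hlj2 := hlin (n + 2) (by omega)
    have h33 := hs33 (n + 4)
    have hzz : z (n + 4) ≤ z (n + 4 + 1) := hzmono (Nat.le_succ _)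
    have hm := h.hmax (a (n + 4 + 1)) _ t2 ⟨hf1.trans (hpa _), hac _, by omega,
      (show t2 ≤ z (n + 4 + 1) by (clear * - hex hlj h33 hzz; omega)), hl2⟩
    set kb := i / 17 / t' with hkb
    set k1 := s (n + 2) / T with hk1
    set k2 := s (n + 4) / t1 with hk2
    have hm2 : k2 * (k1 * (kb * (t' * Y'))) ≤ 2 * (t2 * z (n + 4 + 1)) := by
      have e1 : k2 * (k1 * (kb * r')) * (t' * Y') = r' * (k2 * (k1 * (kb * (t' * Y')))) := by
        ring
      have e2 : 2 * r' * (t2 * z (n + 4 + 1)) = r' * (2 * (t2 * z (n + 4 + 1))) := by ring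
      have hm' : k2 * (k1 * (kb * r')) * (t' * Y') ≤ 2 * r' * (t2 * z (n + 4 + 1)) := hm
      rw [e1, e2] at hm'
      exact Nat.le_of_mul_le_mul_left hm' hr'
    have hs2T : s (n + 2) ≤ 2 * (k1 * T) :=
      aux_div hT1 (by have := hs1 (n + 2) (by omega); omega)
    have hs4T : s (n + 4) ≤ 2 * (k2 * t1) := aux_div (by omega) (by (clear * - hex hlj; omega))
    have hz2 : z (n + 4 + 1) ≤ 64 * (66 * s (n + 4)) :=
      hj.trans (Nat.mul_le_mul_left _ (hz66 (n + 4) le_rfl))
    have hs4pos : 0 < s (n + 4) := by have := hs1 (n + 4) le_rfl; omega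
    have h10 : s (n + 4) * (s (n + 2) * (i * Y')) ≤
        s (n + 4) * (2297856 * T * t1 * t2) := by
      calc s (n + 4) * (s (n + 2) * (i * Y'))
          ≤ (2 * (k2 * t1)) * ((2 * (k1 * T)) * ((68 * (kb * t')) * Y')) := by (clear * - hs4T hs2T hb2; gcongr)
        _ = 272 * T * t1 * (k2 * (k1 * (kb * (t' * Y')))) := by ring
        _ ≤ 272 * T * t1 * (2 * (t2 * z (n + 4 + 1))) := Nat.mul_le_mul_left _ hm2
        _ ≤ 272 * T * t1 * (2 * (t2 * (64 * (66 * s (n + 4))))) := by (clear * - hz2; gcongr)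
        _ = s (n + 4) * (2297856 * T * t1 * t2) := by ring
    have h11 := Nat.le_of_mul_le_mul_left h10 hs4pos
    have h12 : 64 ^ (n + 2) * (i * Y') ≤ 8976 * T * s (n + 2) := by
      calc 64 ^ (n + 2) * (i * Y') ≤ 136 * T * z (n + 2) := hkey (n + 2) (by omega)
        _ ≤ 136 * T * (66 * s (n + 2)) := Nat.mul_le_mul_left _ (hz66 (n + 2) (by omega))
        _ = 8976 * T * s (n + 2) := by ring
    have ht2x : t2 ≤ (n + 5) * i * D := by
      have := aux_lin (l := n + 4) (cf := cf) (c3 := c3) hi1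
      have e : (1 + (n + 4)) * i * (13 + 2 * cf + c3) = (n + 5) * i * D := by rw [hD]; ring
      (clear * - hex this e; omega)
    have ht1x : t1 ≤ (n + 5) * i * D := by (clear * - hex ht2x; omega)
    have h13 : (64 ^ (n + 2) * i ^ 2) * Y' ^ 2 ≤
        (64 ^ (n + 2) * i ^ 2) * (8976 * 2297856 * (T ^ 2 * D ^ 2)) := by
      calc (64 ^ (n + 2) * i ^ 2) * Y' ^ 2 = (64 ^ (n + 2) * (i * Y')) * (i * Y') := by ring
        _ ≤ (8976 * T * s (n + 2)) * (i * Y') := Nat.mul_le_mul_right _ h12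
        _ = 8976 * T * (s (n + 2) * (i * Y')) := by ring
        _ ≤ 8976 * T * (2297856 * T * t1 * t2) := Nat.mul_le_mul_left _ h11
        _ ≤ 8976 * T * (2297856 * T * ((n + 5) * i * D) * ((n + 5) * i * D)) := by (clear * - ht1x ht2x; gcongr)
        _ = ((n + 5) ^ 2 * i ^ 2) * (8976 * 2297856 * (T ^ 2 * D ^ 2)) := by ring
        _ ≤ (64 ^ (n + 2) * i ^ 2) * (8976 * 2297856 * (T ^ 2 * D ^ 2)) :=
          Nat.mul_le_mul_right _ (Nat.mul_le_mul_right _ (aux_pow n))
    have h14 : Y' ^ 2 ≤ 8976 * 2297856 * (T ^ 2 * D ^ 2) :=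
      Nat.le_of_mul_le_mul_left h13 (by positivity)
    have hTD : 0 < T ^ 2 * D ^ 2 := by (clear * -; positivity)
    have h15 : 1 ≤ Y' := by (clear * - hB hex hTD; omega)
    have h16 : Y' ≤ Y' ^ 2 := Nat.le_self_pow (by norm_num) _
    omega

theorem FinSt.false (h : FinSt pc p0 F κ V θ c C c3 sθ s2 T0 cf p1 p' r' t')
    (hB : 2 ^ 35 * ((2 * T0 + 1) ^ 2 * (13 + 2 * cf + c3) ^ 2) ≤ Ysc F p') : False := by
  have hbig := h.big
  obtain ⟨hf1, hf2, hf3, hf4, hf5⟩ := h.hfam
  have hp0 : p0 ≤ p' := h.hp1.trans hf1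
  have hclaim := fun {i'' i : ℕ} => h.claim hB (i'' := i'') (i := i)
  set Y' := Ysc F p' with hY'
  set i0 := 17 * (Y' + 1) with hi0
  set y : ℕ → ℕ := fun i => Ysc F (pc - (1 / 2 : ℝ) ^ i) with hy
  have hpi : ∀ i : ℕ, pc - (1 / 2 : ℝ) ^ i < pc := by
    intro i
    have : (0 : ℝ) < (1 / 2 : ℝ) ^ i := by positivity
    linarith only [this]
  have hmono : ∀ {i i' : ℕ}, i0 ≤ i → i ≤ i' → y i ≤ y i' := by
    intro i i' h1 h2
    apply Ysc_mono h.hb (hp0.trans (h.right h1)) _ (hpi i')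
    have : (1 / 2 : ℝ) ^ i' ≤ (1 / 2 : ℝ) ^ i :=
      pow_le_pow_of_le_one (by norm_num) (by norm_num) h2
    linarith only [this]
  set T := 2 * T0 + 1 with hT
  set D := 13 + 2 * cf + c3 with hD
  have hT1 : 1 ≤ T := by omega
  have hD1 : 1 ≤ D := by omega
  have hY1 : 1 ≤ Y' := by omega
  have hA : ∀ i, i0 ≤ i → i * Y' ≤ 136 * T * y i := fun i hi =>
    h.stepa (h.right hi) (hpi i) hi (by linarith only [])
  have hex : ∀ k, ∃ i, i0 ≤ i ∧ 64 ^ k * y i0 < y i := by
    intro k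
    refine ⟨i0 + 136 * T * (64 ^ k * y i0 + 1), by omega, ?_⟩
    have h1 := hA (i0 + 136 * T * (64 ^ k * y i0 + 1)) (by omega)
    by_contra hcon
    push Not at hcon
    have h2 : (i0 + 136 * T * (64 ^ k * y i0 + 1)) * 1 ≤ 136 * T * (64 ^ k * y i0) :=
      (Nat.mul_le_mul_left _ hY1).trans (h1.trans (Nat.mul_le_mul_left _ hcon))
    have h3 : 136 * T * (64 ^ k * y i0 + 1) = 136 * T * (64 ^ k * y i0) + 136 * T := by ring
    omega
  classical
  set m : ℕ → ℕ := fun k => Nat.find (hex k) with hm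
  have hm1 : ∀ k, i0 ≤ m k ∧ 64 ^ k * y i0 < y (m k) := fun k => Nat.find_spec (hex k)
  have hm2 : ∀ k i, i0 ≤ i → i < m k → y i ≤ 64 ^ k * y i0 := by
    intro k i hi hi'
    have := Nat.find_min (hex k) hi'
    by_contra hcon
    exact this ⟨hi, by omega⟩
  have hm3 : ∀ k, i0 < m k := by
    intro k
    rcases Nat.lt_or_ge i0 (m k) with h1 | h1
    · exact h1
    · have h2 : m k = i0 := le_antisymm h1 (hm1 k).1
      have h3 := (hm1 k).2
      rw [h2] at h3
      have h4 : 1 * y i0 ≤ 64 ^ k * y i0 :=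
        Nat.mul_le_mul_right _ (Nat.one_le_pow _ _ (by norm_num))
      omega
  have hm4 : ∀ k, m k ≤ m (k + 1) := by
    intro k
    apply Nat.find_min'
    refine ⟨(hm1 (k + 1)).1, lt_of_le_of_lt ?_ (hm1 (k + 1)).2⟩
    exact Nat.mul_le_mul_right _ (Nat.pow_le_pow_right (by norm_num) (by omega))
  have hgrow : ∀ k, 128 * m k ≤ m (k + 1) := by
    intro k
    have h1 := hm3 k
    have h2 := hm4 k
    have h3 := hclaim (i'' := m k - 1) (i := m (k + 1)) (by (clear * - hbig hex h1; omega)) (by omega) (by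
      have h4 := hm2 k (m k - 1) (by (clear * - hbig hex h1; omega)) (by (clear * - hbig hex h1; omega))
      have h5 := (hm1 (k + 1)).2
      have h6 : 64 ^ (k + 1) * y i0 = 64 * (64 ^ k * y i0) := by ring
      show 64 * y (m k - 1) < y (m (k + 1))
      omega)
    have h4 : m k ≤ 2 * (m k - 1) := by (clear * - hbig hex h1; omega)
    have hTD : T * D ≤ T ^ 2 * D ^ 2 := by
      have h9 : 1 ≤ T * D := Nat.mul_pos (by omega) (by omega)
      calc T * D = (T * D) * 1 := by ring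
        _ ≤ (T * D) * (T * D) := Nat.mul_le_mul_left _ h9
        _ = T ^ 2 * D ^ 2 := by ring
    have h5 : 128 * (2 * (1148928 * (T * D))) ≤ Y' := by (clear * - hbig hB hex hTD; omega)
    have hTD1 : 0 < 2 * (1148928 * (T * D)) := by (clear * -; positivity)
    have h6 : (2 * (1148928 * (T * D))) * (128 * m k) ≤
        (2 * (1148928 * (T * D))) * m (k + 1) := by
      calc (2 * (1148928 * (T * D))) * (128 * m k)
          = (128 * (2 * (1148928 * (T * D)))) * m k := by ring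
        _ ≤ Y' * m k := Nat.mul_le_mul_right _ h5
        _ ≤ Y' * (2 * (m k - 1)) := Nat.mul_le_mul_left _ h4
        _ = 2 * ((m k - 1) * Y') := by ring
        _ ≤ 2 * (1148928 * (T * D) * m (k + 1)) := Nat.mul_le_mul_left _ h3
        _ = (2 * (1148928 * (T * D))) * m (k + 1) := by ring
    exact Nat.le_of_mul_le_mul_left h6 hTD1
  have hm5 : ∀ k, 128 ^ k ≤ m k := by
    intro k
    induction k with
    | zero => have := hm3 0; simp; (clear * - hbig hex this; omega)
    | succ n ih =>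
      calc 128 ^ (n + 1) = 128 * 128 ^ n := by ring
        _ ≤ 128 * m n := Nat.mul_le_mul_left _ ih
        _ ≤ m (n + 1) := hgrow n
  have hfin : ∀ k, 2 ^ k ≤ 272 * T * y i0 := by
    intro k
    have h1 := hm3 k
    have h2 := hA (m k - 1) (by (clear * - hbig hex h1; omega))
    have h3 := hm2 k (m k - 1) (by (clear * - hbig hex h1; omega)) (by omega)
    have h4 : 64 ^ k * 2 ^ k ≤ 64 ^ k * (272 * T * y i0) := by
      calc 64 ^ k * 2 ^ k = 128 ^ k := by rw [← mul_pow]; norm_num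
        _ ≤ m k := hm5 k
        _ ≤ 2 * ((m k - 1) * 1) := by (clear * - hbig hex h1; omega)
        _ ≤ 2 * ((m k - 1) * Y') := by (clear * - hY1; gcongr)
        _ ≤ 2 * (136 * T * y (m k - 1)) := Nat.mul_le_mul_left _ h2
        _ ≤ 2 * (136 * T * (64 ^ k * y i0)) := by (clear * - h3; gcongr)
        _ = 64 ^ k * (272 * T * y i0) := by ring
    exact Nat.le_of_mul_le_mul_left h4 (by positivity)
  have h1 := hfin (272 * T * y i0)
  have h2 := Nat.lt_pow_self (n := 272 * T * y i0) (show 1 < 2 by norm_num)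
  omega

/-- The bootstrap: the analytic input is contradictory. -/
theorem boot_false (h : Boot pc p0 F κ V θ c C) : False := by
  have hC := h.hC
  have hc := h.hc
  have hθ := h.hθ
  obtain ⟨c3, hc3⟩ : ∃ n : ℕ, C + 1 < (2 : ℝ) ^ n := pow_unbounded_of_one_lt _ (by norm_num)
  have hhalf : ∀ ε > (0 : ℝ), ∃ n : ℕ, (1 / 2 : ℝ) ^ n < ε := fun ε hε =>
    exists_pow_lt_of_lt_one hε (by norm_num)
  obtain ⟨n1, hn1⟩ := hhalf (θ / 2 / C) (by positivity)
  obtain ⟨n2, hn2⟩ : ∃ n : ℕ, 1 / (θ / 2) ^ 2 < (2 : ℝ) ^ n :=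
    pow_unbounded_of_one_lt _ (by norm_num)
  obtain ⟨s2, hs2⟩ : ∃ n : ℕ, 1 / c < (16 : ℝ) ^ n := pow_unbounded_of_one_lt _ (by norm_num)
  obtain ⟨T0, hT0⟩ := hhalf (c * (θ / 2)) (by positivity)
  obtain ⟨cf, hcf⟩ := hhalf (c * c) (by positivity)
  obtain ⟨t1, ht1⟩ := hhalf c hc
  have hsθ : C * (1 / 2 : ℝ) ^ (n1 + n2) ≤ θ / 2 := by
    have h1 : (1 / 2 : ℝ) ^ (n1 + n2) ≤ (1 / 2 : ℝ) ^ n1 :=
      pow_le_pow_of_le_one (by norm_num) (by norm_num) (by omega)
    have h2 : (1 / 2 : ℝ) ^ (n1 + n2) ≤ θ / 2 / C := h1.trans hn1.le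
    rw [le_div_iff₀ hC] at h2
    linarith only [h2]
  have hsθ' : 1 ≤ (2 : ℝ) ^ (n1 + n2) * (θ / 2) ^ 2 := by
    have h1 : (2 : ℝ) ^ n2 ≤ (2 : ℝ) ^ (n1 + n2) := pow_le_pow_right₀ (by norm_num) (by omega)
    have h2 : 1 / (θ / 2) ^ 2 ≤ (2 : ℝ) ^ (n1 + n2) := hn2.le.trans h1
    rw [div_le_iff₀ (by positivity)] at h2
    exact h2
  have hs2' : 1 ≤ c * (16 : ℝ) ^ s2 := by
    rw [div_lt_iff₀ hc] at hs2
    linarith only [hs2]
  obtain ⟨M, hM⟩ : ∃ M : ℕ, M = 2 ^ 35 * ((2 * T0 + 1) ^ 2 * (13 + 2 * cf + c3) ^ 2) + c3 +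
    (n1 + n2) + s2 + (2 * T0 + 1) + t1 + 1 := ⟨_, rfl⟩
  set q := pc - (1 / 2 : ℝ) ^ (17 * M) with hq
  set p1 := max p0 q with hp1
  have hqc : q < pc := by
    have : (0 : ℝ) < (1 / 2 : ℝ) ^ (17 * M) := by positivity
    rw [hq]; linarith only [this]
  have hp1c : p1 < pc := max_lt h.hp0 hqc
  have hYbig : ∀ p, p1 ≤ p → p < pc → M < Ysc F p := by
    intro p h1 h2
    apply big_Y h hsθ hsθ' ((le_max_left _ _).trans h1) h2 (by omega)
    have : q ≤ p := (le_max_right _ _).trans h1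
    rw [hq] at this
    linarith only [this]
  have hY1 := hYbig p1 le_rfl hp1c
  have hfam : Fam F κ p1 pc p1 1 (t1 + 1) := by
    refine ⟨le_rfl, hp1c, by omega, by omega, ?_⟩
    have h1 : (1 / 2 : ℝ) ^ (t1 + 1) ≤ (1 / 2 : ℝ) ^ t1 :=
      pow_le_pow_of_le_one (by norm_num) (by norm_num) (by omega)
    exact h1.trans (ht1.le.trans (h.κ_one p1 (le_max_left _ _) hp1c))
  obtain ⟨p', r', t', hf, hr', hmax⟩ := exists_near_max h (le_max_left p0 q) hfam
  have hYp := hYbig p' hf.1 hf.2.1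
  have hFin : FinSt pc p0 F κ V θ c C c3 (n1 + n2) s2 T0 cf p1 p' r' t' :=
    { hb := h, hc3 := hc3, hsθ := hsθ, hsθ' := hsθ', hs2 := hs2', hT0 := hT0.le,
      hcf := hcf.le, hp1 := le_max_left _ _, hfam := hf, hr' := hr', hmax := hmax,
      big := by omega }
  exact hFin.false (by omega)

end Vale.Agent.P151
end
end

section

section

open Finset SimpleGraph

set_option linter.unusedSectionVars false

namespace Vale.Agent.P151

universe u
variable {V : Type u} [DecidableEq V]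

section Box
variable {G : SimpleGraph V} [G.LocallyFinite]

lemma big_local (hG : G.Connected) {n : ℕ} {x : V} {S : Finset (Sym2 V)}
    (hS : ∀ e ∈ S, e ∈ G.edgeSet) {B : Finset V} (hB : ballF G x n ⊆ B) :
    big n x S = big n x (S ∩ edgesIn G B) := by
  apply le_antisymm
  · unfold big
    by_cases h : n ≤ csz S x
    · have h1 := csz_local hS hG (F := B)
        (fun y hy => hB (mem_ballF_of_dist_le G hG x y n (by rw [SimpleGraph.dist_comm]; omega))) h
      rw [if_pos h, if_pos h1]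
    · rw [if_neg h]
      split_ifs <;> norm_num
  · exact big_mono n x Finset.inter_subset_left

lemma Ex_big_local (hG : G.Connected) (p : ℝ) {n : ℕ} {x : V} {B : Finset V}
    (hB : ballF G x n ⊆ B) : Ex p (edgesIn G B) (big n x) = phiB G n x p := by
  unfold phiB
  apply Ex_restrict p (edgesIn_mono G hB)
  intro S hS
  exact big_local hG (fun e he => (mem_edgesIn.1 (hS he)).1) (Finset.Subset.refl _)

/-- The infinite-volume tail is the finite-volume polynomial. -/
theorem phi_eq_phiB (hG : G.Connected) {p : ℝ} (h0 : 0 ≤ p) (h1 : p ≤ 1) (n : ℕ) (x : V) :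
    phi G p n x = phiB G n x p := by
  apply le_antisymm
  · apply EV_le
    intro B
    rw [← Ex_big_local hG p (Finset.subset_union_right (s₁ := B) (s₂ := ballF G x n))]
    exact Ex_edgesIn_mono h0 h1 (big_mono n x) Finset.subset_union_left
  · exact le_EV h0 h1 (big_le_one n x) _

lemma card_filter_edgesIn_le (B : Finset V) (v : V) :
    ((edgesIn G B).filter (fun e => v ∈ e)).card ≤ G.degree v := by
  classical
  have hsub : (edgesIn G B).filter (fun e => v ∈ e) ⊆
      (G.neighborFinset v).image (fun w => s(v, w)) := by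
    intro e he
    rw [Finset.mem_filter] at he
    obtain ⟨h1, h2⟩ := he
    obtain ⟨w, rfl⟩ := Sym2.mem_iff_exists.1 h2
    rw [Finset.mem_image]
    refine ⟨w, ?_, rfl⟩
    rw [SimpleGraph.mem_neighborFinset]
    exact (mk_mem_edgesIn.1 h1).1
  calc _ ≤ ((G.neighborFinset v).image (fun w => s(v, w))).card := Finset.card_le_card hsub
    _ ≤ (G.neighborFinset v).card := Finset.card_image_le
    _ = G.degree v := rfl

/-- Bounded degree of quasi-transitive graphs. -/
lemma exists_degree_bound {R : Finset V} (hR : ∀ x : V, ∃ g : G ≃g G, g x ∈ R) :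
    ∃ d : ℕ, 1 ≤ d ∧ ∀ v, G.degree v ≤ d := by
  refine ⟨(R.sup fun v => G.degree v) + 1, by omega, fun v => ?_⟩
  obtain ⟨g, hg⟩ := hR v
  have h1 : G.degree v = G.degree (g v) := by
    rw [g.degree_eq]
  have h2 := Finset.le_sup (f := fun v => G.degree v) hg
  omega

lemma phiB_nonneg {p : ℝ} (h0 : 0 ≤ p) (h1 : p ≤ 1) (n : ℕ) (x : V) : 0 ≤ phiB G n x p :=
  Ex_nonneg h0 h1 fun S _ => big_nonneg n x S

lemma phiB_le_one {p : ℝ} (h0 : 0 ≤ p) (h1 : p ≤ 1) (n : ℕ) (x : V) : phiB G n x p ≤ 1 :=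
  Ex_le_const h0 h1 fun S _ => big_le_one n x S

lemma phiB_mono {p q : ℝ} (h0 : 0 ≤ p) (hpq : p ≤ q) (h1 : q ≤ 1) (n : ℕ) (x : V) :
    phiB G n x p ≤ phiB G n x q := Ex_mono_p h0 hpq h1 _ (big_mono n x)

lemma big_anti {m n : ℕ} (h : m ≤ n) (x : V) (S : Finset (Sym2 V)) : big n x S ≤ big m x S := by
  unfold big
  by_cases h1 : n ≤ csz S x
  · rw [if_pos h1, if_pos (h.trans h1)]
  · rw [if_neg h1]
    split_ifs <;> norm_num

lemma phiB_anti (hG : G.Connected) {p : ℝ} (h0 : 0 ≤ p) (h1 : p ≤ 1) {m n : ℕ} (h : m ≤ n)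
    (x : V) : phiB G n x p ≤ phiB G m x p := by
  rw [← Ex_big_local hG p (ballF_mono G x h)]
  exact Ex_mono h0 h1 fun S _ => big_anti h x S

lemma phiB_one {p : ℝ} (x : V) : phiB G 1 x p = 1 := by
  unfold phiB
  rw [Ex_congr p (G := fun _ => (1 : ℝ))]
  · simp
  · intro S _
    unfold big
    rw [if_pos (csz_pos S x)]

lemma phiB_zero {p : ℝ} (x : V) : phiB G 0 x p = 1 := by
  unfold phiB
  rw [Ex_congr p (G := fun _ => (1 : ℝ))]
  · simp
  · intro S _
    unfold big
    rw [if_pos (Nat.zero_le _)]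

lemma gw_eq_sum_le {n : ℕ} (hn : 1 ≤ n) (v : V) (S : Finset (Sym2 V)) :
    gw n (csz S v) ≤ (1 / (n : ℝ)) * ∑ k ∈ Finset.Icc 1 n, big k v S := by
  have hn' : (0 : ℝ) < n := by exact_mod_cast hn
  have hsum : ∑ k ∈ Finset.Icc 1 n, big k v S = (min (csz S v) n : ℕ) := by
    unfold big
    rw [← Finset.sum_filter, Finset.sum_const, nsmul_eq_mul, mul_one]
    congr 1
    have : (Finset.Icc 1 n).filter (fun k => k ≤ csz S v) = Finset.Icc 1 (min (csz S v) n) := by
      ext k
      simp only [Finset.mem_filter, Finset.mem_Icc, le_min_iff]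
      (clear * -; tauto)
    rw [this, Nat.card_Icc]
    omega
  rw [hsum]
  rcases le_total (csz S v) n with h | h
  · rw [min_eq_left h]
    have := gw_le_div hn (csz S v)
    rw [one_div, inv_mul_eq_div]
    exact this
  · rw [min_eq_right h]
    have := gw_le_one hn (csz S v)
    rw [one_div, inv_mul_cancel₀ hn'.ne']
    exact this

end Box

section Tail
variable (G : SimpleGraph V) [G.LocallyFinite] (R : Finset V)

/-- Sum over orbit representatives of the tails. -/
noncomputable def FF (n : ℕ) (p : ℝ) : ℝ := ∑ o ∈ R, phiB G n o p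

/-- Its derivative. -/
noncomputable def FF' (n : ℕ) (p : ℝ) : ℝ :=
  ∑ o ∈ R, ∑ e ∈ edgesIn G (ballF G o n), Ex p ((edgesIn G (ballF G o n)).erase e)
    (fun S => big n o (insert e S) - big n o S)

variable {G R}

lemma FF_hasDerivAt (n : ℕ) (p : ℝ) : HasDerivAt (FF G R n) (FF' G R n p) p := by
  have : FF G R n = fun p => ∑ o ∈ R, phiB G n o p := rfl
  rw [this]
  apply HasDerivAt.fun_sum
  intro o _
  exact hasDerivAt_Ex p (edgesIn G (ballF G o n)) (big n o)

lemma FF_nonneg {p : ℝ} (h0 : 0 ≤ p) (h1 : p ≤ 1) (n : ℕ) : 0 ≤ FF G R n p :=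
  Finset.sum_nonneg fun o _ => phiB_nonneg h0 h1 n o

lemma FF_le_card {p : ℝ} (h0 : 0 ≤ p) (h1 : p ≤ 1) (n : ℕ) : FF G R n p ≤ R.card := by
  unfold FF
  calc ∑ o ∈ R, phiB G n o p ≤ ∑ o ∈ R, (1 : ℝ) :=
        Finset.sum_le_sum fun o _ => phiB_le_one h0 h1 n o
    _ = R.card := by simp

lemma FF_one (p : ℝ) : FF G R 1 p = R.card := by
  unfold FF; simp [phiB_one]

lemma FF_zero (p : ℝ) : FF G R 0 p = R.card := by
  unfold FF; simp [phiB_zero]

lemma FF_mono {p q : ℝ} (h0 : 0 ≤ p) (hpq : p ≤ q) (h1 : q ≤ 1) (n : ℕ) :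
    FF G R n p ≤ FF G R n q := Finset.sum_le_sum fun o _ => phiB_mono h0 hpq h1 n o

lemma FF_anti (hG : G.Connected) {p : ℝ} (h0 : 0 ≤ p) (h1 : p ≤ 1) {m n : ℕ} (h : m ≤ n) :
    FF G R n p ≤ FF G R m p := Finset.sum_le_sum fun o _ => phiB_anti hG h0 h1 h o

lemma phi_le_FF (hG : G.Connected) (hR : ∀ x : V, ∃ g : G ≃g G, g x ∈ R) {p : ℝ} (h0 : 0 ≤ p)
    (h1 : p ≤ 1) (n : ℕ) (x : V) : phi G p n x ≤ FF G R n p := by
  obtain ⟨g, hg⟩ := hR x
  rw [← phi_aut G g p n x, phi_eq_phiB hG h0 h1]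
  exact Finset.single_le_sum (f := fun o => phiB G n o p) (fun o _ => phiB_nonneg h0 h1 n o) hg

/-- The differential inequality for the sum of the tails. -/
theorem FF_diff_ineq (hG : G.Connected) (hR : ∀ x : V, ∃ g : G ≃g G, g x ∈ R) {p : ℝ}
    (h0 : 0 ≤ p) (h1 : p ≤ 1) {n : ℕ} (hn : 1 ≤ n) :
    FF G R n p * (1 / 2 - psum (fun k => FF G R k p) n / n) ≤
      (psum (fun k => FF G R k p) n / n) * FF' G R n p := by
  set σ := psum (fun k => FF G R k p) n / n with hσ
  have hσ0 : 0 ≤ σ := div_nonneg (psum_nonneg (fun k => FF_nonneg h0 h1 k) n) (by positivity)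
  have hgw : ∀ (Λ : Finset (Sym2 V)) (B : Finset V), Λ = edgesIn G B → ∀ v : V,
      Ex p Λ (fun S => gw n (csz S v)) ≤ σ := by
    rintro Λ B rfl v
    calc Ex p (edgesIn G B) (fun S => gw n (csz S v))
        ≤ Ex p (edgesIn G B) (fun S => (1 / (n : ℝ)) * ∑ k ∈ Finset.Icc 1 n, big k v S) :=
          Ex_mono h0 h1 fun S _ => gw_eq_sum_le hn v S
      _ = (1 / (n : ℝ)) * ∑ k ∈ Finset.Icc 1 n, Ex p (edgesIn G B) (big k v) := by
          rw [Ex_const_mul, Ex_sum]
      _ ≤ (1 / (n : ℝ)) * ∑ k ∈ Finset.Icc 1 n, FF G R k p := by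
          apply mul_le_mul_of_nonneg_left _ (by positivity)
          apply Finset.sum_le_sum
          intro k _
          exact (le_EV h0 h1 (big_le_one k v) B).trans (phi_le_FF hG hR h0 h1 k v)
      _ = σ := by rw [hσ]; unfold psum; ring
  have hone : ∀ o ∈ R, phiB G n o p * (1 / 2 - σ) ≤
      σ * ∑ e ∈ edgesIn G (ballF G o n), Ex p ((edgesIn G (ballF G o n)).erase e)
        (fun S => big n o (insert e S) - big n o S) := by
    intro o _
    have h3 := diff_ineq h0 h1 (Λ := edgesIn G (ballF G o n)) (F := ballF G o n)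
      (fun e he v hv => (mem_edgesIn.1 he).2 v hv) hn (mem_ballF_self G o n) (σ := σ)
      (fun v _ => hgw _ _ rfl v)
    refine h3.trans ?_
    have h4 : 0 ≤ ∑ e ∈ edgesIn G (ballF G o n), Ex p ((edgesIn G (ballF G o n)).erase e)
        (fun S => big n o (insert e S) - big n o S) := by
      apply Finset.sum_nonneg
      intro e _
      apply Ex_nonneg h0 h1
      intro S _
      have := big_mono n o (Finset.subset_insert e S)
      linarith only [this]
    apply mul_le_mul_of_nonneg_right _ h4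
    have h5 : p * (1 - p) ≤ 1 / 4 := by nlinarith only [sq_nonneg (p - 1 / 2)]
    have h6 : 0 ≤ p * (1 - p) := mul_nonneg h0 (by linarith only [h1])
    nlinarith only [hσ0, h5]
  unfold FF FF'
  rw [Finset.sum_mul, Finset.mul_sum]
  exact Finset.sum_le_sum hone

/-- `T2` for percolation. -/
theorem T2_perc (hG : G.Connected) (hR : ∀ x : V, ∃ g : G ≃g G, g x ∈ R) (hRne : R.Nonempty)
    {p q : ℝ} {N m : ℕ} (hp : 0 ≤ p) (hpq : p < q) (hq : q ≤ 1)
    (hN : 1 ≤ (N : ℝ) * (FF G R N p) ^ 2)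
    (hm : (m : ℝ) ^ 4 ≤ 1 / (64 * (R.card : ℝ) ^ 4) * N) :
    1 / (64 * (R.card : ℝ) ^ 4) * (q - p) ≤ FF G R m q := by
  have hcard : (1 : ℝ) ≤ R.card := by exact_mod_cast hRne.card_pos
  by_cases hq1 : q < 1
  · exact T2_abs (a := 0) (b := 1) (F := FF G R) (F' := FF' G R) hcard
      (fun n s h0 h1 => FF_nonneg h0 h1.le n) (fun n s h0 h1 => FF_le_card h0 h1.le n)
      (fun s _ _ => by rw [FF_one]; exact hcard)
      (fun n s t h0 hst h1 => FF_mono h0 hst h1.le n)
      (fun n s h0 h1 => FF_anti hG h0 h1.le (Nat.le_succ n))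
      (fun n s _ _ _ => FF_hasDerivAt n s)
      (fun n s hn h0 h1 => FF_diff_ineq hG hR h0 h1.le hn) hp hpq hq1 (by linarith only [hp, hq1]) hN hm
  · have hq1' : q = 1 := le_antisymm hq (not_lt.1 hq1)
    subst hq1'
    -- limit from the left
    have hcont : ContinuousWithinAt (fun s => FF G R m s) (Set.Ioo p 1) 1 :=
      (FF_hasDerivAt m 1).continuousAt.continuousWithinAt
    have hcl : (1 : ℝ) ∈ closure (Set.Ioo p 1) := by
      rw [closure_Ioo hpq.ne]
      exact ⟨hpq.le, le_rfl⟩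
    refine ContinuousWithinAt.closure_le hcl
      (f := fun s => 1 / (64 * (R.card : ℝ) ^ 4) * (s - p)) (by (clear * -; fun_prop)) hcont ?_
    intro s hs
    exact T2_abs (a := 0) (b := 1) (F := FF G R) (F' := FF' G R) hcard
      (fun n s h0 h1 => FF_nonneg h0 h1.le n) (fun n s h0 h1 => FF_le_card h0 h1.le n)
      (fun s _ _ => by rw [FF_one]; exact hcard)
      (fun n s t h0 hst h1 => FF_mono h0 hst h1.le n)
      (fun n s h0 h1 => FF_anti hG h0 h1.le (Nat.le_succ n))
      (fun n s _ _ _ => FF_hasDerivAt n s)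
      (fun n s hn h0 h1 => FF_diff_ineq hG hR h0 h1.le hn) hp hs.1 hs.2
      (by linarith only [hp, hs.2]) hN hm

/-- `T1` for percolation. -/
theorem T1_perc {d : ℕ} (hd1 : 1 ≤ d) (hd : ∀ v, G.degree v ≤ d) {a b p : ℝ} (ha : 0 < a)
    (hb : b < 1) (hap : a ≤ p) (hpb : p ≤ b) (n : ℕ) :
    FF G R n b - FF G R n p ≤ R.card * (d / (a * (1 - b))) * √n * (b - p) := by
  rcases Nat.eq_zero_or_pos n with h0 | hn
  · subst h0
    rw [FF_zero, FF_zero]
    simp
  · unfold FF
    rw [← Finset.sum_sub_distrib]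
    calc ∑ o ∈ R, (phiB G n o b - phiB G n o p)
        ≤ ∑ o ∈ R, (d / (a * (1 - b)) * √n * (b - p)) := by
          apply Finset.sum_le_sum
          intro o _
          exact large_sub_le ha hb hn hd1
            (fun v => (card_filter_edgesIn_le (ballF G o n) v).trans (hd v)) o hap hpb
      _ = R.card * (d / (a * (1 - b))) * √n * (b - p) := by
          rw [Finset.sum_const, nsmul_eq_mul]; ring

/-- Below `pc` the sums of tails tend to `0`. -/
theorem FF_tendsto (hG : G.Connected) {p : ℝ} (h0 : 0 ≤ p) (h1 : p ≤ 1) (hp : p < pc G) :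
    Filter.Tendsto (fun n => FF G R n p) Filter.atTop (nhds 0) := by
  unfold FF
  have : (0 : ℝ) = ∑ o ∈ R, (0 : ℝ) := by simp
  rw [this]
  apply tendsto_finsetSum
  intro o _
  exact tendsto_phiB_zero G hG h0 h1 hp o

end Tail

end Vale.Agent.P151
end

section

open MeasureTheory ProbabilityTheory SimpleGraph unitInterval

set_option linter.unusedSectionVars false

namespace Vale.Agent.P151

universe u
variable {V : Type u} [DecidableEq V]

/-- The assembly: the geometric inputs on the two-point function `kap` imply the theorem. -/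
theorem assembly {G : SimpleGraph V} [G.LocallyFinite] (hG : G.Connected) {R : Finset V}
    (hR : ∀ x : V, ∃ g : G ≃g G, g x ∈ R) (hpc1 : pc G < 1) (kap : ℝ → ℕ → ℝ)
    (hpow : ∀ p (r k : ℕ), 0 ≤ p → p ≤ 1 → (kap p r) ^ k ≤ kap p (k * r))
    (hone : ∀ p, 0 ≤ p → p ≤ 1 → p ≤ kap p 1)
    (o : V)
    (hVol : ∀ p (r N : ℕ), 0 ≤ p → p ≤ 1 → 1 ≤ N →
      ((ballF G o r).card : ℝ) * kap p r ≤ N + (ballF G o r).card * FF G R N p)
    (hT3 : ∀ a b : ℝ, 0 < a → a < b → b < 1 → ∃ c C : ℝ, 0 < c ∧ 0 < C ∧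
      ∀ p' p (n N r : ℕ), a ≤ p' → p' ≤ p → p < b → 1 ≤ n →
        kap p' r * ((c * FF G R n p) ^ 2 - kap p r) ≤ C * (N / √n) + FF G R (N + 1) p')
    {cg : ℝ} (hcg : 0 < cg) (hgrow : ∀ r : ℕ, Real.exp (cg * √r) ≤ (ballF G o r).card)
    (p : I) (hp : (p : ℝ) = pc G) :
    setBernoulli G.edgeSet p (hasInfiniteCluster V) = 0 := by
  have hpc0 : 0 ≤ pc G := pc_nonneg G
  rcases hpc0.eq_or_lt with hz | hpos
  · exact no_infinite_zero G hG p (by rw [hp, ← hz])
  apply no_infinite_of_phiB G hG p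
  intro x
  by_contra hcon
  push Not at hcon
  obtain ⟨θ, hθ, hθn⟩ := hcon
  have hRne : R.Nonempty := by
    obtain ⟨g, hg⟩ := hR x
    exact ⟨_, hg⟩
  have hp0 : 0 ≤ (p : ℝ) := p.2.1
  have hp1 : (p : ℝ) ≤ 1 := p.2.2
  have hFθ : ∀ n, θ ≤ FF G R n (pc G) := by
    intro n
    rw [← hp]
    refine (hθn n).trans ?_
    rw [← phi_eq_phiB hG hp0 hp1]
    exact phi_le_FF hG hR hp0 hp1 n x
  obtain ⟨d, hd1, hd⟩ := exists_degree_bound hR
  set a := pc G / 2 with ha
  have ha0 : 0 < a := by positivity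
  have hac : a < pc G := by rw [ha]; linarith only [hpos]
  obtain ⟨c3, C3, hc3, hC3, h3⟩ := hT3 a (pc G) ha0 hac hpc1
  have hcard : (1 : ℝ) ≤ R.card := by exact_mod_cast hRne.card_pos
  set c2 : ℝ := 1 / (64 * (R.card : ℝ) ^ 4) with hc2
  have hc2pos : 0 < c2 := by (clear * - hRne; positivity)
  set c : ℝ := min (min c2 c3) (min a cg) with hc
  have hcpos : 0 < c := by
    rw [hc]; exact lt_min (lt_min hc2pos hc3) (lt_min ha0 hcg)
  have hcc2 : c ≤ c2 := (min_le_left _ _).trans (min_le_left _ _)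
  have hcc3 : c ≤ c3 := (min_le_left _ _).trans (min_le_right _ _)
  have hca : c ≤ a := (min_le_right _ _).trans (min_le_left _ _)
  have hccg : c ≤ cg := (min_le_right _ _).trans (min_le_right _ _)
  set C1 : ℝ := R.card * (d / (a * (1 - pc G))) with hC1
  have hd' : (1 : ℝ) ≤ d := by exact_mod_cast hd1
  have h1pc : 0 < 1 - pc G := by linarith only [hpc1]
  have hC1pos : 0 < C1 := by (clear * - hRne hd1 hpos hpc1; positivity)
  set C : ℝ := max C1 C3 with hC
  have hCpos : 0 < C := lt_max_of_lt_left hC1pos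
  apply boot_false (pc := pc G) (p0 := a) (F := FF G R) (κ := kap)
    (V := fun r => ((ballF G o r).card : ℝ)) (θ := θ) (c := c) (C := C)
  have hle1 : ∀ {q : ℝ}, q < pc G → q ≤ 1 := fun h => (h.trans hpc1).le
  refine
    { hp0 := hac
      hθ := hθ
      hc := hcpos
      hC := hCpos
      F_nonneg := fun n q h1 h2 => FF_nonneg (ha0.le.trans h1) (hle1 h2) n
      F_mono := fun n q q' h1 h2 h3 => FF_mono (ha0.le.trans h1) h2 (hle1 h3) n
      F_lim := ?_
      κ_pow := fun q r k h1 h2 => hpow q r k (ha0.le.trans h1) (hle1 h2)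
      κ_one := fun q h1 h2 => (hca.trans h1).trans (hone q (ha0.le.trans h1) (hle1 h2))
      T1 := ?_
      T2 := ?_
      T3 := ?_
      Vol := fun q r N h1 h2 h3 => hVol q r N (ha0.le.trans h1) (hle1 h2) h3
      grow := ?_ }
  · intro q h1 h2 ε hε
    have h := FF_tendsto (R := R) hG (ha0.le.trans h1) (hle1 h2) h2
    have := (h.eventually (gt_mem_nhds hε)).exists
    exact this
  · intro n q h1 h2
    have h4 := T1_perc (R := R) hd1 hd ha0 hpc1 h1 h2.le n
    have h5 := hFθ n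
    have h6 : C1 * √(n : ℝ) * (pc G - q) ≤ C * √(n : ℝ) * (pc G - q) := by
      apply mul_le_mul_of_nonneg_right _ (by linarith only [h2])
      exact mul_le_mul_of_nonneg_right (le_max_left _ _) (Real.sqrt_nonneg _)
    linarith only [h4, h5, h6]
  · intro q q' N m h1 h2 h3' h4 h5
    have h6 := T2_perc (m := m) hG hR hRne (ha0.le.trans h1) h2 (hle1 h3') h4
      (h5.trans (mul_le_mul_of_nonneg_right hcc2 (by (clear * -; positivity))))
    refine le_trans ?_ h6
    exact mul_le_mul_of_nonneg_right hcc2 (by linarith only [h2])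
  · intro p' q n N r h1 h2 h3' h4
    have h5 := h3 p' q n N r h1 h2 h3' h4
    have hk : 0 ≤ kap p' r := by
      have h6 := hpow p' 1 r (ha0.le.trans h1) (hle1 (lt_of_le_of_lt h2 h3'))
      have h7 := hone p' (ha0.le.trans h1) (hle1 (lt_of_le_of_lt h2 h3'))
      rw [mul_one] at h6
      have h8 : 0 ≤ kap p' 1 := ha0.le.trans (h1.trans h7)
      exact (pow_nonneg h8 r).trans h6
    have hF := FF_nonneg (G := G) (R := R) (ha0.le.trans (h1.trans h2)) (hle1 h3') n
    have h6 : (c * FF G R n q) ^ 2 ≤ (c3 * FF G R n q) ^ 2 := by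
      apply pow_le_pow_left₀ (mul_nonneg hcpos.le hF)
      exact mul_le_mul_of_nonneg_right hcc3 hF
    have h7 : kap p' r * ((c * FF G R n q) ^ 2 - kap q r) ≤
        kap p' r * ((c3 * FF G R n q) ^ 2 - kap q r) :=
      mul_le_mul_of_nonneg_left (by linarith only [h6]) hk
    have h8 : C3 * ((N : ℝ) / √(n : ℝ)) ≤ C * ((N : ℝ) / √(n : ℝ)) :=
      mul_le_mul_of_nonneg_right (le_max_right _ _) (by (clear * - h4; positivity))
    linarith only [h5, h7, h8]
  · intro r
    refine le_trans ?_ (hgrow r)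
    apply Real.exp_le_exp.2
    exact mul_le_mul_of_nonneg_right hccg (Real.sqrt_nonneg _)

end Vale.Agent.P151
end

section

open Finset

set_option linter.unusedSectionVars false

namespace Vale.Agent.P151

universe u

section Folner
variable {V : Type u} [DecidableEq V] {G : SimpleGraph V} [G.LocallyFinite]

lemma card_ballF_aut (hG : G.Connected) (φ : G ≃g G) (x : V) (r : ℕ) :
    (ballF G (φ x) r).card = (ballF G x r).card := by
  have : ballF G (φ x) r = (ballF G x r).image φ := by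
    ext z
    rw [Finset.mem_image, mem_ballF_iff hG]
    constructor
    · intro h
      refine ⟨φ.symm z, ?_, by simp⟩
      rw [mem_ballF_iff hG, ← dist_aut hG φ]
      simpa using h
    · rintro ⟨w, hw, rfl⟩
      rw [mem_ballF_iff hG] at hw
      rw [dist_aut hG]
      exact hw
  rw [this, Finset.card_image_of_injective _ φ.injective]

lemma ball_bound (hG : G.Connected) {R : Finset V}
    (hR : ∀ x : V, ∃ y ∈ R, ∃ φ : G ≃g G, φ y = x) (r : ℕ) :
    ∃ b : ℕ, 1 ≤ b ∧ ∀ x, (ballF G x r).card ≤ b := by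
  refine ⟨∑ y ∈ R, (ballF G y r).card + 1, by omega, ?_⟩
  intro x
  obtain ⟨y, hy, φ, rfl⟩ := hR x
  rw [card_ballF_aut hG]
  have h1 : (ballF G y r).card ≤ ∑ y ∈ R, (ballF G y r).card :=
    Finset.single_le_sum (f := fun y => (ballF G y r).card) (fun _ _ => Nat.zero_le _) hy
  omega

lemma deg_bound (hG : G.Connected) {R : Finset V}
    (hR : ∀ x : V, ∃ y ∈ R, ∃ φ : G ≃g G, φ y = x) :
    ∃ d : ℕ, 1 ≤ d ∧ ∀ F : Finset V, ∀ v, ((edgesIn G F).filter (fun e => v ∈ e)).card ≤ d := by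
  obtain ⟨b, hb1, hb⟩ := ball_bound hG hR 1
  refine ⟨b, hb1, ?_⟩
  intro F v
  refine le_trans ?_ (hb v)
  have hsub : (edgesIn G F).filter (fun e => v ∈ e) ⊆ (ballF G v 1).image (fun u => s(v, u)) := by
    intro e he
    rw [Finset.mem_filter] at he
    obtain ⟨he, hv⟩ := he
    rw [Finset.mem_image]
    induction e with
    | _ a b =>
      have hadj : G.Adj a b := (mk_mem_edgesIn.1 he).1
      rw [Sym2.mem_iff] at hv
      rcases hv with rfl | rfl
      · refine ⟨b, ?_, rfl⟩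
        rw [mem_ballF_iff hG]
        exact (SimpleGraph.dist_eq_one_iff_adj.2 hadj.symm).le
      · refine ⟨a, ?_, Sym2.eq_swap⟩
        rw [mem_ballF_iff hG]
        exact (SimpleGraph.dist_eq_one_iff_adj.2 hadj).le
  exact (Finset.card_le_card hsub).trans Finset.card_image_le

lemma exists_boundary {W : Finset V} {w z : V} (q : G.Walk w z) (hw : w ∈ W) (hz : z ∉ W) :
    ∃ b ∈ outerBoundary G W, G.dist b z ≤ q.length := by
  induction q with
  | nil => exact absurd hw hz
  | @cons w u z hadj q ih =>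
    by_cases hu : u ∈ W
    · obtain ⟨b, hb, hbz⟩ := ih hu hz
      refine ⟨b, hb, ?_⟩
      rw [SimpleGraph.Walk.length_cons]
      omega
    · refine ⟨u, ⟨hu, w, hw, hadj⟩, ?_⟩
      rw [SimpleGraph.Walk.length_cons]
      have := SimpleGraph.dist_le q
      omega

lemma outerBoundary_finite (W : Finset V) : (outerBoundary G W).Finite := by
  apply Set.Finite.subset (Finset.finite_toSet (W.biUnion (fun w => G.neighborFinset w)))
  rintro y ⟨_, x, hx, hxy⟩
  rw [Finset.mem_coe, Finset.mem_biUnion]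
  exact ⟨x, hx, by rw [SimpleGraph.mem_neighborFinset]; exact hxy⟩

/-- Averaging sets inside an orbit. -/
lemma folner (hG : G.Connected) {R : Finset V}
    (hR : ∀ x : V, ∃ y ∈ R, ∃ φ : G ≃g G, φ y = x)
    (hAm : ∀ ε : ℝ, 0 < ε → ∃ W : Finset V, W.Nonempty ∧
      ((outerBoundary G W).ncard : ℝ) ≤ ε * W.card) :
    ∃ C : ℕ, ∀ (x0 : V) (r : ℕ), ∃ X F2 : Finset V, X.Nonempty ∧
      (∀ x ∈ X, ∃ φ : G ≃g G, φ x0 = x) ∧ (∀ x ∈ X, ∀ z, G.dist x z ≤ r → z ∈ F2) ∧
      F2.card ≤ C * X.card := by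
  classical
  obtain ⟨D, hD⟩ : ∃ D : ℕ, ∀ a ∈ R, ∀ b ∈ R, G.dist a b ≤ D := by
    refine ⟨∑ a ∈ R, ∑ b ∈ R, G.dist a b, ?_⟩
    intro a ha b hb
    calc G.dist a b ≤ ∑ b ∈ R, G.dist a b :=
          Finset.single_le_sum (f := fun b => G.dist a b) (fun _ _ => Nat.zero_le _) hb
      _ ≤ ∑ a ∈ R, ∑ b ∈ R, G.dist a b :=
          Finset.single_le_sum (f := fun a => ∑ b ∈ R, G.dist a b) (fun _ _ => Nat.zero_le _) ha
  obtain ⟨bD, hbD1, hbD⟩ := ball_bound hG hR D
  refine ⟨2 * bD, ?_⟩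
  intro x0 r
  obtain ⟨br, hbr1, hbr⟩ := ball_bound hG hR (r + D)
  have hbr0 : (0 : ℝ) < br := by
    have : (1 : ℝ) ≤ br := by exact_mod_cast hbr1
    linarith only [this]
  obtain ⟨W, hWne, hWb⟩ := hAm (1 / br) (by positivity)
  -- every vertex has a point of the orbit nearby
  have hnear : ∀ v : V, ∃ x, G.dist v x ≤ D ∧ ∃ φ : G ≃g G, φ x0 = x := by
    intro v
    obtain ⟨a, ha, φ, rfl⟩ := hR v
    obtain ⟨b, hb, ψ, hψ⟩ := hR x0
    refine ⟨φ b, ?_, ψ.symm.trans φ, ?_⟩
    · rw [dist_aut hG]; exact hD a ha b hb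
    · rw [← hψ]; simp
  set F2 := W.biUnion (fun w => ballF G w (r + D)) with hF2
  set X := (W.biUnion (fun w => ballF G w D)).filter (fun x => ∃ φ : G ≃g G, φ x0 = x) with hX
  have hF2card : F2.card ≤ 2 * W.card := by
    have hsub : F2 ⊆ W ∪ (outerBoundary_finite (G := G) W).toFinset.biUnion
        (fun b => ballF G b (r + D)) := by
      intro z hz
      rw [Finset.mem_union]
      by_cases hzW : z ∈ W
      · exact Or.inl hzW
      · right
        rw [hF2, Finset.mem_biUnion] at hz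
        obtain ⟨w, hw, hzw⟩ := hz
        rw [mem_ballF_iff hG, SimpleGraph.dist_comm] at hzw
        obtain ⟨q, hq⟩ := hG.exists_walk_length_eq_dist w z
        obtain ⟨b, hb, hbz⟩ := exists_boundary q hw hzW
        rw [Finset.mem_biUnion]
        refine ⟨b, (Set.Finite.mem_toFinset _).2 hb, ?_⟩
        rw [mem_ballF_iff hG, SimpleGraph.dist_comm]
        omega
    have h1 := Finset.card_le_card hsub
    have h2 := Finset.card_union_le W ((outerBoundary_finite (G := G) W).toFinset.biUnion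
        (fun b => ballF G b (r + D)))
    have h3 : ((outerBoundary_finite (G := G) W).toFinset.biUnion
        (fun b => ballF G b (r + D))).card ≤ (outerBoundary G W).ncard * br := by
      rw [Set.ncard_eq_toFinset_card _ (outerBoundary_finite (G := G) W)]
      exact Finset.card_biUnion_le_card_mul _ _ _ (fun b _ => hbr b)
    have h4 : (outerBoundary G W).ncard * br ≤ W.card := by
      have : ((outerBoundary G W).ncard : ℝ) * br ≤ W.card := by
        calc ((outerBoundary G W).ncard : ℝ) * br ≤ (1 / br * W.card) * br :=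
              mul_le_mul_of_nonneg_right hWb hbr0.le
          _ = W.card := by (clear * - hbr1 hWne; field_simp)
      exact_mod_cast this
    omega
  have hWX : W.card ≤ bD * X.card := by
    have hsub : W ⊆ X.biUnion (fun x => ballF G x D) := by
      intro w hw
      obtain ⟨x, hx1, hx2⟩ := hnear w
      rw [Finset.mem_biUnion]
      refine ⟨x, ?_, (mem_ballF_iff hG).2 hx1⟩
      rw [hX, Finset.mem_filter, Finset.mem_biUnion]
      refine ⟨⟨w, hw, ?_⟩, hx2⟩
      rw [mem_ballF_iff hG, SimpleGraph.dist_comm]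
      exact hx1
    have := (Finset.card_le_card hsub).trans
      (Finset.card_biUnion_le_card_mul _ _ _ (fun x _ => hbD x))
    rw [mul_comm]
    exact this
  have hXne : X.Nonempty := by
    rw [Finset.nonempty_iff_ne_empty]
    intro h
    rw [h, Finset.card_empty, mul_zero] at hWX
    have := Finset.card_pos.2 hWne
    omega
  refine ⟨X, F2, hXne, ?_, ?_, ?_⟩
  · intro x hx
    exact (Finset.mem_filter.1 hx).2
  · intro x hx z hxz
    rw [hX, Finset.mem_filter, Finset.mem_biUnion] at hx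
    obtain ⟨⟨w, hw, hxw⟩, _⟩ := hx
    rw [hF2, Finset.mem_biUnion]
    refine ⟨w, hw, ?_⟩
    rw [mem_ballF_iff hG] at hxw ⊢
    have := hG.dist_triangle (u := z) (v := x) (w := w)
    rw [SimpleGraph.dist_comm (u := z) (v := x)] at this
    omega
  · calc F2.card ≤ 2 * W.card := hF2card
      _ ≤ 2 * (bD * X.card) := Nat.mul_le_mul_left 2 hWX
      _ = 2 * bD * X.card := by ring

lemma E0_ge (n : ℕ) (x y : V) (W : Finset (Sym2 V)) :
    big n x W * big n y W - con x y W ≤ E0 n x y W := by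
  unfold big con E0
  by_cases h1 : n ≤ csz W x
  · by_cases h2 : n ≤ csz W y
    · by_cases h3 : Cn W x y
      · rw [if_pos h1, if_pos h2, if_pos h3, if_neg (fun h => h.1 h3)]; norm_num
      · rw [if_pos h1, if_pos h2, if_neg h3, if_pos ⟨h3, h1, h2⟩]; norm_num
    · rw [if_neg h2, mul_zero]
      split_ifs <;> norm_num
  · rw [if_neg h1, zero_mul]
    split_ifs <;> norm_num

/-- The uniqueness inequality in infinite volume. -/
theorem T3_inf (hG : G.Connected) {R : Finset V}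
    (hR : ∀ x : V, ∃ y ∈ R, ∃ φ : G ≃g G, φ y = x)
    (hAm : ∀ ε : ℝ, 0 < ε → ∃ W : Finset V, W.Nonempty ∧
      ((outerBoundary G W).ncard : ℝ) ≤ ε * W.card) :
    ∃ C : ℝ, 0 ≤ C ∧ ∀ (p' p : ℝ) (n N : ℕ) (x0 y0 : V), 0 ≤ p' → p' < 1 → p' ≤ p → 0 < p →
      p ≤ 1 → 1 ≤ n →
      tau G p' x0 y0 * (phi G p n x0 * phi G p n y0 - tau G p x0 y0) ≤
        C / p * (N / Real.sqrt n) + phi G p' (N + 1) x0 := by
  classical
  obtain ⟨C, hC⟩ := folner hG hR hAm
  obtain ⟨d, hd1, hd⟩ := deg_bound hG hR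
  refine ⟨8 * d * C, by (clear * - hd1; positivity), ?_⟩
  intro p' p n N x0 y0 h0 h1 hp'p hp0 hp1 hn
  have hn' : (0 : ℝ) < n := by exact_mod_cast hn
  have hsq : 0 < Real.sqrt n := Real.sqrt_pos.2 hn'
  have hRHS0 : 0 ≤ 8 * d * C / p * (N / Real.sqrt n) + phi G p' (N + 1) x0 := by
    have := phi_nonneg (G := G) h0 h1.le (N + 1) x0
    (clear * - hd1 hp0 hn this; positivity)
  set D := phi G p n x0 * phi G p n y0 - tau G p x0 y0 with hD
  by_cases hD0 : D ≤ 0
  · exact (mul_nonpos_of_nonneg_of_nonpos (tau_nonneg h0 h1.le x0 y0) hD0).trans hRHS0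
  push Not at hD0
  -- the sprinkling parameter
  have h1p' : 0 < 1 - p' := by linarith only [h1]
  set q := (p - p') / (1 - p') with hq
  have hq0 : 0 ≤ q := div_nonneg (by linarith only [hp'p]) h1p'.le
  have hq1 : q ≤ 1 := by rw [hq, div_le_one h1p']; linarith only [hp1]
  have hp : 1 - p = (1 - p') * (1 - q) := by
    rw [hq]; field_simp; ring
  have key : ∀ F0 : Finset V, Ex p' (edgesIn G F0) (con x0 y0) * D ≤
      8 * d * C / p * (N / Real.sqrt n) + phi G p' (N + 1) x0 := by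
    intro F0
    obtain ⟨X, F2, hXne, hXorb, hF2, hF2c⟩ := hC x0 (N + 1 + n)
    have hchoice : ∀ x : V, ∃ φ : G ≃g G, x ∈ X → φ x0 = x := by
      intro x
      by_cases hx : x ∈ X
      · obtain ⟨φ, hφ⟩ := hXorb x hx
        exact ⟨φ, fun _ => hφ⟩
      · exact ⟨SimpleGraph.Iso.refl, fun h => absurd h hx⟩
    choose gg hgg using hchoice
    set yy : V → V := fun x => gg x y0 with hyy
    set F := F2 ∪ X.biUnion (fun x => (F0.image (gg x)) ∪ (ballF G x n ∪ ballF G (yy x) n))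
      with hF
    have hF2F : F2 ⊆ F := Finset.subset_union_left
    have hsubF : ∀ x ∈ X, (F0.image (gg x)) ∪ (ballF G x n ∪ ballF G (yy x) n) ⊆ F := by
      intro x hx
      refine Finset.Subset.trans ?_ Finset.subset_union_right
      exact Finset.subset_biUnion_of_mem
        (fun x => (F0.image (gg x)) ∪ (ballF G x n ∪ ballF G (yy x) n)) hx
    have hyyF : ∀ x ∈ X, yy x ∈ F := by
      intro x hx
      apply hsubF x hx
      rw [Finset.mem_union, Finset.mem_union]
      exact Or.inr (Or.inr (mem_ballF_self G (yy x) n))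
    have main := T3_fin hG h0 h1.le hq0 hq1 hp0 hp1 hp hn hd1 hd hF2F hF2 yy hyyF
    -- lower bound of the left side
    have hlow : ∀ x ∈ X, Ex p' (edgesIn G F0) (con x0 y0) * D ≤
        Ex p' (edgesIn G F) (con x (yy x)) * Ex p (edgesIn G F) (E0 n x (yy x)) := by
      intro x hx
      have hgx : gg x x0 = x := hgg x hx
      have a1 : Ex p' (edgesIn G F0) (con x0 y0) ≤ Ex p' (edgesIn G F) (con x (yy x)) := by
        have e1 : Ex p' (edgesIn G F0) (con x0 y0) =
            Ex p' (edgesIn G (F0.image (gg x))) (con x (yy x)) := by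
          rw [edgesIn_image, Ex_image p' _ (Sym2_map_inj (gg x).injective)]
          apply Ex_congr
          intro S _
          unfold con
          have hiff : Cn (S.image (Sym2.map (gg x))) x (yy x) ↔ Cn S x0 y0 := by
            have := Cn_image (gg x).injective S x0 y0
            rw [hgx] at this
            exact this
          by_cases h : Cn S x0 y0
          · rw [if_pos h, if_pos (hiff.2 h)]
          · rw [if_neg h, if_neg (fun h' => h (hiff.1 h'))]
        rw [e1]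
        apply Ex_edgesIn_mono h0 h1.le (con_mono _ _)
        exact Finset.Subset.trans Finset.subset_union_left (hsubF x hx)
      have a2 : D ≤ Ex p (edgesIn G F) (E0 n x (yy x)) := by
        have b1 : Ex p (edgesIn G F) (big n x) = phi G p n x0 := by
          rw [← phi_aut G (gg x) p n x0, hgx]
          symm
          apply phi_local hp0.le hp1 hG
          intro z hz
          apply hsubF x hx
          rw [Finset.mem_union, Finset.mem_union]
          refine Or.inr (Or.inl ((mem_ballF_iff hG).2 ?_))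
          rw [SimpleGraph.dist_comm]
          exact hz.le
        have b2 : Ex p (edgesIn G F) (big n (yy x)) = phi G p n y0 := by
          rw [← phi_aut G (gg x) p n y0]
          symm
          apply phi_local hp0.le hp1 hG
          intro z hz
          apply hsubF x hx
          rw [Finset.mem_union, Finset.mem_union]
          refine Or.inr (Or.inr ((mem_ballF_iff hG).2 ?_))
          rw [SimpleGraph.dist_comm]
          exact hz.le
        have b3 : Ex p (edgesIn G F) (con x (yy x)) ≤ tau G p x0 y0 := by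
          rw [← tau_aut G (gg x) p x0 y0, hgx]
          exact le_EV hp0.le hp1 (con_le_one _ _) F
        have b4 := harris hp0.le hp1 (edgesIn G F) (big_mono n x) (big_mono n (yy x))
        have b5 : Ex p (edgesIn G F) (fun W => big n x W * big n (yy x) W - con x (yy x) W) ≤
            Ex p (edgesIn G F) (E0 n x (yy x)) :=
          Ex_mono hp0.le hp1 (fun W _ => E0_ge n x (yy x) W)
        rw [Ex_sub] at b5
        rw [b1, b2] at b4
        linarith only [b3, b4, b5]
      exact mul_le_mul a1 a2 hD0.le (Ex_nonneg h0 h1.le (fun S _ => con_nonneg _ _ S))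
    have hsum := Finset.sum_le_sum hlow
    rw [Finset.sum_const, nsmul_eq_mul] at hsum
    have hbig : ∑ x ∈ X, Ex p' (edgesIn G F) (big (N + 1) x) ≤ X.card * phi G p' (N + 1) x0 := by
      rw [← nsmul_eq_mul, ← Finset.sum_const]
      apply Finset.sum_le_sum
      intro x hx
      rw [← phi_aut G (gg x) p' (N + 1) x0, hgg x hx]
      exact le_EV h0 h1.le (big_le_one _ _) F
    have hXpos : (0 : ℝ) < X.card := by exact_mod_cast Finset.card_pos.2 hXne
    have hF2c' : (F2.card : ℝ) ≤ C * X.card := by exact_mod_cast hF2c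
    have hlast : 2 * N * (4 * d * F2.card / (p * Real.sqrt n)) ≤
        X.card * (8 * d * C / p * (N / Real.sqrt n)) := by
      have e : (X.card : ℝ) * (8 * d * C / p * (N / Real.sqrt n)) =
          2 * N * (4 * d * (C * X.card) / (p * Real.sqrt n)) := by
        field_simp
        ring
      rw [e]
      apply mul_le_mul_of_nonneg_left _ (by (clear * -; positivity))
      apply div_le_div_of_nonneg_right _ (by positivity)
      apply mul_le_mul_of_nonneg_left hF2c' (by positivity)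
    have hfin : (X.card : ℝ) * (Ex p' (edgesIn G F0) (con x0 y0) * D) ≤
        X.card * (8 * d * C / p * (N / Real.sqrt n) + phi G p' (N + 1) x0) := by
      rw [mul_add]
      linarith only [main, hsum, hbig, hlast]
    exact le_of_mul_le_mul_left hfin hXpos
  have : tau G p' x0 y0 = ⨆ F0 : Finset V, Ex p' (edgesIn G F0) (con x0 y0) := rfl
  rw [this, Real.iSup_mul_of_nonneg hD0.le]
  exact ciSup_le key

end Folner

end Vale.Agent.P151
end

section

open Finset

set_option linter.unusedSectionVars false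

namespace Vale.Agent.P151

universe u

section Inputs
variable {V : Type u} [DecidableEq V] {G : SimpleGraph V} [G.LocallyFinite]

/-- The uniqueness inequality in terms of `kap` and `SF`. -/
theorem T3_kap (hG : G.Connected) {R : Finset V}
    (hR : ∀ x : V, ∃ y ∈ R, ∃ φ : G ≃g G, φ y = x)
    (hAm : ∀ ε : ℝ, 0 < ε → ∃ W : Finset V, W.Nonempty ∧
      ((outerBoundary G W).ncard : ℝ) ≤ ε * W.card) {p0 : ℝ} (hp0 : 0 < p0) :
    ∃ c C : ℝ, 0 < c ∧ c ≤ 1 ∧ 0 < C ∧ ∀ (p' p : ℝ) (n N r : ℕ), p0 ≤ p' → p' ≤ p → p < 1 →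
      1 ≤ n → kap G p' r * ((c * SF G R n p) ^ 2 - kap G p r) ≤
        C * (N / Real.sqrt n) + SF G R (N + 1) p' := by
  obtain ⟨C, hC0, hC⟩ := T3_inf hG hR hAm
  obtain ⟨c, hc0, hc1, hc⟩ := SF_le_phi (G := G) hG hR hp0
  refine ⟨c, C / p0 + 1, hc0, hc1, by (clear * - hC0 hp0; positivity), ?_⟩
  intro p' p n N r hp' hp'p hp1 hn
  have h0' : 0 ≤ p' := hp0.le.trans hp'
  have h1' : p' < 1 := by linarith only [hp'p, hp1]
  have h0 : 0 < p := by linarith only [hp0, hp', hp'p]
  have hne := hG.nonempty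
  have hkap0 : 0 ≤ kap G p' r := kap_nonneg hne h0' h1'.le r
  have hkap1 : kap G p' r ≤ 1 := by
    obtain ⟨o⟩ := hne
    exact (kap_le h0' h1'.le (x := o) (y := o) (by simp)).trans (tau_le_one h0' h1'.le o o)
  have hn' : (0 : ℝ) < n := by exact_mod_cast hn
  have hsq : 0 < Real.sqrt n := Real.sqrt_pos.2 hn'
  have hNn : 0 ≤ (N : ℝ) / Real.sqrt n := by (clear * - hn; positivity)
  have hRHS0 : 0 ≤ (C / p0 + 1) * (N / Real.sqrt n) + SF G R (N + 1) p' := by
    have := SF_nonneg (G := G) (R := R) h0' h1'.le (N + 1)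
    (clear * - hC0 hp0 hn this; positivity)
  -- all pairs
  have key : ∀ x y, G.dist x y ≤ r → kap G p' r * ((c * SF G R n p) ^ 2 - tau G p x y) ≤
      (C / p0 + 1) * (N / Real.sqrt n) + SF G R (N + 1) p' := by
    intro x y hxy
    by_cases hD : (c * SF G R n p) ^ 2 - tau G p x y ≤ 0
    · exact (mul_nonpos_of_nonneg_of_nonpos hkap0 hD).trans hRHS0
    push Not at hD
    have h3 := hC p' p n N x y h0' h1' hp'p h0 hp1.le hn
    have hFx := hc p (hp'.trans hp'p) hp1.le n x
    have hFy := hc p (hp'.trans hp'p) hp1.le n y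
    have hcF : 0 ≤ c * SF G R n p :=
      mul_nonneg hc0.le (SF_nonneg (G := G) (R := R) h0.le hp1.le n)
    have h4 : (c * SF G R n p) ^ 2 ≤ phi G p n x * phi G p n y := by
      rw [sq]
      exact mul_le_mul hFx hFy hcF (phi_nonneg h0.le hp1.le n x)
    have h5 : C / p ≤ C / p0 + 1 := by
      have : C / p ≤ C / p0 := div_le_div_of_nonneg_left hC0 hp0 (by linarith only [hp', hp'p])
      linarith only [this]
    calc kap G p' r * ((c * SF G R n p) ^ 2 - tau G p x y)
        ≤ tau G p' x y * ((c * SF G R n p) ^ 2 - tau G p x y) :=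
          mul_le_mul_of_nonneg_right (kap_le h0' h1'.le hxy) hD.le
      _ ≤ tau G p' x y * (phi G p n x * phi G p n y - tau G p x y) :=
          mul_le_mul_of_nonneg_left (by linarith only [h4]) (tau_nonneg h0' h1'.le x y)
      _ ≤ C / p * (N / Real.sqrt n) + phi G p' (N + 1) x := h3
      _ ≤ (C / p0 + 1) * (N / Real.sqrt n) + SF G R (N + 1) p' :=
          add_le_add (mul_le_mul_of_nonneg_right h5 hNn) (phi_le_SF hR h0' h1'.le (N + 1) x)
  apply le_of_forall_pos_le_add
  intro ε hε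
  obtain ⟨o⟩ := hne
  have : Nonempty {q : V × V // G.dist q.1 q.2 ≤ r} := ⟨⟨(o, o), by simp⟩⟩
  obtain ⟨q, hq⟩ := exists_lt_of_ciInf_lt
    (f := fun q : {q : V × V // G.dist q.1 q.2 ≤ r} => tau G p q.1.1 q.1.2)
    (lt_add_of_pos_right (kap G p r) hε)
  have h6 := key q.1.1 q.1.2 q.2
  have h7 : kap G p' r * ((c * SF G R n p) ^ 2 - kap G p r) ≤
      kap G p' r * ((c * SF G R n p) ^ 2 - tau G p q.1.1 q.1.2) + kap G p' r * ε := by
    rw [← mul_add]
    apply mul_le_mul_of_nonneg_left _ hkap0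
    linarith only [hq]
  have h8 : kap G p' r * ε ≤ 1 * ε := mul_le_mul_of_nonneg_right hkap1 hε.le
  linarith only [h6, h7, h8]

/-- The volume inequality in terms of `kap` and `SF`. -/
theorem Vol_kap (hG : G.Connected) {R : Finset V}
    (hR : ∀ x : V, ∃ y ∈ R, ∃ φ : G ≃g G, φ y = x) (o : V) {p : ℝ} (h0 : 0 ≤ p) (h1 : p ≤ 1)
    (r N : ℕ) :
    ((ballF G o r).card : ℝ) * kap G p r ≤ N + ((ballF G o r).card : ℝ) * SF G R N p := by
  refine (volume_ineq (G := G) h0 h1 o (ballF G o r) r ?_ N).trans ?_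
  · intro y hy
    rw [mem_ballF_iff hG, SimpleGraph.dist_comm] at hy
    exact hy
  · apply add_le_add le_rfl
    exact mul_le_mul_of_nonneg_left (phi_le_SF hR h0 h1 N o) (by (clear * -; positivity))

end Inputs

end Vale.Agent.P151
end

section

open MeasureTheory ProbabilityTheory SimpleGraph unitInterval

set_option linter.unusedSectionVars false

namespace Vale.Agent.P151

universe u

section dec
variable {V : Type u} [DecidableEq V]

lemma SF_eq_FF {G : SimpleGraph V} [G.LocallyFinite] (hG : G.Connected) {R : Finset V} {p : ℝ}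
    (h0 : 0 ≤ p) (h1 : p ≤ 1) (n : ℕ) : SF G R n p = FF G R n p := by
  unfold SF FF
  exact Finset.sum_congr rfl fun x _ => phi_eq_phiB hG h0 h1 n x

theorem main_dec {G : SimpleGraph V} [G.LocallyFinite] (hG : G.Connected)
    (hQ : IsQuasiTransitive G) (hAm : IsAmenable G) (hpc1 : pc G < 1)
    (o : V) {cg : ℝ} (hcg : 0 < cg)
    (hgrow : ∀ r : ℕ, Real.exp (cg * √r) ≤ (ballF G o r).card)
    (p : I) (hp : (p : ℝ) = pc G) :
    setBernoulli G.edgeSet p (hasInfiniteCluster V) = 0 := by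
  obtain ⟨R, hR⟩ := hQ
  have hR' : ∀ x : V, ∃ g : G ≃g G, g x ∈ R := by
    intro x
    obtain ⟨y, hy, φ, rfl⟩ := hR x
    exact ⟨φ.symm, by simpa using hy⟩
  refine assembly hG hR' hpc1 (fun p r => kap G p r)
    (fun p r k h0 h1 => kap_pow hG h0 h1 r k) (fun p h0 h1 => kap_one hG h0 h1) o ?_ ?_
    hcg hgrow p hp
  · intro p r N h0 h1 _
    have h := Vol_kap (G := G) hG hR o h0 h1 r N
    rw [SF_eq_FF hG h0 h1] at h
    exact h
  · intro a b ha hab hb
    obtain ⟨c, C, hc, _, hC, h⟩ := T3_kap (G := G) hG hR hAm ha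
    refine ⟨c, C, hc, hC, ?_⟩
    intro p' p n N r h1 h2 h3 h4
    have h5 := h p' p n N r h1 h2 (h3.trans hb) h4
    have h6 : 0 ≤ p' := ha.le.trans h1
    have h7 : p ≤ 1 := (h3.trans hb).le
    rw [SF_eq_FF hG (h6.trans h2) h7, SF_eq_FF hG h6 (h2.trans h7)] at h5
    exact h5

end dec

theorem main {V : Type u} (G : SimpleGraph V) [G.LocallyFinite] (hG : G.Connected)
    (hQ : IsQuasiTransitive G) (hAm : IsAmenable G) (hpc1 : pc G < 1)
    (hgrow : ∃ (o : V) (c : ℝ), 0 < c ∧ ∀ n : ℕ, Real.exp (c * √n) ≤ ({y | G.dist o y ≤ n}.ncard : ℝ))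
    (p : I) (hp : (p : ℝ) = pc G) :
    setBernoulli G.edgeSet p (hasInfiniteCluster V) = 0 := by
  classical
  obtain ⟨o, c, hc, h⟩ := hgrow
  refine main_dec hG hQ hAm hpc1 o hc ?_ p hp
  intro n
  have h1 : {y | G.dist o y ≤ n} = (ballF G o n : Set V) := by
    ext y
    rw [Set.mem_setOf_eq, Finset.mem_coe, mem_ballF_iff hG, SimpleGraph.dist_comm]
  have h2 := h n
  rw [h1, Set.ncard_coe_finset] at h2
  exact h2

end Vale.Agent.P151
end
end
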